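import Crest.Agent.Lib.Saxl.LevelFinal

/-!
# The flat lower envelope of the partial sums of a diagram (row 195, helper62)

`envF Y N q k` is the partial sum of the rows of `(Y, flat rest)`, of total `N` in `q` rows, and then
rows of length one.  `envF_le`: every diagram with `q` rows of length at least two, at most `P` rows,
first row at least `Y` has partial sums at least this one, with `N = n + q - P`.
-/

set_option autoImplicit false

namespace Crest.Agent.Saxl

/-- The flat lower envelope. -/
def envF (Y N q k : ℕ) : ℕ :=
  if k ≤ q then Y + (k - 1) * ((N - Y) / (q - 1)) + min (k - 1) ((N - Y) % (q - 1))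
  else N + k - q

theorem envF_le (ν : YoungDiagram) {n P q Y k : ℕ} (hc : ν.card = n) (hq : ν.colLen 1 = q)
    (hP : ν.colLen 0 ≤ P) (hPn : P ≤ n + q) (hY : Y ≤ ν.rowLen 0) (hk : 1 ≤ k) (hkP : k ≤ P) :
    envF Y (n + q - P) q k ≤ rowsBelow ν k := by
  have hS := rowsBelow_colLen_one ν
  rw [hc, hq] at hS
  have hr1 := rowsBelow_one ν
  have hm1 : rowsBelow ν 1 ≤ rowsBelow ν k := rowsBelow_mono ν hk
  unfold envF
  split_ifs with hkq
  · set N := n + q - P with hN
    set f := (N - Y) / (q - 1) with hf
    set r := (N - Y) % (q - 1) with hr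
    rcases Nat.lt_or_ge q 2 with hq2 | hq2
    · have hk1 : k = 1 := by omega
      subst hk1
      simp only [Nat.sub_self, Nat.zero_mul, add_zero, Nat.zero_min]
      omega
    rcases Nat.lt_or_ge N Y with hNY | hNY
    · have h0 : N - Y = 0 := by omega
      have hf0 : f = 0 := by rw [hf, h0]; simp
      have hr0 : r = 0 := by rw [hr, h0]; simp
      rw [hf0, hr0]
      simp only [Nat.mul_zero, add_zero, Nat.min_zero]
      omega
    · have hdiv : (q - 1) * f + r = N - Y := Nat.div_add_mod _ _
      refine rowsBelow_ge_of_line ν (i := 1) (q := q) (v := f) hk ?_ ?_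
      · have h1 : (k - 1) * (f + 1) = (k - 1) * f + (k - 1) := by ring
        rw [h1]
        have := Nat.min_le_left (k - 1) r
        omega
      · have h1 : (q - 1) * f = (k - 1) * f + (q - k) * f := by
          rw [← Nat.add_mul]
          congr 1
          omega
        have := Nat.min_le_right (k - 1) r
        have h3 : ν.colLen 1 ≤ ν.colLen 0 := ν.colLen_anti 0 1 (by omega)
        rw [hq] at h3
        omega
  · have hj := card_le_rowsBelow_add ν (j := k) (by omega)
    rw [hc] at hj
    omega

end Crest.Agent.Saxl
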