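import Crest.Agent.Lib.Saxl.Envelope
import Crest.Agent.Lib.Saxl.LevelExtra
import Crest.Agent.Lib.Saxl.FamilyNums
import Crest.Agent.Lib.Saxl.FamWList

/-!
# The small levels of the chains by a kernel check (row 195, helper62)

`levelCheck`: for every `q`, two classes of diagrams (`q` rows of length at least two): first row
at least `c`, and first row at most `c - 1`.  For each class the flat envelope passes the four strips,
or the placed double, or the plain dominance test.
-/

set_option autoImplicit false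

open scoped BigOperators

namespace Crest.Agent.Saxl.Family

/-! ### The majorant -/

/-- The majorant at `k`: the lines `k b + e` and the tail `tot - (M - k)`. -/
def majK (tot M : ℕ) (EL : List (ℕ × ℕ)) (k : ℕ) : ℕ :=
  EL.foldr (fun x acc => min (k * x.1 + x.2) acc) (tot - (M - k))

theorem majK_le_tail (tot M : ℕ) (EL : List (ℕ × ℕ)) (k : ℕ) : majK tot M EL k ≤ tot - (M - k) := by
  induction EL with
  | nil => exact le_rfl
  | cons x EL ih => exact (min_le_right _ _).trans ih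

theorem le_majK {tot M : ℕ} {EL : List (ℕ × ℕ)} {k s : ℕ} (h : ∀ x ∈ EL, s ≤ k * x.1 + x.2)
    (h2 : s ≤ tot - (M - k)) : s ≤ majK tot M EL k := by
  induction EL with
  | nil => exact h2
  | cons x EL ih =>
    exact le_min (h x (by simp)) (ih fun y hy => h y (by simp [hy]))

/-- The table of the majorant. -/
def majT (tot M : ℕ) (EL : List (ℕ × ℕ)) : List ℕ :=
  (List.range M).map fun i => majK tot M EL (i + 1)

/-- The majorant as a function. -/
def majF (tot : ℕ) (BT : List ℕ) (k : ℕ) : ℕ := if k = 0 then 0 else BT.getD (k - 1) tot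

theorem length_majT (tot M : ℕ) (EL : List (ℕ × ℕ)) : (majT tot M EL).length = M := by
  simp [majT]

theorem majF_majT {tot M : ℕ} {EL : List (ℕ × ℕ)} {k : ℕ} (h1 : 1 ≤ k) (h2 : k ≤ M) :
    majF tot (majT tot M EL) k = majK tot M EL k := by
  have hk : k - 1 < M := by omega
  have e : k - 1 + 1 = k := by omega
  simp only [majF, if_neg (show k ≠ 0 by omega), majT, List.getD_eq_getElem?_getD,
    List.getElem?_map, List.getElem?_range hk, Option.map_some, Option.getD_some, e]

theorem majF_majT_of_gt {tot M : ℕ} {EL : List (ℕ × ℕ)} {k : ℕ} (h2 : M < k) :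
    majF tot (majT tot M EL) k = tot := by
  have hk : M ≤ k - 1 := by omega
  simp only [majF, if_neg (show k ≠ 0 by omega), majT, List.getD_eq_getElem?_getD]
  rw [List.getElem?_eq_none (by simpa using hk)]
  rfl

/-- The tail condition of the majorant. -/
theorem majF_tail {tot M : ℕ} (hM : M ≤ tot) (EL : List (ℕ × ℕ)) (k : ℕ) :
    majF tot (majT tot M EL) k + (M - k) ≤ tot := by
  rcases Nat.eq_zero_or_pos k with rfl | hk
  · simp [majF, hM]
  · rcases Nat.lt_or_ge M k with h | h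
    · rw [majF_majT_of_gt h]
      omega
    · rw [majF_majT hk h]
      have := majK_le_tail tot M EL k
      omega

/-! ### The loop of the dominance test -/

/-- `b_k + a ≤ env (k + s)` for the entries `b_k` of the table, `k + s ≤ q`. -/
def gaDomT (Y N q a s : ℕ) : List ℕ → ℕ → Bool
  | [], _ => true
  | b :: BT, k =>
    (!Nat.ble (k + s) q) || (Nat.ble (b + a) (envF Y N q (k + s)) && gaDomT Y N q a s BT (k + 1))

theorem gaDomT_spec {Y N q a s : ℕ} {BT : List ℕ} {k₀ : ℕ} (h : gaDomT Y N q a s BT k₀ = true)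
    (i : ℕ) (hi : i < BT.length) (hq : k₀ + i + s ≤ q) :
    BT[i] + a ≤ envF Y N q (k₀ + i + s) := by
  induction BT generalizing k₀ i with
  | nil => simp at hi
  | cons b BT ih =>
    simp only [gaDomT, Bool.or_eq_true, Bool.not_eq_true', Bool.and_eq_true] at h
    have hle : Nat.ble (k₀ + s) q = true := Nat.ble_eq.mpr (by omega)
    rcases h with h | ⟨h1, h2⟩
    · rw [hle] at h
      exact absurd h (by simp)
    · cases i with
      | zero => simpa using Nat.ble_eq.mp h1
      | succ i =>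
        have := ih h2 i (by simpa using hi) (by omega)
        have e : k₀ + 1 + i + s = k₀ + (i + 1) + s := by omega
        rw [e] at this
        simpa using this

/-- The table reads the majorant. -/
theorem dom_majF {Y N q a s tot M : ℕ} {EL : List (ℕ × ℕ)}
    (h : gaDomT Y N q a s (majT tot M EL) 1 = true) {k : ℕ} (hk : 1 ≤ k) (hkM : k ≤ M)
    (hq : k + s ≤ q) : majF tot (majT tot M EL) k + a ≤ envF Y N q (k + s) := by
  have hi : k - 1 < (majT tot M EL).length := by rw [length_majT]; omega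
  have h1 := gaDomT_spec h (k - 1) hi (by omega)
  have e : 1 + (k - 1) + s = k + s := by omega
  rw [e] at h1
  have h2 : (majT tot M EL)[k - 1] = majF tot (majT tot M EL) k := by
    simp only [majF, if_neg (show k ≠ 0 by omega), List.getD_eq_getElem?_getD,
      List.getElem?_eq_getElem hi, Option.getD_some]
  rwa [h2] at h1

/-! ### A cell -/

/-- The four strips on the envelope. -/
def gaLongT (c Y N q P : ℕ) : Bool :=
  Nat.ble 4 P && Nat.ble c (envF Y N q 1) && Nat.ble (c + (c - 1)) (envF Y N q 2) &&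
    Nat.ble (c + (c - 1) + (c - 2)) (envF Y N q 3) &&
    Nat.ble (c + (c - 1) + (c - 2) + (c - 3)) (envF Y N q 4)

/-- The placed double on the envelope. -/
def gaPlacedT (H M : ℕ) (BT : List ℕ) (Y N q P : ℕ) : Bool :=
  Nat.ble P (M + 1) && Nat.ble q M && Nat.ble (H + 1) Y && Nat.ble 2 P &&
    Nat.ble (2 * H + 1) (envF Y N q 2) && gaDomT Y N q 1 0 BT 1 && gaDomT Y N q (2 * H + 1) 2 BT 1

/-- The plain dominance on the envelope. -/
def gaNoneT (M : ℕ) (BT : List ℕ) (Y N q P : ℕ) : Bool :=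
  Nat.ble P M && Nat.ble q M && gaDomT Y N q 0 0 BT 1

section Sound

variable {c n q P Y : ℕ} {ν : YoungDiagram}

theorem gaLongT_sound {c₁ b₁ : ℕ} (h : gaLongT c Y (n + q - P) q P = true) (hc : ν.card = n)
    (hq : ν.colLen 1 = q) (hP : ν.colLen 0 ≤ P) (hPn : P ≤ n + q) (hY : Y ≤ ν.rowLen 0)
    (hc₁ : c₁ = c - 2) (hb₁ : b₁ = c - 3) :
    LongOK c (c - 1) c₁ b₁ ν := by
  subst hc₁ hb₁
  simp only [gaLongT, Bool.and_eq_true, Nat.ble_eq] at h
  obtain ⟨⟨⟨⟨h4, h1⟩, h2⟩, h3⟩, h5⟩ := h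
  have e := fun k (h1 : 1 ≤ k) (h2 : k ≤ 4) => envF_le ν (k := k) hc hq hP hPn hY h1 (by omega)
  exact ⟨h1.trans (e 1 (by omega) (by omega)), h2.trans (e 2 (by omega) (by omega)),
    h3.trans (e 3 (by omega) (by omega)), h5.trans (e 4 (by omega) (by omega))⟩

theorem gaPlacedT_sound {l : List BK} {ps : Fin l.length → List ℕ} {H M tot : ℕ}
    {EL : List (ℕ × ℕ)} (i₀ : Fin l.length) (hH : l[i₀.1] = BK.dbl H) (hH1 : 1 ≤ H)
    (hB : ∀ T : Finset (Σ i, Fin (ps i).length), (∀ p ∈ T, p.1 ≠ i₀) →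
      ∑ p ∈ T, (ps p.1)[p.2.1] ≤ majF tot (majT tot M EL) T.card)
    (htot : tot + 2 * H = n) (hMtot : M ≤ tot)
    (h : gaPlacedT H M (majT tot M EL) Y (n + q - P) q P = true) (hc : ν.card = n)
    (hq : ν.colLen 1 = q) (hP : ν.colLen 0 ≤ P) (hPn : P ≤ n + q) (hY : Y ≤ ν.rowLen 0) :
    ChainOK l ps ν := by
  simp only [gaPlacedT, Bool.and_eq_true, Nat.ble_eq] at h
  obtain ⟨⟨⟨⟨⟨⟨h1, h2⟩, h3⟩, h4⟩, h5⟩, h6⟩, h7⟩ := h
  have htb : ν.colLen 1 ≤ ν.colLen 0 := ν.colLen_anti 0 1 (by omega)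
  have e := fun k (h1 : 1 ≤ k) (h2 : k ≤ P) => envF_le ν (k := k) hc hq hP hPn hY h1 h2
  refine chainOK_of_lines i₀ hH hH1 (majF tot (majT tot M EL)) hB (M := M) ?_ (by omega) (by omega)
    ?_ ?_ ?_ ?_
  · intro k
    have := majF_tail hMtot EL k
    rw [hc]
    omega
  · have hr := ν.rowLen_anti 0 0 (le_refl _)
    omega
  · exact h5.trans (e 2 (by omega) (by omega))
  · intro k hk hkq
    have h8 := dom_majF h6 hk (by omega) (by omega)
    have h9 := e k hk (by omega)
    rw [add_zero] at h8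
    omega
  · intro k hk hkq
    have h8 := dom_majF h7 hk (by omega) (by omega)
    have h9 := e (k + 2) (by omega) (by omega)
    omega

theorem gaNoneT_sound {l : List BK} {ps : Fin l.length → List ℕ} {M tot : ℕ}
    {EL : List (ℕ × ℕ)}
    (hB : ∀ T : Finset (Σ i, Fin (ps i).length),
      ∑ p ∈ T, (ps p.1)[p.2.1] ≤ majF tot (majT tot M EL) T.card)
    (htot : tot = n) (hMtot : M ≤ tot)
    (h : gaNoneT M (majT tot M EL) Y (n + q - P) q P = true) (hc : ν.card = n)
    (hq : ν.colLen 1 = q) (hP : ν.colLen 0 ≤ P) (hPn : P ≤ n + q) (hY : Y ≤ ν.rowLen 0) :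
    ChainOK l ps ν := by
  simp only [gaNoneT, Bool.and_eq_true, Nat.ble_eq] at h
  obtain ⟨⟨h1, h2⟩, h6⟩ := h
  have htb : ν.colLen 1 ≤ ν.colLen 0 := ν.colLen_anti 0 1 (by omega)
  refine chainOK_of_lines_none (majF tot (majT tot M EL)) hB (M := M) ?_ (by omega) ?_
  · intro k
    have := majF_tail hMtot EL k
    rw [hc]
    omega
  · intro k hk hkq
    have h8 := dom_majF h6 hk (by omega) (by omega)
    have h9 := envF_le ν (k := k) hc hq hP hPn hY hk (by omega)
    rw [add_zero, add_zero] at h8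
    omega

end Sound

/-! ### The data of a level -/

/-- The lines of the parts off the block `K₀` (`K₀ = dbl H`). -/
def linesP (L : List BK) (K₀ : BK) (β : ℕ) : List (ℕ × ℕ) :=
  (List.range (β + 1)).map fun b => (b, exL b L - exK b K₀)

/-- The lines of all the parts. -/
def linesN (L : List BK) (β : ℕ) : List (ℕ × ℕ) :=
  (List.range (β + 1)).map fun b => (b, exL b L)

/-- A cell: the four strips, or the placed double, or the dominance. The table `BT₁` is for the placed
double, `BT₀` for no placed double. -/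
def cellT (c n H M₁ M₀ : ℕ) (BT₁ BT₀ : List ℕ) (Y P q : ℕ) : Bool :=
  gaLongT c Y (n + q - P) q P || (Nat.ble 1 H && gaPlacedT H M₁ BT₁ Y (n + q - P) q P) ||
    gaNoneT M₀ BT₀ Y (n + q - P) q P

/-- The check of a level: two classes of diagrams for every `q` from `1` to `c - 1`. -/
def gridT (c n H M₁ M₀ Yb : ℕ) (BT₁ BT₀ : List ℕ) : ℕ → Bool
  | 0 => true
  | q + 1 => cellT c n H M₁ M₀ BT₁ BT₀ c (2 * c - 2 - (q + 1)) (q + 1) &&
      cellT c n H M₁ M₀ BT₁ BT₀ (max Yb (q + 1)) (c - 1) (q + 1) &&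
      gridT c n H M₁ M₀ Yb BT₁ BT₀ q

theorem gridT_spec {c n H M₁ M₀ Yb : ℕ} {BT₁ BT₀ : List ℕ} {Q : ℕ}
    (h : gridT c n H M₁ M₀ Yb BT₁ BT₀ Q = true) {q : ℕ} (h1 : 1 ≤ q) (h2 : q ≤ Q) :
    cellT c n H M₁ M₀ BT₁ BT₀ c (2 * c - 2 - q) q = true ∧
      cellT c n H M₁ M₀ BT₁ BT₀ (max Yb q) (c - 1) q = true := by
  induction Q with
  | zero => omega
  | succ Q ih =>
    simp only [gridT, Bool.and_eq_true] at h
    rcases Nat.lt_or_ge q (Q + 1) with h3 | h3
    · exact ih h.2 (by omega)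
    · have : q = Q + 1 := by omega
      subst this
      exact ⟨h.1.1, h.1.2⟩

section CellSound

variable {L : List BK}

theorem majB_off (hnd : ∀ K ∈ L, Nondeg K) (i₀ : Fin L.length) {H β : ℕ} (hH : L[i₀.1] = BK.dbl H)
    (T : Finset (Σ i, Fin (psL L i).length)) (hT : ∀ p ∈ T, p.1 ≠ i₀) :
    ∑ p ∈ T, (psL L p.1)[p.2.1] ≤
      majF (szL L - 2 * H) (majT (szL L - 2 * H) (lenL L - 1) (linesP L (BK.dbl H) β)) T.card := by
  classical
  rcases Nat.eq_zero_or_pos T.card with h0 | h1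
  · rw [Finset.card_eq_zero.mp h0]
    simp [majF]
  have hlenK : lenK (BK.dbl H) = 1 := rfl
  have hT1 : T.card ≤ lenL L - 1 := by
    have h2 : T ⊆ Finset.univ.filter (fun p : (Σ i, Fin (psL L i).length) => p.1 ≠ i₀) := by
      intro p hp
      exact Finset.mem_filter.mpr ⟨Finset.mem_univ _, hT p hp⟩
    have h3 := Finset.card_le_card h2
    rw [card_off, hH, hlenK] at h3
    exact h3
  rw [majF_majT h1 hT1]
  have h4 := sum_T_add_le_off hnd i₀ (t := lenL L - 1) (by
    rw [hH, hlenK]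
    have := (Finset.card_pos.mpr ⟨i₀, Finset.mem_univ _⟩ : 0 < (Finset.univ : Finset (Fin L.length)).card)
    have h5 : lenK L[i₀.1] ≤ lenL L := by
      have h6 := card_off (l := L) i₀
      have h7 := Fin.sum_univ_fun_getElem L lenK
      have h8 : lenK L[i₀.1] ≤ ∑ i : Fin L.length, lenK L[i.1] :=
        Finset.single_le_sum (f := fun i : Fin L.length => lenK L[i.1]) (fun _ _ => Nat.zero_le _)
          (Finset.mem_univ i₀)
      rw [h7] at h8
      exact h8
    rw [hH, hlenK] at h5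
    omega) T hT
  rw [hH] at h4
  have hsize : (BK.dbl H).size = 2 * H := rfl
  rw [hsize] at h4
  refine le_majK ?_ (by omega)
  intro x hx
  simp only [linesP, List.mem_map, List.mem_range] at hx
  obtain ⟨b, -, rfl⟩ := hx
  have h5 := sum_T_le_line_off b i₀ T hT
  rw [hH] at h5
  exact h5

theorem majB_all (hnd : ∀ K ∈ L, Nondeg K) {β : ℕ} (T : Finset (Σ i, Fin (psL L i).length)) :
    ∑ p ∈ T, (psL L p.1)[p.2.1] ≤
      majF (szL L) (majT (szL L) (lenL L) (linesN L β)) T.card := by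
  classical
  rcases Nat.eq_zero_or_pos T.card with h0 | h1
  · rw [Finset.card_eq_zero.mp h0]
    simp [majF]
  have hT1 : T.card ≤ lenL L := by
    have h3 := Finset.card_le_univ T
    rwa [card_all] at h3
  rw [majF_majT h1 hT1]
  have h4 := sum_T_add_le_all hnd (t := lenL L) le_rfl T
  refine le_majK ?_ (by omega)
  intro x hx
  simp only [linesN, List.mem_map, List.mem_range] at hx
  obtain ⟨b, -, rfl⟩ := hx
  exact sum_T_le_line_all b T

theorem cellT_sound (hnd : ∀ K ∈ L, Nondeg K) {i : ℕ} (hi : i < L.length) {H β c Y P q : ℕ}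
    (hH : L[i] = BK.dbl H ∨ H = 0) (hH1 : lenL L - 1 + 2 * H ≤ szL L) (hH0 : lenL L ≤ szL L)
    (h : cellT c (szL L) H (lenL L - 1) (lenL L)
      (majT (szL L - 2 * H) (lenL L - 1) (linesP L (BK.dbl H) β))
      (majT (szL L) (lenL L) (linesN L β)) Y P q = true)
    {ν : YoungDiagram} (hc : ν.card = szL L) (hq : ν.colLen 1 = q) (hP : ν.colLen 0 ≤ P)
    (hPn : P ≤ szL L + q) (hY : Y ≤ ν.rowLen 0) :
    LongOK c (c - 1) (c - 2) (c - 3) ν ∨ ChainOK L (psL L) ν := by
  simp only [cellT, Bool.or_eq_true, Bool.and_eq_true, Nat.ble_eq] at h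
  rcases h with (h | ⟨h1, h⟩) | h
  · exact Or.inl (gaLongT_sound h hc hq hP hPn hY rfl rfl)
  · right
    rcases hH with hH | hH
    · refine gaPlacedT_sound ⟨i, hi⟩ hH h1 (fun T hT => majB_off hnd ⟨i, hi⟩ hH T hT) ?_ (by omega) h
        hc hq hP hPn hY
      omega
    · omega
  · right
    exact gaNoneT_sound (fun T => majB_all hnd T) rfl hH0 h hc hq hP hPn hY

end CellSound

/-- **A step of the family from the check of its grid.** -/
theorem stepOK_of_grid {l : List BK} (hl : Good l) (d : Bool) {i : ℕ} (hi : i < (stepL d l).length)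
    {H β Yb : ℕ} (hH : (stepL d l)[i] = BK.dbl H ∨ H = 0)
    (hn : 2 * cOf d l - 2 < szL (stepL d l))
    (hYb : (Yb - 1) * (Yb - 1) < szL (stepL d l))
    (hM₁ : lenL (stepL d l) - 1 + 2 * H ≤ szL (stepL d l))
    (hM₀ : lenL (stepL d l) ≤ szL (stepL d l))
    (hg : gridT (cOf d l) (szL (stepL d l)) H (lenL (stepL d l) - 1) (lenL (stepL d l)) Yb
      (majT (szL (stepL d l) - 2 * H) (lenL (stepL d l) - 1) (linesP (stepL d l) (BK.dbl H) β))
      (majT (szL (stepL d l)) (lenL (stepL d l)) (linesN (stepL d l) β))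
      (cOf d l - 1) = true) : StepOK d l := by
  intro m hU hm
  have hnd := (hl.stepL d).nd
  have hc := card_stepL hl d
  rw [hm] at hc
  have hsz : szL (stepL d l) = cOf d l + (cOf d l - 1) + (cOf d l - 2) + (cOf d l - 3) + m := by
    rw [szL_eq_card, hc]
  rw [hc]
  have hcc := cOf_ge d l
  refine universal_stepL_of_oriented hl d hU hm (psL _) (psL_sum _) (psL_ok hnd)
    (Q := ChainOK (stepL d l) (psL (stepL d l))) (fun _ h => h) ?_
  intro ν hν hq hor
  rw [← hsz] at hν
  have hS := rowsBelow_colLen_one ν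
  have htb : ν.colLen 1 ≤ ν.colLen 0 := ν.colLen_anti 0 1 (by omega)
  have hq1 : 1 ≤ ν.colLen 1 := by
    by_contra h0
    have h1 : ν.colLen 1 = 0 := by omega
    rw [h1] at hS hq
    have h2 : rowsBelow ν 0 = 0 := by simp [rowsBelow]
    rw [h2, hν] at hS
    omega
  obtain ⟨hA, hB⟩ := gridT_spec hg hq1 (by omega)
  by_cases hy : cOf d l ≤ ν.rowLen 0
  · exact cellT_sound hnd hi hH hM₁ hM₀ hA hν rfl (by omega) (by omega) hy
  · have hpy : ν.colLen 0 ≤ ν.rowLen 0 := by
      rcases hor with h | h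
      · exact absurd h hy
      · exact h
    have hYby : Yb ≤ ν.rowLen 0 := by
      by_contra hcon
      have h1 : ν.rowLen 0 ≤ Yb - 1 := by omega
      have h2 := card_le_mul ν
      have h3 : ν.colLen 0 * ν.rowLen 0 ≤ (Yb - 1) * (Yb - 1) :=
        Nat.mul_le_mul (hpy.trans h1) h1
      omega
    exact cellT_sound hnd hi hH hM₁ hM₀ hB hν rfl (by omega) (by omega)
      (max_le hYby (htb.trans hpy))

/-! ### The check of an entry -/

/-- The index and the size of the biggest double. -/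
def bigD : List BK → ℕ → ℕ × ℕ → ℕ × ℕ
  | [], _, acc => acc
  | BK.dbl h :: L, k, acc => bigD L (k + 1) (if acc.2 < h then (k, h) else acc)
  | _ :: L, k, acc => bigD L (k + 1) acc

/-- The size of a double. -/
def dblOf : BK → ℕ
  | BK.dbl h => h
  | _ => 0

theorem eq_dbl_of_dblOf {K : BK} {H : ℕ} (h : dblOf K = H) (hH : H ≠ 0) : K = BK.dbl H := by
  cases K with
  | single x => exact absurd h.symm hH
  | pair x => exact absurd h.symm hH
  | dbl d => rw [← h]; rfl

/-- A bound for the first row of a diagram in a square box. -/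
def ybF (n : ℕ) : ℕ → ℕ → ℕ
  | 0, acc => acc
  | y + 1, acc => ybF n y (if Nat.blt (y * y) n then (if acc < y + 1 then y + 1 else acc) else acc)

/-- The check of a level. -/
def gridE (d : Bool) (l : List BK) : Bool :=
  Nat.blt (bigD (stepL d l) 0 (0, 0)).1 (stepL d l).length &&
    (Nat.beq (bigD (stepL d l) 0 (0, 0)).2 0 ||
      Nat.beq (dblOf ((stepL d l).getD (bigD (stepL d l) 0 (0, 0)).1 (BK.single 0)))
        (bigD (stepL d l) 0 (0, 0)).2) &&
    Nat.blt (2 * cOf d l - 2) (szL (stepL d l)) &&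
    Nat.blt ((ybF (szL (stepL d l)) (cOf d l) 0 - 1) * (ybF (szL (stepL d l)) (cOf d l) 0 - 1))
      (szL (stepL d l)) &&
    Nat.ble (lenL (stepL d l) - 1 + 2 * (bigD (stepL d l) 0 (0, 0)).2) (szL (stepL d l)) &&
    Nat.ble (lenL (stepL d l)) (szL (stepL d l)) &&
    gridT (cOf d l) (szL (stepL d l)) (bigD (stepL d l) 0 (0, 0)).2 (lenL (stepL d l) - 1)
      (lenL (stepL d l)) (ybF (szL (stepL d l)) (cOf d l) 0)
      (majT (szL (stepL d l) - 2 * (bigD (stepL d l) 0 (0, 0)).2) (lenL (stepL d l) - 1)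
        (linesP (stepL d l) (BK.dbl (bigD (stepL d l) 0 (0, 0)).2) (cOf d l / 2 + 5)))
      (majT (szL (stepL d l)) (lenL (stepL d l)) (linesN (stepL d l) (cOf d l / 2 + 5)))
      (cOf d l - 1)

theorem stepOK_of_gridE {l : List BK} (hl : Good l) (d : Bool) (h : gridE d l = true) :
    StepOK d l := by
  simp only [gridE, Bool.and_eq_true, Bool.or_eq_true, Nat.ble_eq, Nat.blt_eq, Nat.beq_eq] at h
  obtain ⟨⟨⟨⟨⟨⟨h1, h2⟩, h3⟩, h4⟩, h5⟩, h6⟩, h7⟩ := h
  refine stepOK_of_grid hl d h1 ?_ h3 h4 h5 h6 h7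
  by_cases h0 : (bigD (stepL d l) 0 (0, 0)).2 = 0
  · exact Or.inr h0
  · left
    rcases h2 with h2 | h2
    · exact absurd h2 h0
    · rw [List.getD_eq_getElem?_getD, List.getElem?_eq_getElem h1, Option.getD_some] at h2
      exact eq_dbl_of_dblOf h2 h0

/-- The check of an entry of the list of levels. -/
def gridEntry (e : ℕ × ℕ × ℕ × ℕ × ℕ) : Bool :=
  gridE (patt e.2.2.2.1 e.2.2.2.2 1)
    (famL (baseL e.1 e.2.1) e.2.2.1 (patt (e.2.2.2.1 - 1) (e.2.2.2.2 - 1)))

theorem levelStep_of_gridEntry {e : ℕ × ℕ × ℕ × ℕ × ℕ} (hi : e.1 < 4) (hj : e.2.1 < 4)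
    (h : gridEntry e = true) : LevelStep e :=
  stepOK_of_gridE (good_famL (good_baseL hi hj) _ _) _ h

/-- The four tiny levels. -/
def tinyE (e : ℕ × ℕ × ℕ × ℕ × ℕ) : Bool :=
  (Nat.beq e.2.2.1 0) && (Nat.beq e.2.2.2.1 0) && (Nat.beq e.2.2.2.2 0) && (
    (Nat.beq e.1 0 && Nat.beq e.2.1 2) || (Nat.beq e.1 1 && Nat.beq e.2.1 2) ||
    (Nat.beq e.1 2 && Nat.beq e.2.1 3) || (Nat.beq e.1 3 && Nat.beq e.2.1 3))

/-- The check of the entries with given `(i, j)`. -/
def chunkOK (a : ℕ) : Bool :=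
  (List.range 4096).all fun x =>
    !smallMask.testBit (a + 16 * x) || tinyE (lvlDecode (a + 16 * x)) ||
      gridEntry (lvlDecode (a + 16 * x))

end Crest.Agent.Saxl.Family
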