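import Crest.Agent.Lib.Saxl.GridAll

/-!
# The small levels of the chains: the kernel loop, part 2 (row 195, helper62)
-/

set_option autoImplicit false

namespace Crest.Agent.Saxl.Family

set_option maxRecDepth 1000000 in
theorem chunk_8 : chunkOK 8 = true := by decide +kernel

set_option maxRecDepth 1000000 in
theorem chunk_9 : chunkOK 9 = true := by decide +kernel

set_option maxRecDepth 1000000 in
theorem chunk_10 : chunkOK 10 = true := by decide +kernel

set_option maxRecDepth 1000000 in
theorem chunk_11 : chunkOK 11 = true := by decide +kernel

end Crest.Agent.Saxl.Family
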