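import Crest.Agent.Lib.Saxl.GridAll

/-!
# The small levels of the chains: the kernel loop, part 3 (row 195, helper62)
-/

set_option autoImplicit false

namespace Crest.Agent.Saxl.Family

set_option maxRecDepth 1000000 in
theorem chunk_12 : chunkOK 12 = true := by decide +kernel

set_option maxRecDepth 1000000 in
theorem chunk_13 : chunkOK 13 = true := by decide +kernel

set_option maxRecDepth 1000000 in
theorem chunk_14 : chunkOK 14 = true := by decide +kernel

set_option maxRecDepth 1000000 in
theorem chunk_15 : chunkOK 15 = true := by decide +kernel

end Crest.Agent.Saxl.Family
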