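import Crest.Agent.Lib.Saxl.GridSmall0
import Crest.Agent.Lib.Saxl.GridSmall1
import Crest.Agent.Lib.Saxl.GridSmall2
import Crest.Agent.Lib.Saxl.GridSmall3

/-!
# The small levels of the chains: the kernel loop (row 195, helper62)

All the entries of `smallLevels` pass `gridEntry`, except the four tiny levels `tinyE`.
-/

set_option autoImplicit false

namespace Crest.Agent.Saxl.Family

theorem chunk_all : ∀ a, a < 16 → chunkOK a = true := by
  intro a ha
  interval_cases a
  · exact chunk_0
  · exact chunk_1
  · exact chunk_2
  · exact chunk_3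
  · exact chunk_4
  · exact chunk_5
  · exact chunk_6
  · exact chunk_7
  · exact chunk_8
  · exact chunk_9
  · exact chunk_10
  · exact chunk_11
  · exact chunk_12
  · exact chunk_13
  · exact chunk_14
  · exact chunk_15

/-- **All the entries of the list of small levels, except the four tiny ones, are steps.** -/
theorem levelStep_small {e : ℕ × ℕ × ℕ × ℕ × ℕ} (he : e ∈ smallLevels) (ht : tinyE e = false) :
    LevelStep e := by
  simp only [smallLevels, List.mem_map, List.mem_filter, List.mem_range] at he
  obtain ⟨c, ⟨hc, hbit⟩, rfl⟩ := he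
  have hx : c / 16 < 4096 := by omega
  have h1 := chunk_all (c % 16) (Nat.mod_lt _ (by omega))
  simp only [chunkOK, List.all_eq_true, List.mem_range] at h1
  have h2 := h1 (c / 16) hx
  have e1 : c % 16 + 16 * (c / 16) = c := Nat.mod_add_div c 16
  rw [e1] at h2
  rw [hbit, ht] at h2
  simp only [Bool.not_true, Bool.false_or] at h2
  refine levelStep_of_gridEntry ?_ ?_ h2
  · exact Nat.mod_lt _ (by omega)
  · exact Nat.mod_lt _ (by omega)

end Crest.Agent.Saxl.Family
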