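import Crest.Agent.Lib.Saxl.KronTable

/-!
# Universal shapes, by certificates
-/

set_option autoImplicit false

namespace Crest.Agent.Saxl.Kron

set_option maxRecDepth 1000000

/-- Certificate for the diagram with column heights [6,3,3,1,1,1]. -/
def cert_6_3_3_1_1_1 : List (List ℕ) := [
  [27,73,45],
  [27,1133,45],
  [27,985,45],
  [27,361,45],
  [132,1601,45],
  [63,609,536],
  [63,609,432],
  [63,609,272],
  [27,513,45],
  [27,2353,45],
  [132,1973,45],
  [15,305,45],
  [63,609,208],
  [124,329,432],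
  [1,790,52,201],
  [26,37,20],
  [26,537,20],
  [26,433,20],
  [26,273,20],
  [124,329,1732],
  [26,209,20],
  [26,1733,20],
  [1,442,49,20],
  [27,362,201],
  [26,421,20],
  [19,293,1732],
  [19,293,420],
  [26,485,45],
  [27,1033,45],
  [132,1265,45],
  [58,1549,536],
  [58,1549,432],
  [27,514,201],
  [15,1921,45],
  [23,2113,45],
  [190,1840,89],
  [23,869,89],
  [27,2354,201],
  [26,933,20],
  [26,1989,20],
  [1,363,6,5,20],
  [1,2,49,20],
  [19,293,1988],
  [1,381,50,45],
  [63,1494,89],
  [27,2010,89],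
  [27,522,201],
  [53,1082,89],
  [63,426,89],
  [615,577,554],
  [43,1173,20],
  [132,2178,89],
  [41,443,554],
  [14,305,591,110],
  [27,429,45],
  [423,317,45],
  [186,1166,45],
  [57,1581,132],
  [63,609,132],
  [23,822,201],
  [498,317,45],
  [19,1689,132],
  [53,1445,70],
  [124,329,132],
  [26,133,20],
  [1,2066,59,20],
  [267,1179,554],
  [1,523,6,5,20],
  [12,331,50,45],
  [53,2162,89],
  [27,1922,89],
  [1,874,51,201],
  [53,2830,89],
  [381,867,554],
  [41,851,2006],
  [53,1798,89],
  [55,1866,179],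
  [26,2729,490],
  [1,2513,52,490],
  [26,749,2215],
  [171,207,554],
  [41,851,1602],
  [29,542,851],
  [29,542,443],
  [15,758,49,45],
  [189,1166,45],
  [1,1018,64,569],
  [26,893,70],
  [27,430,201],
  [13,835,50,45],
  [140,642,1972],
  [53,2241,70],
  [12,1235,54,201],
  [1,2205,59,20],
  [1,1925,59,20],
  [164,881,70],
  [12,1156,54,89],
  [53,2038,89],
  [15,1773,70],
  [63,1830,89],
  [63,381,70],
  [15,573,70],
  [15,373,490],
  [171,722,83],
  [75,2146,851],
  [57,542,851],
  [29,542,1099],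
  [15,1397,490],
  [171,722,851],
  [29,542,3],
  [23,90,393],
  [1,122,164,1693],
  [23,90,569],
  [1,1689,55,70],
  [23,2114,201],
  [26,69,922],
  [186,89,1974],
  [53,1401,70],
  [23,470,20],
  [53,625,70],
  [23,486,89],
  [53,2058,89],
  [15,1637,70],
  [112,881,70],
  [29,542,291],
  [63,1058,83],
  [75,1025,3],
  [57,542,1099],
  [75,2146,3],
  [57,542,3],
  [171,722,3],
  [14,122,116,589],
  [14,122,116,1693],
  [16,1405,52,130],
  [1,1441,55,70],
  [1,1361,64,922],
  [29,1606,83],
  [63,669,70],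
  [13,835,53,70],
  [57,2298,83],
  [140,1219,70],
  [57,542,291],
  [57,1458,3],
  [19,542,3],
  [75,2234,3],
  [63,1058,3],
  [26,69,182],
  [186,2201,130],
  [29,502,83],
  [15,642,70],
  [19,2298,83],
  [57,1458,291],
  [19,542,291],
  [19,1458,3],
  [75,2234,291],
  [29,1606,3],
  [57,2298,3],
  [27,745,54,130],
  [57,502,83],
  [19,1458,291],
  [19,2298,635],
  [29,1606,291],
  [29,502,3],
  [19,2298,3],
  [19,502,83],
  [57,502,635],
  [29,502,291],
  [19,2298,291],
  [57,502,3],
  [19,502,635],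
  [57,502,291],
  [19,502,3],
  [19,502,291],
  [15,2126,130],
  [15,1910,130],
  [15,258,130]]

theorem uni_6_3_3_1_1_1 : ∃ h1 : ([6,3,3,1,1,1] : List ℕ).SortedGE, Uni (YoungDiagram.ofRowLens [6,3,3,1,1,1] h1) :=
  uni_ofRowLens tbl_good (ps := cert_6_3_3_1_1_1) (by decide +kernel) (by decide +kernel) (by decide +kernel)

end Crest.Agent.Saxl.Kron
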