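import Crest.Agent.Lib.Saxl.KronU1
import Crest.Agent.Lib.Saxl.KronU3
import Crest.Agent.Lib.Saxl.KronU5
import Crest.Agent.Lib.Saxl.KronU6
import Crest.Agent.Lib.Saxl.KronU7
import Crest.Agent.Lib.Saxl.KronU8
import Crest.Agent.Lib.Saxl.KronU10
import Crest.Agent.Lib.Saxl.KronU11
import Crest.Agent.Lib.Saxl.KronU12
import Crest.Agent.Lib.Saxl.KronU13
import Crest.Agent.Lib.Saxl.KronU14
import Crest.Agent.Lib.Saxl.KronU15
import Crest.Agent.Lib.Saxl.KronU16
import Crest.Agent.Lib.Saxl.KronU17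
import Crest.Agent.Lib.Saxl.KronU18
import Crest.Agent.Lib.Saxl.KronU19
import Crest.Agent.Lib.Saxl.KronU20
import Crest.Agent.Lib.Saxl.KronU21
import Crest.Agent.Lib.Saxl.KronU22
import Crest.Agent.Lib.Saxl.KronU23
import Crest.Agent.Lib.Saxl.KronU24
import Crest.Agent.Lib.Saxl.KronU25
import Crest.Agent.Lib.Saxl.KronU26
import Crest.Agent.Lib.Saxl.KronU27
import Crest.Agent.Lib.Saxl.KronU28
import Crest.Agent.Lib.Saxl.KronU29

/-!
# Universal shapes for all small sizes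
-/

set_option autoImplicit false

namespace Crest.Agent.Saxl.Kron

set_option maxRecDepth 1000000

lemma uni_card {lam : List ℕ} (hs : sd lam = true)
    (h : ∃ h1 : lam.SortedGE, Uni (YoungDiagram.ofRowLens lam h1)) :
    ∃ D : YoungDiagram, D.card = lam.sum ∧ Uni D := by
  obtain ⟨h1, h2⟩ := h
  exact ⟨_, card_ofRowLens h1 (sd_sorted hs).2, h2⟩

/-- For all small `n` other than `2, 4, 9` there is a universal shape. -/
theorem small_uni (n : ℕ) (h1 : 1 ≤ n) (h2 : n ≤ 29) (h3 : n ≠ 2) (h4 : n ≠ 4) (h9 : n ≠ 9) :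
    ∃ D : YoungDiagram, D.card = n ∧ Uni D := by
  interval_cases n
  · exact uni_card (lam := [1]) (by decide +kernel) uni_1
  · exact absurd rfl h3
  · exact uni_card (lam := [2,1]) (by decide +kernel) uni_2_1
  · exact absurd rfl h4
  · exact uni_card (lam := [3,1,1]) (by decide +kernel) uni_3_1_1
  · exact uni_card (lam := [3,2,1]) (by decide +kernel) uni_3_2_1
  · exact uni_card (lam := [4,1,1,1]) (by decide +kernel) uni_4_1_1_1
  · exact uni_card (lam := [4,2,1,1]) (by decide +kernel) uni_4_2_1_1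
  · exact absurd rfl h9
  · exact uni_card (lam := [5,2,1,1,1]) (by decide +kernel) uni_5_2_1_1_1
  · exact uni_card (lam := [4,3,3,1]) (by decide +kernel) uni_4_3_3_1
  · exact uni_card (lam := [5,3,2,1,1]) (by decide +kernel) uni_5_3_2_1_1
  · exact uni_card (lam := [4,4,3,2]) (by decide +kernel) uni_4_4_3_2
  · exact uni_card (lam := [6,3,2,1,1,1]) (by decide +kernel) uni_6_3_2_1_1_1
  · exact uni_card (lam := [6,3,3,1,1,1]) (by decide +kernel) uni_6_3_3_1_1_1
  · exact uni_card (lam := [7,3,2,1,1,1,1]) (by decide +kernel) uni_7_3_2_1_1_1_1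
  · exact uni_card (lam := [7,3,3,1,1,1,1]) (by decide +kernel) uni_7_3_3_1_1_1_1
  · exact uni_card (lam := [7,4,2,2,1,1,1]) (by decide +kernel) uni_7_4_2_2_1_1_1
  · exact uni_card (lam := [8,3,3,1,1,1,1,1]) (by decide +kernel) uni_8_3_3_1_1_1_1_1
  · exact uni_card (lam := [8,4,2,2,1,1,1,1]) (by decide +kernel) uni_8_4_2_2_1_1_1_1
  · exact uni_card (lam := [8,4,3,2,1,1,1,1]) (by decide +kernel) uni_8_4_3_2_1_1_1_1
  · exact uni_card (lam := [9,4,2,2,1,1,1,1,1]) (by decide +kernel) uni_9_4_2_2_1_1_1_1_1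
  · exact uni_card (lam := [9,4,3,2,1,1,1,1,1]) (by decide +kernel) uni_9_4_3_2_1_1_1_1_1
  · exact uni_card (lam := [9,5,2,2,2,1,1,1,1]) (by decide +kernel) uni_9_5_2_2_2_1_1_1_1
  · exact uni_card (lam := [9,5,3,2,2,1,1,1,1]) (by decide +kernel) uni_9_5_3_2_2_1_1_1_1
  · exact uni_card (lam := [10,5,2,2,2,1,1,1,1,1]) (by decide +kernel) uni_10_5_2_2_2_1_1_1_1_1
  · exact uni_card (lam := [10,5,3,2,2,1,1,1,1,1]) (by decide +kernel) uni_10_5_3_2_2_1_1_1_1_1
  · exact uni_card (lam := [11,5,2,2,2,1,1,1,1,1,1]) (by decide +kernel) uni_11_5_2_2_2_1_1_1_1_1_1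
  · exact uni_card (lam := [11,5,3,2,2,1,1,1,1,1,1]) (by decide +kernel) uni_11_5_3_2_2_1_1_1_1_1_1

end Crest.Agent.Saxl.Kron
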