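import Crest.Agent.Lib.Saxl.KronUniv
import Crest.Agent.Lib.Saxl.KronChunk

/-!
# Splitting over a universal shape

Let `L₁` be a universal shape and `lam = L₁ + H` as multisets of column heights.  Then for any
partition whose column heights contain those of `s`, with `(s, H, H)` positive, the partition is
seen by `lam`: the rest of the columns is seen by `L₁`, whatever it is.  So a partition only costs
a sublist test.
-/

set_option autoImplicit false

namespace Crest.Agent.Saxl.Kron

/-- A universal shape, with its complement in the target. -/
structure Sp where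
  n1 : ℕ
  L1 : List ℕ
  H : List ℕ
  S : List (List ℕ)

/-- Correctness of the data of a split. -/
def Sp.Good (sp : Sp) (lam : List ℕ) : Prop :=
  (∀ M : Multiset ℕ, (∀ x ∈ M, 0 < x) → M.sum = sp.n1 →
      Real3 M (sp.L1 : Multiset ℕ) (sp.L1 : Multiset ℕ)) ∧
    (∀ s ∈ sp.S, G (s, sp.H, sp.H)) ∧
    (sp.L1 : Multiset ℕ) + (sp.H : Multiset ℕ) = (lam : Multiset ℕ)

/-- Removal of a decreasing list from a decreasing list. -/
def subL : List ℕ → List ℕ → Option (List ℕ)
  | a, [] => some a
  | [], _ :: _ => none
  | x :: a, y :: b =>
    if Nat.beq x y then subL a b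
    else if Nat.blt y x then
      match subL a (y :: b) with
      | some r => some (x :: r)
      | none => none
    else none

theorem subL_coe : ∀ {a b r : List ℕ}, subL a b = some r →
    (a : Multiset ℕ) = (r : Multiset ℕ) + (b : Multiset ℕ) := by
  intro a
  induction a with
  | nil =>
    intro b r h
    cases b with
    | nil =>
      simp only [subL, Option.some.injEq] at h
      subst h
      simp
    | cons y b => simp [subL] at h
  | cons x a ih =>
    intro b r h
    cases b with
    | nil =>
      simp only [subL, Option.some.injEq] at h
      subst h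
      simp
    | cons y b =>
      rw [subL] at h
      split at h
      · rename_i hxy
        have hxy' : x = y := Nat.eq_of_beq_eq_true hxy
        subst hxy'
        have := ih h
        rw [← Multiset.cons_coe, ← Multiset.cons_coe, this, Multiset.add_cons]
      · split at h
        · split at h
          · rename_i r' hr
            simp only [Option.some.injEq] at h
            subst h
            have := ih hr
            rw [← Multiset.cons_coe, ← Multiset.cons_coe, this, Multiset.cons_add]
          · simp at h
        · simp at h

/-- An element of a list. -/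
def nthL {α : Type} : List α → ℕ → Option α
  | [], _ => none
  | t :: _, 0 => some t
  | _ :: l, k + 1 => nthL l k

theorem mem_of_nthL {α : Type} {l : List α} {k : ℕ} {t : α} (h : nthL l k = some t) : t ∈ l := by
  induction l generalizing k with
  | nil => simp [nthL] at h
  | cons x l ih =>
    cases k with
    | zero =>
      simp only [nthL, Option.some.injEq] at h
      subst h
      exact List.mem_cons_self
    | succ k => exact List.mem_cons_of_mem _ (ih h)

/-- All entries are positive. -/
def allPos : List ℕ → Bool
  | [] => true
  | x :: l => Nat.blt 0 x && allPos l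

theorem pos_of_allPos {l : List ℕ} (h : allPos l = true) : ∀ x ∈ (l : Multiset ℕ), 0 < x := by
  induction l with
  | nil => simp
  | cons x l ih =>
    simp only [allPos, Bool.and_eq_true] at h
    intro y hy
    rw [← Multiset.cons_coe, Multiset.mem_cons] at hy
    rcases hy with h0 | hy
    · have := Nat.le_of_ble_eq_true (show Nat.ble 1 x = true from h.1)
      omega
    · exact ih h.2 y hy

/-- The sum of a list, by a recursion that is fast in the kernel. -/
def sumN : List ℕ → ℕ
  | [] => 0
  | x :: l => x + sumN l

theorem sumN_eq (l : List ℕ) : sumN l = l.sum := by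
  induction l with
  | nil => rfl
  | cons x l ih => simp [sumN, ih]

/-- The test for `x` and one split. -/
def chkS (sp : Sp) (x : List ℕ) (i : ℕ) : Bool :=
  match nthL sp.S i with
  | none => false
  | some s =>
    match subL x s with
    | none => false
    | some r => allPos r && Nat.beq (sumN r) sp.n1

theorem G_chkS {sp : Sp} {lam : List ℕ} (hsp : sp.Good lam) {x : List ℕ} {i : ℕ}
    (h : chkS sp x i = true) : G (x, lam, lam) := by
  obtain ⟨h1, h2, h3⟩ := hsp
  simp only [chkS] at h
  split at h
  · simp at h
  · rename_i s hs
    split at h
    · simp at h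
    · rename_i r hr
      simp only [Bool.and_eq_true] at h
      have hpos := pos_of_allPos h.1
      have hsum : ((r : List ℕ) : Multiset ℕ).sum = sp.n1 := by
        have := Nat.eq_of_beq_eq_true h.2
        rw [sumN_eq] at this
        simpa using this
      have g1 := h1 _ hpos hsum
      have g2 := h2 s (mem_of_nthL hs)
      simp only [G] at g2 ⊢
      have := g1.add g2
      rw [← subL_coe hr, h3] at this
      exact this

/-- Double duals of decreasing positive lists. -/
theorem dual_dual_coe {l : List ℕ} (h : sd l = true) : dual (dualL l : Multiset ℕ) = (l : Multiset ℕ) := by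
  obtain ⟨hs, hp⟩ := sd_sorted h
  have h1 := hts_ofRowLens hs hp
  rw [← h1, dual_hts, hts_eq_colLensL]
  congr 1
  have h2 := YoungDiagram.rowLens_ofRowLens_eq_self (hw := hs) hp
  conv_rhs => rw [← h2]
  simp [colLensL, YoungDiagram.rowLens]

/-- The test for one partition. The lowest bit asks for the dual partition, the next three bits
name the split (the value `7` names the explicit list), the rest is an index. -/
def chkP (sps : List Sp) (exc : List (List ℕ)) (l : List ℕ) (c : ℕ) : Bool :=
  let x := if Nat.beq (c % 2) 1 then dualL l else l
  let j := (c / 2) % 8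
  let i := c / 16
  if Nat.beq j 7 then
    match nthL exc i with
    | none => false
    | some e => leq e x
  else
    match nthL sps j with
    | none => false
    | some sp => chkS sp x i

theorem G_chkP {sps : List Sp} {exc : List (List ℕ)} {lam : List ℕ}
    (hsps : ∀ sp ∈ sps, sp.Good lam) (hexc : ∀ e ∈ exc, G (e, lam, lam))
    (hd : (dualL lam : List ℕ) = lam) {l : List ℕ} {c : ℕ}
    (hl : sd l = true) (h : chkP sps exc l c = true) : G (l, lam, lam) := by
  have key : ∀ x : List ℕ, (if Nat.beq (c % 2) 1 then dualL l else l) = x →
      (G (x, lam, lam) → G (l, lam, lam)) := by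
    intro x hx hG
    by_cases hc : Nat.beq (c % 2) 1 = true
    · rw [if_pos hc] at hx
      subst hx
      have := G.tw' hG
      rw [hd] at this
      simp only [G] at this ⊢
      rw [← dual_coe, dual_dual_coe hl] at this
      exact this
    · rw [if_neg hc] at hx
      subst hx
      exact hG
  simp only [chkP] at h
  refine key _ rfl ?_
  split at h
  · split at h
    · simp at h
    · rename_i e he
      have := hexc e (mem_of_nthL he)
      rwa [eq_of_leq h] at this
  · split at h
    · simp at h
    · rename_i sp hsp
      exact G_chkS (hsps sp (mem_of_nthL hsp)) h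

/-- The test for a list of partitions. -/
def chkPs (sps : List Sp) (exc : List (List ℕ)) : List (List ℕ) → List ℕ → Bool
  | [], [] => true
  | l :: ls, c :: cs => sd l && chkP sps exc l c && chkPs sps exc ls cs
  | _, _ => false

theorem G_chkPs {sps : List Sp} {exc : List (List ℕ)} {lam : List ℕ}
    (hsps : ∀ sp ∈ sps, sp.Good lam) (hexc : ∀ e ∈ exc, G (e, lam, lam))
    (hd : (dualL lam : List ℕ) = lam) {ls : List (List ℕ)} {cs : List ℕ}
    (h : chkPs sps exc ls cs = true) : ∀ l ∈ ls, G (l, lam, lam) := by
  induction ls generalizing cs with
  | nil => simp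
  | cons l ls ih =>
    cases cs with
    | nil => simp [chkPs] at h
    | cons c cs =>
      simp only [chkPs, Bool.and_eq_true] at h
      intro x hx
      rcases List.mem_cons.mp hx with rfl | hx
      · exact G_chkP hsps hexc hd h.1.1 h.1.2
      · exact ih h.2 x hx

/-- A universal shape with decreasing heights, as input of a split. -/
theorem real3_of_uni_list {L1 : List ℕ} (hs : sd L1 = true) (hd : leq (dualL L1) L1 = true)
    (h : ∃ h1 : L1.SortedGE, Uni (YoungDiagram.ofRowLens L1 h1)) {M : Multiset ℕ}
    (hp : ∀ x ∈ M, 0 < x) (hsum : M.sum = L1.sum) : Real3 M (L1 : Multiset ℕ) (L1 : Multiset ℕ) := by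
  obtain ⟨h1, hU⟩ := h
  obtain ⟨_, h2⟩ := sd_sorted hs
  have e1 : hts (YoungDiagram.ofRowLens L1 h1) = (L1 : Multiset ℕ) := by
    rw [hts_ofRowLens h1 h2, eq_of_leq hd]
  rw [← e1]
  exact real3_of_uni' hU hp (by rw [hsum, card_ofRowLens h1 h2])

/-- Correctness of a split from a universal shape and a table of paths. -/
theorem Sp.good_of {lam L1 H : List ℕ} {S : List (List ℕ)} {n1 : ℕ} (hn : L1.sum = n1)
    (hs : sd L1 = true) (hd : leq (dualL L1) L1 = true)
    (h : ∃ h1 : L1.SortedGE, Uni (YoungDiagram.ofRowLens L1 h1))
    (hS : ∀ s ∈ S, G (s, H, H)) (hm : leq (mrg L1 H) lam = true) :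
    (Sp.mk n1 L1 H S).Good lam := by
  refine ⟨fun M hp hsum => real3_of_uni_list hs hd h hp (by rw [hsum, hn]), hS, ?_⟩
  rw [← eq_of_leq hm, coe_mrg]

end Crest.Agent.Saxl.Kron
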