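import Crest.Agent.Lib.Saxl.KronSeeds
import Crest.Agent.Lib.Saxl.KronChunk

/-!
# A table of positive triples
-/

set_option autoImplicit false

namespace Crest.Agent.Saxl.Kron

set_option maxRecDepth 1000000


/-- The table of triples. -/
def tblT33 : List Tr := [
  ([3,3,2],[4,2,1,1],[4,2,1,1]),
  ([3,3],[4,1,1],[3,1,1,1]),
  ([1],[1],[1]),
  ([4,2],[3,3],[3,2,1]),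
  ([2,2,1,1],[2,2,1,1],[2,2,1,1]),
  ([3,2,1],[3,2,1],[3,2,1]),
  ([1,1,1,1,1,1],[3,1,1,1],[3,1,1,1]),
  ([3,3],[3,2,1],[3,2,1]),
  ([3],[2,1],[2,1]),
  ([3],[3],[1,1,1]),
  ([3,1,1,1],[3,1,1,1],[1,1,1,1,1,1]),
  ([1,1,1,1,1,1],[2,1,1,1,1],[2,1,1,1,1]),
  ([2,1,1,1,1],[3,1,1,1],[2,1,1,1,1]),
  ([2,1,1,1,1],[2,1,1,1,1],[2,1,1,1,1]),
  ([2,1,1,1,1],[2,1,1,1,1],[1,1,1,1,1,1]),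
  ([1,1,1,1,1,1],[4,1,1],[4,1,1]),
  ([1,1,1,1,1,1],[1,1,1,1,1,1],[1,1,1,1,1,1]),
  ([3],[1,1,1],[3]),
  ([1,1,1],[3],[3]),
  ([3,3],[3,3],[3,3]),
  ([4,2,1,1],[3,3,2],[4,2,1,1]),
  ([6],[5,1],[2,1,1,1,1]),
  ([2],[2],[1,1]),
  ([6],[4,1,1],[3,1,1,1]),
  ([2,1,1,1,1],[4,1,1],[3,1,1,1]),
  ([1,1,1],[2,1],[2,1]),
  ([1,1],[1,1],[1,1]),
  ([4,1,1],[4,1,1],[1,1,1,1,1,1]),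
  ([2,1],[3],[2,1]),
  ([2],[1,1],[2]),
  ([1,1,1],[1,1,1],[1,1,1]),
  ([1,1],[2],[2]),
  ([2,2,2],[2,2,1,1],[2,1,1,1,1]),
  ([3,1,1,1],[3,1,1,1],[2,1,1,1,1]),
  ([4,1,1],[3,1,1,1],[2,1,1,1,1]),
  ([6],[3,1,1,1],[4,1,1]),
  ([3,1,1,1],[3,1,1,1],[3,1,1,1]),
  ([6],[3,2,1],[3,2,1]),
  ([5,1],[4,1,1],[2,1,1,1,1]),
  ([3,1,1,1],[2,1,1,1,1],[2,1,1,1,1]),
  ([1,1,1,1,1,1],[3,2,1],[3,2,1]),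
  ([5,1],[3,1,1,1],[3,1,1,1]),
  ([2,2,2],[3,2,1],[2,1,1,1,1]),
  ([5,1],[5,1],[1,1,1,1,1,1]),
  ([3,3],[4,2],[3,2,1]),
  ([3,1,1,1],[4,1,1],[2,1,1,1,1]),
  ([2,1],[2,1],[2,1]),
  ([6],[6],[1,1,1,1,1,1]),
  ([1,1,1,1,1,1],[5,1],[5,1]),
  ([2,2,2],[5,1],[4,2]),
  ([4],[3,1],[2,1,1]),
  ([1,1,1,1,1,1],[4,2],[4,2]),
  ([2,1],[2,1],[3]),
  ([2,1],[2,1],[1,1,1]),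
  ([1,1,1,1,1,1],[2,2,1,1],[2,2,1,1]),
  ([2,1,1,1,1],[2,1,1,1,1],[3,1,1,1]),
  ([2,1],[1,1,1],[2,1]),
  ([4,1,1],[4,1,1],[3,1,1,1]),
  ([4],[4],[1,1,1,1]),
  ([3,3],[4,2],[4,2]),
  ([4,1,1],[2,1,1,1,1],[3,1,1,1]),
  ([4,1,1],[2,2,1,1],[2,2,1,1]),
  ([4],[2,2],[2,2]),
  ([6],[4,2],[2,2,1,1]),
  ([2,2,2],[2,2,2],[1,1,1,1,1,1]),
  ([4,1,1],[4,1,1],[2,1,1,1,1]),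
  ([3,1,1,1],[5,1],[3,1,1,1]),
  ([2,2],[4],[2,2]),
  ([2,2,2],[4,2],[2,2,1,1]),
  ([5],[2,1,1,1],[4,1]),
  ([3,3],[5,1],[3,2,1]),
  ([2,2,2],[2,2,2],[2,2,1,1]),
  ([1,1,1,1],[1,1,1,1],[1,1,1,1]),
  ([1,1,1,1],[3,1],[3,1]),
  ([2,2,1,1],[4,1,1],[2,2,1,1]),
  ([4,1,1],[3,1,1,1],[4,1,1]),
  ([2,1,1,1,1],[3,1,1,1],[4,1,1]),
  ([2,2,2],[5,1],[3,2,1]),
  ([2,2,1,1],[2,2,1,1],[1,1,1,1,1,1]),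
  ([4,1,1],[5,1],[2,1,1,1,1]),
  ([4],[1,1,1,1],[4]),
  ([4,1,1],[5,1],[4,1,1]),
  ([5],[4,1],[2,1,1,1]),
  ([3,3],[3,1,1,1],[4,1,1]),
  ([2,2,2],[6],[3,3]),
  ([5,1],[4,1,1],[4,1,1]),
  ([1,1,1,1],[4],[4]),
  ([4,1,1],[3,2,1],[3,2,1]),
  ([2,2,2],[2,2,1,1],[4,2]),
  ([5,1],[5,1],[3,1,1,1]),
  ([4],[2,1,1],[3,1]),
  ([1,1,1,1],[2,2],[2,2]),
  ([6],[2,2,1,1],[4,2]),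
  ([2,2,1,1],[3,1,1,1],[2,1,1,1,1]),
  ([1,1,1,1],[2,1,1],[2,1,1]),
  ([2,1,1,1,1],[3,1,1,1],[3,1,1,1]),
  ([2,2,2],[2,2,1,1],[3,1,1,1]),
  ([2,1,1,1,1],[5,1],[4,1,1]),
  ([4,1,1],[6],[3,1,1,1]),
  ([6],[2,1,1,1,1],[5,1]),
  ([2,2,2],[4,2],[5,1]),
  ([4,2],[4,2],[1,1,1,1,1,1]),
  ([2,2,2],[4,1,1],[4,1,1]),
  ([2,2,2],[3,2,1],[3,1,1,1]),
  ([4,1,1],[1,1,1,1,1,1],[4,1,1]),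
  ([2,2,2],[2,1,1,1,1],[3,2,1]),
  ([2,2,2],[4,1,1],[4,2]),
  ([2,2,2],[4,1,1],[3,1,1,1]),
  ([2,2],[2,2],[2,2]),
  ([2,2,2],[2,2,2],[4,1,1]),
  ([2,2,2],[2,1,1,1,1],[2,2,1,1]),
  ([2,2,2],[4,1,1],[2,2,2]),
  ([5,1],[6],[2,1,1,1,1]),
  ([6],[3,3],[2,2,2]),
  ([5,1],[4,2],[3,2,1]),
  ([5],[5],[1,1,1,1,1]),
  ([2,1,1,1,1],[2,2,1,1],[2,1,1,1,1]),
  ([3,3],[3,1,1,1],[3,1,1,1]),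
  ([3,3],[3,1,1,1],[4,2]),
  ([3,3],[1,1,1,1,1,1],[3,3]),
  ([5,1],[2,2,1,1],[3,2,1]),
  ([3,1,1,1],[6],[4,1,1]),
  ([3,3],[6],[2,2,2]),
  ([3,1,1,1],[1,1,1,1,1,1],[3,1,1,1]),
  ([2,2,2],[3,1,1,1],[3,1,1,1]),
  ([2,2,1,1],[2,2,1,1],[4,1,1]),
  ([4,1,1],[4,2],[4,2]),
  ([5,1],[2,1,1,1,1],[4,1,1]),
  ([3,1,1,1],[2,1,1,1,1],[4,1,1]),
  ([5],[3,1,1],[3,1,1]),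
  ([3,3],[3,3],[1,1,1,1,1,1]),
  ([6],[2,2,2],[3,3]),
  ([2,2],[3,1],[3,1]),
  ([3,3],[4,2],[2,2,2]),
  ([3,3],[4,2],[3,1,1,1]),
  ([2,2,1,1],[3,2,1],[2,1,1,1,1]),
  ([5,1],[5,1],[2,1,1,1,1]),
  ([4,2],[5,1],[3,2,1]),
  ([2,2,2],[3,1,1,1],[3,2,1]),
  ([3,2],[3,2],[3,2]),
  ([2,1,1,1,1],[3,2,1],[3,1,1,1]),
  ([4,2],[4,2],[4,1,1]),
  ([1,1,1,1,1],[4,1],[4,1]),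
  ([3,3],[3,2,1],[4,2]),
  ([1,1,1,1,1],[2,1,1,1],[2,1,1,1]),
  ([2,2,2],[4,2],[4,1,1]),
  ([4,1,1],[4,1,1],[3,3]),
  ([3,1,1,1],[3,2,1],[2,1,1,1,1]),
  ([2,2,2],[3,2,1],[3,2,1]),
  ([3,3],[4,1,1],[3,3]),
  ([5,1],[3,2,1],[2,2,1,1]),
  ([3,1,1,1],[4,1,1],[4,1,1]),
  ([5,1],[5,1],[2,2,1,1]),
  ([2,2,2],[1,1,1,1,1,1],[2,2,2]),
  ([5,1],[4,1,1],[3,2,1]),
  ([3,3],[2,2,2],[6]),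
  ([3,3],[2,1,1,1,1],[3,2,1]),
  ([5,1],[4,2],[2,1,1,1,1]),
  ([3,3],[2,1,1,1,1],[4,2]),
  ([4,1,1],[5,1],[3,2,1]),
  ([2,1,1,1,1],[1,1,1,1,1,1],[2,1,1,1,1]),
  ([2,2,1],[4,1],[3,2]),
  ([5,1],[3,1,1,1],[4,2]),
  ([1,1,1,1,1,1],[3,3],[3,3]),
  ([3,3],[4,1,1],[4,1,1]),
  ([5,1],[4,2],[3,1,1,1]),
  ([2,2],[2,2],[1,1,1,1]),
  ([2,2],[3,1],[2,1,1]),
  ([3,3],[4,1,1],[3,2,1]),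
  ([3,3],[3,3],[4,1,1]),
  ([2,2,2],[4,2],[3,3]),
  ([2,2,2],[3,1,1,1],[3,3]),
  ([5],[3,2],[2,2,1]),
  ([2,2,2],[3,1,1,1],[2,2,1,1]),
  ([5],[1,1,1,1,1],[5]),
  ([2,2,2],[3,3],[6]),
  ([3,1],[3,1],[2,2]),
  ([3,2,1],[2,2,1,1],[2,1,1,1,1]),
  ([2,2,1,1],[5,1],[3,2,1]),
  ([2,2],[2,2],[4]),
  ([3,1,1,1],[4,1,1],[3,3]),
  ([2,2],[2,1,1],[2,1,1]),
  ([2,1,1,1,1],[4,1,1],[4,2]),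
  ([1,1,1,1,1],[3,1,1],[3,1,1]),
  ([2,2,2],[3,1,1,1],[4,1,1]),
  ([4,1,1],[4,1,1],[5,1]),
  ([4,2],[2,2,1,1],[3,1,1,1]),
  ([2,1,1,1,1],[4,2],[4,1,1]),
  ([2,2,1,1],[4,2],[3,1,1,1]),
  ([4,1,1],[3,3],[3,1,1,1]),
  ([1,1,1,1,1],[3,2],[3,2]),
  ([3,1,1,1],[2,1,1,1,1],[3,1,1,1]),
  ([5],[2,2,1],[3,2]),
  ([2,2,1,1],[3,1,1,1],[3,1,1,1]),
  ([3,1,1,1],[4,1,1],[3,1,1,1]),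
  ([2,2,1,1],[2,1,1,1,1],[2,1,1,1,1]),
  ([3,2],[3,2],[3,1,1]),
  ([3,2],[3,2],[4,1]),
  ([4,1,1],[3,3],[4,1,1]),
  ([2,2,2],[3,3],[3,1,1,1]),
  ([3,1,1,1],[3,3],[3,1,1,1]),
  ([3,1,1,1],[3,1,1,1],[4,1,1]),
  ([2,2,1],[4,1],[3,1,1]),
  ([1,1,1,1,1],[5],[5]),
  ([3,3],[3,2,1],[5,1]),
  ([2,2,2],[3,2,1],[5,1]),
  ([4,2],[1,1,1,1,1,1],[4,2]),
  ([3,1,1,1],[3,1,1,1],[5,1]),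
  ([3,1,1,1],[3,1,1,1],[2,2,1,1]),
  ([2,2,2],[3,3],[4,2]),
  ([4,2,1,1],[4,2,1,1],[3,3,2]),
  ([3,1,1,1],[5,1],[5,1]),
  ([3,2],[2,1,1,1],[3,2]),
  ([4,2],[5,1],[3,1,1,1]),
  ([4,1,1],[4,1,1],[2,2,1,1]),
  ([5,1],[1,1,1,1,1,1],[5,1]),
  ([2,2,2],[2,2,1,1],[2,2,2]),
  ([3,2,1],[3,2,1],[1,1,1,1,1,1]),
  ([2,1,1,1,1],[6],[5,1]),
  ([5,1],[4,2],[2,2,2]),
  ([4,1,1],[4,2],[4,1,1]),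
  ([3,3],[3,2,1],[2,1,1,1,1]),
  ([3,2],[4,1],[3,1,1]),
  ([4,1,1],[3,3],[3,3]),
  ([4,1,1],[3,1,1,1],[6]),
  ([2,1,1,1,1],[2,1,1,1,1],[2,2,1,1]),
  ([5,1],[3,2,1],[3,3]),
  ([4,2],[4,1,1],[4,2]),
  ([4,1,1],[3,1,1,1],[3,2,1]),
  ([3,2,1],[4,1,1],[2,1,1,1,1]),
  ([2,1,1,1],[3,2],[3,2]),
  ([5,1],[4,1,1],[3,1,1,1]),
  ([4,1,1],[3,2,1],[2,1,1,1,1]),
  ([2,2,1],[3,2],[2,2,1]),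
  ([3,1,1,1],[4,1,1],[3,2,1]),
  ([3,3],[4,2],[2,1,1,1,1]),
  ([6,4,1,1,1],[4,4,3,2],[4,4,3,2]),
  ([1,1,1,1,1],[1,1,1,1,1],[1,1,1,1,1]),
  ([4,1],[5],[2,1,1,1]),
  ([2,2],[1,1,1,1],[2,2]),
  ([3,1,1,1],[5,1],[4,2]),
  ([2,1,1,1,1],[4,1,1],[5,1]),
  ([2,1,1,1,1],[4,1,1],[4,1,1]),
  ([4,1,1],[3,1,1,1],[3,1,1,1]),
  ([4,1,1],[4,1,1],[4,1,1]),
  ([2,1,1],[4],[3,1]),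
  ([3,2,1],[3,2,1],[2,2,1,1]),
  ([5,1],[3,1,1,1],[5,1]),
  ([3,1,1,1],[5,1],[3,2,1]),
  ([3,2,1],[1,1,1,1,1,1],[3,2,1]),
  ([3,2],[3,1,1],[3,2]),
  ([3,1,1,1],[4,2],[4,1,1]),
  ([4,1,1],[5,1],[3,1,1,1]),
  ([3,3],[2,2,1,1],[5,1]),
  ([2,1,1,1,1],[3,1,1,1],[3,2,1]),
  ([2,2,1],[5],[3,2]),
  ([2,2,1,1],[6],[4,2]),
  ([4,1,1],[3,1,1,1],[3,3]),
  ([4,1],[4,1],[3,1,1]),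
  ([5,1],[3,1,1,1],[4,1,1]),
  ([4,1,1],[2,1,1,1,1],[4,1,1]),
  ([3,3],[5,1],[2,2,1,1]),
  ([2,1,1,1,1],[3,2,1],[4,1,1]),
  ([4,2],[3,2,1],[2,1,1,1,1]),
  ([4,2],[5,1],[2,2,2]),
  ([4,2],[2,1,1,1,1],[4,1,1]),
  ([2,1,1,1,1],[3,3],[4,2]),
  ([3,3],[2,2,2],[4,2]),
  ([2,2],[2,1,1],[3,1]),
  ([4,2],[4,1,1],[4,1,1]),
  ([3,1,1,1],[3,3],[4,1,1]),
  ([4,1,1],[4,2],[2,1,1,1,1]),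
  ([5,1],[3,2,1],[4,1,1]),
  ([3,1],[2,2],[2,1,1]),
  ([2,1,1,1],[5],[4,1]),
  ([2,2,1,1],[4,2],[4,2]),
  ([2,2,1,1],[4,1,1],[3,1,1,1]),
  ([3,2],[4,1],[3,2]),
  ([4,2],[4,1,1],[2,1,1,1,1]),
  ([2,2,2],[4,1,1],[3,2,1]),
  ([2,1,1,1,1],[5,1],[6]),
  ([4,2],[3,2,1],[3,3]),
  ([3,3],[3,2,1],[4,1,1]),
  ([5,2,2,2,1,1],[4,4,3,2],[4,4,3,2]),
  ([4,2],[6],[2,2,1,1]),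
  ([3,2,1],[5,1],[4,2]),
  ([5,1],[3,3],[3,2,1]),
  ([3,1,1,1],[3,2,1],[4,1,1]),
  ([2,2,1,1],[2,1,1,1,1],[3,2,1]),
  ([3,2,1],[6],[3,2,1]),
  ([2,1,1,1,1],[4,2],[3,2,1]),
  ([3,1,1,1],[3,3],[4,2]),
  ([2,2,1,1],[1,1,1,1,1,1],[2,2,1,1]),
  ([2,2,1],[4,1],[4,1]),
  ([2,2,1,1],[3,1,1,1],[4,2]),
  ([3,1,1,1],[2,1,1,1,1],[3,2,1]),
  ([2,1,1,1],[2,1,1,1],[2,1,1,1]),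
  ([2,2,1],[2,2,1],[3,2]),
  ([3,1,1,1],[4,2],[3,3]),
  ([5,4,2,1,1],[4,4,3,2],[4,4,3,2]),
  ([2,2,1],[3,1,1],[3,2]),
  ([3,2,1],[3,3],[4,2]),
  ([2,2,2],[3,2,1],[4,2]),
  ([3,3],[2,2,1,1],[2,2,1,1]),
  ([4,2],[4,2],[3,3]),
  ([3,2,1],[3,1,1,1],[2,1,1,1,1]),
  ([4,1,1],[4,2],[3,2,1]),
  ([3,3],[2,2,1,1],[3,3]),
  ([2,1,1,1,1],[3,1,1,1],[2,2,1,1]),
  ([4,2],[3,3],[4,2]),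
  ([4,1],[4,1],[1,1,1,1,1]),
  ([3,1,1],[5],[3,1,1]),
  ([2,1,1,1,1],[3,3],[3,2,1]),
  ([3,1,1,1],[5,1],[4,1,1]),
  ([4,1,1],[2,1,1,1,1],[4,2]),
  ([3,1,1],[3,2],[3,2]),
  ([1,1,1,1,1],[2,2,1],[2,2,1]),
  ([2,1,1,1,1],[2,2,1,1],[3,2,1]),
  ([4,1,1],[4,1,1],[4,2]),
  ([4,1,1],[3,3],[3,2,1]),
  ([2,2,1,1],[3,1,1,1],[4,1,1]),
  ([2,2,1],[3,2],[3,1,1]),
  ([2,2,2],[4,2],[3,2,1]),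
  ([4,1,1],[3,1,1,1],[4,2]),
  ([4,2],[3,1,1,1],[2,2,1,1]),
  ([2,2,1,1],[4,1,1],[4,1,1]),
  ([3,2,1],[3,2,1],[4,1,1]),
  ([3,3],[2,2,1,1],[4,1,1]),
  ([5,1],[3,2,1],[4,2]),
  ([3,1,1,1],[2,2,1,1],[2,1,1,1,1]),
  ([3,2],[4,1],[2,1,1,1]),
  ([3,1,1,1],[4,2],[4,2]),
  ([4,1],[3,1,1],[3,1,1]),
  ([4,2],[3,1,1,1],[4,1,1]),
  ([2,2,1],[2,1,1,1],[2,1,1,1]),
  ([4,2],[3,2,1],[5,1]),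
  ([2,2,1],[3,2],[4,1]),
  ([4,1,1],[2,1,1,1,1],[5,1]),
  ([4,2],[4,2],[2,1,1,1,1]),
  ([2,1,1],[2,2],[2,1,1]),
  ([4,1,1],[3,2,1],[3,1,1,1]),
  ([4,2],[4,1,1],[3,1,1,1]),
  ([3,2],[4,1],[2,2,1]),
  ([3,1,1],[4,1],[4,1]),
  ([2,1,1,1,1],[4,2],[4,2]),
  ([2,1,1,1,1],[4,2],[3,3]),
  ([3,2],[2,1,1,1],[4,1]),
  ([3,1,1,1],[3,1,1,1],[3,2,1]),
  ([3,1,1,1],[3,1,1,1],[3,3]),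
  ([3,2,1],[4,1,1],[3,1,1,1]),
  ([2,1,1,1],[4,1],[3,1,1]),
  ([4,1],[3,2],[3,1,1]),
  ([4,2],[4,1,1],[2,2,2]),
  ([2,1,1,1,1],[4,1,1],[3,2,1]),
  ([2,2,1,1],[5,1],[4,2]),
  ([4,1],[2,2,1],[2,2,1]),
  ([2,1,1,1],[3,1,1],[2,1,1,1]),
  ([4,1],[3,1,1],[3,2]),
  ([4,1],[2,1,1,1],[3,1,1]),
  ([4,1],[2,1,1,1],[4,1]),
  ([3,1],[4],[2,1,1]),
  ([4,2],[4,2],[3,1,1,1]),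
  ([6],[1,1,1,1,1,1],[6]),
  ([3,3],[3,3],[2,2,1,1]),
  ([4,1],[3,2],[2,2,1]),
  ([3,3],[3,1,1,1],[3,2,1]),
  ([3,3],[2,2,2],[3,1,1,1]),
  ([3,3],[3,2,1],[3,1,1,1]),
  ([2,2,1],[3,2],[3,2]),
  ([3,2,1],[4,2],[4,1,1]),
  ([5,1],[2,1,1,1,1],[4,2]),
  ([3,2],[1,1,1,1,1],[3,2]),
  ([2,1,1,1,1],[5,1],[4,2]),
  ([4,1,1],[4,1,1],[2,2,2]),
  ([5,1],[2,1,1,1,1],[6]),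
  ([3,2,1],[3,1,1,1],[3,1,1,1]),
  ([4,2],[5,1],[2,1,1,1,1]),
  ([4,1,1],[4,2],[3,1,1,1]),
  ([4,1],[4,1],[2,2,1]),
  ([2,2,1,1],[4,1,1],[3,3]),
  ([2,2,2],[3,3],[2,2,2]),
  ([3,1,1,1],[4,2],[2,2,1,1]),
  ([5,1],[2,2,1,1],[5,1]),
  ([4,1,1],[2,2,1,1],[4,1,1]),
  ([5,1],[4,1,1],[2,2,1,1]),
  ([4,1,1],[4,2],[2,2,2]),
  ([3,1,1,1],[2,2,1,1],[4,2]),
  ([1,1,1,1,1,1],[2,2,2],[2,2,2]),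
  ([5,1],[2,2,1,1],[4,2]),
  ([2,2,1],[3,1,1],[2,2,1]),
  ([3,2,1],[5,1],[3,3]),
  ([2,2,1,1],[3,2,1],[5,1]),
  ([5,1],[2,2,1,1],[4,1,1]),
  ([2,1,1,1],[2,1,1,1],[3,1,1]),
  ([3,2,1],[5,1],[2,2,1,1]),
  ([2,1,1,1],[4,1],[4,1]),
  ([2,1,1,1,1],[2,2,1,1],[3,1,1,1]),
  ([2,2,2],[3,2,1],[4,1,1]),
  ([3,3],[4,1,1],[2,2,1,1]),
  ([2,2,1,1],[2,2,1,1],[2,1,1,1,1]),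
  ([2,1,1,1,1],[3,2,1],[2,2,1,1]),
  ([3,3],[3,1,1,1],[2,2,2]),
  ([3,1,1,1],[3,2,1],[3,2,1]),
  ([3,1,1,1],[4,1,1],[2,2,1,1]),
  ([2,1,1,1,1],[3,2,1],[3,3]),
  ([3,2,1],[2,2,1,1],[3,2,1]),
  ([3,2,1],[4,1,1],[3,2,1]),
  ([2,2,1,1],[5,1],[5,1]),
  ([3,2,1],[2,2,1,1],[5,1]),
  ([4,1,1],[3,2,1],[4,1,1]),
  ([3,1],[3,1],[1,1,1,1]),
  ([5,1],[2,2,1,1],[3,3]),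
  ([3,1,1,1],[3,2,1],[2,2,2]),
  ([2,2,1,1],[2,1,1,1,1],[3,1,1,1]),
  ([2,1,1],[2,2],[3,1]),
  ([2,1,1],[2,1,1],[2,1,1]),
  ([4,2],[4,2],[2,2,1,1]),
  ([3,2,1],[5,1],[3,1,1,1]),
  ([3,1,1],[2,2,1],[3,2]),
  ([5,1],[2,2,2],[4,2]),
  ([2,2,1],[3,2],[5]),
  ([3,1,1,1],[3,3],[2,2,2]),
  ([3,1,1,1],[4,2],[3,1,1,1]),
  ([2,1,1],[3,1],[2,2]),
  ([3,2],[3,2],[2,2,1]),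
  ([3,2,1],[4,2],[2,1,1,1,1]),
  ([4,1],[2,2,1],[3,2]),
  ([5,1],[3,2,1],[3,2,1]),
  ([2,1,1,1,1],[5,1],[5,1]),
  ([2,1,1,1],[2,1,1,1],[1,1,1,1,1]),
  ([3,2,1],[2,1,1,1,1],[4,2]),
  ([4,1,1],[3,1,1,1],[2,2,1,1]),
  ([3,2],[2,2,1],[4,1]),
  ([2,2,1,1],[3,2,1],[3,2,1]),
  ([4,1,1],[5,1],[2,2,1,1]),
  ([2,2,1,1],[3,3],[5,1]),
  ([4,1,1],[2,2,2],[3,1,1,1]),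
  ([2,2,1,1],[4,1,1],[5,1]),
  ([4,2],[2,1,1,1,1],[3,3]),
  ([3,3],[2,2,1,1],[3,2,1]),
  ([3,2,1],[5,1],[4,1,1]),
  ([3,1,1,1],[2,2,1,1],[2,2,1,1]),
  ([2,2,1,1],[4,2],[6]),
  ([4,2],[2,2,2],[4,1,1]),
  ([5,1],[3,1,1,1],[3,2,1]),
  ([3,2,1],[3,1,1,1],[4,1,1]),
  ([4,2],[3,1,1,1],[4,2]),
  ([3,1,1,1],[2,2,1,1],[3,1,1,1]),
  ([2,2,1,1],[3,3],[3,3]),
  ([2,2,1,1],[5,1],[3,3]),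
  ([3,1],[1,1,1,1],[3,1]),
  ([4,1,1],[4,1,1],[3,2,1]),
  ([4,1],[4,1],[2,1,1,1]),
  ([1,1,1,1,1,1],[6],[6]),
  ([4,2],[4,2],[3,2,1]),
  ([3,2],[3,2],[1,1,1,1,1]),
  ([4,1],[1,1,1,1,1],[4,1]),
  ([5,1],[3,2,1],[3,1,1,1]),
  ([5,1],[3,2,1],[2,2,2]),
  ([3,1,1,1],[2,1,1,1,1],[2,2,1,1]),
  ([2,1,1],[3,1],[4]),
  ([2,2,1],[2,2,1],[4,1]),
  ([3,1,1,1],[4,2],[3,2,1]),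
  ([3,2,1],[3,3],[2,1,1,1,1]),
  ([3,1,1],[4,1],[3,1,1]),
  ([2,1,1],[2,1,1],[2,2]),
  ([3,1,1,1],[3,1,1,1],[4,2]),
  ([3,2],[5],[2,2,1]),
  ([3,2,1],[2,1,1,1,1],[3,1,1,1]),
  ([4,1],[2,1,1,1],[5]),
  ([3,3],[2,2,2],[2,2,2]),
  ([2,2,1],[3,1,1],[4,1]),
  ([3,1,1,1],[4,2],[5,1]),
  ([4,1,1],[2,1,1,1,1],[3,2,1]),
  ([4,2],[2,1,1,1,1],[3,2,1]),
  ([3,1,1,1],[3,2,1],[3,1,1,1]),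
  ([3,2],[2,2,1],[2,2,1]),
  ([5,1],[2,2,2],[3,2,1]),
  ([3,1,1,1],[4,1,1],[4,2]),
  ([2,1,1,1,1],[3,2,1],[3,2,1]),
  ([2,2,2],[2,2,2],[3,3]),
  ([4,1,1],[3,2,1],[4,2]),
  ([4,2],[3,1,1,1],[3,1,1,1]),
  ([2,1,1,1,1],[4,2],[5,1]),
  ([4,2],[3,1,1,1],[5,1]),
  ([2,2,1],[2,2,1],[2,2,1]),
  ([4,2],[2,2,1,1],[2,2,2]),
  ([2,2,1,1],[4,1,1],[4,2]),
  ([3,1,1],[4,1],[3,2]),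
  ([2,2,1],[3,2],[2,1,1,1]),
  ([3,3],[3,2,1],[2,2,1,1]),
  ([2,2,1],[2,1,1,1],[3,2]),
  ([4,1,1],[2,2,2],[4,2]),
  ([2,1,1],[3,1],[2,1,1]),
  ([3,1,1,1],[4,1,1],[6]),
  ([3,2,1],[4,2],[5,1]),
  ([3,1,1,1],[4,1,1],[5,1]),
  ([2,1,1,1],[4,1],[3,2]),
  ([2,2,1,1],[5,1],[4,1,1]),
  ([4,2],[3,2,1],[3,2,1]),
  ([3,1,1,1],[3,2,1],[5,1]),
  ([2,2,1,1],[3,2,1],[4,1,1]),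
  ([3,2,1],[4,2],[3,3]),
  ([4,1],[3,2],[3,2]),
  ([3,2],[2,2,1],[5]),
  ([2,1,1,1],[3,1,1],[3,2]),
  ([3,1],[2,2],[3,1]),
  ([4,1],[2,2,1],[3,1,1]),
  ([2,2,1,1],[3,3],[3,2,1]),
  ([3,1,1],[4,1],[2,1,1,1]),
  ([2,2,1,1],[2,2,1,1],[3,3]),
  ([3,1,1,1],[3,1,1,1],[2,2,2]),
  ([3,2],[3,2],[2,1,1,1]),
  ([3,2,1],[3,2,1],[3,3]),
  ([2,2,1],[4,1],[2,2,1]),
  ([3,1,1,1],[4,1,1],[2,2,2]),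
  ([4,2],[4,1,1],[3,2,1]),
  ([4,1,1],[3,1,1,1],[2,2,2]),
  ([2,1,1,1],[3,2],[4,1]),
  ([3,2,1],[3,3],[5,1]),
  ([2,1,1,1,1],[3,2,1],[2,2,2]),
  ([3,2,1],[3,3],[3,2,1]),
  ([2,1,1,1],[3,2],[3,1,1]),
  ([4,1,1],[3,1,1,1],[5,1]),
  ([4,2],[2,1,1,1,1],[5,1]),
  ([2,1,1,1],[1,1,1,1,1],[2,1,1,1]),
  ([2,2,1,1],[3,1,1,1],[3,2,1]),
  ([4,2],[2,2,2],[3,3]),
  ([3,2],[2,2,1],[3,2]),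
  ([5,1],[3,3],[2,2,1,1]),
  ([4,1,1],[3,2,1],[3,3]),
  ([3,1,1],[2,1,1,1],[4,1]),
  ([3,1,1,1],[2,2,2],[4,1,1]),
  ([3,1,1,1],[3,3],[3,2,1]),
  ([3,2,1],[4,1,1],[4,2]),
  ([3,2,1],[3,2,1],[3,1,1,1]),
  ([3,1,1],[3,2],[3,1,1]),
  ([2,1,1,1],[4,1],[5]),
  ([2,2,1,1],[3,3],[2,2,1,1]),
  ([2,1,1,1],[3,1,1],[3,1,1]),
  ([3,1,1],[3,1,1],[5]),
  ([2,2,1,1],[3,2,1],[4,2]),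
  ([3,1,1],[3,1,1],[1,1,1,1,1]),
  ([4,1,1],[2,2,1,1],[3,1,1,1]),
  ([3,2],[2,1,1,1],[3,1,1]),
  ([3,1,1,1],[2,2,1,1],[4,1,1]),
  ([4,2],[3,3],[2,1,1,1,1]),
  ([4,1,1],[2,2,1,1],[3,3]),
  ([2,2,1,1],[4,1,1],[3,2,1]),
  ([4,2],[2,2,1,1],[4,1,1]),
  ([3,1,1],[2,1,1,1],[3,2]),
  ([3,1,1],[4,1],[2,2,1]),
  ([4,2],[2,2,1,1],[4,2]),
  ([2,2,1],[3,1,1],[2,1,1,1]),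
  ([2,1,1,1],[3,1,1],[4,1]),
  ([3,2,1],[2,1,1,1,1],[3,3]),
  ([4,2],[3,1,1,1],[3,3]),
  ([4,2],[2,2,2],[2,2,1,1]),
  ([3,1,1,1],[2,2,2],[3,3]),
  ([4,1,1],[2,2,2],[4,1,1]),
  ([3,2,1],[4,1,1],[4,1,1]),
  ([3,2,1],[4,1,1],[5,1]),
  ([4,1,1],[2,2,2],[2,2,2]),
  ([3,1,1],[3,2],[4,1]),
  ([3,1],[2,1,1],[2,2]),
  ([3,2,1],[4,2],[4,2]),
  ([3,2],[3,1,1],[2,2,1]),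
  ([4,1,1],[3,2,1],[2,2,2]),
  ([4,1,1],[2,2,1,1],[4,2]),
  ([3,1],[2,1,1],[4]),
  ([2,2,2],[2,2,1,1],[3,2,1]),
  ([2,2,1,1],[3,1,1,1],[2,2,2]),
  ([4,1,1],[3,2,1],[5,1]),
  ([2,2,1,1],[2,2,2],[4,2]),
  ([3,2,1],[2,1,1,1,1],[2,2,1,1]),
  ([2,1,1,1,1],[3,2,1],[4,2]),
  ([2,1,1],[2,1,1],[3,1]),
  ([3,1,1],[3,1,1],[3,2]),
  ([3,1,1],[3,1,1],[4,1]),
  ([2,1,1,1,1],[2,2,1,1],[2,2,1,1]),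
  ([4,1,1],[2,2,1,1],[5,1]),
  ([4,2],[3,3],[3,1,1,1]),
  ([3,1,1],[3,2],[2,2,1]),
  ([3,1,1,1],[3,2,1],[4,2]),
  ([2,2,1,1],[2,2,1,1],[3,2,1]),
  ([4,1,1],[2,2,1,1],[3,2,1]),
  ([4,1],[3,1,1],[2,2,1]),
  ([3,1,1,1],[3,2,1],[2,2,1,1]),
  ([2,2,1,1],[4,2],[2,2,2]),
  ([2,1,1,1,1],[2,2,1,1],[2,2,2]),
  ([2,2,1],[2,2,1],[1,1,1,1,1]),
  ([4,1],[3,2],[2,1,1,1]),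
  ([2,2,1,1],[2,1,1,1,1],[2,2,2]),
  ([4,2],[3,2,1],[3,1,1,1]),
  ([2,2,1],[1,1,1,1,1],[2,2,1]),
  ([2,1,1],[2,1,1],[1,1,1,1]),
  ([4,1,1],[4,2],[2,2,1,1]),
  ([2,1,1,1],[2,1,1,1],[2,2,1]),
  ([3,2],[2,2,1],[3,1,1]),
  ([3,1,1,1],[3,2,1],[3,3]),
  ([2,2,1,1],[4,2],[3,2,1]),
  ([2,2,1],[2,2,1],[3,1,1]),
  ([3,1,1,1],[2,2,2],[3,1,1,1]),
  ([4,1],[2,1,1,1],[3,2]),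
  ([4,1],[2,2,1],[4,1]),
  ([3,1,1],[2,1,1,1],[2,1,1,1]),
  ([3,2,1],[3,1,1,1],[5,1]),
  ([3,2],[2,2,1],[2,1,1,1]),
  ([2,2,1],[3,1,1],[3,1,1]),
  ([3,2,1],[5,1],[3,2,1]),
  ([2,2,1],[2,1,1,1],[3,1,1]),
  ([4,2],[2,2,1,1],[5,1]),
  ([5,1],[4,2],[2,2,1,1]),
  ([2,2,2],[3,2,1],[2,2,1,1]),
  ([3,1,1],[3,2],[2,1,1,1]),
  ([4,1],[3,1,1],[4,1]),
  ([2,1,1,1],[2,2,1],[2,1,1,1]),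
  ([3,2,1],[4,1,1],[3,3]),
  ([5,1],[2,1,1,1,1],[5,1]),
  ([4,2],[3,2,1],[4,2]),
  ([3,1],[2,1,1],[2,1,1]),
  ([3,2,1],[4,1,1],[2,2,2]),
  ([2,2,1,1],[3,2,1],[3,3]),
  ([2,2,1,1],[4,2],[5,1]),
  ([3,2,1],[4,2],[3,2,1]),
  ([2,2,1,1],[3,3],[4,1,1]),
  ([3,2,1],[2,1,1,1,1],[4,1,1]),
  ([2,1,1,1,1],[2,2,2],[2,2,1,1]),
  ([3,2,1],[3,2,1],[2,1,1,1,1]),
  ([3,2,1],[4,1,1],[2,2,1,1]),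
  ([2,1,1,1],[2,2,1],[2,2,1]),
  ([2,2,1,1],[2,2,2],[3,1,1,1]),
  ([3,2,1],[3,1,1,1],[2,2,1,1]),
  ([3,2,1],[3,1,1,1],[3,2,1]),
  ([2,2,1,1],[3,2,1],[2,2,1,1]),
  ([2,2,1],[2,2,1],[2,1,1,1]),
  ([2,2,1,1],[2,2,2],[2,1,1,1,1]),
  ([3,1,1],[3,1,1],[2,1,1,1]),
  ([4,2],[2,1,1,1,1],[4,2]),
  ([3,2,1],[3,3],[3,1,1,1]),
  ([2,2,1,1],[3,2,1],[3,1,1,1]),
  ([2,2,1],[2,1,1,1],[2,2,1]),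
  ([2,2,1,1],[4,2],[4,1,1]),
  ([4,2],[3,1,1,1],[3,2,1]),
  ([3,1,1],[2,2,1],[2,2,1]),
  ([3,1,1,1],[2,2,2],[3,2,1]),
  ([3,2],[3,1,1],[3,1,1]),
  ([3,2],[3,1,1],[2,1,1,1]),
  ([3,2,1],[3,1,1,1],[3,3]),
  ([4,2],[3,2,1],[2,2,2]),
  ([4,1],[3,1,1],[2,1,1,1]),
  ([4,1,1],[3,2,1],[2,2,1,1]),
  ([3,2,1],[5,1],[2,2,2]),
  ([3,1,1,1],[2,2,1,1],[3,2,1]),
  ([3,1,1],[3,1,1],[3,1,1]),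
  ([3,2,1],[4,2],[3,1,1,1]),
  ([4,1,1],[3,3],[2,2,1,1]),
  ([3,2,1],[2,2,2],[5,1]),
  ([3,2],[3,1,1],[4,1]),
  ([3,2,1],[2,2,2],[3,1,1,1]),
  ([3,2,1],[2,2,2],[4,2]),
  ([3,2,1],[3,1,1,1],[4,2]),
  ([4,4,3,2],[4,4,3,2],[5,2,2,2,1,1]),
  ([3,2,1],[3,1,1,1],[2,2,2]),
  ([3,2,1],[2,2,1,1],[2,2,1,1]),
  ([3,2,1],[3,3],[4,1,1]),
  ([3,2,1],[2,1,1,1,1],[2,2,2]),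
  ([3,2,1],[2,2,1,1],[4,2]),
  ([3,2,1],[2,2,1,1],[3,3]),
  ([3,1,1],[2,2,1],[2,1,1,1]),
  ([3,1,1,1],[2,2,1,1],[2,2,2]),
  ([3,2],[2,1,1,1],[2,2,1]),
  ([4,2],[2,2,2],[3,2,1]),
  ([4,2],[2,2,2],[5,1]),
  ([3,1],[3,1],[2,1,1]),
  ([4,2],[2,2,1,1],[6]),
  ([3,1,1],[2,2,1],[4,1]),
  ([3,1,1,1],[2,2,2],[2,2,1,1]),
  ([2,2,1,1],[2,2,1,1],[3,1,1,1]),
  ([4,2],[5,1],[2,2,1,1]),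
  ([2,1,1],[1,1,1,1],[2,1,1]),
  ([4,2],[2,2,1,1],[3,2,1]),
  ([3,1,1],[2,1,1,1],[3,1,1]),
  ([2,1,1,1],[3,1,1],[2,2,1]),
  ([3,2,1],[2,2,2],[2,1,1,1,1]),
  ([3,2,1],[2,1,1,1,1],[3,2,1]),
  ([2,1,1,1],[3,2],[2,2,1]),
  ([3,1],[3,1],[3,1]),
  ([3,1,1],[1,1,1,1,1],[3,1,1]),
  ([2,2,1,1],[3,2,1],[2,2,2]),
  ([2,1,1,1],[2,2,1],[3,1,1]),
  ([3,1,1],[2,2,1],[3,1,1]),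
  ([3,2,1],[2,2,2],[3,2,1]),
  ([2,1,1,1,1],[2,2,2],[3,2,1]),
  ([2,2,1,1],[2,1,1,1,1],[2,2,1,1]),
  ([4,2],[3,2,1],[2,2,1,1]),
  ([4,2],[4,1,1],[2,2,1,1]),
  ([3,2,1],[2,2,1,1],[3,1,1,1]),
  ([4,2],[3,3],[2,2,2]),
  ([2,2,1,1],[3,1,1,1],[2,2,1,1]),
  ([3,2,1],[3,2,1],[2,2,2]),
  ([2,2,1,1],[2,2,2],[2,2,2]),
  ([4,2],[3,2,1],[4,1,1]),
  ([2,1,1],[3,1],[3,1]),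
  ([3,2,1],[3,2,1],[6]),
  ([3,2,1],[2,2,1,1],[4,1,1])]

/-- The derivations of the table. -/
def tblD33 : List Dv := [
  .b 8,
  .b 5,
  .b 0,
  .b 4,
  .c 0 (.b 0) (.c 0 (.b 0) (.b 2)),
  .c 0 (.b 0) (.b 3),
  .c 0 (.b 0) (.c 0 (.b 0) (.c 0 (.b 0) (.s13 (.tw (.c 0 (.b 0) (.c 0 (.b 0) (.b 0))))))),
  .b 7,
  .tw (.c 0 (.b 0) (.s13 (.tw (.c 0 (.b 0) (.b 0))))),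
  .tw (.c 0 (.b 0) (.c 0 (.b 0) (.b 0))),
  .c 0 (.b 0) (.c 0 (.b 0) (.c 0 (.b 0) (.tw (.c 0 (.b 0) (.c 0 (.b 0) (.b 0)))))),
  .c 0 (.b 0) (.c 0 (.b 0) (.c 0 (.b 0) (.c 0 (.b 0) (.s13 (.tw (.c 0 (.b 0) (.b 0))))))),
  .c 0 (.b 0) (.c 0 (.b 0) (.c 0 (.b 0) (.tw (.c 0 (.b 0) (.s12 (.s13 (.s12 (.tw (.c 0 (.b 0) (.b 0)))))))))),
  .c 0 (.b 0) (.c 0 (.b 0) (.c 0 (.b 0) (.b 1))),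
  .c 0 (.b 0) (.c 0 (.b 0) (.c 0 (.b 0) (.c 0 (.b 0) (.tw (.c 0 (.b 0) (.b 0)))))),
  .c 0 (.b 0) (.c 0 (.b 0) (.s13 (.tw (.c 0 (.b 0) (.c 0 (.b 0) (.c 0 (.b 0) (.b 0))))))),
  .c 0 (.b 0) (.c 0 (.b 0) (.c 0 (.b 0) (.c 0 (.b 0) (.c 0 (.b 0) (.b 0))))),
  .s12 (.s13 (.s12 (.tw (.c 0 (.b 0) (.c 0 (.b 0) (.b 0)))))),
  .s13 (.tw (.c 0 (.b 0) (.c 0 (.b 0) (.b 0)))),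
  .b 6,
  .s12 (.b 8),
  .tw (.c 0 (.b 0) (.c 0 (.b 0) (.c 0 (.b 0) (.c 0 (.b 0) (.s13 (.tw (.c 0 (.b 0) (.b 0)))))))),
  .tw (.c 0 (.b 0) (.b 0)),
  .tw (.c 0 (.b 0) (.c 0 (.b 0) (.c 0 (.b 0) (.s13 (.tw (.c 0 (.b 0) (.c 0 (.b 0) (.b 0)))))))),
  .c 0 (.b 0) (.c 0 (.b 0) (.tw (.c 0 (.b 0) (.s12 (.s13 (.s12 (.tw (.c 0 (.b 0) (.c 0 (.b 0) (.b 0)))))))))),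
  .c 0 (.b 0) (.s13 (.tw (.c 0 (.b 0) (.b 0)))),
  .c 0 (.b 0) (.b 0),
  .c 0 (.b 0) (.c 0 (.b 0) (.tw (.c 0 (.b 0) (.c 0 (.b 0) (.c 0 (.b 0) (.b 0)))))),
  .tw (.c 0 (.b 0) (.s12 (.s13 (.s12 (.tw (.c 0 (.b 0) (.b 0))))))),
  .s12 (.s13 (.s12 (.tw (.c 0 (.b 0) (.b 0))))),
  .c 0 (.b 0) (.c 0 (.b 0) (.b 0)),
  .s13 (.tw (.c 0 (.b 0) (.b 0))),
  .c 0 (.tw (.c 0 (.b 0) (.b 0))) (.c 0 (.tw (.c 0 (.b 0) (.b 0))) (.s12 (.s13 (.s12 (.tw (.c 0 (.b 0) (.b 0))))))),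
  .c 0 (.b 0) (.c 0 (.b 0) (.tw (.c 0 (.b 0) (.b 1)))),
  .c 0 (.b 0) (.c 0 (.b 0) (.tw (.c 0 (.b 0) (.c 0 (.b 0) (.s13 (.tw (.c 0 (.b 0) (.b 0)))))))),
  .tw (.c 0 (.b 0) (.c 0 (.b 0) (.s13 (.tw (.c 0 (.b 0) (.c 0 (.b 0) (.c 0 (.b 0) (.b 0)))))))),
  .c 0 (.b 0) (.c 0 (.b 0) (.tw (.c 0 (.b 0) (.s12 (.s13 (.s12 (.tw (.c 0 (.b 0) (.s12 (.s13 (.s12 (.tw (.c 0 (.b 0) (.b 0)))))))))))))),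
  .tw (.c 0 (.b 0) (.c 0 (.s13 (.tw (.c 0 (.b 0) (.b 0)))) (.s13 (.tw (.c 0 (.b 0) (.c 0 (.b 0) (.b 0))))))),
  .c 0 (.b 0) (.tw (.c 0 (.b 0) (.c 0 (.b 0) (.c 0 (.b 0) (.s13 (.tw (.c 0 (.b 0) (.b 0)))))))),
  .c 0 (.b 0) (.c 0 (.b 0) (.c 0 (.b 0) (.tw (.c 0 (.b 0) (.s13 (.tw (.c 0 (.b 0) (.b 0)))))))),
  .c 0 (.b 0) (.c 0 (.s13 (.tw (.c 0 (.b 0) (.b 0)))) (.s13 (.tw (.c 0 (.b 0) (.c 0 (.b 0) (.b 0)))))),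
  .c 0 (.b 0) (.tw (.c 0 (.b 0) (.c 0 (.b 0) (.s13 (.tw (.c 0 (.b 0) (.c 0 (.b 0) (.b 0)))))))),
  .c 0 (.tw (.c 0 (.b 0) (.b 0))) (.tw (.c 0 (.tw (.c 0 (.b 0) (.b 0))) (.s12 (.s13 (.s12 (.tw (.c 0 (.b 0) (.b 0)))))))),
  .c 0 (.b 0) (.tw (.c 0 (.b 0) (.c 0 (.b 0) (.c 0 (.b 0) (.c 0 (.b 0) (.b 0)))))),
  .s12 (.b 4),
  .c 0 (.b 0) (.c 0 (.b 0) (.tw (.c 0 (.b 0) (.c 0 (.b 0) (.s12 (.s13 (.s12 (.tw (.c 0 (.b 0) (.b 0)))))))))),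
  .b 1,
  .tw (.c 0 (.b 0) (.c 0 (.b 0) (.c 0 (.b 0) (.c 0 (.b 0) (.c 0 (.b 0) (.b 0)))))),
  .c 0 (.b 0) (.s13 (.tw (.c 0 (.b 0) (.c 0 (.b 0) (.c 0 (.b 0) (.c 0 (.b 0) (.b 0))))))),
  .s13 (.tw (.c 0 (.s12 (.s13 (.s12 (.tw (.c 0 (.b 0) (.b 0)))))) (.c 0 (.s12 (.s13 (.s12 (.tw (.c 0 (.b 0) (.b 0)))))) (.s13 (.tw (.c 0 (.b 0) (.b 0))))))),
  .tw (.c 0 (.b 0) (.c 0 (.b 0) (.s13 (.tw (.c 0 (.b 0) (.b 0)))))),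
  .c 0 (.s13 (.tw (.c 0 (.b 0) (.b 0)))) (.s13 (.tw (.c 0 (.b 0) (.c 0 (.b 0) (.c 0 (.b 0) (.b 0)))))),
  .s12 (.s13 (.s12 (.tw (.c 0 (.b 0) (.s12 (.s13 (.s12 (.tw (.c 0 (.b 0) (.b 0)))))))))),
  .c 0 (.b 0) (.tw (.c 0 (.b 0) (.b 0))),
  .c 0 (.b 0) (.c 0 (.b 0) (.c 0 (.s13 (.tw (.c 0 (.b 0) (.b 0)))) (.s13 (.tw (.c 0 (.b 0) (.b 0)))))),
  .c 0 (.b 0) (.c 0 (.b 0) (.c 0 (.b 0) (.s12 (.s13 (.s12 (.tw (.c 0 (.b 0) (.s12 (.s13 (.s12 (.tw (.c 0 (.b 0) (.b 0))))))))))))),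
  .c 0 (.b 0) (.s12 (.s13 (.s12 (.tw (.c 0 (.b 0) (.b 0)))))),
  .c 0 (.b 0) (.tw (.c 0 (.b 0) (.c 0 (.b 0) (.s12 (.s13 (.s12 (.tw (.c 0 (.b 0) (.s12 (.s13 (.s12 (.tw (.c 0 (.b 0) (.b 0)))))))))))))),
  .tw (.c 0 (.b 0) (.c 0 (.b 0) (.c 0 (.b 0) (.b 0)))),
  .tw (.c 0 (.s12 (.s13 (.s12 (.tw (.c 0 (.b 0) (.b 0)))))) (.s12 (.s13 (.s12 (.tw (.c 0 (.s12 (.s13 (.s12 (.tw (.c 0 (.b 0) (.b 0)))))) (.s12 (.s13 (.s12 (.tw (.c 0 (.b 0) (.b 0)))))))))))),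
  .c 0 (.b 0) (.c 0 (.b 0) (.tw (.c 0 (.b 0) (.s13 (.tw (.c 0 (.b 0) (.c 0 (.b 0) (.b 0)))))))),
  .c 0 (.b 0) (.c 0 (.b 0) (.tw (.c 0 (.s13 (.tw (.c 0 (.b 0) (.b 0)))) (.s13 (.tw (.c 0 (.b 0) (.b 0))))))),
  .tw (.c 0 (.s13 (.tw (.c 0 (.b 0) (.b 0)))) (.s13 (.tw (.c 0 (.b 0) (.b 0))))),
  .tw (.c 0 (.b 0) (.c 0 (.b 0) (.c 0 (.s13 (.tw (.c 0 (.b 0) (.b 0)))) (.s13 (.tw (.c 0 (.b 0) (.b 0))))))),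
  .c 0 (.tw (.c 0 (.b 0) (.b 0))) (.c 0 (.tw (.c 0 (.b 0) (.b 0))) (.tw (.c 0 (.b 0) (.b 0)))),
  .c 0 (.b 0) (.tw (.c 0 (.b 0) (.c 0 (.b 0) (.b 1)))),
  .c 0 (.b 0) (.tw (.c 0 (.b 0) (.c 0 (.b 0) (.s12 (.s13 (.s12 (.tw (.c 0 (.b 0) (.c 0 (.b 0) (.b 0)))))))))),
  .tw (.c 0 (.s12 (.s13 (.s12 (.tw (.c 0 (.b 0) (.b 0)))))) (.s12 (.s13 (.s12 (.tw (.c 0 (.b 0) (.b 0))))))),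
  .c 0 (.tw (.c 0 (.b 0) (.b 0))) (.tw (.c 0 (.s12 (.s13 (.s12 (.tw (.c 0 (.b 0) (.b 0)))))) (.s12 (.s13 (.s12 (.tw (.c 0 (.b 0) (.b 0)))))))),
  .tw (.c 0 (.b 0) (.s13 (.tw (.c 0 (.b 0) (.c 0 (.b 0) (.c 0 (.b 0) (.b 0))))))),
  .tw (.c 0 (.s12 (.s13 (.s12 (.tw (.c 0 (.b 0) (.b 0)))))) (.s12 (.s13 (.s12 (.tw (.c 0 (.tw (.c 0 (.b 0) (.b 0))) (.s12 (.s13 (.s12 (.tw (.c 0 (.b 0) (.b 0)))))))))))),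
  .c 0 (.tw (.c 0 (.b 0) (.b 0))) (.b 2),
  .c 0 (.b 0) (.c 0 (.b 0) (.c 0 (.b 0) (.b 0))),
  .c 0 (.b 0) (.s13 (.tw (.c 0 (.b 0) (.c 0 (.b 0) (.b 0))))),
  .c 0 (.b 0) (.c 0 (.b 0) (.tw (.c 0 (.s12 (.s13 (.s12 (.tw (.c 0 (.b 0) (.b 0)))))) (.s12 (.s13 (.s12 (.tw (.c 0 (.b 0) (.b 0))))))))),
  .c 0 (.b 0) (.tw (.c 0 (.b 0) (.s13 (.tw (.c 0 (.b 0) (.c 0 (.b 0) (.s13 (.tw (.c 0 (.b 0) (.b 0)))))))))),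
  .c 0 (.b 0) (.c 0 (.b 0) (.s13 (.tw (.c 0 (.b 0) (.c 0 (.b 0) (.s13 (.tw (.c 0 (.b 0) (.b 0))))))))),
  .tw (.c 0 (.tw (.c 0 (.b 0) (.s13 (.tw (.c 0 (.b 0) (.b 0)))))) (.s12 (.s13 (.s12 (.tw (.c 0 (.b 0) (.c 0 (.b 0) (.b 0)))))))),
  .c 0 (.b 0) (.c 0 (.b 0) (.c 0 (.tw (.c 0 (.b 0) (.b 0))) (.tw (.c 0 (.b 0) (.b 0))))),
  .c 0 (.b 0) (.tw (.c 0 (.b 0) (.c 0 (.b 0) (.c 0 (.b 0) (.s12 (.s13 (.s12 (.tw (.c 0 (.b 0) (.b 0)))))))))),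
  .s12 (.s13 (.s12 (.tw (.c 0 (.b 0) (.c 0 (.b 0) (.c 0 (.b 0) (.b 0))))))),
  .tw (.c 0 (.b 0) (.c 0 (.b 0) (.s12 (.s13 (.s12 (.tw (.c 0 (.b 0) (.c 0 (.b 0) (.s12 (.s13 (.s12 (.tw (.c 0 (.b 0) (.b 0)))))))))))))),
  .tw (.c 0 (.b 0) (.c 0 (.b 0) (.c 0 (.b 0) (.s13 (.tw (.c 0 (.b 0) (.b 0))))))),
  .s12 (.s13 (.s12 (.b 5))),
  .tw (.c 0 (.s12 (.s13 (.s12 (.tw (.c 0 (.b 0) (.c 0 (.b 0) (.b 0))))))) (.s12 (.s13 (.s12 (.tw (.c 0 (.b 0) (.c 0 (.b 0) (.b 0)))))))),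
  .tw (.c 0 (.b 0) (.c 0 (.b 0) (.s13 (.tw (.c 0 (.b 0) (.c 0 (.b 0) (.s13 (.tw (.c 0 (.b 0) (.b 0)))))))))),
  .s13 (.tw (.c 0 (.b 0) (.c 0 (.b 0) (.c 0 (.b 0) (.b 0))))),
  .c 0 (.b 0) (.tw (.c 0 (.s13 (.tw (.c 0 (.b 0) (.b 0)))) (.s12 (.s13 (.s12 (.tw (.c 0 (.b 0) (.s12 (.s13 (.s12 (.tw (.c 0 (.b 0) (.b 0))))))))))))),
  .c 0 (.s12 (.s13 (.s12 (.tw (.c 0 (.b 0) (.b 0)))))) (.s12 (.s13 (.s12 (.tw (.c 0 (.s12 (.s13 (.s12 (.tw (.c 0 (.b 0) (.b 0)))))) (.s12 (.s13 (.s12 (.tw (.c 0 (.b 0) (.b 0))))))))))),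
  .tw (.c 0 (.b 0) (.c 0 (.b 0) (.c 0 (.b 0) (.s12 (.s13 (.s12 (.tw (.c 0 (.b 0) (.s12 (.s13 (.s12 (.tw (.c 0 (.b 0) (.b 0)))))))))))))),
  .tw (.c 0 (.b 0) (.s13 (.tw (.c 0 (.b 0) (.c 0 (.b 0) (.b 0)))))),
  .c 0 (.s13 (.tw (.c 0 (.b 0) (.b 0)))) (.s13 (.tw (.c 0 (.b 0) (.b 0)))),
  .tw (.c 0 (.s13 (.tw (.c 0 (.b 0) (.b 0)))) (.s13 (.tw (.c 0 (.b 0) (.c 0 (.b 0) (.c 0 (.b 0) (.b 0))))))),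
  .c 0 (.b 0) (.c 0 (.b 0) (.tw (.c 0 (.tw (.c 0 (.b 0) (.b 0))) (.s12 (.s13 (.s12 (.tw (.c 0 (.b 0) (.b 0))))))))),
  .c 0 (.b 0) (.c 0 (.b 0) (.s13 (.tw (.c 0 (.b 0) (.b 0))))),
  .c 0 (.b 0) (.c 0 (.b 0) (.s13 (.tw (.c 0 (.b 0) (.b 1))))),
  .c 0 (.tw (.c 0 (.b 0) (.b 0))) (.s12 (.s13 (.s12 (.tw (.c 0 (.tw (.c 0 (.b 0) (.b 0))) (.s12 (.s13 (.s12 (.tw (.c 0 (.b 0) (.b 0))))))))))),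
  .c 0 (.b 0) (.tw (.c 0 (.b 0) (.s12 (.s13 (.s12 (.tw (.c 0 (.b 0) (.c 0 (.b 0) (.c 0 (.b 0) (.b 0)))))))))),
  .tw (.c 0 (.b 0) (.c 0 (.b 0) (.c 0 (.b 0) (.s12 (.s13 (.s12 (.tw (.c 0 (.b 0) (.c 0 (.b 0) (.b 0)))))))))),
  .tw (.c 0 (.b 0) (.s13 (.tw (.c 0 (.b 0) (.c 0 (.b 0) (.c 0 (.b 0) (.c 0 (.b 0) (.b 0)))))))),
  .s13 (.tw (.c 0 (.s12 (.s13 (.s12 (.tw (.c 0 (.b 0) (.b 0)))))) (.c 0 (.s13 (.tw (.c 0 (.b 0) (.b 0)))) (.s13 (.tw (.c 0 (.b 0) (.b 0))))))),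
  .c 0 (.tw (.c 0 (.b 0) (.b 0))) (.tw (.c 0 (.b 0) (.c 0 (.b 0) (.c 0 (.b 0) (.b 0))))),
  .tw (.s12 (.s13 (.s12 (.b 5)))),
  .c 0 (.tw (.c 0 (.b 0) (.b 0))) (.s13 (.tw (.c 0 (.s12 (.s13 (.s12 (.tw (.c 0 (.b 0) (.b 0)))))) (.s13 (.tw (.c 0 (.b 0) (.b 0))))))),
  .c 0 (.b 0) (.c 0 (.b 0) (.s12 (.s13 (.s12 (.tw (.c 0 (.b 0) (.c 0 (.b 0) (.c 0 (.b 0) (.b 0))))))))),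
  .c 0 (.s12 (.s13 (.s12 (.tw (.c 0 (.b 0) (.b 0)))))) (.s12 (.s13 (.s12 (.tw (.c 0 (.tw (.c 0 (.b 0) (.b 0))) (.s12 (.s13 (.s12 (.tw (.c 0 (.b 0) (.b 0))))))))))),
  .s13 (.tw (.c 0 (.s12 (.s13 (.s12 (.tw (.c 0 (.b 0) (.b 0)))))) (.s13 (.tw (.c 0 (.tw (.c 0 (.b 0) (.b 0))) (.s12 (.s13 (.s12 (.tw (.c 0 (.b 0) (.b 0))))))))))),
  .tw (.c 0 (.tw (.c 0 (.b 0) (.c 0 (.b 0) (.b 0)))) (.s12 (.s13 (.s12 (.tw (.c 0 (.b 0) (.c 0 (.b 0) (.b 0)))))))),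
  .b 2,
  .c 0 (.tw (.c 0 (.b 0) (.b 0))) (.s12 (.s13 (.s12 (.tw (.c 0 (.s12 (.s13 (.s12 (.tw (.c 0 (.b 0) (.b 0)))))) (.s12 (.s13 (.s12 (.tw (.c 0 (.b 0) (.b 0))))))))))),
  .c 0 (.tw (.c 0 (.b 0) (.b 0))) (.c 0 (.s12 (.s13 (.s12 (.tw (.c 0 (.b 0) (.b 0)))))) (.s12 (.s13 (.s12 (.tw (.c 0 (.b 0) (.b 0))))))),
  .c 0 (.s12 (.s13 (.s12 (.tw (.c 0 (.b 0) (.b 0)))))) (.tw (.c 0 (.s12 (.s13 (.s12 (.tw (.c 0 (.b 0) (.b 0)))))) (.s12 (.s13 (.s12 (.tw (.c 0 (.b 0) (.b 0)))))))),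
  .tw (.c 0 (.b 0) (.c 0 (.b 0) (.c 0 (.b 0) (.c 0 (.b 0) (.s12 (.s13 (.s12 (.tw (.c 0 (.b 0) (.b 0)))))))))),
  .tw (.c 0 (.s13 (.tw (.c 0 (.b 0) (.b 0)))) (.c 0 (.s13 (.tw (.c 0 (.b 0) (.b 0)))) (.s13 (.tw (.c 0 (.b 0) (.b 0)))))),
  .tw (.c 0 (.b 0) (.c 0 (.s13 (.tw (.c 0 (.b 0) (.b 0)))) (.s12 (.s13 (.s12 (.tw (.c 0 (.b 0) (.s12 (.s13 (.s12 (.tw (.c 0 (.b 0) (.b 0))))))))))))),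
  .tw (.c 0 (.b 0) (.c 0 (.b 0) (.c 0 (.b 0) (.c 0 (.b 0) (.b 0))))),
  .c 0 (.b 0) (.c 0 (.b 0) (.c 0 (.tw (.c 0 (.b 0) (.b 0))) (.s13 (.tw (.c 0 (.b 0) (.b 0)))))),
  .c 0 (.tw (.c 0 (.b 0) (.c 0 (.b 0) (.b 0)))) (.s12 (.s13 (.s12 (.tw (.c 0 (.b 0) (.c 0 (.b 0) (.b 0))))))),
  .s12 (.s13 (.s12 (.tw (.c 0 (.tw (.c 0 (.b 0) (.b 0))) (.s12 (.s13 (.s12 (.tw (.c 0 (.tw (.c 0 (.b 0) (.b 0))) (.s12 (.s13 (.s12 (.tw (.c 0 (.b 0) (.b 0))))))))))))))),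
  .c 0 (.s12 (.s13 (.s12 (.tw (.c 0 (.b 0) (.c 0 (.b 0) (.b 0))))))) (.s12 (.s13 (.s12 (.tw (.c 0 (.b 0) (.c 0 (.b 0) (.b 0))))))),
  .c 0 (.b 0) (.tw (.c 0 (.s13 (.tw (.c 0 (.b 0) (.b 0)))) (.s13 (.tw (.c 0 (.b 0) (.c 0 (.b 0) (.b 0))))))),
  .tw (.c 0 (.b 0) (.c 0 (.b 0) (.s12 (.s13 (.s12 (.tw (.c 0 (.b 0) (.c 0 (.b 0) (.c 0 (.b 0) (.b 0)))))))))),
  .tw (.c 0 (.s12 (.s13 (.s12 (.tw (.c 0 (.b 0) (.b 0)))))) (.c 0 (.s12 (.s13 (.s12 (.tw (.c 0 (.b 0) (.b 0)))))) (.s12 (.s13 (.s12 (.tw (.c 0 (.b 0) (.b 0)))))))),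
  .c 0 (.b 0) (.c 0 (.b 0) (.c 0 (.b 0) (.s12 (.s13 (.s12 (.tw (.c 0 (.b 0) (.c 0 (.b 0) (.b 0))))))))),
  .tw (.b 5),
  .c 0 (.b 0) (.c 0 (.b 0) (.s12 (.s13 (.s12 (.tw (.c 0 (.s12 (.s13 (.s12 (.tw (.c 0 (.b 0) (.b 0)))))) (.s12 (.s13 (.s12 (.tw (.c 0 (.b 0) (.b 0)))))))))))),
  .tw (.c 0 (.s13 (.tw (.c 0 (.b 0) (.b 0)))) (.s12 (.s13 (.s12 (.tw (.c 0 (.b 0) (.c 0 (.b 0) (.s12 (.s13 (.s12 (.tw (.c 0 (.b 0) (.b 0))))))))))))),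
  .c 0 (.b 0) (.tw (.c 0 (.b 0) (.s13 (.tw (.c 0 (.b 0) (.c 0 (.b 0) (.c 0 (.b 0) (.b 0)))))))),
  .c 0 (.b 0) (.c 0 (.b 0) (.s12 (.s13 (.s12 (.tw (.c 0 (.b 0) (.c 0 (.b 0) (.s12 (.s13 (.s12 (.tw (.c 0 (.b 0) (.b 0))))))))))))),
  .tw (.c 0 (.b 0) (.c 0 (.b 0) (.s13 (.tw (.c 0 (.b 0) (.c 0 (.b 0) (.b 0))))))),
  .c 0 (.tw (.c 0 (.b 0) (.c 0 (.b 0) (.b 0)))) (.tw (.c 0 (.b 0) (.c 0 (.b 0) (.b 0)))),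
  .tw (.c 0 (.s13 (.tw (.c 0 (.b 0) (.c 0 (.b 0) (.b 0))))) (.s13 (.tw (.c 0 (.b 0) (.c 0 (.b 0) (.b 0)))))),
  .s13 (.tw (.c 0 (.s12 (.s13 (.s12 (.tw (.c 0 (.b 0) (.b 0)))))) (.s13 (.tw (.c 0 (.b 0) (.b 0)))))),
  .tw (.c 0 (.s12 (.s13 (.s12 (.tw (.c 0 (.b 0) (.b 0)))))) (.b 2)),
  .tw (.c 0 (.tw (.c 0 (.b 0) (.b 0))) (.s12 (.s13 (.s12 (.tw (.c 0 (.tw (.c 0 (.b 0) (.b 0))) (.s12 (.s13 (.s12 (.tw (.c 0 (.b 0) (.b 0)))))))))))),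
  .c 0 (.b 0) (.c 0 (.tw (.c 0 (.b 0) (.b 0))) (.tw (.c 0 (.b 0) (.s12 (.s13 (.s12 (.tw (.c 0 (.b 0) (.b 0))))))))),
  .tw (.c 0 (.b 0) (.c 0 (.b 0) (.c 0 (.b 0) (.b 1)))),
  .tw (.c 0 (.b 0) (.c 0 (.s12 (.s13 (.s12 (.tw (.c 0 (.b 0) (.b 0)))))) (.s12 (.s13 (.s12 (.tw (.c 0 (.b 0) (.s12 (.s13 (.s12 (.tw (.c 0 (.b 0) (.b 0))))))))))))),
  .c 0 (.s12 (.s13 (.s12 (.tw (.c 0 (.b 0) (.b 0)))))) (.s13 (.tw (.c 0 (.s12 (.s13 (.s12 (.tw (.c 0 (.b 0) (.b 0)))))) (.s13 (.tw (.c 0 (.b 0) (.b 0))))))),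
  .b 3,
  .c 0 (.b 0) (.c 0 (.tw (.c 0 (.b 0) (.b 0))) (.s13 (.tw (.c 0 (.b 0) (.c 0 (.b 0) (.b 0)))))),
  .tw (.c 0 (.b 0) (.c 0 (.b 0) (.s12 (.s13 (.s12 (.tw (.c 0 (.s12 (.s13 (.s12 (.tw (.c 0 (.b 0) (.b 0)))))) (.s12 (.s13 (.s12 (.tw (.c 0 (.b 0) (.b 0))))))))))))),
  .c 0 (.b 0) (.s13 (.tw (.c 0 (.b 0) (.c 0 (.b 0) (.c 0 (.b 0) (.b 0)))))),
  .s12 (.s13 (.s12 (.s12 (.b 4)))),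
  .c 0 (.b 0) (.c 0 (.b 0) (.c 0 (.b 0) (.s13 (.tw (.c 0 (.b 0) (.b 0)))))),
  .s13 (.tw (.c 0 (.s13 (.tw (.c 0 (.b 0) (.b 0)))) (.s12 (.s13 (.s12 (.tw (.c 0 (.tw (.c 0 (.b 0) (.b 0))) (.s13 (.tw (.c 0 (.b 0) (.b 0))))))))))),
  .tw (.c 0 (.s12 (.s13 (.s12 (.tw (.c 0 (.b 0) (.c 0 (.b 0) (.b 0))))))) (.s13 (.tw (.c 0 (.b 0) (.c 0 (.b 0) (.b 0)))))),
  .c 0 (.b 0) (.c 0 (.s13 (.tw (.c 0 (.b 0) (.b 0)))) (.tw (.c 0 (.b 0) (.c 0 (.b 0) (.b 0))))),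
  .tw (.b 7),
  .s12 (.s13 (.s12 (.tw (.c 0 (.tw (.c 0 (.b 0) (.b 0))) (.s12 (.s13 (.s12 (.tw (.c 0 (.s12 (.s13 (.s12 (.tw (.c 0 (.b 0) (.b 0)))))) (.s12 (.s13 (.s12 (.tw (.c 0 (.b 0) (.b 0))))))))))))))),
  .c 0 (.b 0) (.tw (.c 0 (.b 0) (.c 0 (.s13 (.tw (.c 0 (.b 0) (.b 0)))) (.s13 (.tw (.c 0 (.b 0) (.b 0))))))),
  .c 0 (.b 0) (.tw (.c 0 (.b 0) (.s12 (.s13 (.s12 (.tw (.c 0 (.b 0) (.c 0 (.b 0) (.s12 (.s13 (.s12 (.tw (.c 0 (.b 0) (.b 0)))))))))))))),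
  .tw (.c 0 (.b 0) (.c 0 (.b 0) (.c 0 (.s12 (.s13 (.s12 (.tw (.c 0 (.b 0) (.b 0)))))) (.s13 (.tw (.c 0 (.b 0) (.b 0))))))),
  .c 0 (.s12 (.s13 (.s12 (.tw (.c 0 (.b 0) (.b 0)))))) (.c 0 (.s12 (.s13 (.s12 (.tw (.c 0 (.b 0) (.b 0)))))) (.s12 (.s13 (.s12 (.tw (.c 0 (.b 0) (.b 0))))))),
  .tw (.c 0 (.b 0) (.c 0 (.s12 (.s13 (.s12 (.tw (.c 0 (.b 0) (.b 0)))))) (.s13 (.tw (.c 0 (.b 0) (.c 0 (.b 0) (.b 0))))))),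
  .s12 (.s13 (.s12 (.tw (.c 0 (.s12 (.s13 (.s12 (.tw (.c 0 (.b 0) (.b 0)))))) (.c 0 (.s12 (.s13 (.s12 (.tw (.c 0 (.b 0) (.b 0)))))) (.s12 (.s13 (.s12 (.tw (.c 0 (.b 0) (.b 0))))))))))),
  .c 0 (.tw (.c 0 (.b 0) (.s13 (.tw (.c 0 (.b 0) (.b 0)))))) (.s12 (.s13 (.s12 (.tw (.c 0 (.b 0) (.c 0 (.b 0) (.b 0))))))),
  .tw (.c 0 (.b 0) (.c 0 (.b 0) (.c 0 (.tw (.c 0 (.b 0) (.b 0))) (.s13 (.tw (.c 0 (.b 0) (.b 0))))))),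
  .s12 (.s13 (.s12 (.tw (.c 0 (.tw (.c 0 (.b 0) (.b 0))) (.c 0 (.tw (.c 0 (.b 0) (.b 0))) (.s12 (.s13 (.s12 (.tw (.c 0 (.b 0) (.b 0))))))))))),
  .tw (.c 0 (.b 0) (.c 0 (.s13 (.tw (.c 0 (.b 0) (.b 0)))) (.s12 (.s13 (.s12 (.tw (.c 0 (.b 0) (.c 0 (.b 0) (.b 0))))))))),
  .c 0 (.b 0) (.c 0 (.b 0) (.c 0 (.b 0) (.c 0 (.b 0) (.s12 (.s13 (.s12 (.tw (.c 0 (.b 0) (.b 0))))))))),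
  .s13 (.tw (.c 0 (.s12 (.s13 (.s12 (.tw (.c 0 (.b 0) (.b 0)))))) (.b 1))),
  .tw (.c 0 (.s12 (.s13 (.s12 (.tw (.c 0 (.b 0) (.b 0)))))) (.s13 (.tw (.c 0 (.b 0) (.c 0 (.b 0) (.c 0 (.b 0) (.b 0))))))),
  .c 0 (.s13 (.tw (.c 0 (.b 0) (.c 0 (.b 0) (.b 0))))) (.s13 (.tw (.c 0 (.b 0) (.c 0 (.b 0) (.b 0))))),
  .s13 (.tw (.c 0 (.s12 (.s13 (.s12 (.tw (.c 0 (.b 0) (.c 0 (.b 0) (.b 0))))))) (.s13 (.tw (.c 0 (.b 0) (.c 0 (.b 0) (.b 0))))))),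
  .tw (.c 0 (.b 0) (.c 0 (.b 0) (.s13 (.tw (.c 0 (.tw (.c 0 (.b 0) (.b 0))) (.s13 (.tw (.c 0 (.b 0) (.b 0))))))))),
  .c 0 (.tw (.c 0 (.b 0) (.b 0))) (.tw (.c 0 (.b 0) (.b 0))),
  .tw (.c 0 (.tw (.c 0 (.b 0) (.b 0))) (.s12 (.s13 (.s12 (.tw (.c 0 (.b 0) (.b 0))))))),
  .tw (.c 0 (.s12 (.s13 (.s12 (.tw (.c 0 (.b 0) (.b 0)))))) (.s13 (.tw (.c 0 (.s12 (.s13 (.s12 (.tw (.c 0 (.b 0) (.b 0)))))) (.s13 (.tw (.c 0 (.b 0) (.b 0)))))))),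
  .tw (.c 0 (.tw (.c 0 (.b 0) (.b 0))) (.s12 (.s13 (.s12 (.tw (.c 0 (.s12 (.s13 (.s12 (.tw (.c 0 (.b 0) (.b 0)))))) (.s12 (.s13 (.s12 (.tw (.c 0 (.b 0) (.b 0)))))))))))),
  .s13 (.tw (.c 0 (.s12 (.s13 (.s12 (.tw (.c 0 (.b 0) (.b 0)))))) (.b 2))),
  .s13 (.tw (.c 0 (.s12 (.s13 (.s12 (.tw (.c 0 (.b 0) (.b 0)))))) (.tw (.c 0 (.s12 (.s13 (.s12 (.tw (.c 0 (.b 0) (.b 0)))))) (.s12 (.s13 (.s12 (.tw (.c 0 (.b 0) (.b 0)))))))))),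
  .tw (.c 0 (.b 0) (.c 0 (.s13 (.tw (.c 0 (.b 0) (.b 0)))) (.s13 (.tw (.c 0 (.b 0) (.b 0)))))),
  .c 0 (.s12 (.s13 (.s12 (.tw (.c 0 (.b 0) (.b 0)))))) (.tw (.c 0 (.tw (.c 0 (.b 0) (.b 0))) (.s12 (.s13 (.s12 (.tw (.c 0 (.b 0) (.b 0)))))))),
  .s12 (.s13 (.s12 (.tw (.c 0 (.b 0) (.c 0 (.b 0) (.c 0 (.b 0) (.c 0 (.b 0) (.b 0)))))))),
  .s13 (.tw (.c 0 (.s13 (.tw (.c 0 (.b 0) (.b 0)))) (.c 0 (.s13 (.tw (.c 0 (.b 0) (.b 0)))) (.s13 (.tw (.c 0 (.b 0) (.b 0))))))),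
  .tw (.c 0 (.s12 (.s13 (.s12 (.tw (.c 0 (.b 0) (.b 0)))))) (.s13 (.tw (.c 0 (.b 0) (.b 0))))),
  .c 0 (.b 0) (.c 0 (.tw (.c 0 (.b 0) (.b 0))) (.tw (.c 0 (.b 0) (.s13 (.tw (.c 0 (.b 0) (.b 0))))))),
  .c 0 (.b 0) (.tw (.c 0 (.s12 (.s13 (.s12 (.tw (.c 0 (.b 0) (.b 0)))))) (.s12 (.s13 (.s12 (.tw (.c 0 (.b 0) (.c 0 (.b 0) (.b 0))))))))),
  .s12 (.s13 (.s12 (.tw (.c 0 (.s12 (.s13 (.s12 (.tw (.c 0 (.b 0) (.b 0)))))) (.s12 (.s13 (.s12 (.tw (.c 0 (.b 0) (.b 0)))))))))),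
  .s13 (.b 5),
  .c 0 (.tw (.c 0 (.b 0) (.b 0))) (.s12 (.s13 (.s12 (.tw (.c 0 (.b 0) (.b 0)))))),
  .c 0 (.s12 (.s13 (.s12 (.tw (.c 0 (.b 0) (.b 0)))))) (.s13 (.tw (.c 0 (.b 0) (.c 0 (.b 0) (.c 0 (.b 0) (.b 0)))))),
  .c 0 (.b 0) (.c 0 (.b 0) (.s13 (.tw (.c 0 (.b 0) (.c 0 (.b 0) (.b 0)))))),
  .s12 (.s13 (.s12 (.tw (.c 0 (.tw (.c 0 (.b 0) (.c 0 (.b 0) (.b 0)))) (.s12 (.s13 (.s12 (.tw (.c 0 (.b 0) (.c 0 (.b 0) (.b 0))))))))))),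
  .tw (.c 0 (.b 0) (.s12 (.s13 (.s12 (.tw (.c 0 (.b 0) (.c 0 (.b 0) (.s12 (.s13 (.s12 (.tw (.c 0 (.b 0) (.c 0 (.b 0) (.b 0)))))))))))))),
  .c 0 (.tw (.c 0 (.b 0) (.b 0))) (.tw (.c 0 (.b 0) (.s13 (.tw (.c 0 (.b 0) (.c 0 (.b 0) (.b 0))))))),
  .c 0 (.tw (.c 0 (.b 0) (.b 0))) (.s13 (.tw (.c 0 (.b 0) (.c 0 (.b 0) (.c 0 (.b 0) (.b 0)))))),
  .c 0 (.tw (.c 0 (.b 0) (.b 0))) (.tw (.c 0 (.b 0) (.s12 (.s13 (.s12 (.tw (.c 0 (.b 0) (.c 0 (.b 0) (.b 0))))))))),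
  .s12 (.b 5),
  .c 0 (.s13 (.tw (.c 0 (.b 0) (.b 0)))) (.s13 (.tw (.c 0 (.b 0) (.c 0 (.b 0) (.b 0))))),
  .c 0 (.b 0) (.c 0 (.b 0) (.s12 (.s13 (.s12 (.tw (.c 0 (.b 0) (.b 1))))))),
  .tw (.c 0 (.s13 (.tw (.c 0 (.b 0) (.b 0)))) (.s13 (.tw (.c 0 (.b 0) (.c 0 (.b 0) (.b 0)))))),
  .c 0 (.b 0) (.c 0 (.b 0) (.s13 (.tw (.c 0 (.s12 (.s13 (.s12 (.tw (.c 0 (.b 0) (.b 0)))))) (.s13 (.tw (.c 0 (.b 0) (.b 0)))))))),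
  .c 0 (.b 0) (.tw (.c 0 (.b 0) (.s12 (.s13 (.s12 (.tw (.c 0 (.b 0) (.b 1)))))))),
  .c 0 (.b 0) (.c 0 (.b 0) (.c 0 (.tw (.c 0 (.b 0) (.b 0))) (.s12 (.s13 (.s12 (.tw (.c 0 (.b 0) (.b 0)))))))),
  .tw (.c 0 (.tw (.c 0 (.b 0) (.b 0))) (.s12 (.s13 (.s12 (.tw (.c 0 (.b 0) (.s12 (.s13 (.s12 (.tw (.c 0 (.b 0) (.b 0)))))))))))),
  .tw (.c 0 (.b 0) (.s12 (.s13 (.s12 (.tw (.c 0 (.s12 (.s13 (.s12 (.tw (.c 0 (.b 0) (.b 0)))))) (.s12 (.s13 (.s12 (.tw (.c 0 (.b 0) (.b 0)))))))))))),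
  .s12 (.s13 (.s12 (.tw (.c 0 (.s12 (.s13 (.s12 (.tw (.c 0 (.b 0) (.c 0 (.b 0) (.b 0))))))) (.s13 (.tw (.c 0 (.b 0) (.c 0 (.b 0) (.b 0))))))))),
  .s13 (.tw (.c 0 (.s13 (.tw (.c 0 (.b 0) (.b 0)))) (.tw (.c 0 (.s13 (.tw (.c 0 (.b 0) (.b 0)))) (.s13 (.tw (.c 0 (.b 0) (.b 0)))))))),
  .c 0 (.tw (.c 0 (.b 0) (.c 0 (.b 0) (.b 0)))) (.s13 (.tw (.c 0 (.b 0) (.c 0 (.b 0) (.b 0))))),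
  .c 0 (.b 0) (.s12 (.s13 (.s12 (.tw (.c 0 (.b 0) (.s12 (.s13 (.s12 (.tw (.c 0 (.b 0) (.b 1))))))))))),
  .tw (.c 0 (.tw (.c 0 (.b 0) (.b 0))) (.s12 (.s13 (.s12 (.tw (.c 0 (.b 0) (.c 0 (.b 0) (.b 0)))))))),
  .s13 (.tw (.c 0 (.b 0) (.c 0 (.b 0) (.c 0 (.b 0) (.c 0 (.b 0) (.b 0)))))),
  .s12 (.s13 (.s12 (.tw (.c 0 (.s12 (.s13 (.s12 (.tw (.c 0 (.b 0) (.b 0)))))) (.s12 (.s13 (.s12 (.tw (.c 0 (.tw (.c 0 (.b 0) (.b 0))) (.s12 (.s13 (.s12 (.tw (.c 0 (.b 0) (.b 0))))))))))))))),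
  .s13 (.tw (.c 0 (.s13 (.tw (.c 0 (.b 0) (.b 0)))) (.s13 (.tw (.c 0 (.tw (.c 0 (.b 0) (.b 0))) (.s12 (.s13 (.s12 (.tw (.c 0 (.b 0) (.b 0))))))))))),
  .c 0 (.s12 (.s13 (.s12 (.tw (.c 0 (.b 0) (.b 0)))))) (.s12 (.s13 (.s12 (.tw (.c 0 (.b 0) (.c 0 (.b 0) (.c 0 (.b 0) (.b 0)))))))),
  .c 0 (.b 0) (.s12 (.s13 (.s12 (.tw (.c 0 (.b 0) (.c 0 (.b 0) (.s12 (.s13 (.s12 (.tw (.c 0 (.b 0) (.c 0 (.b 0) (.b 0))))))))))))),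
  .c 0 (.b 0) (.c 0 (.b 0) (.tw (.c 0 (.s12 (.s13 (.s12 (.tw (.c 0 (.b 0) (.b 0)))))) (.s13 (.tw (.c 0 (.b 0) (.b 0))))))),
  .s13 (.tw (.c 0 (.s13 (.tw (.c 0 (.b 0) (.b 0)))) (.b 2))),
  .s13 (.b 8),
  .tw (.c 0 (.b 0) (.s12 (.s13 (.s12 (.tw (.c 0 (.b 0) (.c 0 (.b 0) (.c 0 (.b 0) (.s12 (.s13 (.s12 (.tw (.c 0 (.b 0) (.b 0)))))))))))))),
  .s12 (.s13 (.s12 (.tw (.c 0 (.tw (.c 0 (.b 0) (.b 0))) (.b 1))))),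
  .tw (.c 0 (.b 0) (.c 0 (.b 0) (.s12 (.s13 (.s12 (.tw (.c 0 (.tw (.c 0 (.b 0) (.b 0))) (.s12 (.s13 (.s12 (.tw (.c 0 (.b 0) (.b 0))))))))))))),
  .c 0 (.b 0) (.tw (.c 0 (.b 0) (.c 0 (.s12 (.s13 (.s12 (.tw (.c 0 (.b 0) (.b 0)))))) (.s13 (.tw (.c 0 (.b 0) (.b 0))))))),
  .c 0 (.b 0) (.s12 (.s13 (.s12 (.tw (.c 0 (.b 0) (.c 0 (.b 0) (.c 0 (.b 0) (.c 0 (.b 0) (.b 0))))))))),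
  .c 0 (.s12 (.s13 (.s12 (.tw (.c 0 (.b 0) (.b 0)))))) (.b 2),
  .c 0 (.b 0) (.c 0 (.tw (.c 0 (.b 0) (.b 0))) (.tw (.c 0 (.b 0) (.c 0 (.b 0) (.b 0))))),
  .tw (.c 0 (.b 0) (.s12 (.s13 (.s12 (.tw (.c 0 (.b 0) (.c 0 (.b 0) (.c 0 (.b 0) (.c 0 (.b 0) (.b 0)))))))))),
  .tw (.c 0 (.s12 (.s13 (.s12 (.tw (.c 0 (.b 0) (.b 0)))))) (.c 0 (.s13 (.tw (.c 0 (.b 0) (.b 0)))) (.s13 (.tw (.c 0 (.b 0) (.b 0)))))),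
  .tw (.c 0 (.b 0) (.s12 (.s13 (.s12 (.tw (.c 0 (.b 0) (.s12 (.s13 (.s12 (.tw (.c 0 (.tw (.c 0 (.b 0) (.b 0))) (.s13 (.tw (.c 0 (.b 0) (.b 0))))))))))))))),
  .c 0 (.tw (.c 0 (.b 0) (.c 0 (.b 0) (.b 0)))) (.tw (.c 0 (.b 0) (.s13 (.tw (.c 0 (.b 0) (.b 0)))))),
  .tw (.c 0 (.b 0) (.s12 (.s13 (.s12 (.tw (.c 0 (.tw (.c 0 (.b 0) (.b 0))) (.s12 (.s13 (.s12 (.tw (.c 0 (.b 0) (.b 0)))))))))))),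
  .s13 (.tw (.c 0 (.tw (.c 0 (.b 0) (.b 0))) (.s12 (.s13 (.s12 (.tw (.c 0 (.s12 (.s13 (.s12 (.tw (.c 0 (.b 0) (.b 0)))))) (.s12 (.s13 (.s12 (.tw (.c 0 (.b 0) (.b 0))))))))))))),
  .s12 (.s13 (.s12 (.tw (.c 0 (.b 0) (.c 0 (.b 0) (.c 0 (.b 0) (.s12 (.s13 (.s12 (.tw (.c 0 (.b 0) (.c 0 (.b 0) (.b 0))))))))))))),
  .c 0 (.b 0) (.c 0 (.b 0) (.c 0 (.s12 (.s13 (.s12 (.tw (.c 0 (.b 0) (.b 0)))))) (.s13 (.tw (.c 0 (.b 0) (.b 0)))))),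
  .tw (.c 0 (.s13 (.tw (.c 0 (.b 0) (.c 0 (.b 0) (.b 0))))) (.s12 (.s13 (.s12 (.tw (.c 0 (.b 0) (.s12 (.s13 (.s12 (.tw (.c 0 (.b 0) (.b 0)))))))))))),
  .tw (.c 0 (.s12 (.s13 (.s12 (.tw (.c 0 (.b 0) (.b 0)))))) (.s13 (.tw (.c 0 (.b 0) (.c 0 (.b 0) (.s13 (.tw (.c 0 (.b 0) (.b 0))))))))),
  .c 0 (.b 0) (.tw (.c 0 (.s12 (.s13 (.s12 (.tw (.c 0 (.b 0) (.b 0)))))) (.s13 (.tw (.c 0 (.b 0) (.c 0 (.b 0) (.b 0))))))),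
  .c 0 (.b 0) (.tw (.c 0 (.b 0) (.c 0 (.tw (.c 0 (.b 0) (.b 0))) (.s12 (.s13 (.s12 (.tw (.c 0 (.b 0) (.b 0))))))))),
  .s13 (.tw (.c 0 (.tw (.c 0 (.b 0) (.b 0))) (.b 1))),
  .tw (.c 0 (.b 0) (.c 0 (.b 0) (.s13 (.tw (.c 0 (.b 0) (.b 1)))))),
  .c 0 (.b 0) (.tw (.c 0 (.b 0) (.c 0 (.tw (.c 0 (.b 0) (.b 0))) (.s13 (.tw (.c 0 (.b 0) (.b 0))))))),
  .s12 (.s13 (.s12 (.tw (.b 3)))),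
  .c 0 (.b 0) (.tw (.c 0 (.s13 (.tw (.c 0 (.b 0) (.b 0)))) (.s12 (.s13 (.s12 (.tw (.c 0 (.b 0) (.c 0 (.b 0) (.b 0))))))))),
  .tw (.c 0 (.tw (.c 0 (.b 0) (.b 0))) (.c 0 (.tw (.c 0 (.b 0) (.b 0))) (.s12 (.s13 (.s12 (.tw (.c 0 (.b 0) (.b 0)))))))),
  .tw (.b 10),
  .c 0 (.b 0) (.c 0 (.b 0) (.c 0 (.b 0) (.c 0 (.b 0) (.b 0)))),
  .tw (.c 0 (.b 0) (.c 0 (.b 0) (.c 0 (.b 0) (.s12 (.s13 (.s12 (.tw (.c 0 (.b 0) (.b 0))))))))),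
  .c 0 (.s12 (.s13 (.s12 (.tw (.c 0 (.b 0) (.b 0)))))) (.s12 (.s13 (.s12 (.tw (.c 0 (.b 0) (.b 0)))))),
  .tw (.c 0 (.s13 (.tw (.c 0 (.b 0) (.b 0)))) (.s12 (.s13 (.s12 (.tw (.c 0 (.b 0) (.c 0 (.b 0) (.c 0 (.b 0) (.b 0))))))))),
  .c 0 (.b 0) (.s13 (.tw (.c 0 (.b 0) (.c 0 (.b 0) (.c 0 (.b 0) (.s13 (.tw (.c 0 (.b 0) (.b 0))))))))),
  .c 0 (.b 0) (.s13 (.tw (.c 0 (.b 0) (.c 0 (.b 0) (.b 1))))),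
  .c 0 (.b 0) (.tw (.c 0 (.b 0) (.s13 (.tw (.c 0 (.b 0) (.b 1)))))),
  .tw (.c 0 (.b 0) (.s12 (.s13 (.s12 (.tw (.c 0 (.b 0) (.s12 (.s13 (.s12 (.tw (.c 0 (.b 0) (.b 1)))))))))))),
  .tw (.c 0 (.b 0) (.s12 (.s13 (.s12 (.tw (.c 0 (.b 0) (.c 0 (.b 0) (.b 0)))))))),
  .c 0 (.b 0) (.tw (.c 0 (.b 0) (.b 2))),
  .tw (.c 0 (.b 0) (.s13 (.tw (.c 0 (.b 0) (.c 0 (.b 0) (.c 0 (.b 0) (.s13 (.tw (.c 0 (.b 0) (.b 0)))))))))),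
  .tw (.c 0 (.b 0) (.s12 (.s13 (.s12 (.tw (.c 0 (.b 0) (.c 0 (.tw (.c 0 (.b 0) (.b 0))) (.s13 (.tw (.c 0 (.b 0) (.b 0))))))))))),
  .c 0 (.b 0) (.c 0 (.s12 (.s13 (.s12 (.tw (.c 0 (.b 0) (.b 0)))))) (.s12 (.s13 (.s12 (.tw (.c 0 (.b 0) (.c 0 (.b 0) (.b 0)))))))),
  .s12 (.s13 (.s12 (.tw (.c 0 (.tw (.c 0 (.b 0) (.b 0))) (.s12 (.s13 (.s12 (.tw (.c 0 (.b 0) (.s12 (.s13 (.s12 (.tw (.c 0 (.b 0) (.b 0))))))))))))))),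
  .tw (.c 0 (.b 0) (.s12 (.s13 (.s12 (.tw (.c 0 (.b 0) (.c 0 (.s12 (.s13 (.s12 (.tw (.c 0 (.b 0) (.b 0)))))) (.s13 (.tw (.c 0 (.b 0) (.b 0))))))))))),
  .tw (.c 0 (.b 0) (.c 0 (.b 0) (.s12 (.s13 (.s12 (.tw (.c 0 (.b 0) (.b 1)))))))),
  .s12 (.s13 (.s12 (.tw (.c 0 (.tw (.c 0 (.b 0) (.b 0))) (.c 0 (.s12 (.s13 (.s12 (.tw (.c 0 (.b 0) (.b 0)))))) (.s12 (.s13 (.s12 (.tw (.c 0 (.b 0) (.b 0))))))))))),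
  .c 0 (.b 0) (.c 0 (.s12 (.s13 (.s12 (.tw (.c 0 (.b 0) (.b 0)))))) (.s13 (.tw (.c 0 (.b 0) (.c 0 (.b 0) (.b 0)))))),
  .tw (.c 0 (.s12 (.s13 (.s12 (.tw (.c 0 (.b 0) (.b 0)))))) (.s12 (.s13 (.s12 (.tw (.c 0 (.b 0) (.c 0 (.b 0) (.b 0)))))))),
  .tw (.c 0 (.s12 (.s13 (.s12 (.tw (.c 0 (.b 0) (.b 0)))))) (.s12 (.s13 (.s12 (.tw (.c 0 (.b 0) (.c 0 (.b 0) (.c 0 (.b 0) (.b 0))))))))),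
  .s12 (.s13 (.s12 (.s12 (.b 5)))),
  .tw (.c 0 (.b 0) (.c 0 (.b 0) (.s12 (.s13 (.s12 (.tw (.c 0 (.b 0) (.s12 (.s13 (.s12 (.tw (.c 0 (.b 0) (.b 0))))))))))))),
  .tw (.c 0 (.b 0) (.s13 (.tw (.c 0 (.b 0) (.c 0 (.b 0) (.b 1)))))),
  .c 0 (.b 0) (.s12 (.s13 (.s12 (.tw (.c 0 (.b 0) (.c 0 (.b 0) (.b 1))))))),
  .tw (.c 0 (.tw (.c 0 (.b 0) (.b 0))) (.c 0 (.s12 (.s13 (.s12 (.tw (.c 0 (.b 0) (.b 0)))))) (.s12 (.s13 (.s12 (.tw (.c 0 (.b 0) (.b 0)))))))),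
  .c 0 (.b 0) (.s13 (.tw (.c 0 (.b 0) (.c 0 (.tw (.c 0 (.b 0) (.b 0))) (.s13 (.tw (.c 0 (.b 0) (.b 0)))))))),
  .c 0 (.tw (.c 0 (.b 0) (.b 0))) (.tw (.c 0 (.b 0) (.c 0 (.b 0) (.s13 (.tw (.c 0 (.b 0) (.b 0))))))),
  .tw (.c 0 (.s12 (.s13 (.s12 (.tw (.c 0 (.b 0) (.b 0)))))) (.c 0 (.s12 (.s13 (.s12 (.tw (.c 0 (.b 0) (.b 0)))))) (.s13 (.tw (.c 0 (.b 0) (.b 0)))))),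
  .c 0 (.tw (.c 0 (.b 0) (.b 0))) (.s12 (.s13 (.s12 (.tw (.c 0 (.b 0) (.c 0 (.b 0) (.c 0 (.b 0) (.b 0)))))))),
  .s13 (.tw (.c 0 (.tw (.c 0 (.b 0) (.b 0))) (.c 0 (.tw (.c 0 (.b 0) (.b 0))) (.s13 (.tw (.c 0 (.b 0) (.b 0))))))),
  .s12 (.s13 (.s12 (.tw (.c 0 (.s12 (.s13 (.s12 (.tw (.c 0 (.b 0) (.b 0)))))) (.b 2))))),
  .s12 (.s13 (.s12 (.tw (.c 0 (.tw (.c 0 (.b 0) (.b 0))) (.s12 (.s13 (.s12 (.tw (.c 0 (.b 0) (.b 0)))))))))),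
  .tw (.c 0 (.b 0) (.s13 (.tw (.c 0 (.b 0) (.s13 (.tw (.c 0 (.tw (.c 0 (.b 0) (.b 0))) (.s12 (.s13 (.s12 (.tw (.c 0 (.b 0) (.b 0))))))))))))),
  .s13 (.s12 (.b 5)),
  .c 0 (.s13 (.tw (.c 0 (.b 0) (.b 0)))) (.tw (.c 0 (.b 0) (.c 0 (.b 0) (.c 0 (.b 0) (.b 0))))),
  .tw (.c 0 (.b 0) (.s13 (.tw (.c 0 (.b 0) (.c 0 (.tw (.c 0 (.b 0) (.b 0))) (.s13 (.tw (.c 0 (.b 0) (.b 0))))))))),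
  .tw (.c 0 (.tw (.c 0 (.b 0) (.b 0))) (.s13 (.tw (.c 0 (.b 0) (.b 0))))),
  .tw (.c 0 (.b 0) (.s12 (.s13 (.s12 (.tw (.c 0 (.b 0) (.c 0 (.b 0) (.c 0 (.b 0) (.b 0))))))))),
  .s13 (.tw (.c 0 (.b 0) (.c 0 (.b 0) (.b 2)))),
  .c 0 (.b 0) (.tw (.c 0 (.tw (.c 0 (.b 0) (.b 0))) (.s12 (.s13 (.s12 (.tw (.c 0 (.b 0) (.c 0 (.b 0) (.b 0))))))))),
  .tw (.c 0 (.s12 (.s13 (.s12 (.tw (.c 0 (.b 0) (.b 0)))))) (.s12 (.s13 (.s12 (.tw (.c 0 (.b 0) (.s12 (.s13 (.s12 (.tw (.c 0 (.b 0) (.b 0)))))))))))),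
  .c 0 (.s12 (.s13 (.s12 (.tw (.c 0 (.b 0) (.b 0)))))) (.tw (.c 0 (.b 0) (.c 0 (.b 0) (.c 0 (.b 0) (.b 0))))),
  .s13 (.tw (.c 0 (.s12 (.s13 (.s12 (.tw (.c 0 (.b 0) (.b 0)))))) (.tw (.c 0 (.s12 (.s13 (.s12 (.tw (.c 0 (.b 0) (.b 0)))))) (.s13 (.tw (.c 0 (.b 0) (.b 0)))))))),
  .s13 (.tw (.c 0 (.b 0) (.c 0 (.b 0) (.c 0 (.b 0) (.c 0 (.b 0) (.s13 (.tw (.c 0 (.b 0) (.b 0))))))))),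
  .s12 (.s13 (.s12 (.b 4))),
  .s12 (.s13 (.s12 (.tw (.c 0 (.s12 (.s13 (.s12 (.tw (.c 0 (.b 0) (.b 0)))))) (.s13 (.tw (.c 0 (.s12 (.s13 (.s12 (.tw (.c 0 (.b 0) (.b 0)))))) (.s13 (.tw (.c 0 (.b 0) (.b 0))))))))))),
  .b 10,
  .tw (.c 0 (.b 0) (.c 0 (.b 0) (.c 0 (.s12 (.s13 (.s12 (.tw (.c 0 (.b 0) (.b 0)))))) (.s12 (.s13 (.s12 (.tw (.c 0 (.b 0) (.b 0))))))))),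
  .tw (.c 0 (.s12 (.s13 (.s12 (.tw (.c 0 (.b 0) (.b 0)))))) (.s12 (.s13 (.s12 (.tw (.c 0 (.b 0) (.c 0 (.b 0) (.s12 (.s13 (.s12 (.tw (.c 0 (.b 0) (.b 0))))))))))))),
  .tw (.c 0 (.s13 (.tw (.c 0 (.b 0) (.b 0)))) (.s13 (.tw (.c 0 (.tw (.c 0 (.b 0) (.b 0))) (.s13 (.tw (.c 0 (.b 0) (.b 0)))))))),
  .c 0 (.b 0) (.s13 (.tw (.c 0 (.b 0) (.s13 (.tw (.c 0 (.tw (.c 0 (.b 0) (.b 0))) (.s13 (.tw (.c 0 (.b 0) (.b 0)))))))))),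
  .c 0 (.b 0) (.c 0 (.s12 (.s13 (.s12 (.tw (.c 0 (.b 0) (.b 0)))))) (.s12 (.s13 (.s12 (.tw (.c 0 (.b 0) (.s12 (.s13 (.s12 (.tw (.c 0 (.b 0) (.b 0)))))))))))),
  .tw (.c 0 (.b 0) (.c 0 (.s12 (.s13 (.s12 (.tw (.c 0 (.b 0) (.b 0)))))) (.s12 (.s13 (.s12 (.tw (.c 0 (.b 0) (.c 0 (.b 0) (.b 0))))))))),
  .c 0 (.s13 (.tw (.c 0 (.b 0) (.b 0)))) (.tw (.c 0 (.b 0) (.s12 (.s13 (.s12 (.tw (.c 0 (.b 0) (.c 0 (.b 0) (.b 0))))))))),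
  .s13 (.tw (.c 0 (.tw (.c 0 (.b 0) (.b 0))) (.s13 (.tw (.c 0 (.tw (.c 0 (.b 0) (.b 0))) (.s13 (.tw (.c 0 (.b 0) (.b 0))))))))),
  .c 0 (.b 0) (.c 0 (.b 0) (.c 0 (.s12 (.s13 (.s12 (.tw (.c 0 (.b 0) (.b 0)))))) (.s12 (.s13 (.s12 (.tw (.c 0 (.b 0) (.b 0)))))))),
  .s13 (.tw (.c 0 (.b 0) (.c 0 (.s12 (.s13 (.s12 (.tw (.c 0 (.b 0) (.b 0)))))) (.s13 (.tw (.c 0 (.b 0) (.b 0))))))),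
  .c 0 (.s12 (.s13 (.s12 (.tw (.c 0 (.b 0) (.b 0)))))) (.s13 (.tw (.c 0 (.b 0) (.c 0 (.b 0) (.s13 (.tw (.c 0 (.b 0) (.b 0)))))))),
  .c 0 (.b 0) (.c 0 (.s13 (.tw (.c 0 (.b 0) (.b 0)))) (.s12 (.s13 (.s12 (.tw (.c 0 (.b 0) (.c 0 (.b 0) (.b 0)))))))),
  .c 0 (.b 0) (.c 0 (.b 0) (.b 1)),
  .tw (.b 3),
  .s13 (.tw (.c 0 (.tw (.c 0 (.b 0) (.b 0))) (.s12 (.s13 (.s12 (.tw (.c 0 (.tw (.c 0 (.b 0) (.b 0))) (.s12 (.s13 (.s12 (.tw (.c 0 (.b 0) (.b 0))))))))))))),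
  .tw (.b 12),
  .s13 (.tw (.c 0 (.s12 (.s13 (.s12 (.tw (.c 0 (.b 0) (.b 0)))))) (.tw (.c 0 (.b 0) (.s12 (.s13 (.s12 (.tw (.c 0 (.b 0) (.b 0)))))))))),
  .s13 (.b 4),
  .tw (.s12 (.s13 (.s12 (.s12 (.b 4))))),
  .c 0 (.tw (.c 0 (.b 0) (.s13 (.tw (.c 0 (.b 0) (.b 0)))))) (.tw (.c 0 (.b 0) (.s13 (.tw (.c 0 (.b 0) (.b 0)))))),
  .tw (.c 0 (.s12 (.s13 (.s12 (.tw (.c 0 (.b 0) (.s12 (.s13 (.s12 (.tw (.c 0 (.b 0) (.b 0))))))))))) (.s12 (.s13 (.s12 (.tw (.c 0 (.b 0) (.s12 (.s13 (.s12 (.tw (.c 0 (.b 0) (.b 0)))))))))))),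
  .c 0 (.b 0) (.c 0 (.s12 (.s13 (.s12 (.tw (.c 0 (.b 0) (.b 0)))))) (.tw (.c 0 (.b 0) (.c 0 (.b 0) (.b 0))))),
  .tw (.c 0 (.b 0) (.s12 (.s13 (.s12 (.tw (.c 0 (.s13 (.tw (.c 0 (.b 0) (.b 0)))) (.tw (.c 0 (.b 0) (.s13 (.tw (.c 0 (.b 0) (.b 0)))))))))))),
  .s12 (.s13 (.s12 (.tw (.c 0 (.tw (.c 0 (.b 0) (.b 0))) (.b 2))))),
  .c 0 (.b 0) (.c 0 (.b 0) (.s13 (.tw (.c 0 (.tw (.c 0 (.b 0) (.b 0))) (.s12 (.s13 (.s12 (.tw (.c 0 (.b 0) (.b 0)))))))))),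
  .tw (.c 0 (.s13 (.tw (.c 0 (.b 0) (.b 0)))) (.s12 (.s13 (.s12 (.tw (.c 0 (.s12 (.s13 (.s12 (.tw (.c 0 (.b 0) (.b 0)))))) (.s12 (.s13 (.s12 (.tw (.c 0 (.b 0) (.b 0)))))))))))),
  .c 0 (.b 0) (.tw (.c 0 (.b 0) (.c 0 (.b 0) (.c 0 (.b 0) (.b 0))))),
  .tw (.c 0 (.b 0) (.c 0 (.b 0) (.s12 (.s13 (.s12 (.tw (.c 0 (.b 0) (.c 0 (.b 0) (.b 0))))))))),
  .c 0 (.tw (.c 0 (.b 0) (.s12 (.s13 (.s12 (.tw (.c 0 (.b 0) (.b 0)))))))) (.s13 (.tw (.c 0 (.b 0) (.c 0 (.b 0) (.b 0))))),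
  .tw (.c 0 (.b 0) (.s12 (.s13 (.s12 (.tw (.c 0 (.b 0) (.c 0 (.b 0) (.b 1)))))))),
  .c 0 (.s13 (.tw (.c 0 (.b 0) (.b 0)))) (.s12 (.s13 (.s12 (.tw (.c 0 (.b 0) (.c 0 (.b 0) (.c 0 (.b 0) (.b 0)))))))),
  .s13 (.tw (.c 0 (.tw (.c 0 (.b 0) (.b 0))) (.s12 (.s13 (.s12 (.tw (.c 0 (.b 0) (.s12 (.s13 (.s12 (.tw (.c 0 (.b 0) (.b 0))))))))))))),
  .c 0 (.b 0) (.c 0 (.s13 (.tw (.c 0 (.b 0) (.b 0)))) (.s13 (.tw (.c 0 (.b 0) (.b 0))))),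
  .c 0 (.b 0) (.c 0 (.s13 (.tw (.c 0 (.b 0) (.b 0)))) (.s12 (.s13 (.s12 (.tw (.c 0 (.b 0) (.s12 (.s13 (.s12 (.tw (.c 0 (.b 0) (.b 0)))))))))))),
  .s13 (.tw (.c 0 (.b 0) (.s13 (.tw (.c 0 (.b 0) (.s13 (.tw (.c 0 (.tw (.c 0 (.b 0) (.b 0))) (.s12 (.s13 (.s12 (.tw (.c 0 (.b 0) (.b 0)))))))))))))),
  .tw (.c 0 (.s13 (.tw (.c 0 (.b 0) (.b 0)))) (.s12 (.s13 (.s12 (.tw (.c 0 (.s12 (.s13 (.s12 (.tw (.c 0 (.b 0) (.b 0)))))) (.s13 (.tw (.c 0 (.b 0) (.b 0)))))))))),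
  .c 0 (.b 0) (.s13 (.tw (.c 0 (.b 0) (.s13 (.tw (.c 0 (.tw (.c 0 (.b 0) (.b 0))) (.s12 (.s13 (.s12 (.tw (.c 0 (.b 0) (.b 0)))))))))))),
  .s13 (.tw (.c 0 (.s13 (.tw (.c 0 (.b 0) (.b 0)))) (.tw (.c 0 (.b 0) (.s13 (.tw (.c 0 (.b 0) (.b 0)))))))),
  .s12 (.s13 (.s12 (.tw (.s12 (.s13 (.s12 (.s12 (.b 4)))))))),
  .s12 (.s13 (.s12 (.tw (.c 0 (.b 0) (.c 0 (.b 0) (.s12 (.s13 (.s12 (.tw (.c 0 (.s12 (.s13 (.s12 (.tw (.c 0 (.b 0) (.b 0)))))) (.s13 (.tw (.c 0 (.b 0) (.b 0)))))))))))))),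
  .c 0 (.s12 (.s13 (.s12 (.tw (.c 0 (.b 0) (.b 0)))))) (.tw (.c 0 (.b 0) (.c 0 (.b 0) (.s13 (.tw (.c 0 (.b 0) (.b 0))))))),
  .c 0 (.b 0) (.s13 (.tw (.c 0 (.b 0) (.c 0 (.s12 (.s13 (.s12 (.tw (.c 0 (.b 0) (.b 0)))))) (.s13 (.tw (.c 0 (.b 0) (.b 0)))))))),
  .c 0 (.b 0) (.tw (.c 0 (.b 0) (.s12 (.s13 (.s12 (.tw (.c 0 (.s12 (.s13 (.s12 (.tw (.c 0 (.b 0) (.b 0)))))) (.s12 (.s13 (.s12 (.tw (.c 0 (.b 0) (.b 0))))))))))))),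
  .s12 (.s13 (.s12 (.tw (.c 0 (.s12 (.s13 (.s12 (.tw (.c 0 (.b 0) (.b 0)))))) (.tw (.c 0 (.tw (.c 0 (.b 0) (.b 0))) (.s12 (.s13 (.s12 (.tw (.c 0 (.b 0) (.b 0)))))))))))),
  .tw (.c 0 (.s13 (.tw (.c 0 (.b 0) (.b 0)))) (.s13 (.tw (.c 0 (.b 0) (.c 0 (.b 0) (.s13 (.tw (.c 0 (.b 0) (.b 0))))))))),
  .c 0 (.b 0) (.c 0 (.b 0) (.tw (.c 0 (.tw (.c 0 (.b 0) (.b 0))) (.s13 (.tw (.c 0 (.b 0) (.b 0))))))),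
  .tw (.c 0 (.b 0) (.c 0 (.tw (.c 0 (.b 0) (.b 0))) (.s12 (.s13 (.s12 (.tw (.c 0 (.b 0) (.b 0)))))))),
  .s13 (.tw (.c 0 (.b 0) (.c 0 (.tw (.c 0 (.b 0) (.b 0))) (.s12 (.s13 (.s12 (.tw (.c 0 (.b 0) (.s12 (.s13 (.s12 (.tw (.c 0 (.b 0) (.b 0)))))))))))))),
  .tw (.c 0 (.b 0) (.s13 (.tw (.c 0 (.b 0) (.b 1))))),
  .tw (.c 0 (.b 0) (.s13 (.tw (.c 0 (.b 0) (.c 0 (.s12 (.s13 (.s12 (.tw (.c 0 (.b 0) (.b 0)))))) (.s13 (.tw (.c 0 (.b 0) (.b 0))))))))),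
  .c 0 (.b 0) (.c 0 (.tw (.c 0 (.b 0) (.b 0))) (.s12 (.s13 (.s12 (.tw (.c 0 (.b 0) (.b 0))))))),
  .tw (.c 0 (.b 0) (.s13 (.tw (.c 0 (.b 0) (.c 0 (.s13 (.tw (.c 0 (.b 0) (.b 0)))) (.s13 (.tw (.c 0 (.b 0) (.b 0))))))))),
  .s13 (.tw (.c 0 (.s13 (.tw (.c 0 (.b 0) (.b 0)))) (.b 1))),
  .c 0 (.b 0) (.s12 (.s13 (.s12 (.tw (.c 0 (.b 0) (.c 0 (.b 0) (.c 0 (.b 0) (.s12 (.s13 (.s12 (.tw (.c 0 (.b 0) (.b 0))))))))))))),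
  .tw (.c 0 (.b 0) (.c 0 (.tw (.c 0 (.b 0) (.b 0))) (.b 1))),
  .c 0 (.tw (.c 0 (.b 0) (.b 0))) (.s13 (.tw (.c 0 (.b 0) (.b 0)))),
  .c 0 (.b 0) (.tw (.c 0 (.b 0) (.s13 (.tw (.c 0 (.tw (.c 0 (.b 0) (.b 0))) (.s13 (.tw (.c 0 (.b 0) (.b 0))))))))),
  .tw (.c 0 (.b 0) (.c 0 (.b 0) (.s13 (.tw (.c 0 (.s12 (.s13 (.s12 (.tw (.c 0 (.b 0) (.b 0)))))) (.s13 (.tw (.c 0 (.b 0) (.b 0))))))))),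
  .tw (.c 0 (.s12 (.s13 (.s12 (.tw (.c 0 (.b 0) (.b 0)))))) (.b 1)),
  .tw (.c 0 (.b 0) (.s12 (.s13 (.s12 (.tw (.c 0 (.b 0) (.c 0 (.b 0) (.s12 (.s13 (.s12 (.tw (.c 0 (.b 0) (.b 0))))))))))))),
  .s13 (.tw (.c 0 (.b 0) (.c 0 (.tw (.c 0 (.b 0) (.b 0))) (.b 1)))),
  .s13 (.tw (.c 0 (.tw (.c 0 (.b 0) (.b 0))) (.c 0 (.tw (.c 0 (.b 0) (.b 0))) (.s12 (.s13 (.s12 (.tw (.c 0 (.b 0) (.b 0))))))))),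
  .s12 (.s13 (.s12 (.tw (.c 0 (.b 0) (.c 0 (.tw (.c 0 (.b 0) (.b 0))) (.s12 (.s13 (.s12 (.tw (.c 0 (.b 0) (.b 0))))))))))),
  .c 0 (.b 0) (.s12 (.s13 (.s12 (.tw (.c 0 (.b 0) (.s12 (.s13 (.s12 (.tw (.c 0 (.s12 (.s13 (.s12 (.tw (.c 0 (.b 0) (.b 0)))))) (.s13 (.tw (.c 0 (.b 0) (.b 0)))))))))))))),
  .c 0 (.s12 (.s13 (.s12 (.tw (.c 0 (.b 0) (.c 0 (.b 0) (.b 0))))))) (.s13 (.tw (.c 0 (.b 0) (.c 0 (.b 0) (.b 0))))),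
  .c 0 (.b 0) (.tw (.c 0 (.b 0) (.s12 (.s13 (.s12 (.tw (.c 0 (.tw (.c 0 (.b 0) (.b 0))) (.s12 (.s13 (.s12 (.tw (.c 0 (.b 0) (.b 0))))))))))))),
  .c 0 (.b 0) (.tw (.c 0 (.b 0) (.s12 (.s13 (.s12 (.tw (.c 0 (.b 0) (.c 0 (.b 0) (.b 0))))))))),
  .tw (.c 0 (.b 0) (.s13 (.tw (.c 0 (.tw (.c 0 (.b 0) (.b 0))) (.s13 (.tw (.c 0 (.b 0) (.b 0)))))))),
  .tw (.c 0 (.s12 (.s13 (.s12 (.tw (.c 0 (.b 0) (.b 0)))))) (.s13 (.tw (.c 0 (.tw (.c 0 (.b 0) (.b 0))) (.s12 (.s13 (.s12 (.tw (.c 0 (.b 0) (.b 0)))))))))),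
  .c 0 (.b 0) (.s13 (.tw (.c 0 (.b 0) (.c 0 (.tw (.c 0 (.b 0) (.b 0))) (.s12 (.s13 (.s12 (.tw (.c 0 (.b 0) (.b 0)))))))))),
  .s13 (.tw (.c 0 (.b 0) (.c 0 (.s12 (.s13 (.s12 (.tw (.c 0 (.b 0) (.b 0)))))) (.b 1)))),
  .c 0 (.b 0) (.tw (.c 0 (.s13 (.tw (.c 0 (.b 0) (.b 0)))) (.s13 (.tw (.c 0 (.b 0) (.b 0)))))),
  .c 0 (.b 0) (.c 0 (.b 0) (.tw (.c 0 (.b 0) (.s12 (.s13 (.s12 (.tw (.c 0 (.b 0) (.b 0))))))))),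
  .tw (.c 0 (.s12 (.s13 (.s12 (.tw (.c 0 (.b 0) (.b 0)))))) (.s13 (.tw (.c 0 (.b 0) (.c 0 (.b 0) (.b 0)))))),
  .c 0 (.b 0) (.tw (.c 0 (.b 0) (.s13 (.tw (.c 0 (.b 0) (.c 0 (.b 0) (.b 0))))))),
  .s12 (.s13 (.s12 (.tw (.c 0 (.b 0) (.c 0 (.b 0) (.b 1)))))),
  .tw (.c 0 (.b 0) (.c 0 (.b 0) (.s12 (.s13 (.s12 (.tw (.c 0 (.b 0) (.b 0)))))))),
  .tw (.c 0 (.b 0) (.c 0 (.tw (.c 0 (.b 0) (.b 0))) (.s12 (.s13 (.s12 (.tw (.c 0 (.b 0) (.s12 (.s13 (.s12 (.tw (.c 0 (.b 0) (.b 0))))))))))))),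
  .s12 (.s13 (.s12 (.tw (.c 0 (.b 0) (.c 0 (.b 0) (.c 0 (.b 0) (.c 0 (.b 0) (.c 0 (.b 0) (.b 0))))))))),
  .tw (.c 0 (.tw (.c 0 (.b 0) (.b 0))) (.b 2)),
  .tw (.c 0 (.s13 (.tw (.c 0 (.b 0) (.b 0)))) (.b 1)),
  .s12 (.s13 (.s12 (.tw (.c 0 (.tw (.c 0 (.b 0) (.b 0))) (.s13 (.tw (.c 0 (.s12 (.s13 (.s12 (.tw (.c 0 (.b 0) (.b 0)))))) (.s13 (.tw (.c 0 (.b 0) (.b 0))))))))))),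
  .s12 (.s13 (.s12 (.tw (.c 0 (.s12 (.s13 (.s12 (.tw (.c 0 (.b 0) (.b 0)))))) (.tw (.c 0 (.s12 (.s13 (.s12 (.tw (.c 0 (.b 0) (.b 0)))))) (.s12 (.s13 (.s12 (.tw (.c 0 (.b 0) (.b 0)))))))))))),
  .tw (.c 0 (.tw (.c 0 (.b 0) (.b 0))) (.s13 (.tw (.c 0 (.s12 (.s13 (.s12 (.tw (.c 0 (.b 0) (.b 0)))))) (.s13 (.tw (.c 0 (.b 0) (.b 0)))))))),
  .s13 (.tw (.c 0 (.b 0) (.b 2))),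
  .tw (.c 0 (.b 0) (.s12 (.s13 (.s12 (.tw (.c 0 (.s12 (.s13 (.s12 (.tw (.c 0 (.b 0) (.b 0)))))) (.b 1))))))),
  .s12 (.s13 (.s12 (.tw (.c 0 (.b 0) (.c 0 (.b 0) (.c 0 (.tw (.c 0 (.b 0) (.b 0))) (.s13 (.tw (.c 0 (.b 0) (.b 0)))))))))),
  .c 0 (.s12 (.s13 (.s12 (.tw (.c 0 (.b 0) (.b 0)))))) (.s12 (.s13 (.s12 (.tw (.c 0 (.b 0) (.c 0 (.b 0) (.b 0))))))),
  .s13 (.tw (.c 0 (.b 0) (.c 0 (.b 0) (.c 0 (.tw (.c 0 (.b 0) (.b 0))) (.s12 (.s13 (.s12 (.tw (.c 0 (.b 0) (.b 0)))))))))),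
  .s13 (.tw (.s12 (.s13 (.s12 (.b 5))))),
  .s12 (.s13 (.s12 (.tw (.c 0 (.b 0) (.c 0 (.b 0) (.c 0 (.b 0) (.c 0 (.b 0) (.s12 (.s13 (.s12 (.tw (.c 0 (.b 0) (.b 0))))))))))))),
  .c 0 (.b 0) (.tw (.c 0 (.b 0) (.s13 (.tw (.c 0 (.s12 (.s13 (.s12 (.tw (.c 0 (.b 0) (.b 0)))))) (.s13 (.tw (.c 0 (.b 0) (.b 0))))))))),
  .tw (.c 0 (.b 0) (.c 0 (.b 0) (.c 0 (.tw (.c 0 (.b 0) (.b 0))) (.s12 (.s13 (.s12 (.tw (.c 0 (.b 0) (.b 0))))))))),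
  .tw (.c 0 (.b 0) (.c 0 (.b 0) (.s12 (.s13 (.s12 (.tw (.c 0 (.s12 (.s13 (.s12 (.tw (.c 0 (.b 0) (.b 0)))))) (.s13 (.tw (.c 0 (.b 0) (.b 0))))))))))),
  .tw (.c 0 (.b 0) (.c 0 (.s12 (.s13 (.s12 (.tw (.c 0 (.b 0) (.b 0)))))) (.s13 (.tw (.c 0 (.b 0) (.b 0)))))),
  .s13 (.tw (.c 0 (.s12 (.s13 (.s12 (.tw (.c 0 (.b 0) (.b 0)))))) (.tw (.c 0 (.tw (.c 0 (.b 0) (.b 0))) (.s12 (.s13 (.s12 (.tw (.c 0 (.b 0) (.b 0)))))))))),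
  .s12 (.s13 (.s12 (.tw (.b 6)))),
  .c 0 (.s13 (.tw (.c 0 (.b 0) (.b 0)))) (.tw (.c 0 (.b 0) (.c 0 (.b 0) (.s12 (.s13 (.s12 (.tw (.c 0 (.b 0) (.b 0))))))))),
  .s12 (.s13 (.s12 (.tw (.c 0 (.b 0) (.c 0 (.b 0) (.c 0 (.s12 (.s13 (.s12 (.tw (.c 0 (.b 0) (.b 0)))))) (.s13 (.tw (.c 0 (.b 0) (.b 0)))))))))),
  .c 0 (.b 0) (.s12 (.s13 (.s12 (.tw (.c 0 (.b 0) (.c 0 (.s12 (.s13 (.s12 (.tw (.c 0 (.b 0) (.b 0)))))) (.s13 (.tw (.c 0 (.b 0) (.b 0)))))))))),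
  .tw (.c 0 (.b 0) (.c 0 (.b 0) (.s13 (.tw (.c 0 (.tw (.c 0 (.b 0) (.b 0))) (.s12 (.s13 (.s12 (.tw (.c 0 (.b 0) (.b 0))))))))))),
  .tw (.c 0 (.s13 (.tw (.c 0 (.b 0) (.b 0)))) (.s12 (.s13 (.s12 (.tw (.c 0 (.tw (.c 0 (.b 0) (.b 0))) (.s13 (.tw (.c 0 (.b 0) (.b 0)))))))))),
  .c 0 (.s13 (.tw (.c 0 (.b 0) (.b 0)))) (.s12 (.s13 (.s12 (.tw (.c 0 (.b 0) (.c 0 (.b 0) (.s12 (.s13 (.s12 (.tw (.c 0 (.b 0) (.b 0)))))))))))),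
  .c 0 (.s13 (.tw (.c 0 (.b 0) (.b 0)))) (.c 0 (.s13 (.tw (.c 0 (.b 0) (.b 0)))) (.s13 (.tw (.c 0 (.b 0) (.b 0))))),
  .s12 (.s13 (.s12 (.tw (.c 0 (.b 0) (.c 0 (.s13 (.tw (.c 0 (.b 0) (.b 0)))) (.b 1)))))),
  .c 0 (.s12 (.s13 (.s12 (.tw (.c 0 (.b 0) (.b 0)))))) (.tw (.c 0 (.b 0) (.s12 (.s13 (.s12 (.tw (.c 0 (.b 0) (.b 0)))))))),
  .tw (.c 0 (.s12 (.s13 (.s12 (.tw (.c 0 (.b 0) (.c 0 (.b 0) (.b 0))))))) (.s12 (.s13 (.s12 (.tw (.c 0 (.b 0) (.s12 (.s13 (.s12 (.tw (.c 0 (.b 0) (.b 0)))))))))))),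
  .c 0 (.b 0) (.s13 (.tw (.c 0 (.b 0) (.c 0 (.s13 (.tw (.c 0 (.b 0) (.b 0)))) (.s13 (.tw (.c 0 (.b 0) (.b 0)))))))),
  .tw (.c 0 (.tw (.c 0 (.b 0) (.b 0))) (.s13 (.tw (.c 0 (.b 0) (.c 0 (.b 0) (.c 0 (.b 0) (.b 0))))))),
  .c 0 (.b 0) (.c 0 (.b 0) (.s12 (.s13 (.s12 (.tw (.c 0 (.b 0) (.s12 (.s13 (.s12 (.tw (.c 0 (.b 0) (.b 0)))))))))))),
  .c 0 (.b 0) (.tw (.c 0 (.b 0) (.c 0 (.s12 (.s13 (.s12 (.tw (.c 0 (.b 0) (.b 0)))))) (.s12 (.s13 (.s12 (.tw (.c 0 (.b 0) (.b 0))))))))),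
  .s13 (.tw (.c 0 (.b 0) (.c 0 (.b 0) (.b 1)))),
  .c 0 (.b 0) (.c 0 (.b 0) (.s13 (.tw (.c 0 (.tw (.c 0 (.b 0) (.b 0))) (.s13 (.tw (.c 0 (.b 0) (.b 0)))))))),
  .s13 (.tw (.c 0 (.s13 (.tw (.c 0 (.b 0) (.b 0)))) (.tw (.c 0 (.s12 (.s13 (.s12 (.tw (.c 0 (.b 0) (.b 0)))))) (.s13 (.tw (.c 0 (.b 0) (.b 0)))))))),
  .tw (.c 0 (.s12 (.s13 (.s12 (.tw (.c 0 (.b 0) (.b 0)))))) (.tw (.c 0 (.tw (.c 0 (.b 0) (.b 0))) (.s12 (.s13 (.s12 (.tw (.c 0 (.b 0) (.b 0))))))))),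
  .c 0 (.b 0) (.c 0 (.tw (.c 0 (.b 0) (.b 0))) (.b 1)),
  .c 0 (.b 0) (.c 0 (.s13 (.tw (.c 0 (.b 0) (.b 0)))) (.tw (.c 0 (.b 0) (.s12 (.s13 (.s12 (.tw (.c 0 (.b 0) (.b 0))))))))),
  .tw (.c 0 (.s12 (.s13 (.s12 (.tw (.c 0 (.b 0) (.b 0)))))) (.tw (.c 0 (.s12 (.s13 (.s12 (.tw (.c 0 (.b 0) (.b 0)))))) (.s12 (.s13 (.s12 (.tw (.c 0 (.b 0) (.b 0))))))))),
  .c 0 (.b 0) (.s13 (.tw (.c 0 (.tw (.c 0 (.b 0) (.b 0))) (.s12 (.s13 (.s12 (.tw (.c 0 (.b 0) (.s12 (.s13 (.s12 (.tw (.c 0 (.b 0) (.b 0)))))))))))))),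
  .c 0 (.b 0) (.tw (.c 0 (.b 0) (.s12 (.s13 (.s12 (.tw (.c 0 (.tw (.c 0 (.b 0) (.b 0))) (.s13 (.tw (.c 0 (.b 0) (.b 0))))))))))),
  .c 0 (.s13 (.tw (.c 0 (.b 0) (.c 0 (.b 0) (.b 0))))) (.s12 (.s13 (.s12 (.tw (.c 0 (.b 0) (.s12 (.s13 (.s12 (.tw (.c 0 (.b 0) (.b 0))))))))))),
  .c 0 (.b 0) (.s12 (.s13 (.s12 (.tw (.c 0 (.b 0) (.b 2)))))),
  .c 0 (.b 0) (.tw (.c 0 (.s12 (.s13 (.s12 (.tw (.c 0 (.b 0) (.b 0)))))) (.s12 (.s13 (.s12 (.tw (.c 0 (.b 0) (.s12 (.s13 (.s12 (.tw (.c 0 (.b 0) (.b 0))))))))))))),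
  .s13 (.tw (.c 0 (.b 0) (.c 0 (.b 0) (.c 0 (.s12 (.s13 (.s12 (.tw (.c 0 (.b 0) (.b 0)))))) (.s13 (.tw (.c 0 (.b 0) (.b 0)))))))),
  .c 0 (.b 0) (.s12 (.s13 (.s12 (.tw (.c 0 (.b 0) (.c 0 (.s12 (.s13 (.s12 (.tw (.c 0 (.b 0) (.b 0)))))) (.s12 (.s13 (.s12 (.tw (.c 0 (.b 0) (.b 0)))))))))))),
  .tw (.c 0 (.b 0) (.s13 (.tw (.c 0 (.b 0) (.s13 (.tw (.c 0 (.tw (.c 0 (.b 0) (.b 0))) (.s13 (.tw (.c 0 (.b 0) (.b 0))))))))))),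
  .c 0 (.b 0) (.tw (.c 0 (.b 0) (.c 0 (.b 0) (.b 0)))),
  .s12 (.s13 (.s12 (.tw (.c 0 (.tw (.c 0 (.b 0) (.b 0))) (.c 0 (.s13 (.tw (.c 0 (.b 0) (.b 0)))) (.s13 (.tw (.c 0 (.b 0) (.b 0))))))))),
  .c 0 (.s13 (.tw (.c 0 (.b 0) (.b 0)))) (.tw (.c 0 (.s12 (.s13 (.s12 (.tw (.c 0 (.b 0) (.b 0)))))) (.s13 (.tw (.c 0 (.b 0) (.b 0)))))),
  .c 0 (.b 0) (.c 0 (.b 0) (.s12 (.s13 (.s12 (.tw (.c 0 (.tw (.c 0 (.b 0) (.b 0))) (.s12 (.s13 (.s12 (.tw (.c 0 (.b 0) (.b 0)))))))))))),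
  .s13 (.tw (.c 0 (.tw (.c 0 (.b 0) (.b 0))) (.s13 (.tw (.c 0 (.b 0) (.b 0)))))),
  .c 0 (.b 0) (.b 1),
  .tw (.c 0 (.b 0) (.c 0 (.b 0) (.b 2))),
  .tw (.c 0 (.b 0) (.c 0 (.tw (.c 0 (.b 0) (.b 0))) (.s12 (.s13 (.s12 (.tw (.c 0 (.b 0) (.c 0 (.b 0) (.b 0))))))))),
  .s12 (.s13 (.s12 (.tw (.c 0 (.s13 (.tw (.c 0 (.b 0) (.b 0)))) (.tw (.c 0 (.b 0) (.s13 (.tw (.c 0 (.b 0) (.b 0)))))))))),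
  .s12 (.s13 (.s12 (.tw (.c 0 (.s12 (.s13 (.s12 (.tw (.c 0 (.b 0) (.b 0)))))) (.c 0 (.s13 (.tw (.c 0 (.b 0) (.b 0)))) (.s13 (.tw (.c 0 (.b 0) (.b 0))))))))),
  .s13 (.tw (.c 0 (.b 0) (.c 0 (.s13 (.tw (.c 0 (.b 0) (.b 0)))) (.s13 (.tw (.c 0 (.b 0) (.b 0))))))),
  .tw (.c 0 (.s13 (.tw (.c 0 (.b 0) (.b 0)))) (.tw (.c 0 (.s13 (.tw (.c 0 (.b 0) (.b 0)))) (.s13 (.tw (.c 0 (.b 0) (.b 0))))))),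
  .tw (.c 0 (.b 0) (.tw (.c 0 (.tw (.c 0 (.b 0) (.b 0))) (.s13 (.tw (.c 0 (.b 0) (.c 0 (.b 0) (.b 0)))))))),
  .s13 (.tw (.c 0 (.tw (.c 0 (.b 0) (.b 0))) (.s12 (.s13 (.s12 (.tw (.c 0 (.b 0) (.b 0)))))))),
  .tw (.c 0 (.b 0) (.b 2)),
  .c 0 (.tw (.c 0 (.b 0) (.b 0))) (.tw (.c 0 (.b 0) (.c 0 (.b 0) (.s12 (.s13 (.s12 (.tw (.c 0 (.b 0) (.b 0))))))))),
  .s12 (.s13 (.s12 (.tw (.c 0 (.s13 (.tw (.c 0 (.b 0) (.b 0)))) (.b 1))))),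
  .tw (.c 0 (.b 0) (.s13 (.tw (.c 0 (.tw (.c 0 (.b 0) (.b 0))) (.b 1))))),
  .s13 (.tw (.c 0 (.b 0) (.c 0 (.b 0) (.c 0 (.b 0) (.b 1))))),
  .c 0 (.b 0) (.c 0 (.b 0) (.c 0 (.b 0) (.tw (.c 0 (.b 0) (.b 0))))),
  .c 0 (.s12 (.s13 (.s12 (.tw (.c 0 (.b 0) (.b 0)))))) (.s12 (.s13 (.s12 (.tw (.c 0 (.b 0) (.c 0 (.b 0) (.s12 (.s13 (.s12 (.tw (.c 0 (.b 0) (.b 0)))))))))))),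
  .c 0 (.b 0) (.tw (.c 0 (.b 0) (.s13 (.tw (.c 0 (.tw (.c 0 (.b 0) (.b 0))) (.s12 (.s13 (.s12 (.tw (.c 0 (.b 0) (.b 0))))))))))),
  .s12 (.s13 (.s12 (.tw (.c 0 (.s12 (.s13 (.s12 (.tw (.c 0 (.b 0) (.b 0)))))) (.b 1))))),
  .c 0 (.b 0) (.s13 (.tw (.c 0 (.b 0) (.b 2)))),
  .tw (.c 0 (.b 0) (.c 0 (.b 0) (.s12 (.s13 (.s12 (.tw (.c 0 (.tw (.c 0 (.b 0) (.b 0))) (.s13 (.tw (.c 0 (.b 0) (.b 0))))))))))),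
  .s13 (.tw (.c 0 (.tw (.c 0 (.b 0) (.b 0))) (.c 0 (.s13 (.tw (.c 0 (.b 0) (.b 0)))) (.s13 (.tw (.c 0 (.b 0) (.b 0))))))),
  .tw (.c 0 (.tw (.c 0 (.b 0) (.c 0 (.b 0) (.b 0)))) (.s13 (.tw (.c 0 (.b 0) (.c 0 (.b 0) (.b 0)))))),
  .s13 (.tw (.c 0 (.b 0) (.c 0 (.b 0) (.s13 (.tw (.c 0 (.tw (.c 0 (.b 0) (.b 0))) (.s12 (.s13 (.s12 (.tw (.c 0 (.b 0) (.b 0)))))))))))),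
  .s12 (.s13 (.s12 (.tw (.c 0 (.tw (.c 0 (.b 0) (.b 0))) (.c 0 (.tw (.c 0 (.b 0) (.b 0))) (.s13 (.tw (.c 0 (.b 0) (.b 0))))))))),
  .s13 (.tw (.s13 (.s12 (.b 4)))),
  .tw (.c 0 (.b 0) (.s12 (.s13 (.s12 (.tw (.c 0 (.b 0) (.c 0 (.tw (.c 0 (.b 0) (.b 0))) (.s12 (.s13 (.s12 (.tw (.c 0 (.b 0) (.b 0))))))))))))),
  .c 0 (.b 0) (.c 0 (.s13 (.tw (.c 0 (.b 0) (.b 0)))) (.tw (.c 0 (.b 0) (.s13 (.tw (.c 0 (.b 0) (.b 0))))))),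
  .s13 (.tw (.c 0 (.b 0) (.c 0 (.b 0) (.c 0 (.s13 (.tw (.c 0 (.b 0) (.b 0)))) (.s13 (.tw (.c 0 (.b 0) (.b 0)))))))),
  .s12 (.s13 (.s12 (.tw (.c 0 (.s12 (.s13 (.s12 (.tw (.c 0 (.b 0) (.b 0)))))) (.s13 (.tw (.c 0 (.tw (.c 0 (.b 0) (.b 0))) (.s12 (.s13 (.s12 (.tw (.c 0 (.b 0) (.b 0))))))))))))),
  .tw (.c 0 (.b 0) (.s13 (.tw (.c 0 (.b 0) (.c 0 (.tw (.c 0 (.b 0) (.b 0))) (.s12 (.s13 (.s12 (.tw (.c 0 (.b 0) (.b 0))))))))))),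
  .c 0 (.b 0) (.s12 (.s13 (.s12 (.tw (.c 0 (.b 0) (.s12 (.s13 (.s12 (.tw (.c 0 (.tw (.c 0 (.b 0) (.b 0))) (.s12 (.s13 (.s12 (.tw (.c 0 (.b 0) (.b 0)))))))))))))))),
  .s12 (.s13 (.s12 (.tw (.c 0 (.b 0) (.c 0 (.tw (.c 0 (.b 0) (.b 0))) (.s12 (.s13 (.s12 (.tw (.c 0 (.b 0) (.s12 (.s13 (.s12 (.tw (.c 0 (.b 0) (.b 0)))))))))))))))),
  .c 0 (.b 0) (.c 0 (.b 0) (.s12 (.s13 (.s12 (.tw (.c 0 (.s12 (.s13 (.s12 (.tw (.c 0 (.b 0) (.b 0)))))) (.s13 (.tw (.c 0 (.b 0) (.b 0)))))))))),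
  .s13 (.tw (.c 0 (.tw (.c 0 (.b 0) (.b 0))) (.b 2))),
  .s13 (.tw (.c 0 (.tw (.c 0 (.b 0) (.b 0))) (.c 0 (.s12 (.s13 (.s12 (.tw (.c 0 (.b 0) (.b 0)))))) (.s12 (.s13 (.s12 (.tw (.c 0 (.b 0) (.b 0))))))))),
  .c 0 (.b 0) (.s12 (.s13 (.s12 (.tw (.c 0 (.b 0) (.c 0 (.b 0) (.b 0))))))),
  .tw (.c 0 (.b 0) (.s12 (.s13 (.s12 (.tw (.c 0 (.b 0) (.s12 (.s13 (.s12 (.tw (.c 0 (.s12 (.s13 (.s12 (.tw (.c 0 (.b 0) (.b 0)))))) (.s13 (.tw (.c 0 (.b 0) (.b 0))))))))))))))),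
  .tw (.c 0 (.b 0) (.c 0 (.b 0) (.b 1))),
  .s13 (.tw (.c 0 (.b 0) (.c 0 (.b 0) (.c 0 (.b 0) (.c 0 (.b 0) (.c 0 (.b 0) (.b 0))))))),
  .tw (.c 0 (.b 0) (.tw (.b 3))),
  .c 0 (.tw (.c 0 (.b 0) (.b 0))) (.tw (.c 0 (.b 0) (.c 0 (.b 0) (.b 0)))),
  .c 0 (.b 0) (.s12 (.s13 (.s12 (.tw (.c 0 (.b 0) (.c 0 (.b 0) (.c 0 (.b 0) (.b 0)))))))),
  .tw (.c 0 (.b 0) (.c 0 (.tw (.c 0 (.b 0) (.b 0))) (.s13 (.tw (.c 0 (.b 0) (.c 0 (.b 0) (.b 0))))))),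
  .tw (.c 0 (.s13 (.tw (.c 0 (.b 0) (.b 0)))) (.s13 (.tw (.c 0 (.tw (.c 0 (.b 0) (.b 0))) (.s12 (.s13 (.s12 (.tw (.c 0 (.b 0) (.b 0)))))))))),
  .c 0 (.b 0) (.c 0 (.b 0) (.s12 (.s13 (.s12 (.tw (.c 0 (.tw (.c 0 (.b 0) (.b 0))) (.s13 (.tw (.c 0 (.b 0) (.b 0)))))))))),
  .s13 (.tw (.c 0 (.b 0) (.c 0 (.b 0) (.s13 (.tw (.c 0 (.b 0) (.b 0))))))),
  .c 0 (.b 0) (.s12 (.s13 (.s12 (.tw (.c 0 (.s12 (.s13 (.s12 (.tw (.c 0 (.b 0) (.b 0)))))) (.s12 (.s13 (.s12 (.tw (.c 0 (.b 0) (.b 0))))))))))),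
  .tw (.c 0 (.b 0) (.s12 (.s13 (.s12 (.tw (.c 0 (.s13 (.tw (.c 0 (.b 0) (.b 0)))) (.b 1))))))),
  .c 0 (.tw (.c 0 (.b 0) (.c 0 (.b 0) (.b 0)))) (.tw (.c 0 (.b 0) (.s12 (.s13 (.s12 (.tw (.c 0 (.b 0) (.b 0)))))))),
  .tw (.c 0 (.b 0) (.s12 (.s13 (.s12 (.tw (.c 0 (.b 0) (.b 1))))))),
  .c 0 (.s12 (.s13 (.s12 (.tw (.c 0 (.b 0) (.b 0)))))) (.s13 (.tw (.c 0 (.b 0) (.b 0)))),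
  .s13 (.tw (.c 0 (.b 0) (.tw (.c 0 (.tw (.c 0 (.b 0) (.b 0))) (.s12 (.s13 (.s12 (.tw (.c 0 (.b 0) (.c 0 (.b 0) (.b 0))))))))))),
  .tw (.c 0 (.b 0) (.c 0 (.s12 (.s13 (.s12 (.tw (.c 0 (.b 0) (.b 0)))))) (.s12 (.s13 (.s12 (.tw (.c 0 (.b 0) (.b 0)))))))),
  .c 0 (.b 0) (.c 0 (.tw (.c 0 (.b 0) (.b 0))) (.s12 (.s13 (.s12 (.tw (.c 0 (.b 0) (.c 0 (.b 0) (.b 0)))))))),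
  .s12 (.s13 (.s12 (.tw (.c 0 (.b 0) (.c 0 (.b 0) (.c 0 (.b 0) (.s12 (.s13 (.s12 (.tw (.c 0 (.b 0) (.b 0)))))))))))),
  .s13 (.tw (.b 6)),
  .s13 (.tw (.c 0 (.b 0) (.s13 (.tw (.c 0 (.tw (.c 0 (.b 0) (.b 0))) (.s12 (.s13 (.s12 (.tw (.c 0 (.b 0) (.b 0))))))))))),
  .s13 (.tw (.c 0 (.b 0) (.c 0 (.b 0) (.s13 (.tw (.c 0 (.tw (.c 0 (.b 0) (.b 0))) (.s13 (.tw (.c 0 (.b 0) (.b 0)))))))))),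
  .c 0 (.b 0) (.s12 (.s13 (.s12 (.tw (.c 0 (.b 0) (.c 0 (.tw (.c 0 (.b 0) (.b 0))) (.s13 (.tw (.c 0 (.b 0) (.b 0)))))))))),
  .c 0 (.s12 (.s13 (.s12 (.tw (.c 0 (.b 0) (.b 0)))))) (.tw (.c 0 (.b 0) (.s13 (.tw (.c 0 (.b 0) (.c 0 (.b 0) (.b 0))))))),
  .c 0 (.b 0) (.tw (.c 0 (.b 0) (.s12 (.s13 (.s12 (.tw (.c 0 (.s12 (.s13 (.s12 (.tw (.c 0 (.b 0) (.b 0)))))) (.s13 (.tw (.c 0 (.b 0) (.b 0))))))))))),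
  .s13 (.tw (.b 3)),
  .tw (.c 0 (.tw (.c 0 (.b 0) (.s12 (.s13 (.s12 (.tw (.c 0 (.b 0) (.b 0)))))))) (.s13 (.tw (.c 0 (.b 0) (.c 0 (.b 0) (.b 0)))))),
  .s13 (.tw (.c 0 (.b 0) (.c 0 (.b 0) (.s13 (.tw (.c 0 (.s12 (.s13 (.s12 (.tw (.c 0 (.b 0) (.b 0)))))) (.s13 (.tw (.c 0 (.b 0) (.b 0)))))))))),
  .c 0 (.b 0) (.s13 (.tw (.c 0 (.tw (.c 0 (.b 0) (.b 0))) (.b 1)))),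
  .tw (.b 6),
  .s13 (.tw (.c 0 (.b 0) (.s13 (.tw (.c 0 (.s13 (.tw (.c 0 (.b 0) (.b 0)))) (.b 1)))))),
  .tw (.c 0 (.b 0) (.tw (.c 0 (.tw (.c 0 (.b 0) (.b 0))) (.s12 (.s13 (.s12 (.tw (.c 0 (.b 0) (.c 0 (.b 0) (.b 0)))))))))),
  .s13 (.tw (.c 0 (.b 0) (.c 0 (.b 0) (.c 0 (.tw (.c 0 (.b 0) (.b 0))) (.s13 (.tw (.c 0 (.b 0) (.b 0)))))))),
  .s12 (.s13 (.s12 (.tw (.c 0 (.b 0) (.c 0 (.b 0) (.s12 (.s13 (.s12 (.tw (.c 0 (.tw (.c 0 (.b 0) (.b 0))) (.s12 (.s13 (.s12 (.tw (.c 0 (.b 0) (.b 0)))))))))))))))),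
  .c 0 (.b 0) (.b 2),
  .c 0 (.s12 (.s13 (.s12 (.tw (.c 0 (.b 0) (.b 0)))))) (.tw (.c 0 (.s13 (.tw (.c 0 (.b 0) (.b 0)))) (.s13 (.tw (.c 0 (.b 0) (.b 0)))))),
  .s13 (.tw (.c 0 (.b 0) (.c 0 (.s12 (.s13 (.s12 (.tw (.c 0 (.b 0) (.b 0)))))) (.tw (.c 0 (.b 0) (.s12 (.s13 (.s12 (.tw (.c 0 (.b 0) (.b 0))))))))))),
  .tw (.c 0 (.s13 (.tw (.c 0 (.b 0) (.b 0)))) (.s12 (.s13 (.s12 (.tw (.c 0 (.b 0) (.c 0 (.b 0) (.b 0)))))))),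
  .c 0 (.tw (.c 0 (.b 0) (.b 0))) (.tw (.c 0 (.b 0) (.s12 (.s13 (.s12 (.tw (.c 0 (.b 0) (.b 0)))))))),
  .s13 (.tw (.s12 (.s13 (.s12 (.b 4))))),
  .c 0 (.s12 (.s13 (.s12 (.tw (.c 0 (.b 0) (.b 0)))))) (.s12 (.s13 (.s12 (.tw (.c 0 (.b 0) (.s12 (.s13 (.s12 (.tw (.c 0 (.b 0) (.b 0))))))))))),
  .s12 (.s13 (.s12 (.tw (.c 0 (.s13 (.tw (.c 0 (.b 0) (.b 0)))) (.s12 (.s13 (.s12 (.tw (.c 0 (.tw (.c 0 (.b 0) (.b 0))) (.s13 (.tw (.c 0 (.b 0) (.b 0))))))))))))),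
  .c 0 (.b 0) (.tw (.c 0 (.b 0) (.s12 (.s13 (.s12 (.tw (.c 0 (.b 0) (.b 0)))))))),
  .s13 (.tw (.c 0 (.b 0) (.c 0 (.b 0) (.c 0 (.b 0) (.s13 (.tw (.c 0 (.b 0) (.c 0 (.b 0) (.b 0))))))))),
  .tw (.c 0 (.b 0) (.s12 (.s13 (.s12 (.tw (.c 0 (.b 0) (.c 0 (.s12 (.s13 (.s12 (.tw (.c 0 (.b 0) (.b 0)))))) (.s12 (.s13 (.s12 (.tw (.c 0 (.b 0) (.b 0))))))))))))),
  .s13 (.tw (.c 0 (.b 0) (.c 0 (.b 0) (.s13 (.tw (.c 0 (.b 0) (.b 1))))))),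
  .s13 (.tw (.c 0 (.b 0) (.c 0 (.tw (.c 0 (.b 0) (.b 0))) (.s12 (.s13 (.s12 (.tw (.c 0 (.b 0) (.b 0))))))))),
  .tw (.c 0 (.tw (.c 0 (.b 0) (.b 0))) (.s12 (.s13 (.s12 (.tw (.c 0 (.b 0) (.c 0 (.b 0) (.c 0 (.b 0) (.b 0))))))))),
  .tw (.c 0 (.b 0) (.s13 (.tw (.c 0 (.b 0) (.b 2))))),
  .s13 (.tw (.c 0 (.b 0) (.c 0 (.tw (.c 0 (.b 0) (.b 0))) (.s13 (.tw (.c 0 (.b 0) (.c 0 (.b 0) (.b 0)))))))),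
  .c 0 (.b 0) (.s13 (.tw (.c 0 (.s13 (.tw (.c 0 (.b 0) (.b 0)))) (.b 1)))),
  .s13 (.s12 (.b 4)),
  .tw (.c 0 (.s13 (.tw (.c 0 (.b 0) (.b 0)))) (.s12 (.s13 (.s12 (.tw (.c 0 (.b 0) (.s12 (.s13 (.s12 (.tw (.c 0 (.b 0) (.b 0)))))))))))),
  .s12 (.s13 (.s12 (.tw (.c 0 (.b 0) (.c 0 (.s12 (.s13 (.s12 (.tw (.c 0 (.b 0) (.b 0)))))) (.s12 (.s13 (.s12 (.tw (.c 0 (.b 0) (.b 0))))))))))),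
  .c 0 (.s12 (.s13 (.s12 (.tw (.c 0 (.b 0) (.b 0)))))) (.s13 (.tw (.c 0 (.b 0) (.c 0 (.b 0) (.b 0))))),
  .s12 (.s13 (.s12 (.tw (.c 0 (.s12 (.s13 (.s12 (.tw (.c 0 (.b 0) (.b 0)))))) (.s13 (.tw (.c 0 (.b 0) (.b 0)))))))),
  .tw (.c 0 (.tw (.c 0 (.b 0) (.b 0))) (.s13 (.tw (.c 0 (.b 0) (.c 0 (.b 0) (.b 0)))))),
  .s12 (.s13 (.s12 (.tw (.s12 (.s13 (.s12 (.b 4))))))),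
  .c 0 (.b 0) (.tw (.c 0 (.b 0) (.c 0 (.b 0) (.s12 (.s13 (.s12 (.tw (.c 0 (.b 0) (.b 0))))))))),
  .c 0 (.s12 (.s13 (.s12 (.tw (.c 0 (.b 0) (.s12 (.s13 (.s12 (.tw (.c 0 (.b 0) (.b 0))))))))))) (.s12 (.s13 (.s12 (.tw (.c 0 (.b 0) (.s12 (.s13 (.s12 (.tw (.c 0 (.b 0) (.b 0))))))))))),
  .s13 (.tw (.b 5)),
  .tw (.c 0 (.tw (.c 0 (.b 0) (.b 0))) (.b 1)),
  .s13 (.b 7),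
  .c 0 (.b 0) (.tw (.c 0 (.s12 (.s13 (.s12 (.tw (.c 0 (.b 0) (.b 0)))))) (.s12 (.s13 (.s12 (.tw (.c 0 (.b 0) (.b 0)))))))),
  .s13 (.tw (.c 0 (.tw (.c 0 (.b 0) (.c 0 (.b 0) (.b 0)))) (.s12 (.s13 (.s12 (.tw (.c 0 (.b 0) (.c 0 (.b 0) (.b 0))))))))),
  .tw (.c 0 (.b 0) (.s13 (.tw (.c 0 (.s12 (.s13 (.s12 (.tw (.c 0 (.b 0) (.b 0)))))) (.tw (.c 0 (.b 0) (.s12 (.s13 (.s12 (.tw (.c 0 (.b 0) (.b 0)))))))))))),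
  .s12 (.s13 (.s12 (.tw (.c 0 (.tw (.c 0 (.b 0) (.c 0 (.b 0) (.b 0)))) (.s13 (.tw (.c 0 (.b 0) (.c 0 (.b 0) (.b 0))))))))),
  .s13 (.tw (.c 0 (.b 0) (.c 0 (.tw (.c 0 (.b 0) (.b 0))) (.s13 (.tw (.c 0 (.b 0) (.b 0))))))),
  .s13 (.tw (.c 0 (.s13 (.tw (.c 0 (.b 0) (.b 0)))) (.s13 (.tw (.c 0 (.tw (.c 0 (.b 0) (.b 0))) (.s13 (.tw (.c 0 (.b 0) (.b 0))))))))),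
  .c 0 (.s13 (.tw (.c 0 (.b 0) (.b 0)))) (.s13 (.tw (.c 0 (.tw (.c 0 (.b 0) (.b 0))) (.s12 (.s13 (.s12 (.tw (.c 0 (.b 0) (.b 0))))))))),
  .s12 (.b 7),
  .c 0 (.tw (.c 0 (.b 0) (.b 0))) (.s13 (.tw (.c 0 (.b 0) (.c 0 (.b 0) (.b 0))))),
  .s12 (.s13 (.s12 (.tw (.c 0 (.b 0) (.c 0 (.b 0) (.s12 (.s13 (.s12 (.tw (.c 0 (.b 0) (.b 1))))))))))),
  .s12 (.s13 (.s12 (.tw (.c 0 (.b 0) (.c 0 (.b 0) (.c 0 (.tw (.c 0 (.b 0) (.b 0))) (.s12 (.s13 (.s12 (.tw (.c 0 (.b 0) (.b 0)))))))))))),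
  .c 0 (.b 0) (.c 0 (.b 0) (.c 0 (.b 0) (.s12 (.s13 (.s12 (.tw (.c 0 (.b 0) (.b 0)))))))),
  .c 0 (.b 0) (.s13 (.tw (.c 0 (.s12 (.s13 (.s12 (.tw (.c 0 (.b 0) (.b 0)))))) (.tw (.c 0 (.b 0) (.s12 (.s13 (.s12 (.tw (.c 0 (.b 0) (.b 0))))))))))),
  .s12 (.s13 (.s12 (.tw (.c 0 (.s13 (.tw (.c 0 (.b 0) (.b 0)))) (.b 2))))),
  .s12 (.s13 (.s12 (.tw (.c 0 (.b 0) (.b 2))))),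
  .tw (.c 0 (.tw (.c 0 (.b 0) (.b 0))) (.c 0 (.s13 (.tw (.c 0 (.b 0) (.b 0)))) (.s13 (.tw (.c 0 (.b 0) (.b 0)))))),
  .s12 (.s13 (.s12 (.tw (.c 0 (.s13 (.tw (.c 0 (.b 0) (.b 0)))) (.s12 (.s13 (.s12 (.tw (.c 0 (.s12 (.s13 (.s12 (.tw (.c 0 (.b 0) (.b 0)))))) (.s13 (.tw (.c 0 (.b 0) (.b 0))))))))))))),
  .c 0 (.b 0) (.s12 (.s13 (.s12 (.tw (.c 0 (.b 0) (.c 0 (.b 0) (.s12 (.s13 (.s12 (.tw (.c 0 (.b 0) (.b 0)))))))))))),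
  .s13 (.tw (.c 0 (.tw (.c 0 (.b 0) (.c 0 (.b 0) (.b 0)))) (.s13 (.tw (.c 0 (.b 0) (.c 0 (.b 0) (.b 0))))))),
  .s13 (.tw (.c 0 (.tw (.c 0 (.b 0) (.b 0))) (.s12 (.s13 (.s12 (.tw (.c 0 (.s12 (.s13 (.s12 (.tw (.c 0 (.b 0) (.b 0)))))) (.s13 (.tw (.c 0 (.b 0) (.b 0))))))))))),
  .s12 (.s13 (.s12 (.tw (.c 0 (.b 0) (.s12 (.s13 (.s12 (.tw (.c 0 (.s12 (.s13 (.s12 (.tw (.c 0 (.b 0) (.b 0)))))) (.b 1)))))))))),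
  .c 0 (.b 0) (.tw (.c 0 (.tw (.c 0 (.b 0) (.b 0))) (.s12 (.s13 (.s12 (.tw (.c 0 (.b 0) (.s12 (.s13 (.s12 (.tw (.c 0 (.b 0) (.b 0))))))))))))),
  .tw (.c 0 (.b 0) (.s12 (.s13 (.s12 (.tw (.c 0 (.s12 (.s13 (.s12 (.tw (.c 0 (.b 0) (.b 0)))))) (.s13 (.tw (.c 0 (.b 0) (.b 0)))))))))),
  .s13 (.tw (.c 0 (.b 0) (.c 0 (.b 0) (.c 0 (.b 0) (.s13 (.tw (.c 0 (.b 0) (.b 0)))))))),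
  .c 0 (.tw (.c 0 (.b 0) (.s12 (.s13 (.s12 (.tw (.c 0 (.b 0) (.b 0)))))))) (.tw (.c 0 (.b 0) (.s12 (.s13 (.s12 (.tw (.c 0 (.b 0) (.b 0)))))))),
  .c 0 (.b 0) (.s13 (.tw (.c 0 (.b 0) (.b 1)))),
  .s12 (.s13 (.s12 (.tw (.c 0 (.b 0) (.c 0 (.b 0) (.s12 (.s13 (.s12 (.tw (.c 0 (.b 0) (.c 0 (.b 0) (.b 0)))))))))))),
  .s13 (.tw (.c 0 (.b 0) (.s12 (.s13 (.s12 (.tw (.b 3))))))),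
  .c 0 (.b 0) (.c 0 (.b 0) (.tw (.c 0 (.b 0) (.c 0 (.b 0) (.b 0))))),
  .c 0 (.b 0) (.tw (.c 0 (.tw (.c 0 (.b 0) (.b 0))) (.s13 (.tw (.c 0 (.b 0) (.c 0 (.b 0) (.b 0))))))),
  .c 0 (.tw (.c 0 (.b 0) (.b 0))) (.s12 (.s13 (.s12 (.tw (.c 0 (.b 0) (.c 0 (.b 0) (.b 0))))))),
  .c 0 (.b 0) (.s12 (.s13 (.s12 (.tw (.c 0 (.b 0) (.s12 (.s13 (.s12 (.tw (.c 0 (.tw (.c 0 (.b 0) (.b 0))) (.s13 (.tw (.c 0 (.b 0) (.b 0)))))))))))))),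
  .tw (.c 0 (.tw (.c 0 (.b 0) (.b 0))) (.c 0 (.tw (.c 0 (.b 0) (.b 0))) (.s13 (.tw (.c 0 (.b 0) (.b 0)))))),
  .s12 (.s13 (.s12 (.tw (.c 0 (.s13 (.tw (.c 0 (.b 0) (.b 0)))) (.tw (.c 0 (.tw (.c 0 (.b 0) (.b 0))) (.s13 (.tw (.c 0 (.b 0) (.b 0)))))))))),
  .c 0 (.b 0) (.s13 (.tw (.c 0 (.s12 (.s13 (.s12 (.tw (.c 0 (.b 0) (.b 0)))))) (.b 1)))),
  .s12 (.s13 (.s12 (.tw (.c 0 (.b 0) (.c 0 (.s12 (.s13 (.s12 (.tw (.c 0 (.b 0) (.b 0)))))) (.tw (.c 0 (.b 0) (.s12 (.s13 (.s12 (.tw (.c 0 (.b 0) (.b 0))))))))))))),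
  .c 0 (.s13 (.tw (.c 0 (.b 0) (.b 0)))) (.s12 (.s13 (.s12 (.tw (.c 0 (.b 0) (.c 0 (.b 0) (.b 0))))))),
  .tw (.c 0 (.b 0) (.s12 (.s13 (.s12 (.tw (.c 0 (.tw (.c 0 (.b 0) (.b 0))) (.s13 (.tw (.c 0 (.b 0) (.b 0)))))))))),
  .s12 (.s13 (.s12 (.tw (.c 0 (.b 0) (.c 0 (.b 0) (.b 2)))))),
  .c 0 (.b 0) (.tw (.c 0 (.tw (.c 0 (.b 0) (.b 0))) (.s12 (.s13 (.s12 (.tw (.c 0 (.b 0) (.b 0)))))))),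
  .c 0 (.b 0) (.s13 (.tw (.c 0 (.b 0) (.c 0 (.b 0) (.s13 (.tw (.c 0 (.b 0) (.b 0)))))))),
  .c 0 (.s12 (.s13 (.s12 (.tw (.c 0 (.b 0) (.c 0 (.b 0) (.b 0))))))) (.s12 (.s13 (.s12 (.tw (.c 0 (.b 0) (.s12 (.s13 (.s12 (.tw (.c 0 (.b 0) (.b 0))))))))))),
  .s12 (.s13 (.s12 (.tw (.c 0 (.tw (.c 0 (.b 0) (.b 0))) (.s13 (.tw (.c 0 (.tw (.c 0 (.b 0) (.b 0))) (.s13 (.tw (.c 0 (.b 0) (.b 0))))))))))),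
  .c 0 (.tw (.c 0 (.b 0) (.b 0))) (.tw (.c 0 (.s13 (.tw (.c 0 (.b 0) (.b 0)))) (.s13 (.tw (.c 0 (.b 0) (.b 0)))))),
  .s12 (.s13 (.s12 (.tw (.c 0 (.s13 (.tw (.c 0 (.b 0) (.b 0)))) (.tw (.c 0 (.s13 (.tw (.c 0 (.b 0) (.b 0)))) (.s13 (.tw (.c 0 (.b 0) (.b 0)))))))))),
  .tw (.s13 (.s12 (.b 5))),
  .tw (.c 0 (.b 0) (.s12 (.s13 (.s12 (.tw (.c 0 (.b 0) (.s12 (.s13 (.s12 (.tw (.c 0 (.tw (.c 0 (.b 0) (.b 0))) (.s12 (.s13 (.s12 (.tw (.c 0 (.b 0) (.b 0))))))))))))))))),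
  .s13 (.tw (.c 0 (.b 0) (.c 0 (.s12 (.s13 (.s12 (.tw (.c 0 (.b 0) (.b 0)))))) (.s13 (.tw (.c 0 (.b 0) (.c 0 (.b 0) (.b 0)))))))),
  .c 0 (.s13 (.tw (.c 0 (.b 0) (.b 0)))) (.tw (.c 0 (.s13 (.tw (.c 0 (.b 0) (.b 0)))) (.s13 (.tw (.c 0 (.b 0) (.b 0)))))),
  .s13 (.tw (.c 0 (.b 0) (.s13 (.tw (.c 0 (.tw (.c 0 (.b 0) (.b 0))) (.s13 (.tw (.c 0 (.b 0) (.b 0))))))))),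
  .s12 (.s13 (.s12 (.tw (.c 0 (.tw (.c 0 (.b 0) (.b 0))) (.s13 (.tw (.c 0 (.b 0) (.b 0)))))))),
  .s13 (.tw (.c 0 (.b 0) (.tw (.b 3)))),
  .tw (.c 0 (.s12 (.s13 (.s12 (.tw (.c 0 (.b 0) (.b 0)))))) (.tw (.c 0 (.b 0) (.s12 (.s13 (.s12 (.tw (.c 0 (.b 0) (.b 0))))))))),
  .tw (.c 0 (.s13 (.tw (.c 0 (.b 0) (.b 0)))) (.tw (.c 0 (.s12 (.s13 (.s12 (.tw (.c 0 (.b 0) (.b 0)))))) (.s13 (.tw (.c 0 (.b 0) (.b 0))))))),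
  .s12 (.s13 (.s12 (.tw (.c 0 (.b 0) (.c 0 (.s13 (.tw (.c 0 (.b 0) (.b 0)))) (.tw (.c 0 (.b 0) (.s13 (.tw (.c 0 (.b 0) (.b 0))))))))))),
  .s12 (.s13 (.s12 (.tw (.c 0 (.b 0) (.c 0 (.b 0) (.s12 (.s13 (.s12 (.tw (.c 0 (.b 0) (.b 0))))))))))),
  .tw (.s12 (.b 4)),
  .c 0 (.s12 (.s13 (.s12 (.tw (.c 0 (.b 0) (.b 0)))))) (.s13 (.tw (.c 0 (.tw (.c 0 (.b 0) (.b 0))) (.s12 (.s13 (.s12 (.tw (.c 0 (.b 0) (.b 0))))))))),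
  .s12 (.s13 (.s12 (.tw (.c 0 (.b 0) (.c 0 (.s13 (.tw (.c 0 (.b 0) (.b 0)))) (.s12 (.s13 (.s12 (.tw (.c 0 (.b 0) (.c 0 (.b 0) (.b 0)))))))))))),
  .c 0 (.s13 (.tw (.c 0 (.b 0) (.b 0)))) (.s12 (.s13 (.s12 (.tw (.c 0 (.s12 (.s13 (.s12 (.tw (.c 0 (.b 0) (.b 0)))))) (.s12 (.s13 (.s12 (.tw (.c 0 (.b 0) (.b 0))))))))))),
  .c 0 (.b 0) (.c 0 (.s12 (.s13 (.s12 (.tw (.c 0 (.b 0) (.b 0)))))) (.tw (.c 0 (.b 0) (.s13 (.tw (.c 0 (.b 0) (.b 0))))))),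
  .c 0 (.s13 (.tw (.c 0 (.b 0) (.b 0)))) (.s13 (.tw (.c 0 (.b 0) (.c 0 (.b 0) (.s13 (.tw (.c 0 (.b 0) (.b 0)))))))),
  .c 0 (.b 0) (.s12 (.s13 (.s12 (.tw (.c 0 (.b 0) (.s12 (.s13 (.s12 (.tw (.c 0 (.b 0) (.b 0))))))))))),
  .s12 (.s13 (.s12 (.tw (.c 0 (.b 0) (.s12 (.s13 (.s12 (.tw (.c 0 (.s12 (.s13 (.s12 (.tw (.c 0 (.b 0) (.b 0)))))) (.s13 (.tw (.c 0 (.b 0) (.b 0))))))))))))),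
  .s12 (.s13 (.s12 (.tw (.c 0 (.b 0) (.s12 (.s13 (.s12 (.tw (.c 0 (.b 0) (.b 1)))))))))),
  .c 0 (.b 0) (.c 0 (.s13 (.tw (.c 0 (.b 0) (.b 0)))) (.b 1)),
  .s12 (.s13 (.s12 (.tw (.c 0 (.b 0) (.c 0 (.b 0) (.s12 (.s13 (.s12 (.tw (.c 0 (.tw (.c 0 (.b 0) (.b 0))) (.s13 (.tw (.c 0 (.b 0) (.b 0)))))))))))))),
  .tw (.c 0 (.tw (.c 0 (.b 0) (.b 0))) (.s13 (.tw (.c 0 (.tw (.c 0 (.b 0) (.b 0))) (.s13 (.tw (.c 0 (.b 0) (.b 0)))))))),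
  .tw (.c 0 (.s13 (.tw (.c 0 (.b 0) (.b 0)))) (.tw (.c 0 (.b 0) (.s13 (.tw (.c 0 (.b 0) (.b 0))))))),
  .s12 (.s13 (.s12 (.tw (.c 0 (.b 0) (.s12 (.s13 (.s12 (.tw (.c 0 (.s13 (.tw (.c 0 (.b 0) (.b 0)))) (.b 1)))))))))),
  .c 0 (.b 0) (.tw (.b 3)),
  .c 0 (.b 0) (.s12 (.s13 (.s12 (.tw (.c 0 (.s13 (.tw (.c 0 (.b 0) (.b 0)))) (.b 1)))))),
  .tw (.c 0 (.b 0) (.s13 (.tw (.c 0 (.tw (.c 0 (.b 0) (.b 0))) (.s12 (.s13 (.s12 (.tw (.c 0 (.b 0) (.b 0)))))))))),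
  .c 0 (.b 0) (.tw (.c 0 (.s13 (.tw (.c 0 (.b 0) (.b 0)))) (.tw (.c 0 (.b 0) (.s13 (.tw (.c 0 (.b 0) (.b 0)))))))),
  .c 0 (.s13 (.tw (.c 0 (.b 0) (.b 0)))) (.tw (.c 0 (.s12 (.s13 (.s12 (.tw (.c 0 (.b 0) (.b 0)))))) (.s12 (.s13 (.s12 (.tw (.c 0 (.b 0) (.b 0)))))))),
  .c 0 (.s12 (.s13 (.s12 (.tw (.c 0 (.b 0) (.b 0)))))) (.c 0 (.s13 (.tw (.c 0 (.b 0) (.b 0)))) (.s13 (.tw (.c 0 (.b 0) (.b 0))))),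
  .c 0 (.b 0) (.c 0 (.tw (.c 0 (.b 0) (.b 0))) (.tw (.c 0 (.b 0) (.b 0)))),
  .tw (.c 0 (.b 0) (.c 0 (.tw (.c 0 (.b 0) (.b 0))) (.s13 (.tw (.c 0 (.b 0) (.b 0)))))),
  .c 0 (.s12 (.s13 (.s12 (.tw (.c 0 (.b 0) (.b 0)))))) (.c 0 (.s12 (.s13 (.s12 (.tw (.c 0 (.b 0) (.b 0)))))) (.s13 (.tw (.c 0 (.b 0) (.b 0))))),
  .tw (.c 0 (.b 0) (.s13 (.tw (.c 0 (.s13 (.tw (.c 0 (.b 0) (.b 0)))) (.tw (.c 0 (.b 0) (.s13 (.tw (.c 0 (.b 0) (.b 0)))))))))),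
  .c 0 (.b 0) (.c 0 (.s12 (.s13 (.s12 (.tw (.c 0 (.b 0) (.b 0)))))) (.s12 (.s13 (.s12 (.tw (.c 0 (.b 0) (.b 0))))))),
  .c 0 (.b 0) (.c 0 (.b 0) (.tw (.c 0 (.b 0) (.b 0)))),
  .tw (.c 0 (.b 0) (.c 0 (.s13 (.tw (.c 0 (.b 0) (.b 0)))) (.tw (.c 0 (.b 0) (.s13 (.tw (.c 0 (.b 0) (.b 0)))))))),
  .c 0 (.b 0) (.c 0 (.s12 (.s13 (.s12 (.tw (.c 0 (.b 0) (.b 0)))))) (.s13 (.tw (.c 0 (.b 0) (.b 0))))),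
  .s12 (.s13 (.s12 (.tw (.c 0 (.s12 (.s13 (.s12 (.tw (.c 0 (.b 0) (.b 0)))))) (.tw (.c 0 (.b 0) (.s12 (.s13 (.s12 (.tw (.c 0 (.b 0) (.b 0)))))))))))),
  .s13 (.tw (.c 0 (.tw (.c 0 (.b 0) (.b 0))) (.s13 (.tw (.c 0 (.s12 (.s13 (.s12 (.tw (.c 0 (.b 0) (.b 0)))))) (.s13 (.tw (.c 0 (.b 0) (.b 0))))))))),
  .s13 (.tw (.c 0 (.b 0) (.s13 (.tw (.b 3))))),
  .c 0 (.tw (.c 0 (.b 0) (.b 0))) (.s12 (.s13 (.s12 (.tw (.c 0 (.b 0) (.s12 (.s13 (.s12 (.tw (.c 0 (.b 0) (.b 0))))))))))),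
  .tw (.s12 (.b 5)),
  .s12 (.s13 (.s12 (.tw (.c 0 (.b 0) (.c 0 (.tw (.c 0 (.b 0) (.b 0))) (.s13 (.tw (.c 0 (.b 0) (.b 0))))))))),
  .s12 (.s13 (.s12 (.tw (.c 0 (.b 0) (.c 0 (.s12 (.s13 (.s12 (.tw (.c 0 (.b 0) (.b 0)))))) (.s13 (.tw (.c 0 (.b 0) (.b 0))))))))),
  .c 0 (.b 0) (.c 0 (.b 0) (.tw (.c 0 (.b 0) (.s13 (.tw (.c 0 (.b 0) (.b 0))))))),
  .s12 (.s13 (.s12 (.tw (.c 0 (.b 0) (.c 0 (.tw (.c 0 (.b 0) (.b 0))) (.s12 (.s13 (.s12 (.tw (.c 0 (.b 0) (.c 0 (.b 0) (.b 0)))))))))))),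
  .c 0 (.tw (.c 0 (.b 0) (.b 0))) (.tw (.c 0 (.b 0) (.s13 (.tw (.c 0 (.b 0) (.b 0)))))),
  .c 0 (.b 0) (.s13 (.tw (.c 0 (.s12 (.s13 (.s12 (.tw (.c 0 (.b 0) (.b 0)))))) (.s13 (.tw (.c 0 (.b 0) (.b 0))))))),
  .tw (.c 0 (.b 0) (.s12 (.s13 (.s12 (.tw (.c 0 (.tw (.c 0 (.b 0) (.b 0))) (.b 1))))))),
  .c 0 (.b 0) (.s12 (.s13 (.s12 (.tw (.c 0 (.tw (.c 0 (.b 0) (.b 0))) (.s12 (.s13 (.s12 (.tw (.c 0 (.b 0) (.b 0))))))))))),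
  .s12 (.s13 (.s12 (.tw (.c 0 (.b 0) (.c 0 (.s12 (.s13 (.s12 (.tw (.c 0 (.b 0) (.b 0)))))) (.b 1)))))),
  .tw (.c 0 (.b 0) (.c 0 (.s13 (.tw (.c 0 (.b 0) (.b 0)))) (.b 1))),
  .s12 (.s13 (.s12 (.tw (.s12 (.b 4))))),
  .c 0 (.s13 (.tw (.c 0 (.b 0) (.b 0)))) (.tw (.c 0 (.b 0) (.c 0 (.b 0) (.b 0)))),
  .tw (.c 0 (.b 0) (.s13 (.tw (.c 0 (.b 0) (.c 0 (.b 0) (.s13 (.tw (.c 0 (.b 0) (.b 0))))))))),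
  .c 0 (.b 0) (.c 0 (.tw (.c 0 (.b 0) (.b 0))) (.s13 (.tw (.c 0 (.b 0) (.b 0))))),
  .s13 (.tw (.c 0 (.s12 (.s13 (.s12 (.tw (.c 0 (.b 0) (.b 0)))))) (.s13 (.tw (.c 0 (.s12 (.s13 (.s12 (.tw (.c 0 (.b 0) (.b 0)))))) (.s13 (.tw (.c 0 (.b 0) (.b 0))))))))),
  .s12 (.s13 (.s12 (.tw (.c 0 (.b 0) (.c 0 (.b 0) (.c 0 (.b 0) (.b 1))))))),
  .s12 (.s13 (.s12 (.tw (.c 0 (.b 0) (.tw (.b 3)))))),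
  .c 0 (.b 0) (.tw (.c 0 (.b 0) (.s13 (.tw (.c 0 (.b 0) (.b 0)))))),
  .tw (.c 0 (.s12 (.s13 (.s12 (.tw (.c 0 (.b 0) (.b 0)))))) (.tw (.c 0 (.s12 (.s13 (.s12 (.tw (.c 0 (.b 0) (.b 0)))))) (.s13 (.tw (.c 0 (.b 0) (.b 0))))))),
  .tw (.s12 (.s13 (.s12 (.b 4)))),
  .s13 (.tw (.c 0 (.b 0) (.c 0 (.s13 (.tw (.c 0 (.b 0) (.b 0)))) (.b 1)))),
  .tw (.c 0 (.b 0) (.s12 (.s13 (.s12 (.tw (.c 0 (.b 0) (.b 2))))))),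
  .s13 (.tw (.c 0 (.s13 (.tw (.c 0 (.b 0) (.b 0)))) (.tw (.c 0 (.tw (.c 0 (.b 0) (.b 0))) (.s13 (.tw (.c 0 (.b 0) (.b 0)))))))),
  .c 0 (.b 0) (.s12 (.s13 (.s12 (.tw (.c 0 (.b 0) (.c 0 (.tw (.c 0 (.b 0) (.b 0))) (.s12 (.s13 (.s12 (.tw (.c 0 (.b 0) (.b 0)))))))))))),
  .c 0 (.tw (.c 0 (.b 0) (.b 0))) (.c 0 (.s13 (.tw (.c 0 (.b 0) (.b 0)))) (.s13 (.tw (.c 0 (.b 0) (.b 0))))),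
  .c 0 (.b 0) (.tw (.c 0 (.tw (.c 0 (.b 0) (.b 0))) (.b 1))),
  .c 0 (.b 0) (.tw (.c 0 (.s12 (.s13 (.s12 (.tw (.c 0 (.b 0) (.b 0)))))) (.b 1))),
  .c 0 (.s13 (.tw (.c 0 (.b 0) (.b 0)))) (.b 1),
  .c 0 (.tw (.c 0 (.b 0) (.b 0))) (.s13 (.tw (.c 0 (.tw (.c 0 (.b 0) (.b 0))) (.s13 (.tw (.c 0 (.b 0) (.b 0))))))),
  .c 0 (.b 0) (.tw (.c 0 (.s12 (.s13 (.s12 (.tw (.c 0 (.b 0) (.b 0)))))) (.tw (.c 0 (.b 0) (.s12 (.s13 (.s12 (.tw (.c 0 (.b 0) (.b 0)))))))))),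
  .c 0 (.b 0) (.s12 (.s13 (.s12 (.tw (.c 0 (.tw (.c 0 (.b 0) (.b 0))) (.s12 (.s13 (.s12 (.tw (.c 0 (.b 0) (.s12 (.s13 (.s12 (.tw (.c 0 (.b 0) (.b 0)))))))))))))))),
  .c 0 (.b 0) (.s12 (.s13 (.s12 (.tw (.b 3))))),
  .c 0 (.tw (.c 0 (.b 0) (.b 0))) (.b 1),
  .c 0 (.tw (.c 0 (.b 0) (.b 0))) (.c 0 (.tw (.c 0 (.b 0) (.b 0))) (.s13 (.tw (.c 0 (.b 0) (.b 0))))),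
  .c 0 (.b 0) (.tw (.c 0 (.b 0) (.b 1))),
  .s12 (.s13 (.s12 (.tw (.c 0 (.b 0) (.c 0 (.tw (.c 0 (.b 0) (.b 0))) (.b 1)))))),
  .tw (.c 0 (.tw (.c 0 (.b 0) (.b 0))) (.s12 (.s13 (.s12 (.tw (.c 0 (.s12 (.s13 (.s12 (.tw (.c 0 (.b 0) (.b 0)))))) (.s13 (.tw (.c 0 (.b 0) (.b 0)))))))))),
  .c 0 (.b 0) (.s13 (.tw (.c 0 (.s13 (.tw (.c 0 (.b 0) (.b 0)))) (.tw (.c 0 (.b 0) (.s13 (.tw (.c 0 (.b 0) (.b 0))))))))),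
  .c 0 (.s12 (.s13 (.s12 (.tw (.c 0 (.b 0) (.b 0)))))) (.b 1),
  .s13 (.tw (.c 0 (.b 0) (.c 0 (.s13 (.tw (.c 0 (.b 0) (.b 0)))) (.tw (.c 0 (.b 0) (.s13 (.tw (.c 0 (.b 0) (.b 0))))))))),
  .tw (.c 0 (.b 0) (.s13 (.tw (.c 0 (.s12 (.s13 (.s12 (.tw (.c 0 (.b 0) (.b 0)))))) (.b 1))))),
  .c 0 (.s13 (.tw (.c 0 (.b 0) (.b 0)))) (.tw (.c 0 (.b 0) (.s13 (.tw (.c 0 (.b 0) (.b 0)))))),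
  .c 0 (.s13 (.tw (.c 0 (.b 0) (.b 0)))) (.s12 (.s13 (.s12 (.tw (.c 0 (.s12 (.s13 (.s12 (.tw (.c 0 (.b 0) (.b 0)))))) (.s13 (.tw (.c 0 (.b 0) (.b 0))))))))),
  .tw (.c 0 (.b 0) (.s13 (.tw (.c 0 (.s12 (.s13 (.s12 (.tw (.c 0 (.b 0) (.b 0)))))) (.s13 (.tw (.c 0 (.b 0) (.b 0)))))))),
  .c 0 (.s12 (.s13 (.s12 (.tw (.c 0 (.b 0) (.b 0)))))) (.tw (.c 0 (.b 0) (.c 0 (.b 0) (.b 0)))),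
  .s12 (.s13 (.s12 (.tw (.c 0 (.tw (.c 0 (.b 0) (.b 0))) (.s12 (.s13 (.s12 (.tw (.c 0 (.s12 (.s13 (.s12 (.tw (.c 0 (.b 0) (.b 0)))))) (.s13 (.tw (.c 0 (.b 0) (.b 0))))))))))))),
  .tw (.s12 (.s13 (.s12 (.tw (.b 4))))),
  .c 0 (.b 0) (.tw (.c 0 (.b 0) (.c 0 (.b 0) (.s13 (.tw (.c 0 (.b 0) (.b 0))))))),
  .c 0 (.b 0) (.tw (.c 0 (.s13 (.tw (.c 0 (.b 0) (.b 0)))) (.b 1))),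
  .tw (.c 0 (.s12 (.s13 (.s12 (.tw (.c 0 (.b 0) (.b 0)))))) (.s12 (.s13 (.s12 (.tw (.c 0 (.tw (.c 0 (.b 0) (.b 0))) (.s13 (.tw (.c 0 (.b 0) (.b 0)))))))))),
  .c 0 (.b 0) (.s12 (.s13 (.s12 (.tw (.c 0 (.s13 (.tw (.c 0 (.b 0) (.b 0)))) (.tw (.c 0 (.b 0) (.s13 (.tw (.c 0 (.b 0) (.b 0))))))))))),
  .c 0 (.b 0) (.tw (.c 0 (.b 0) (.s12 (.s13 (.s12 (.tw (.c 0 (.b 0) (.s12 (.s13 (.s12 (.tw (.c 0 (.b 0) (.b 0))))))))))))),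
  .tw (.c 0 (.b 0) (.s12 (.s13 (.s12 (.tw (.c 0 (.s12 (.s13 (.s12 (.tw (.c 0 (.b 0) (.b 0)))))) (.tw (.c 0 (.b 0) (.s12 (.s13 (.s12 (.tw (.c 0 (.b 0) (.b 0)))))))))))))),
  .tw (.c 0 (.s13 (.tw (.c 0 (.b 0) (.b 0)))) (.tw (.c 0 (.tw (.c 0 (.b 0) (.b 0))) (.s13 (.tw (.c 0 (.b 0) (.b 0))))))),
  .s12 (.s13 (.s12 (.tw (.c 0 (.s12 (.s13 (.s12 (.tw (.c 0 (.b 0) (.b 0)))))) (.s12 (.s13 (.s12 (.tw (.c 0 (.tw (.c 0 (.b 0) (.b 0))) (.s13 (.tw (.c 0 (.b 0) (.b 0))))))))))))),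
  .s12 (.s13 (.s12 (.tw (.c 0 (.b 0) (.s12 (.s13 (.s12 (.tw (.c 0 (.tw (.c 0 (.b 0) (.b 0))) (.s12 (.s13 (.s12 (.tw (.c 0 (.b 0) (.b 0))))))))))))))),
  .c 0 (.tw (.c 0 (.b 0) (.b 0))) (.s12 (.s13 (.s12 (.tw (.c 0 (.s12 (.s13 (.s12 (.tw (.c 0 (.b 0) (.b 0)))))) (.s13 (.tw (.c 0 (.b 0) (.b 0))))))))),
  .tw (.s13 (.b 4)),
  .s13 (.tw (.c 0 (.b 0) (.s13 (.tw (.c 0 (.s12 (.s13 (.s12 (.tw (.c 0 (.b 0) (.b 0)))))) (.b 1)))))),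
  .s13 (.b 10),
  .c 0 (.s12 (.s13 (.s12 (.tw (.c 0 (.b 0) (.b 0)))))) (.tw (.c 0 (.s12 (.s13 (.s12 (.tw (.c 0 (.b 0) (.b 0)))))) (.s13 (.tw (.c 0 (.b 0) (.b 0)))))),
  .c 0 (.b 0) (.s13 (.tw (.b 3))),
  .s13 (.tw (.c 0 (.s13 (.tw (.c 0 (.b 0) (.b 0)))) (.s12 (.s13 (.s12 (.tw (.c 0 (.s12 (.s13 (.s12 (.tw (.c 0 (.b 0) (.b 0)))))) (.s13 (.tw (.c 0 (.b 0) (.b 0))))))))))),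
  .c 0 (.s12 (.s13 (.s12 (.tw (.c 0 (.b 0) (.b 0)))))) (.s12 (.s13 (.s12 (.tw (.c 0 (.tw (.c 0 (.b 0) (.b 0))) (.s13 (.tw (.c 0 (.b 0) (.b 0))))))))),
  .s12 (.s13 (.s12 (.tw (.c 0 (.b 0) (.s13 (.tw (.b 3))))))),
  .tw (.s13 (.s12 (.b 4))),
  .c 0 (.b 0) (.tw (.c 0 (.tw (.c 0 (.b 0) (.b 0))) (.s13 (.tw (.c 0 (.b 0) (.b 0)))))),
  .c 0 (.s13 (.tw (.c 0 (.b 0) (.b 0)))) (.s12 (.s13 (.s12 (.tw (.c 0 (.tw (.c 0 (.b 0) (.b 0))) (.s13 (.tw (.c 0 (.b 0) (.b 0))))))))),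
  .c 0 (.s12 (.s13 (.s12 (.tw (.c 0 (.b 0) (.b 0)))))) (.tw (.c 0 (.b 0) (.s13 (.tw (.c 0 (.b 0) (.b 0)))))),
  .s13 (.tw (.s13 (.b 4))),
  .s12 (.s13 (.s12 (.tw (.c 0 (.s12 (.s13 (.s12 (.tw (.c 0 (.b 0) (.b 0)))))) (.c 0 (.s12 (.s13 (.s12 (.tw (.c 0 (.b 0) (.b 0)))))) (.s13 (.tw (.c 0 (.b 0) (.b 0))))))))),
  .tw (.c 0 (.b 0) (.b 1)),
  .s12 (.s13 (.s12 (.tw (.c 0 (.b 0) (.c 0 (.b 0) (.c 0 (.s12 (.s13 (.s12 (.tw (.c 0 (.b 0) (.b 0)))))) (.s12 (.s13 (.s12 (.tw (.c 0 (.b 0) (.b 0)))))))))))),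
  .s12 (.s13 (.s12 (.tw (.c 0 (.b 0) (.s12 (.s13 (.s12 (.tw (.c 0 (.tw (.c 0 (.b 0) (.b 0))) (.s13 (.tw (.c 0 (.b 0) (.b 0))))))))))))),
  .c 0 (.s13 (.tw (.c 0 (.b 0) (.b 0)))) (.tw (.c 0 (.tw (.c 0 (.b 0) (.b 0))) (.s13 (.tw (.c 0 (.b 0) (.b 0)))))),
  .c 0 (.b 0) (.c 0 (.tw (.c 0 (.b 0) (.b 0))) (.s12 (.s13 (.s12 (.tw (.c 0 (.b 0) (.s12 (.s13 (.s12 (.tw (.c 0 (.b 0) (.b 0)))))))))))),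
  .tw (.c 0 (.b 0) (.c 0 (.s12 (.s13 (.s12 (.tw (.c 0 (.b 0) (.b 0)))))) (.b 1))),
  .c 0 (.b 0) (.c 0 (.b 0) (.s12 (.s13 (.s12 (.tw (.c 0 (.b 0) (.b 0))))))),
  .s12 (.s13 (.s12 (.tw (.c 0 (.b 0) (.s12 (.s13 (.s12 (.tw (.b 3))))))))),
  .c 0 (.b 0) (.s12 (.s13 (.s12 (.tw (.c 0 (.b 0) (.b 1)))))),
  .c 0 (.b 0) (.s13 (.tw (.c 0 (.tw (.c 0 (.b 0) (.b 0))) (.s12 (.s13 (.s12 (.tw (.c 0 (.b 0) (.b 0))))))))),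
  .c 0 (.tw (.c 0 (.b 0) (.b 0))) (.tw (.c 0 (.tw (.c 0 (.b 0) (.b 0))) (.s13 (.tw (.c 0 (.b 0) (.b 0)))))),
  .c 0 (.b 0) (.s12 (.s13 (.s12 (.tw (.c 0 (.tw (.c 0 (.b 0) (.b 0))) (.b 1)))))),
  .c 0 (.s13 (.tw (.c 0 (.b 0) (.b 0)))) (.tw (.c 0 (.b 0) (.s12 (.s13 (.s12 (.tw (.c 0 (.b 0) (.b 0)))))))),
  .tw (.c 0 (.b 0) (.s12 (.s13 (.s12 (.tw (.c 0 (.b 0) (.s12 (.s13 (.s12 (.tw (.c 0 (.b 0) (.b 0)))))))))))),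
  .c 0 (.b 0) (.c 0 (.b 0) (.s12 (.s13 (.s12 (.tw (.c 0 (.b 0) (.c 0 (.b 0) (.b 0)))))))),
  .s12 (.s13 (.s12 (.tw (.b 4)))),
  .c 0 (.b 0) (.s13 (.tw (.c 0 (.tw (.c 0 (.b 0) (.b 0))) (.s13 (.tw (.c 0 (.b 0) (.b 0))))))),
  .c 0 (.b 0) (.s12 (.s13 (.s12 (.tw (.c 0 (.s12 (.s13 (.s12 (.tw (.c 0 (.b 0) (.b 0)))))) (.s13 (.tw (.c 0 (.b 0) (.b 0))))))))),
  .tw (.s12 (.b 7)),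
  .c 0 (.s13 (.tw (.c 0 (.b 0) (.b 0)))) (.s13 (.tw (.c 0 (.tw (.c 0 (.b 0) (.b 0))) (.s13 (.tw (.c 0 (.b 0) (.b 0))))))),
  .c 0 (.b 0) (.c 0 (.s12 (.s13 (.s12 (.tw (.c 0 (.b 0) (.b 0)))))) (.b 1)),
  .tw (.c 0 (.b 0) (.s12 (.s13 (.s12 (.tw (.b 3)))))),
  .tw (.c 0 (.b 0) (.c 0 (.s12 (.s13 (.s12 (.tw (.c 0 (.b 0) (.b 0)))))) (.tw (.c 0 (.b 0) (.s12 (.s13 (.s12 (.tw (.c 0 (.b 0) (.b 0)))))))))),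
  .c 0 (.b 0) (.s12 (.s13 (.s12 (.tw (.c 0 (.s12 (.s13 (.s12 (.tw (.c 0 (.b 0) (.b 0)))))) (.tw (.c 0 (.b 0) (.s12 (.s13 (.s12 (.tw (.c 0 (.b 0) (.b 0))))))))))))),
  .tw (.c 0 (.s13 (.tw (.c 0 (.b 0) (.b 0)))) (.b 2)),
  .c 0 (.b 0) (.c 0 (.s12 (.s13 (.s12 (.tw (.c 0 (.b 0) (.b 0)))))) (.tw (.c 0 (.b 0) (.s12 (.s13 (.s12 (.tw (.c 0 (.b 0) (.b 0))))))))),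
  .s13 (.tw (.b 7)),
  .c 0 (.s13 (.tw (.c 0 (.b 0) (.b 0)))) (.b 2),
  .tw (.c 0 (.b 0) (.s13 (.tw (.c 0 (.s13 (.tw (.c 0 (.b 0) (.b 0)))) (.b 1))))),
  .s13 (.tw (.c 0 (.b 0) (.b 1))),
  .s12 (.s13 (.s12 (.tw (.c 0 (.b 0) (.c 0 (.s12 (.s13 (.s12 (.tw (.c 0 (.b 0) (.b 0)))))) (.s12 (.s13 (.s12 (.tw (.c 0 (.b 0) (.c 0 (.b 0) (.b 0)))))))))))),
  .c 0 (.b 0) (.s12 (.s13 (.s12 (.tw (.c 0 (.s12 (.s13 (.s12 (.tw (.c 0 (.b 0) (.b 0)))))) (.b 1))))))]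

theorem tbl_good33 : ∀ u ∈ tblT33, G u :=
  G_chkTbl baseT_good (ds := tblD33) (by decide +kernel)

end Crest.Agent.Saxl.Kron
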