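import Crest.Agent.Lib.Saxl.SpechtIrr
import Crest.Agent.Lib.Saxl.KronCert

/-!
# Universal shapes give positivity for every partition

The Specht module of a diagram `a` has label `a`; so a shape `D` whose tensor square sees all the
irreducibles has `Real3 (hts a) (hts D) (hts D)` for every diagram `a` of the right size.
-/

set_option autoImplicit false

open Equiv Crest.AlgebraR.Specht

namespace Crest.Agent.Saxl.Kron

/-- The Specht module of a diagram has that label. -/
theorem label_specht (a : YoungDiagram) :
    Label (V := ↥(spechtSubrep a.cells).toSubmodule) (spechtRep a.cells) a := by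
  classical
  let t : Tab a (Fin a.cells.card) := a.cells.equivFin
  let v0 : (spechtSubrep a.cells).toSubmodule := ⟨polytabloid t, polytabloid_mem t⟩
  have hact : ∀ (g : Perm (Fin a.cells.card)) (v : (spechtSubrep a.cells).toSubmodule)
      (w : RowWord a.cells.card),
      ((spechtRep a.cells g v : (spechtSubrep a.cells).toSubmodule) : RowWord a.cells.card →₀ ℂ) w
        = (v : RowWord a.cells.card →₀ ℂ) (fun i => w (g i)) := by
    intro g v w
    exact rowWordRep_apply _ g (v : RowWord a.cells.card →₀ ℂ) w
  have hv0 : ∀ w : RowWord a.cells.card,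
      (v0 : RowWord a.cells.card →₀ ℂ) w = polyRC (rowOf t) (colOf t) w := fun w =>
    polytabloid_apply t w
  have hinj := rowOf_colOf_injective t
  have hself : polyRC (rowOf t) (colOf t) (rowOf t) = 1 := by
    have h5 := polyRC_eval (r := rowOf t) (c := colOf t) hinj (one_mem_stab _)
    simpa using h5
  have hne : v0 ≠ 0 := by
    intro h0
    have h1 : (v0 : RowWord a.cells.card →₀ ℂ) (rowOf t) = 0 := by
      rw [h0]; rfl
    rw [hv0, hself] at h1
    exact one_ne_zero h1
  refine ⟨t, ?_, ?_⟩
  · -- a fixed vector: the symmetrisation of the polytabloid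
    rw [hasFix_iff]
    refine ⟨v0, fun h0 => ?_⟩
    rw [gact_symE] at h0
    have h1 := congrArg (fun u : (spechtSubrep a.cells).toSubmodule =>
      (u : RowWord a.cells.card →₀ ℂ) (rowOf t)) h0
    have h1' : ((∑ g ∈ stab (rowC t), spechtRep a.cells g v0 : (spechtSubrep a.cells).toSubmodule) :
        RowWord a.cells.card →₀ ℂ) (rowOf t) = 0 := h1
    have h2 : ∀ (s : Finset (Perm (Fin a.cells.card))),
        (((∑ g ∈ s, spechtRep a.cells g v0 : (spechtSubrep a.cells).toSubmodule)) :
          RowWord a.cells.card →₀ ℂ) (rowOf t)
          = ∑ g ∈ s, (((spechtRep a.cells g v0 : (spechtSubrep a.cells).toSubmodule)) :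
              RowWord a.cells.card →₀ ℂ) (rowOf t) := by
      intro s
      induction s using Finset.induction_on with
      | empty => simp; rfl
      | insert x s hx ih =>
        rw [Finset.sum_insert hx, Finset.sum_insert hx]
        simp only [Submodule.coe_add, Finsupp.coe_add, Pi.add_apply, ih]
    rw [h2] at h1'
    have h3 : ∀ g ∈ stab (rowC t), (((spechtRep a.cells g v0 :
        (spechtSubrep a.cells).toSubmodule)) : RowWord a.cells.card →₀ ℂ) (rowOf t) = 1 := by
      intro g hg
      rw [hact, hv0]
      have : (fun i => rowOf t (g i)) = rowOf t := by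
        funext i
        exact mem_stab.mp hg i
      rw [this, hself]
    rw [Finset.sum_congr rfl h3, Finset.sum_const, nsmul_eq_mul, mul_one] at h1'
    exact card_stab_ne_zero _ h1'
  · -- an alternating vector: the polytabloid
    refine ⟨v0, hne, fun g hg => ?_⟩
    apply Subtype.ext
    apply Finsupp.ext
    intro w
    rw [hact, hv0]
    have h1 := polyRC_alt (rowOf t) (colOf t) (σ := g) hg w
    have h2 : (fun i => w (g i)) = w ∘ g := rfl
    rw [h2, h1]
    simp [hv0]

/-- A universal shape has positivity for every diagram of the right size. -/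
theorem real3_of_uni {D : YoungDiagram} (hU : Uni D) (a : YoungDiagram) (h : a.card = D.card) :
    Real3 (hts a) (hts D) (hts D) := by
  classical
  have hcard : Fintype.card (Fin a.cells.card) = D.card := by
    rw [Fintype.card_fin]; exact h
  have hirr : Representation.IsIrreducible (V := ↥(spechtSubrep a.cells).toSubmodule)
      (spechtRep a.cells) := spechtRep_isIrreducible a
  have hocc := hU (Fin a.cells.card) hcard (↥(spechtSubrep a.cells).toSubmodule)
    (spechtRep a.cells) hirr
  obtain ⟨T⟩ := exists_tab a (S := Fin a.cells.card) (by rw [Fintype.card_fin])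
  exact real3_of_occurs T hirr (label_specht a) hocc

/-- The same for multisets. -/
theorem real3_of_uni' {D : YoungDiagram} (hU : Uni D) {M : Multiset ℕ} (hp : ∀ x ∈ M, 0 < x)
    (hs : M.sum = D.card) : Real3 M (hts D) (hts D) := by
  obtain ⟨a, rfl⟩ := exists_diagram hp
  exact real3_of_uni hU a (by rw [← sum_hts, hs])

end Crest.Agent.Saxl.Kron
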