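import Crest.Agent.Lib.Saxl.LevelArith

/-!
# The numbers of a level from a few uniform bounds (row 195, helper62)

`levelNums_of_bounds`: for `c ≥ 74`, a few uniform bounds on the parts give a `LevelNums`.
-/

set_option autoImplicit false

namespace Crest.Agent.Saxl

/-- **The numbers of a level from uniform bounds.** -/
theorem levelNums_of_bounds {c n h β₁ b e E : ℕ} {B : ℕ → ℕ}
    (hB1 : ∀ k, B k ≤ k * β₁) (hB2 : ∀ k, B k ≤ k * b + e) (hB3 : ∀ k, B (k + 1) ≤ E + k * (b + 1))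
    (hc : 74 ≤ c) (hβ₁ : 1 ≤ β₁) (hβ : 2 * β₁ ≤ c + 9) (hh : 2 * h ≤ c + 4)
    (hn : c * c + 20 ≤ 2 * n + 3 * c) (hb2 : 2 ≤ b) (hb : 2 * b + 4 ≤ c) (he : e ≤ 26)
    (hE : E ≤ β₁ + 15) : Nonempty (LevelNums c n h B) := by
  obtain ⟨d, rfl⟩ : ∃ d, c = d + 73 := ⟨c - 73, by omega⟩
  have hd : 1 ≤ d := by omega
  have hn' : d * d + 143 * d + 5130 ≤ 2 * n + 0 := by nlinarith
  refine ⟨⟨β₁, d + 61, 2 * (d + 73) / 3, 5 * (d + 73) / 12 + 6, (d + 73) / 3 + 5, d + 62, b, e, E,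
    (d + 73) / 4 + 17, 15, hB1, hB2, hB3, hβ₁, hb2, by omega, by omega, by omega, by omega,
    by omega, ?_, by omega, by omega, by omega, by omega, by omega, ?_, ?_, ?_, by omega, ?_, ?_,
    by omega, ?_, ?_, ?_, ?_, by omega, ?_, ?_, by omega, ?_⟩⟩
  · -- hY₀
    have h1 : 3 * (2 * (d + 73) / 3 - 1) + 3 ≤ 2 * (d + 73) := by omega
    generalize 2 * (d + 73) / 3 - 1 = x at h1
    nlinarith
  · -- hP1
    have : 2 * ((d + 61) * β₁) ≤ (d + 61) * (d + 82) := by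
      nlinarith [Nat.mul_le_mul_left (d + 61) hβ]
    nlinarith
  · -- hP2
    have : 2 * ((d + 59) * β₁) ≤ (d + 59) * (d + 82) := by
      nlinarith [Nat.mul_le_mul_left (d + 59) hβ]
    nlinarith
  · -- hP3
    nlinarith
  · -- hP5
    have h1 : 12 * (5 * (d + 73) / 12 + 6) ≤ 5 * (d + 73) + 72 := by omega
    generalize 5 * (d + 73) / 12 + 6 = v at h1 ⊢
    have e1 : d + 61 - 3 = d + 58 := by omega
    rw [e1]
    nlinarith [Nat.mul_le_mul_left (d + 58) h1]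
  · -- hP6
    nlinarith
  · -- hP8
    have h1 : 3 * ((d + 73) / 3 + 5) ≤ (d + 73) + 15 := by omega
    generalize (d + 73) / 3 + 5 = v at h1 ⊢
    have e1 : d + 61 - 2 = d + 59 := by omega
    rw [e1]
    nlinarith [Nat.mul_le_mul_left (d + 59) h1]
  · -- hQ1
    have e1 : d + 73 - 1 = d + 72 := by omega
    rw [e1]
    nlinarith [Nat.mul_le_mul_left (d + 72) hb]
  · -- hQ2
    have e1 : d + 73 - 3 = d + 70 := by omega
    rw [e1]
    nlinarith [Nat.mul_le_mul_left (d + 70) hb]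
  · -- hQ3
    have e1 : d + 73 - 1 = d + 72 := by omega
    rw [e1]
    nlinarith
  · -- hQ5
    have h1 : 4 * ((d + 73) / 4 + 17) ≤ (d + 73) + 68 := by omega
    generalize (d + 73) / 4 + 17 = v at h1 ⊢
    have e1 : d + 73 - 4 = d + 69 := by omega
    rw [e1]
    nlinarith [Nat.mul_le_mul_left (d + 69) h1]
  · -- hQ6
    have e1 : d + 73 - 1 = d + 72 := by omega
    rw [e1]
    nlinarith
  · -- hQ8
    have e1 : d + 73 - 3 = d + 70 := by omega
    rw [e1]
    nlinarith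

end Crest.Agent.Saxl
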