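import Crest.Agent.Lib.Saxl.KronTable

/-!
# Positive triples for a box of partitions, size 52 (row 195, S0298, helper58)

Every triple is a sum in the Kronecker semigroup of triples of size at most six (`tblT`).
-/

set_option autoImplicit false
set_option maxRecDepth 1000000

namespace Crest.Agent.Saxl.N52

open Crest.Agent.Saxl.Kron

def H : List ℕ := [10,8,7,7,6,6,4,2,1,1]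

def box0 : List (List ℕ) := [
  [6,6,6,6,6,6,6,5,5],
  [6,6,6,6,6,6,6,6,4],
  [7,6,6,6,6,6,5,5,5],
  [7,6,6,6,6,6,6,5,4],
  [7,6,6,6,6,6,6,6,3],
  [7,7,6,6,6,5,5,5,5],
  [7,7,6,6,6,6,5,5,4],
  [7,7,6,6,6,6,6,4,4],
  [7,7,6,6,6,6,6,5,3],
  [7,7,6,6,6,6,6,6,1,1],
  [7,7,6,6,6,6,6,6,2],
  [7,7,7,6,5,5,5,5,5],
  [7,7,7,6,6,5,5,5,4],
  [7,7,7,6,6,6,5,4,4],
  [7,7,7,6,6,6,5,5,3],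
  [7,7,7,6,6,6,6,4,3],
  [7,7,7,6,6,6,6,5,1,1],
  [7,7,7,6,6,6,6,5,2],
  [7,7,7,6,6,6,6,6,1],
  [7,7,7,7,5,5,5,5,4],
  [7,7,7,7,6,5,5,4,4],
  [7,7,7,7,6,5,5,5,3],
  [7,7,7,7,6,6,4,4,4],
  [7,7,7,7,6,6,5,4,3],
  [7,7,7,7,6,6,5,5,1,1],
  [7,7,7,7,6,6,5,5,2],
  [7,7,7,7,6,6,6,3,3],
  [7,7,7,7,6,6,6,4,1,1],
  [7,7,7,7,6,6,6,4,2],
  [7,7,7,7,6,6,6,5,1],
  [7,7,7,7,6,6,6,6],
  [7,7,7,7,7,5,4,4,4],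
  [7,7,7,7,7,5,5,4,3],
  [7,7,7,7,7,5,5,5,1,1],
  [7,7,7,7,7,5,5,5,2],
  [7,7,7,7,7,6,4,4,3],
  [7,7,7,7,7,6,5,3,3],
  [7,7,7,7,7,6,5,4,1,1],
  [7,7,7,7,7,6,5,4,2],
  [7,7,7,7,7,6,5,5,1],
  [7,7,7,7,7,6,6,3,1,1],
  [7,7,7,7,7,6,6,3,2],
  [7,7,7,7,7,6,6,4,1],
  [7,7,7,7,7,6,6,5],
  [7,7,7,7,7,7,4,3,3],
  [7,7,7,7,7,7,4,4,1,1],
  [7,7,7,7,7,7,4,4,2],
  [7,7,7,7,7,7,5,3,1,1],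
  [7,7,7,7,7,7,5,3,2],
  [7,7,7,7,7,7,5,4,1],
  [7,7,7,7,7,7,5,5],
  [7,7,7,7,7,7,6,1,1,1,1],
  [7,7,7,7,7,7,6,2,1,1],
  [7,7,7,7,7,7,6,2,2],
  [7,7,7,7,7,7,6,3,1],
  [7,7,7,7,7,7,6,4],
  [7,7,7,7,7,7,7,1,1,1],
  [7,7,7,7,7,7,7,2,1],
  [7,7,7,7,7,7,7,3],
  [8,6,6,6,6,5,5,5,5],
  [8,6,6,6,6,6,5,5,4],
  [8,6,6,6,6,6,6,4,4],
  [8,6,6,6,6,6,6,5,3],
  [8,6,6,6,6,6,6,6,1,1],
  [8,6,6,6,6,6,6,6,2],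
  [8,7,6,6,5,5,5,5,5],
  [8,7,6,6,6,5,5,5,4],
  [8,7,6,6,6,6,5,4,4],
  [8,7,6,6,6,6,5,5,3],
  [8,7,6,6,6,6,6,4,3],
  [8,7,6,6,6,6,6,5,1,1],
  [8,7,6,6,6,6,6,5,2],
  [8,7,6,6,6,6,6,6,1],
  [8,7,7,5,5,5,5,5,5],
  [8,7,7,6,5,5,5,5,4],
  [8,7,7,6,6,5,5,4,4],
  [8,7,7,6,6,5,5,5,3],
  [8,7,7,6,6,6,4,4,4],
  [8,7,7,6,6,6,5,4,3],
  [8,7,7,6,6,6,5,5,1,1],
  [8,7,7,6,6,6,5,5,2],
  [8,7,7,6,6,6,6,3,3],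
  [8,7,7,6,6,6,6,4,1,1],
  [8,7,7,6,6,6,6,4,2],
  [8,7,7,6,6,6,6,5,1],
  [8,7,7,6,6,6,6,6],
  [8,7,7,7,5,5,5,4,4],
  [8,7,7,7,5,5,5,5,3],
  [8,7,7,7,6,5,4,4,4],
  [8,7,7,7,6,5,5,4,3],
  [8,7,7,7,6,5,5,5,1,1],
  [8,7,7,7,6,5,5,5,2],
  [8,7,7,7,6,6,4,4,3],
  [8,7,7,7,6,6,5,3,3],
  [8,7,7,7,6,6,5,4,1,1],
  [8,7,7,7,6,6,5,4,2],
  [8,7,7,7,6,6,5,5,1],
  [8,7,7,7,6,6,6,3,1,1],
  [8,7,7,7,6,6,6,3,2],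
  [8,7,7,7,6,6,6,4,1],
  [8,7,7,7,6,6,6,5],
  [8,7,7,7,7,4,4,4,4],
  [8,7,7,7,7,5,4,4,3],
  [8,7,7,7,7,5,5,3,3],
  [8,7,7,7,7,5,5,4,1,1],
  [8,7,7,7,7,5,5,4,2],
  [8,7,7,7,7,5,5,5,1],
  [8,7,7,7,7,6,4,3,3],
  [8,7,7,7,7,6,4,4,1,1],
  [8,7,7,7,7,6,4,4,2],
  [8,7,7,7,7,6,5,3,1,1],
  [8,7,7,7,7,6,5,3,2],
  [8,7,7,7,7,6,5,4,1],
  [8,7,7,7,7,6,5,5],
  [8,7,7,7,7,6,6,1,1,1,1],
  [8,7,7,7,7,6,6,2,1,1],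
  [8,7,7,7,7,6,6,2,2],
  [8,7,7,7,7,6,6,3,1],
  [8,7,7,7,7,6,6,4],
  [8,7,7,7,7,7,3,3,3],
  [8,7,7,7,7,7,4,3,1,1],
  [8,7,7,7,7,7,4,3,2],
  [8,7,7,7,7,7,4,4,1],
  [8,7,7,7,7,7,5,1,1,1,1],
  [8,7,7,7,7,7,5,2,1,1],
  [8,7,7,7,7,7,5,2,2],
  [8,7,7,7,7,7,5,3,1],
  [8,7,7,7,7,7,5,4],
  [8,7,7,7,7,7,6,1,1,1],
  [8,7,7,7,7,7,6,2,1],
  [8,7,7,7,7,7,6,3],
  [8,7,7,7,7,7,7,1,1],
  [8,7,7,7,7,7,7,2],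
  [8,8,6,5,5,5,5,5,5],
  [8,8,6,6,5,5,5,5,4],
  [8,8,6,6,6,5,5,4,4],
  [8,8,6,6,6,5,5,5,3],
  [8,8,6,6,6,6,4,4,4],
  [8,8,6,6,6,6,5,4,3],
  [8,8,6,6,6,6,5,5,1,1],
  [8,8,6,6,6,6,5,5,2],
  [8,8,6,6,6,6,6,3,3],
  [8,8,6,6,6,6,6,4,1,1],
  [8,8,6,6,6,6,6,4,2],
  [8,8,6,6,6,6,6,5,1],
  [8,8,6,6,6,6,6,6],
  [8,8,7,5,5,5,5,5,4],
  [8,8,7,6,5,5,5,4,4],
  [8,8,7,6,5,5,5,5,3],
  [8,8,7,6,6,5,4,4,4],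
  [8,8,7,6,6,5,5,4,3],
  [8,8,7,6,6,5,5,5,1,1],
  [8,8,7,6,6,5,5,5,2],
  [8,8,7,6,6,6,4,4,3],
  [8,8,7,6,6,6,5,3,3],
  [8,8,7,6,6,6,5,4,1,1],
  [8,8,7,6,6,6,5,4,2],
  [8,8,7,6,6,6,5,5,1],
  [8,8,7,6,6,6,6,3,1,1],
  [8,8,7,6,6,6,6,3,2],
  [8,8,7,6,6,6,6,4,1],
  [8,8,7,6,6,6,6,5],
  [8,8,7,7,5,5,4,4,4],
  [8,8,7,7,5,5,5,4,3],
  [8,8,7,7,5,5,5,5,1,1],
  [8,8,7,7,5,5,5,5,2],
  [8,8,7,7,6,4,4,4,4],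
  [8,8,7,7,6,5,4,4,3],
  [8,8,7,7,6,5,5,3,3],
  [8,8,7,7,6,5,5,4,1,1],
  [8,8,7,7,6,5,5,4,2],
  [8,8,7,7,6,5,5,5,1],
  [8,8,7,7,6,6,4,3,3],
  [8,8,7,7,6,6,4,4,1,1],
  [8,8,7,7,6,6,4,4,2],
  [8,8,7,7,6,6,5,3,1,1],
  [8,8,7,7,6,6,5,3,2],
  [8,8,7,7,6,6,5,4,1],
  [8,8,7,7,6,6,5,5],
  [8,8,7,7,6,6,6,1,1,1,1],
  [8,8,7,7,6,6,6,2,1,1],
  [8,8,7,7,6,6,6,2,2],
  [8,8,7,7,6,6,6,3,1],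
  [8,8,7,7,6,6,6,4],
  [8,8,7,7,7,4,4,4,3],
  [8,8,7,7,7,5,4,3,3],
  [8,8,7,7,7,5,4,4,1,1],
  [8,8,7,7,7,5,4,4,2],
  [8,8,7,7,7,5,5,3,1,1],
  [8,8,7,7,7,5,5,3,2],
  [8,8,7,7,7,5,5,4,1],
  [8,8,7,7,7,5,5,5],
  [8,8,7,7,7,6,3,3,3],
  [8,8,7,7,7,6,4,3,1,1],
  [8,8,7,7,7,6,4,3,2],
  [8,8,7,7,7,6,4,4,1],
  [8,8,7,7,7,6,5,1,1,1,1],
  [8,8,7,7,7,6,5,2,1,1],
  [8,8,7,7,7,6,5,2,2],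
  [8,8,7,7,7,6,5,3,1],
  [8,8,7,7,7,6,5,4],
  [8,8,7,7,7,6,6,1,1,1],
  [8,8,7,7,7,6,6,2,1],
  [8,8,7,7,7,6,6,3],
  [8,8,7,7,7,7,3,3,1,1],
  [8,8,7,7,7,7,3,3,2],
  [8,8,7,7,7,7,4,1,1,1,1],
  [8,8,7,7,7,7,4,2,1,1],
  [8,8,7,7,7,7,4,2,2],
  [8,8,7,7,7,7,4,3,1],
  [8,8,7,7,7,7,4,4],
  [8,8,7,7,7,7,5,1,1,1],
  [8,8,7,7,7,7,5,2,1],
  [8,8,7,7,7,7,5,3],
  [8,8,7,7,7,7,6,1,1],
  [8,8,7,7,7,7,6,2],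
  [8,8,7,7,7,7,7,1],
  [8,8,8,5,5,5,5,4,4],
  [8,8,8,5,5,5,5,5,3],
  [8,8,8,6,5,5,4,4,4],
  [8,8,8,6,5,5,5,4,3],
  [8,8,8,6,5,5,5,5,1,1],
  [8,8,8,6,5,5,5,5,2],
  [8,8,8,6,6,4,4,4,4],
  [8,8,8,6,6,5,4,4,3],
  [8,8,8,6,6,5,5,3,3],
  [8,8,8,6,6,5,5,4,1,1],
  [8,8,8,6,6,5,5,4,2],
  [8,8,8,6,6,5,5,5,1],
  [8,8,8,6,6,6,4,3,3],
  [8,8,8,6,6,6,4,4,1,1],
  [8,8,8,6,6,6,4,4,2],
  [8,8,8,6,6,6,5,3,1,1],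
  [8,8,8,6,6,6,5,3,2],
  [8,8,8,6,6,6,5,4,1],
  [8,8,8,6,6,6,5,5],
  [8,8,8,6,6,6,6,1,1,1,1],
  [8,8,8,6,6,6,6,2,1,1],
  [8,8,8,6,6,6,6,2,2],
  [8,8,8,6,6,6,6,3,1],
  [8,8,8,6,6,6,6,4],
  [8,8,8,7,5,4,4,4,4],
  [8,8,8,7,5,5,4,4,3],
  [8,8,8,7,5,5,5,3,3],
  [8,8,8,7,5,5,5,4,1,1],
  [8,8,8,7,5,5,5,4,2],
  [8,8,8,7,5,5,5,5,1],
  [8,8,8,7,6,4,4,4,3],
  [8,8,8,7,6,5,4,3,3],
  [8,8,8,7,6,5,4,4,1,1],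
  [8,8,8,7,6,5,4,4,2],
  [8,8,8,7,6,5,5,3,1,1],
  [8,8,8,7,6,5,5,3,2],
  [8,8,8,7,6,5,5,4,1],
  [8,8,8,7,6,5,5,5],
  [8,8,8,7,6,6,3,3,3],
  [8,8,8,7,6,6,4,3,1,1],
  [8,8,8,7,6,6,4,3,2],
  [8,8,8,7,6,6,4,4,1],
  [8,8,8,7,6,6,5,1,1,1,1],
  [8,8,8,7,6,6,5,2,1,1],
  [8,8,8,7,6,6,5,2,2],
  [8,8,8,7,6,6,5,3,1],
  [8,8,8,7,6,6,5,4],
  [8,8,8,7,6,6,6,1,1,1],
  [8,8,8,7,6,6,6,2,1],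
  [8,8,8,7,6,6,6,3],
  [8,8,8,7,7,4,4,3,3],
  [8,8,8,7,7,4,4,4,1,1],
  [8,8,8,7,7,4,4,4,2],
  [8,8,8,7,7,5,3,3,3],
  [8,8,8,7,7,5,4,3,1,1],
  [8,8,8,7,7,5,4,3,2],
  [8,8,8,7,7,5,4,4,1],
  [8,8,8,7,7,5,5,1,1,1,1],
  [8,8,8,7,7,5,5,2,1,1],
  [8,8,8,7,7,5,5,2,2],
  [8,8,8,7,7,5,5,3,1],
  [8,8,8,7,7,5,5,4],
  [8,8,8,7,7,6,3,3,1,1],
  [8,8,8,7,7,6,3,3,2],
  [8,8,8,7,7,6,4,1,1,1,1],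
  [8,8,8,7,7,6,4,2,1,1],
  [8,8,8,7,7,6,4,2,2],
  [8,8,8,7,7,6,4,3,1],
  [8,8,8,7,7,6,4,4],
  [8,8,8,7,7,6,5,1,1,1],
  [8,8,8,7,7,6,5,2,1],
  [8,8,8,7,7,6,5,3],
  [8,8,8,7,7,6,6,1,1],
  [8,8,8,7,7,6,6,2],
  [8,8,8,7,7,7,3,1,1,1,1],
  [8,8,8,7,7,7,3,2,1,1],
  [8,8,8,7,7,7,3,2,2],
  [8,8,8,7,7,7,3,3,1],
  [8,8,8,7,7,7,4,1,1,1],
  [8,8,8,7,7,7,4,2,1],
  [8,8,8,7,7,7,4,3],
  [8,8,8,7,7,7,5,1,1],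
  [8,8,8,7,7,7,5,2]]

def dv0 : List Dv := [
  (.tw (.c 0 (.tw (.c 0 (.b 14) (.s13 (.tw (.s12 (.s13 (.c 0 (.b 14) (.c 0 (.b 304) (.tw (.s12 (.s13 (.tw (.c 0 (.b 63) (.b 381)))))))))))))) (.s13 (.tw (.s13 (.c 0 (.tw (.s12 (.s13 (.s12 (.c 0 (.b 13) (.s13 (.tw (.s13 (.c 0 (.b 14) (.c 0 (.b 247) (.s13 (.tw (.c 0 (.b 24) (.b 24)))))))))))))) (.tw (.c 0 (.s13 (.tw (.c 0 (.b 24) (.b 24)))) (.s13 (.tw (.s12 (.s13 (.c 0 (.b 24) (.b 44)))))))))))))),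
  (.tw (.c 0 (.tw (.c 0 (.b 136) (.s13 (.tw (.s12 (.s13 (.c 0 (.b 136) (.c 0 (.b 136) (.b 249))))))))) (.tw (.c 0 (.tw (.s13 (.tw (.c 0 (.s13 (.tw (.c 0 (.b 13) (.b 200)))) (.s13 (.tw (.c 0 (.b 24) (.b 24)))))))) (.tw (.s12 (.s13 (.tw (.c 0 (.s13 (.tw (.s13 (.c 0 (.b 634) (.b 320))))) (.s13 (.tw (.c 0 (.b 24) (.b 24))))))))))))),
  (.tw (.c 0 (.tw (.c 0 (.b 14) (.s13 (.tw (.s12 (.s13 (.c 0 (.b 13) (.s13 (.tw (.s12 (.s13 (.c 0 (.b 136) (.s13 (.tw (.s12 (.s13 (.c 0 (.b 63) (.b 369)))))))))))))))))) (.s12 (.s13 (.tw (.s12 (.c 0 (.s13 (.tw (.c 0 (.tw (.s12 (.s13 (.tw (.c 0 (.b 63) (.b 239)))))) (.b 136)))) (.tw (.s12 (.s13 (.tw (.c 0 (.tw (.s12 (.s13 (.tw (.c 0 (.b 272) (.b 239)))))) (.s13 (.tw (.c 0 (.b 5) (.b 5)))))))))))))))),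
  (.tw (.c 0 (.tw (.c 0 (.b 14) (.s13 (.tw (.s12 (.s13 (.c 0 (.b 14) (.c 0 (.b 304) (.tw (.s12 (.s13 (.tw (.c 0 (.b 63) (.b 381)))))))))))))) (.tw (.c 0 (.s12 (.s13 (.tw (.c 0 (.b 284) (.s13 (.tw (.s12 (.s13 (.c 0 (.b 44) (.b 12)))))))))) (.tw (.s12 (.s13 (.tw (.c 0 (.tw (.s12 (.s13 (.tw (.c 0 (.b 272) (.b 239)))))) (.s13 (.tw (.c 0 (.b 5) (.b 5))))))))))))),
  (.tw (.c 0 (.tw (.c 0 (.b 136) (.s13 (.tw (.s12 (.s13 (.c 0 (.b 136) (.c 0 (.b 136) (.b 249))))))))) (.c 0 (.tw (.c 0 (.s13 (.tw (.c 0 (.b 247) (.s13 (.tw (.c 0 (.b 24) (.b 24))))))) (.tw (.s12 (.s13 (.tw (.c 0 (.s13 (.tw (.s13 (.c 0 (.b 5) (.b 272))))) (.s13 (.tw (.c 0 (.b 24) (.b 41))))))))))) (.b 1)))),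
  (.tw (.c 0 (.tw (.c 0 (.b 13) (.s13 (.tw (.s12 (.s13 (.c 0 (.b 13) (.c 0 (.b 14) (.s13 (.tw (.s12 (.s13 (.c 0 (.b 381) (.b 381)))))))))))))) (.tw (.c 0 (.s13 (.tw (.c 0 (.b 304) (.s13 (.tw (.s12 (.s13 (.c 0 (.b 63) (.b 44))))))))) (.tw (.s12 (.s13 (.tw (.c 0 (.tw (.s12 (.s13 (.tw (.c 0 (.b 272) (.b 239)))))) (.s13 (.tw (.c 0 (.b 5) (.b 5))))))))))))),
  (.tw (.c 0 (.tw (.c 0 (.b 14) (.s13 (.tw (.s12 (.s13 (.c 0 (.b 13) (.s13 (.tw (.s12 (.s13 (.c 0 (.b 136) (.s13 (.tw (.s12 (.s13 (.c 0 (.b 63) (.b 369)))))))))))))))))) (.s12 (.s13 (.tw (.s12 (.c 0 (.s13 (.tw (.c 0 (.tw (.s12 (.s13 (.tw (.c 0 (.b 63) (.b 239)))))) (.b 136)))) (.tw (.s12 (.s13 (.tw (.c 0 (.tw (.s12 (.s13 (.tw (.c 0 (.b 266) (.b 272)))))) (.s13 (.tw (.c 0 (.b 5) (.c 0 (.b 5)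 (.b 1))))))))))))))))),
  (.tw (.c 0 (.tw (.c 0 (.b 14) (.s13 (.tw (.s12 (.s13 (.c 0 (.b 14) (.c 0 (.b 304) (.tw (.s12 (.s13 (.tw (.c 0 (.b 63) (.b 381)))))))))))))) (.tw (.c 0 (.s12 (.s13 (.tw (.c 0 (.b 284) (.s13 (.tw (.s12 (.s13 (.c 0 (.b 44) (.b 12)))))))))) (.tw (.s12 (.s13 (.tw (.c 0 (.tw (.s12 (.s13 (.tw (.c 0 (.b 266) (.b 272)))))) (.s13 (.tw (.c 0 (.b 5) (.c 0 (.b 5) (.b 1)))))))))))))),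
  (.tw (.c 0 (.tw (.c 0 (.b 14) (.s13 (.tw (.s12 (.s13 (.c 0 (.b 14) (.c 0 (.b 304) (.tw (.s12 (.s13 (.tw (.c 0 (.b 63) (.b 381)))))))))))))) (.tw (.c 0 (.s12 (.s13 (.tw (.c 0 (.b 247) (.s13 (.tw (.s13 (.c 0 (.b 24) (.b 200))))))))) (.s13 (.tw (.c 0 (.s13 (.tw (.c 0 (.b 57) (.b 44)))) (.s13 (.tw (.s13 (.c 0 (.b 5) (.b 272)))))))))))),
  (.tw (.c 0 (.tw (.c 0 (.b 14) (.s13 (.tw (.s12 (.s13 (.c 0 (.b 14) (.c 0 (.b 304) (.s13 (.tw (.s12 (.s13 (.c 0 (.b 63) (.b 44)))))))))))))) (.s13 (.tw (.c 0 (.tw (.s13 (.tw (.c 0 (.b 152) (.s13 (.tw (.s12 (.s13 (.c 0 (.b 24) (.b 405)))))))))) (.s13 (.tw (.c 0 (.s13 (.tw (.c 0 (.b 82) (.b 200)))) (.s13 (.tw (.c 0 (.b 24) (.b 24)))))))))))),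
  (.tw (.c 0 (.tw (.c 0 (.b 136) (.s13 (.tw (.s12 (.s13 (.c 0 (.b 136) (.c 0 (.b 136) (.b 249))))))))) (.tw (.c 0 (.s12 (.s13 (.tw (.c 0 (.s13 (.tw (.s12 (.s13 (.c 0 (.b 346) (.b 26)))))) (.b 284))))) (.tw (.s12 (.s13 (.tw (.c 0 (.s13 (.tw (.c 0 (.b 63) (.b 44)))) (.s13 (.tw (.s12 (.s13 (.c 0 (.b 264) (.s13 (.tw (.c 0 (.b 44) (.b 1)))))))))))))))))),
  (.tw (.c 0 (.tw (.c 0 (.b 13) (.s13 (.tw (.s12 (.s13 (.c 0 (.b 284) (.c 0 (.b 136) (.b 29))))))))) (.tw (.c 0 (.s13 (.tw (.c 0 (.b 136) (.s13 (.tw (.s12 (.s13 (.c 0 (.b 136) (.b 180))))))))) (.tw (.s12 (.s13 (.tw (.c 0 (.s13 (.tw (.c 0 (.b 272) (.b 247)))) (.s13 (.tw (.s13 (.c 0 (.b 5) (.c 0 (.b 5) (.b 12))))))))))))))),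
  (.tw (.c 0 (.tw (.c 0 (.b 13) (.s13 (.tw (.s12 (.s13 (.c 0 (.b 13) (.c 0 (.b 14) (.s13 (.tw (.s12 (.s13 (.c 0 (.b 381) (.b 381)))))))))))))) (.tw (.c 0 (.s13 (.tw (.c 0 (.b 304) (.s13 (.tw (.s12 (.s13 (.c 0 (.b 63) (.b 44))))))))) (.tw (.s12 (.s13 (.tw (.c 0 (.tw (.s12 (.s13 (.tw (.c 0 (.b 266) (.b 272)))))) (.s13 (.tw (.c 0 (.b 5) (.c 0 (.b 5) (.b 1)))))))))))))),
  (.tw (.c 0 (.tw (.c 0 (.b 14) (.s13 (.tw (.s12 (.s13 (.c 0 (.b 13) (.s13 (.tw (.s12 (.s13 (.c 0 (.b 136) (.s13 (.tw (.s12 (.s13 (.c 0 (.b 63) (.b 369)))))))))))))))))) (.s12 (.s13 (.tw (.s12 (.c 0 (.s12 (.s13 (.tw (.c 0 (.b 304) (.s13 (.tw (.s12 (.s13 (.c 0 (.b 13) (.b 394)))))))))) (.tw (.s12 (.s13 (.tw (.c 0 (.tw (.s12 (.s13 (.tw (.c 0 (.b 377) (.s13 (.tw (.s12 (.s13 (.c 0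 (.b 202) (.b 5))))))))))) (.s13 (.tw (.c 0 (.b 63) (.b 44)))))))))))))))),
  (.tw (.c 0 (.tw (.c 0 (.b 14) (.s13 (.tw (.s12 (.s13 (.c 0 (.b 13) (.s13 (.tw (.s12 (.s13 (.c 0 (.b 136) (.s13 (.tw (.s12 (.s13 (.c 0 (.b 63) (.b 369)))))))))))))))))) (.s12 (.s13 (.tw (.s12 (.c 0 (.s13 (.tw (.c 0 (.b 136) (.s13 (.tw (.s12 (.s13 (.c 0 (.b 63) (.b 369))))))))) (.tw (.s12 (.s13 (.tw (.c 0 (.tw (.s12 (.s13 (.tw (.c 0 (.b 202) (.s13 (.tw (.s12 (.s13 (.c 0 (.b 693) (.b 5))))))))))) (.s13 (.tw (.c 0 (.b 63) (.b 44)))))))))))))))),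
  (.tw (.c 0 (.tw (.c 0 (.b 14) (.s13 (.tw (.s12 (.s13 (.c 0 (.b 14) (.c 0 (.b 304) (.tw (.s12 (.s13 (.tw (.c 0 (.b 63) (.b 381)))))))))))))) (.tw (.c 0 (.s13 (.tw (.c 0 (.b 284) (.tw (.s12 (.s13 (.tw (.c 0 (.b 63) (.b 381))))))))) (.s12 (.s13 (.tw (.c 0 (.s13 (.tw (.s13 (.s12 (.c 0 (.b 99) (.b 247)))))) (.s13 (.tw (.s13 (.s12 (.c 0 (.b 5) (.c 0 (.b 63) (.b 124))))))))))))))),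
  (.tw (.c 0 (.tw (.c 0 (.b 284) (.s13 (.tw (.s12 (.s13 (.c 0 (.b 63) (.b 93)))))))) (.tw (.c 0 (.s13 (.tw (.c 0 (.b 304) (.s13 (.tw (.s12 (.s13 (.c 0 (.b 63) (.b 44))))))))) (.tw (.s12 (.s13 (.tw (.c 0 (.s13 (.tw (.s12 (.c 0 (.b 14) (.c 0 (.b 136) (.b 124)))))) (.s13 (.tw (.c 0 (.b 5) (.c 0 (.b 5) (.b 26)))))))))))))),
  (.tw (.c 0 (.tw (.c 0 (.b 14) (.s13 (.tw (.s12 (.s13 (.c 0 (.b 14) (.c 0 (.b 304) (.tw (.s12 (.s13 (.tw (.c 0 (.b 63) (.b 381)))))))))))))) (.tw (.c 0 (.s12 (.s13 (.tw (.c 0 (.b 444) (.s13 (.tw (.s12 (.s13 (.c 0 (.b 44) (.b 26)))))))))) (.s13 (.tw (.c 0 (.s13 (.tw (.c 0 (.b 63) (.b 44)))) (.s13 (.tw (.c 0 (.b 5) (.c 0 (.b 5) (.b 1)))))))))))),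
  (.tw (.c 0 (.tw (.c 0 (.b 136) (.s13 (.tw (.s12 (.s13 (.c 0 (.b 136) (.c 0 (.b 136) (.b 249))))))))) (.c 0 (.s13 (.tw (.c 0 (.tw (.s13 (.tw (.c 0 (.b 152) (.tw (.s12 (.s13 (.tw (.c 0 (.b 24) (.b 536)))))))))) (.s13 (.tw (.c 0 (.s13 (.tw (.c 0 (.b 24) (.b 24)))) (.s13 (.tw (.c 0 (.b 24) (.b 24)))))))))) (.b 19)))),
  (.tw (.c 0 (.tw (.c 0 (.b 13) (.s13 (.tw (.s12 (.s13 (.c 0 (.b 284) (.c 0 (.b 136) (.b 29))))))))) (.tw (.c 0 (.s12 (.s13 (.tw (.c 0 (.b 58) (.s13 (.tw (.s12 (.s13 (.c 0 (.b 136) (.b 44)))))))))) (.tw (.s12 (.s13 (.tw (.c 0 (.s13 (.tw (.c 0 (.b 136) (.b 44)))) (.s13 (.tw (.s12 (.s13 (.c 0 (.b 345) (.s13 (.tw (.s12 (.s13 (.c 0 (.b 202) (.b 5)))))))))))))))))))),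
  (.tw (.c 0 (.tw (.c 0 (.b 13) (.s13 (.tw (.s12 (.s13 (.c 0 (.b 284) (.c 0 (.b 136) (.b 29))))))))) (.tw (.c 0 (.s12 (.s13 (.tw (.c 0 (.b 164) (.s13 (.tw (.s12 (.s13 (.c 0 (.b 63) (.b 44)))))))))) (.tw (.s12 (.s13 (.tw (.c 0 (.s13 (.tw (.c 0 (.b 136) (.b 44)))) (.s13 (.tw (.s12 (.s13 (.c 0 (.b 320) (.s13 (.tw (.c 0 (.b 5) (.b 124)))))))))))))))))),
  (.tw (.c 0 (.tw (.c 0 (.b 13) (.s13 (.tw (.s12 (.s13 (.c 0 (.b 284) (.c 0 (.b 136) (.b 29))))))))) (.tw (.c 0 (.s12 (.s13 (.tw (.c 0 (.b 164) (.s13 (.tw (.s12 (.s13 (.c 0 (.b 63) (.b 44)))))))))) (.tw (.s12 (.s13 (.tw (.c 0 (.s13 (.tw (.c 0 (.b 136) (.b 44)))) (.s13 (.tw (.s12 (.s13 (.c 0 (.b 320) (.s13 (.tw (.c 0 (.b 384) (.b 5)))))))))))))))))),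
  (.tw (.c 0 (.tw (.c 0 (.b 13) (.s13 (.tw (.s12 (.s13 (.c 0 (.b 284) (.c 0 (.b 136) (.b 29))))))))) (.tw (.c 0 (.s12 (.s13 (.tw (.c 0 (.b 14) (.s13 (.tw (.s12 (.s13 (.c 0 (.b 136) (.s13 (.tw (.s12 (.s13 (.c 0 (.b 63) (.b 24))))))))))))))) (.tw (.s12 (.s13 (.tw (.c 0 (.s13 (.tw (.c 0 (.b 136) (.b 44)))) (.s13 (.tw (.s12 (.s13 (.c 0 (.b 320) (.s13 (.tw (.c 0 (.b 5) (.b 124)))))))))))))))))),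
  (.tw (.c 0 (.tw (.c 0 (.b 13) (.s13 (.tw (.s12 (.s13 (.c 0 (.b 284) (.c 0 (.b 136) (.b 29))))))))) (.tw (.c 0 (.s12 (.s13 (.tw (.c 0 (.b 14) (.s13 (.tw (.s12 (.s13 (.c 0 (.b 136) (.s13 (.tw (.s12 (.s13 (.c 0 (.b 63) (.b 24))))))))))))))) (.tw (.s12 (.s13 (.tw (.c 0 (.s13 (.tw (.c 0 (.b 136) (.b 44)))) (.s13 (.tw (.s12 (.s13 (.c 0 (.b 320) (.s13 (.tw (.c 0 (.b 384) (.b 5)))))))))))))))))),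
  (.tw (.c 0 (.tw (.c 0 (.b 13) (.s13 (.tw (.s12 (.s13 (.c 0 (.b 57) (.s13 (.tw (.s12 (.s13 (.c 0 (.b 381) (.b 478))))))))))))) (.s13 (.tw (.c 0 (.s13 (.tw (.c 0 (.b 14) (.s13 (.tw (.s12 (.s13 (.c 0 (.b 136) (.s13 (.tw (.s12 (.s13 (.c 0 (.b 44) (.b 12)))))))))))))) (.s13 (.tw (.c 0 (.s13 (.tw (.c 0 (.b 63) (.b 44)))) (.s13 (.tw (.s12 (.c 0 (.b 5) (.c 0 (.b 5) (.b 26)))))))))))))),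
  (.tw (.c 0 (.tw (.c 0 (.b 13) (.s13 (.tw (.s12 (.s13 (.c 0 (.b 284) (.c 0 (.b 136) (.b 29))))))))) (.tw (.c 0 (.s12 (.s13 (.tw (.c 0 (.b 164) (.s13 (.tw (.s12 (.s13 (.c 0 (.b 63) (.b 44)))))))))) (.s13 (.tw (.c 0 (.s13 (.tw (.c 0 (.b 136) (.b 44)))) (.s13 (.tw (.s13 (.c 0 (.b 5) (.s13 (.tw (.s13 (.c 0 (.b 5) (.b 465)))))))))))))))),
  (.tw (.c 0 (.tw (.c 0 (.b 13) (.s13 (.tw (.s12 (.s13 (.c 0 (.b 284) (.c 0 (.b 136) (.b 29))))))))) (.tw (.c 0 (.tw (.s13 (.tw (.c 0 (.b 67) (.s13 (.tw (.s13 (.c 0 (.b 24) (.b 44))))))))) (.tw (.s12 (.s13 (.tw (.c 0 (.s13 (.tw (.s12 (.c 0 (.b 24) (.b 598))))) (.s13 (.tw (.c 0 (.b 5) (.c 0 (.b 5) (.b 26)))))))))))))),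
  (.tw (.c 0 (.s12 (.s13 (.tw (.s12 (.c 0 (.b 13) (.s13 (.tw (.s12 (.s13 (.c 0 (.b 136) (.s13 (.tw (.s12 (.s13 (.c 0 (.b 284) (.b 147)))))))))))))))) (.s13 (.tw (.s13 (.s12 (.c 0 (.s13 (.tw (.s12 (.c 0 (.b 14) (.s13 (.tw (.s12 (.s13 (.c 0 (.b 136) (.tw (.s12 (.s13 (.tw (.c 0 (.b 44) (.b 12))))))))))))))) (.s13 (.tw (.s12 (.c 0 (.s13 (.tw (.c 0 (.b 63) (.b 44)))) (.s13 (.tw (.s12 (.c 0 (.b 5) (.c 0 (.b 5) (.b 26))))))))))))))))),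
  (.tw (.c 0 (.tw (.c 0 (.b 13) (.s13 (.tw (.s12 (.s13 (.c 0 (.b 284) (.c 0 (.b 136) (.b 29))))))))) (.tw (.c 0 (.s12 (.s13 (.tw (.c 0 (.b 14) (.s13 (.tw (.s12 (.s13 (.c 0 (.b 136) (.s13 (.tw (.s12 (.s13 (.c 0 (.b 63) (.b 24))))))))))))))) (.s13 (.tw (.c 0 (.s13 (.tw (.c 0 (.b 136) (.b 44)))) (.s13 (.tw (.s13 (.c 0 (.b 5) (.s13 (.tw (.s13 (.c 0 (.b 5) (.b 465)))))))))))))))),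
  (.tw (.c 0 (.tw (.c 0 (.b 13) (.s13 (.tw (.s12 (.s13 (.c 0 (.b 284) (.c 0 (.b 136) (.b 29))))))))) (.tw (.c 0 (.s13 (.tw (.c 0 (.b 304) (.s13 (.tw (.s12 (.s13 (.c 0 (.b 63) (.b 44))))))))) (.tw (.s12 (.s13 (.tw (.c 0 (.s13 (.tw (.s12 (.c 0 (.b 14) (.c 0 (.b 136) (.b 124)))))) (.s13 (.tw (.c 0 (.b 5) (.c 0 (.b 5) (.b 26)))))))))))))),
  (.tw (.c 0 (.tw (.c 0 (.b 1) (.s13 (.tw (.s13 (.c 0 (.b 1) (.b 21))))))) (.tw (.c 0 (.s12 (.s13 (.tw (.c 0 (.s13 (.tw (.c 0 (.b 136) (.b 536)))) (.tw (.s12 (.s13 (.tw (.c 0 (.s12 (.s13 (.tw (.c 0 (.b 14) (.b 351))))) (.s13 (.tw (.c 0 (.b 5) (.b 5))))))))))))) (.s12 (.s13 (.tw (.c 0 (.b 58) (.s13 (.tw (.s12 (.s13 (.c 0 (.b 136) (.c 0 (.b 136) (.b 136))))))))))))))),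
  (.tw (.c 0 (.tw (.c 0 (.b 13) (.s13 (.tw (.s12 (.s13 (.c 0 (.b 13) (.c 0 (.b 14) (.s13 (.tw (.s12 (.s13 (.c 0 (.b 381) (.b 381)))))))))))))) (.tw (.c 0 (.s12 (.s13 (.tw (.c 0 (.b 13) (.s13 (.tw (.s13 (.c 0 (.b 99) (.b 247))))))))) (.s13 (.tw (.c 0 (.s13 (.tw (.c 0 (.b 24) (.b 44)))) (.s13 (.tw (.s13 (.c 0 (.b 5) (.c 0 (.b 5) (.b 12))))))))))))),
  (.tw (.c 0 (.tw (.c 0 (.b 13) (.s13 (.tw (.s12 (.s13 (.c 0 (.b 13) (.c 0 (.b 14) (.s13 (.tw (.s12 (.s13 (.c 0 (.b 381) (.b 381)))))))))))))) (.tw (.c 0 (.s12 (.s13 (.tw (.c 0 (.b 164) (.s13 (.tw (.s12 (.s13 (.c 0 (.b 63) (.b 44)))))))))) (.s12 (.s13 (.tw (.c 0 (.s13 (.tw (.s12 (.c 0 (.b 381) (.b 44))))) (.s13 (.tw (.s13 (.c 0 (.b 5) (.c 0 (.b 5) (.b 63)))))))))))))),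
  (.tw (.c 0 (.tw (.c 0 (.b 13) (.s13 (.tw (.s12 (.s13 (.c 0 (.b 13) (.c 0 (.b 136) (.s13 (.tw (.s12 (.s13 (.c 0 (.b 13) (.b 138)))))))))))))) (.tw (.c 0 (.s12 (.s13 (.tw (.c 0 (.b 58) (.s13 (.tw (.s12 (.s13 (.c 0 (.b 136) (.b 44)))))))))) (.s13 (.tw (.c 0 (.s13 (.tw (.c 0 (.b 57) (.b 44)))) (.s13 (.tw (.s13 (.c 0 (.b 5) (.c 0 (.b 5) (.b 63))))))))))))),
  (.tw (.c 0 (.tw (.c 0 (.b 13) (.s13 (.tw (.s12 (.s13 (.c 0 (.b 13) (.c 0 (.b 14) (.s13 (.tw (.s12 (.s13 (.c 0 (.b 381) (.b 381)))))))))))))) (.tw (.c 0 (.s12 (.s13 (.tw (.c 0 (.b 58) (.s13 (.tw (.s12 (.s13 (.c 0 (.b 136) (.b 44)))))))))) (.tw (.s13 (.tw (.c 0 (.s13 (.tw (.c 0 (.b 63) (.b 44)))) (.s13 (.tw (.s12 (.s13 (.c 0 (.b 5) (.c 0 (.b 5) (.b 284))))))))))))))),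
  (.tw (.c 0 (.tw (.c 0 (.b 13) (.s13 (.tw (.s12 (.s13 (.c 0 (.b 13) (.c 0 (.b 14) (.s13 (.tw (.s12 (.s13 (.c 0 (.b 381) (.b 381)))))))))))))) (.tw (.c 0 (.s12 (.s13 (.tw (.c 0 (.b 14) (.s13 (.tw (.s12 (.s13 (.c 0 (.b 136) (.s13 (.tw (.s12 (.s13 (.c 0 (.b 63) (.b 24))))))))))))))) (.s12 (.s13 (.tw (.c 0 (.s13 (.tw (.s12 (.c 0 (.b 381) (.b 44))))) (.s13 (.tw (.s13 (.c 0 (.b 5) (.c 0 (.b 5) (.b 63)))))))))))))),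
  (.tw (.c 0 (.tw (.c 0 (.b 13) (.s13 (.tw (.s12 (.s13 (.c 0 (.b 13) (.c 0 (.b 14) (.s13 (.tw (.s12 (.s13 (.c 0 (.b 381) (.b 381)))))))))))))) (.s13 (.tw (.c 0 (.s13 (.tw (.c 0 (.b 58) (.s13 (.tw (.s12 (.s13 (.c 0 (.b 14) (.c 0 (.b 136) (.b 136)))))))))) (.tw (.s13 (.tw (.c 0 (.s13 (.tw (.c 0 (.b 24) (.b 44)))) (.tw (.s12 (.s13 (.tw (.c 0 (.b 5) (.s13 (.tw (.s12 (.s13 (.c 0 (.b 5) (.b 63)))))))))))))))))))),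
  (.tw (.c 0 (.tw (.c 0 (.b 13) (.s13 (.tw (.s12 (.s13 (.c 0 (.b 13) (.c 0 (.b 136) (.s13 (.tw (.s12 (.s13 (.c 0 (.b 13) (.b 138)))))))))))))) (.s13 (.tw (.c 0 (.tw (.s13 (.tw (.c 0 (.b 192) (.s13 (.tw (.s13 (.c 0 (.b 24) (.b 44))))))))) (.tw (.s13 (.tw (.c 0 (.s13 (.tw (.s12 (.c 0 (.b 44) (.b 12))))) (.tw (.s12 (.s13 (.tw (.c 0 (.b 176) (.s13 (.tw (.c 0 (.b 5) (.b 26)))))))))))))))))),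
  (.tw (.c 0 (.tw (.c 0 (.b 13) (.s13 (.tw (.s12 (.s13 (.c 0 (.b 13) (.c 0 (.b 14) (.s13 (.tw (.s12 (.s13 (.c 0 (.b 381) (.b 381)))))))))))))) (.s13 (.tw (.c 0 (.s13 (.tw (.c 0 (.b 14) (.s13 (.tw (.s12 (.s13 (.c 0 (.b 136) (.s13 (.tw (.s12 (.s13 (.c 0 (.b 44) (.b 12)))))))))))))) (.s13 (.tw (.c 0 (.s13 (.tw (.c 0 (.b 57) (.b 44)))) (.s13 (.tw (.s12 (.c 0 (.b 5) (.c 0 (.b 5) (.b 26)))))))))))))),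
  (.tw (.c 0 (.tw (.c 0 (.b 13) (.s13 (.tw (.s12 (.s13 (.c 0 (.b 13) (.c 0 (.b 14) (.s13 (.tw (.s12 (.s13 (.c 0 (.b 381) (.b 381)))))))))))))) (.s13 (.tw (.c 0 (.s13 (.tw (.c 0 (.b 14) (.s13 (.tw (.s12 (.s13 (.c 0 (.b 136) (.s13 (.tw (.s12 (.s13 (.c 0 (.b 44) (.b 12)))))))))))))) (.s13 (.tw (.c 0 (.s13 (.tw (.c 0 (.b 63) (.b 44)))) (.s13 (.tw (.s12 (.c 0 (.b 5) (.c 0 (.b 5) (.b 26)))))))))))))),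
  (.tw (.c 0 (.tw (.c 0 (.b 13) (.s13 (.tw (.s12 (.s13 (.c 0 (.b 13) (.c 0 (.b 136) (.s13 (.tw (.s12 (.s13 (.c 0 (.b 13) (.b 138)))))))))))))) (.s13 (.tw (.c 0 (.tw (.s13 (.tw (.c 0 (.b 192) (.s13 (.tw (.s13 (.c 0 (.b 24) (.b 44))))))))) (.tw (.s13 (.tw (.c 0 (.b 348) (.s13 (.tw (.s13 (.c 0 (.b 143) (.s13 (.tw (.c 0 (.b 5) (.b 5))))))))))))))))),
  (.tw (.c 0 (.s12 (.s13 (.tw (.s12 (.c 0 (.b 14) (.s13 (.tw (.s12 (.s13 (.c 0 (.b 304) (.s13 (.tw (.s12 (.s13 (.c 0 (.b 13) (.b 546)))))))))))))))) (.tw (.s12 (.c 0 (.s13 (.tw (.c 0 (.b 136) (.s13 (.tw (.s12 (.s13 (.c 0 (.b 63) (.b 369))))))))) (.tw (.s12 (.s13 (.tw (.c 0 (.s13 (.tw (.c 0 (.b 136) (.b 44)))) (.tw (.s12 (.s13 (.tw (.c 0 (.b 5) (.s12 (.s13 (.tw (.c 0 (.b 382) (.s13 (.tw (.c 0 (.b 44)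 (.b 1))))))))))))))))))))))),
  (.tw (.c 0 (.s12 (.s13 (.tw (.s12 (.c 0 (.b 14) (.s13 (.tw (.s12 (.s13 (.c 0 (.b 304) (.s13 (.tw (.s12 (.s13 (.c 0 (.b 13) (.b 546)))))))))))))))) (.s13 (.tw (.s13 (.s12 (.c 0 (.tw (.s12 (.c 0 (.b 14) (.s13 (.tw (.s12 (.s13 (.c 0 (.b 136) (.c 0 (.b 136) (.b 136)))))))))) (.tw (.s13 (.s12 (.c 0 (.s13 (.tw (.c 0 (.b 5) (.b 5)))) (.s13 (.tw (.c 0 (.b 272) (.b 44))))))))))))))),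
  (.tw (.c 0 (.tw (.c 0 (.b 1) (.s13 (.tw (.s13 (.c 0 (.b 1) (.b 21))))))) (.tw (.c 0 (.s12 (.s13 (.tw (.c 0 (.b 57) (.s13 (.tw (.s12 (.s13 (.c 0 (.b 136) (.c 0 (.b 136) (.b 136))))))))))) (.s12 (.s13 (.tw (.c 0 (.s13 (.tw (.c 0 (.b 136) (.b 536)))) (.tw (.s12 (.s13 (.tw (.c 0 (.s12 (.s13 (.tw (.c 0 (.b 14) (.b 351))))) (.s13 (.tw (.c 0 (.b 5) (.b 5))))))))))))))))),
  (.tw (.c 0 (.tw (.c 0 (.b 14) (.s13 (.tw (.s12 (.s13 (.c 0 (.b 13) (.s13 (.tw (.s12 (.s13 (.c 0 (.b 136) (.s13 (.tw (.s12 (.s13 (.c 0 (.b 63) (.b 369)))))))))))))))))) (.s12 (.s13 (.tw (.c 0 (.s13 (.tw (.c 0 (.b 13) (.s13 (.tw (.s13 (.c 0 (.b 14) (.s13 (.tw (.s12 (.s13 (.c 0 (.b 266) (.b 26))))))))))))) (.s13 (.tw (.c 0 (.s13 (.tw (.c 0 (.b 136) (.b 44)))) (.s13 (.tw (.s13 (.c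 0 (.b 5) (.c 0 (.b 5) (.b 26))))))))))))))),
  (.tw (.c 0 (.tw (.c 0 (.b 14) (.s13 (.tw (.s12 (.s13 (.c 0 (.b 14) (.c 0 (.b 304) (.s13 (.tw (.s12 (.s13 (.c 0 (.b 63) (.b 369)))))))))))))) (.s13 (.tw (.c 0 (.tw (.s13 (.tw (.c 0 (.b 67) (.s13 (.tw (.s13 (.c 0 (.b 14) (.b 44))))))))) (.tw (.s12 (.s13 (.tw (.c 0 (.s13 (.tw (.c 0 (.b 5) (.b 5)))) (.s13 (.tw (.c 0 (.b 272) (.b 44)))))))))))))),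
  (.tw (.c 0 (.tw (.c 0 (.b 14) (.s13 (.tw (.s12 (.s13 (.c 0 (.b 13) (.s13 (.tw (.s12 (.s13 (.c 0 (.b 136) (.s13 (.tw (.s12 (.s13 (.c 0 (.b 63) (.b 369)))))))))))))))))) (.s12 (.s13 (.tw (.c 0 (.s13 (.tw (.c 0 (.b 13) (.s13 (.tw (.s12 (.s13 (.c 0 (.b 63) (.b 603))))))))) (.tw (.s13 (.tw (.c 0 (.s13 (.tw (.c 0 (.b 136) (.b 44)))) (.s13 (.tw (.s12 (.s13 (.c 0 (.b 5) (.c 0 (.b 5) (.b 284))))))))))))))))),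
  (.tw (.c 0 (.tw (.c 0 (.b 14) (.s13 (.tw (.s12 (.s13 (.c 0 (.b 14) (.c 0 (.b 304) (.s13 (.tw (.s12 (.s13 (.c 0 (.b 63) (.b 369)))))))))))))) (.s13 (.tw (.c 0 (.s13 (.tw (.c 0 (.b 58) (.s13 (.tw (.s12 (.s13 (.c 0 (.b 124) (.b 44))))))))) (.tw (.s12 (.s13 (.tw (.c 0 (.s13 (.tw (.c 0 (.b 63) (.b 44)))) (.s13 (.tw (.c 0 (.b 5) (.c 0 (.b 5) (.b 12))))))))))))))),
  (.tw (.c 0 (.tw (.c 0 (.b 14) (.s13 (.tw (.s12 (.s13 (.c 0 (.b 13) (.s13 (.tw (.s12 (.s13 (.c 0 (.b 136) (.s13 (.tw (.s12 (.s13 (.c 0 (.b 63) (.b 369)))))))))))))))))) (.s12 (.s13 (.tw (.c 0 (.s13 (.tw (.c 0 (.b 57) (.s13 (.tw (.s12 (.s13 (.c 0 (.b 63) (.b 180))))))))) (.tw (.s13 (.tw (.c 0 (.s13 (.tw (.c 0 (.b 136) (.b 44)))) (.s13 (.tw (.s12 (.s13 (.c 0 (.b 5) (.c 0 (.b 5) (.b 284))))))))))))))))),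
  (.tw (.c 0 (.tw (.c 0 (.b 14) (.s13 (.tw (.s12 (.s13 (.c 0 (.b 13) (.s13 (.tw (.s12 (.s13 (.c 0 (.b 136) (.s13 (.tw (.s12 (.s13 (.c 0 (.b 63) (.b 369)))))))))))))))))) (.s12 (.s13 (.tw (.c 0 (.s13 (.tw (.c 0 (.b 14) (.s13 (.tw (.s12 (.s13 (.c 0 (.b 63) (.s13 (.tw (.s12 (.s13 (.c 0 (.b 180) (.b 12)))))))))))))) (.s13 (.tw (.c 0 (.s13 (.tw (.c 0 (.b 136) (.b 44)))) (.s13 (.tw (.s13 (.c 0 (.b 5) (.c 0 (.b 5) (.b 26))))))))))))))),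
  (.tw (.c 0 (.tw (.c 0 (.b 1) (.s13 (.tw (.s13 (.c 0 (.b 1) (.b 21))))))) (.s13 (.tw (.c 0 (.s13 (.tw (.c 0 (.b 136) (.s13 (.tw (.s12 (.s13 (.c 0 (.b 13) (.b 207))))))))) (.s13 (.tw (.c 0 (.s13 (.tw (.c 0 (.b 136) (.c 0 (.b 136) (.b 136))))) (.s13 (.tw (.c 0 (.tw (.c 0 (.b 136) (.b 136))) (.s13 (.tw (.c 0 (.b 5) (.b 5))))))))))))))),
  (.tw (.c 0 (.tw (.c 0 (.b 478) (.s13 (.tw (.s12 (.s13 (.c 0 (.b 381) (.c 0 (.b 136) (.b 136))))))))) (.tw (.c 0 (.s12 (.s13 (.tw (.c 0 (.b 247) (.s13 (.tw (.s12 (.s13 (.c 0 (.b 63) (.b 44)))))))))) (.s12 (.s13 (.tw (.c 0 (.s13 (.tw (.c 0 (.b 24) (.b 136)))) (.s13 (.tw (.s13 (.c 0 (.b 443) (.b 99))))))))))))),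
  (.tw (.c 0 (.tw (.c 0 (.b 14) (.s13 (.tw (.s12 (.s13 (.c 0 (.b 14) (.c 0 (.b 304) (.s13 (.tw (.s12 (.s13 (.c 0 (.b 63) (.b 369)))))))))))))) (.s13 (.tw (.c 0 (.tw (.s12 (.s13 (.tw (.c 0 (.b 67) (.s13 (.tw (.s13 (.c 0 (.b 164) (.b 44)))))))))) (.tw (.s13 (.tw (.c 0 (.s13 (.tw (.c 0 (.b 63) (.b 44)))) (.s13 (.tw (.c 0 (.b 5) (.s13 (.tw (.s13 (.c 0 (.b 82) (.b 12))))))))))))))))),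
  (.tw (.c 0 (.tw (.c 0 (.b 14) (.s13 (.tw (.s12 (.s13 (.c 0 (.b 13) (.s13 (.tw (.s12 (.s13 (.c 0 (.b 136) (.s13 (.tw (.s12 (.s13 (.c 0 (.b 63) (.b 369)))))))))))))))))) (.s12 (.s13 (.tw (.c 0 (.s13 (.tw (.c 0 (.b 381) (.tw (.s12 (.s13 (.tw (.c 0 (.b 63) (.b 381))))))))) (.tw (.s13 (.tw (.c 0 (.s13 (.tw (.c 0 (.b 136) (.b 44)))) (.s13 (.tw (.s12 (.s13 (.c 0 (.b 5) (.c 0 (.b 5) (.b 284))))))))))))))))),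
  (.tw (.c 0 (.tw (.c 0 (.b 14) (.s13 (.tw (.s12 (.s13 (.c 0 (.b 13) (.s13 (.tw (.s12 (.s13 (.c 0 (.b 136) (.s13 (.tw (.s12 (.s13 (.c 0 (.b 63) (.b 369)))))))))))))))))) (.s12 (.s13 (.tw (.c 0 (.s13 (.tw (.c 0 (.b 14) (.s13 (.tw (.s12 (.s13 (.c 0 (.b 284) (.b 713))))))))) (.s13 (.tw (.c 0 (.s13 (.tw (.c 0 (.b 136) (.b 44)))) (.s13 (.tw (.s13 (.c 0 (.b 5) (.c 0 (.b 5) (.b 26))))))))))))))),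
  (.tw (.c 0 (.tw (.c 0 (.b 1) (.s13 (.tw (.s13 (.c 0 (.b 1) (.b 21))))))) (.s13 (.tw (.c 0 (.s13 (.tw (.c 0 (.b 14) (.s13 (.tw (.s12 (.s13 (.c 0 (.b 304) (.s13 (.tw (.s12 (.s13 (.c 0 (.b 13) (.b 337)))))))))))))) (.s12 (.s13 (.tw (.c 0 (.s13 (.tw (.c 0 (.b 136) (.b 536)))) (.s13 (.tw (.c 0 (.tw (.c 0 (.b 136) (.b 136))) (.s13 (.tw (.c 0 (.b 5) (.b 5)))))))))))))))),
  (.tw (.c 0 (.tw (.c 0 (.b 136) (.s13 (.tw (.s12 (.s13 (.c 0 (.b 136) (.c 0 (.b 136) (.b 478))))))))) (.tw (.c 0 (.s12 (.s13 (.tw (.c 0 (.b 247) (.s13 (.tw (.s12 (.s13 (.c 0 (.b 63) (.b 44)))))))))) (.s12 (.s13 (.tw (.c 0 (.s13 (.tw (.c 0 (.b 24) (.b 136)))) (.s13 (.tw (.s13 (.c 0 (.b 443) (.b 99))))))))))))),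
  (.tw (.c 0 (.tw (.c 0 (.b 14) (.s13 (.tw (.s12 (.s13 (.c 0 (.b 14) (.c 0 (.b 304) (.tw (.s12 (.s13 (.tw (.c 0 (.b 63) (.b 381)))))))))))))) (.s13 (.tw (.c 0 (.tw (.s12 (.s13 (.tw (.c 0 (.b 67) (.s13 (.tw (.s13 (.c 0 (.b 164) (.b 44)))))))))) (.tw (.s13 (.tw (.c 0 (.s13 (.tw (.c 0 (.b 63) (.b 44)))) (.s13 (.tw (.c 0 (.b 5) (.s13 (.tw (.s13 (.c 0 (.b 82) (.b 12))))))))))))))))),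
  (.tw (.c 0 (.tw (.c 0 (.b 1) (.s13 (.tw (.s13 (.c 0 (.b 1) (.b 21))))))) (.s13 (.tw (.c 0 (.s13 (.tw (.c 0 (.b 14) (.s13 (.tw (.s12 (.s13 (.c 0 (.b 462) (.b 462))))))))) (.s12 (.s13 (.tw (.c 0 (.s13 (.tw (.c 0 (.b 136) (.b 536)))) (.s13 (.tw (.c 0 (.tw (.c 0 (.b 136) (.b 136))) (.s13 (.tw (.c 0 (.b 5) (.b 5)))))))))))))))),
  (.tw (.c 0 (.tw (.c 0 (.b 13) (.s13 (.tw (.s12 (.s13 (.c 0 (.b 13) (.c 0 (.b 14) (.s13 (.tw (.s12 (.s13 (.c 0 (.b 381) (.b 381)))))))))))))) (.s13 (.tw (.c 0 (.s13 (.tw (.c 0 (.s13 (.tw (.c 0 (.b 180) (.b 12)))) (.s13 (.tw (.s13 (.c 0 (.b 99) (.b 247)))))))) (.s12 (.s13 (.tw (.c 0 (.s13 (.tw (.c 0 (.b 180) (.b 12)))) (.s13 (.tw (.s13 (.c 0 (.b 99) (.b 247)))))))))))))),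
  (.tw (.c 0 (.tw (.c 0 (.b 14) (.s13 (.tw (.s12 (.s13 (.c 0 (.b 13) (.s13 (.tw (.s12 (.s13 (.c 0 (.b 136) (.s13 (.tw (.s12 (.s13 (.c 0 (.b 63) (.b 369)))))))))))))))))) (.s12 (.s13 (.tw (.c 0 (.s12 (.s13 (.tw (.c 0 (.b 136) (.s13 (.tw (.s12 (.s13 (.c 0 (.b 63) (.b 381)))))))))) (.tw (.s12 (.s13 (.tw (.c 0 (.s13 (.tw (.c 0 (.tw (.c 0 (.b 5) (.b 1))) (.b 247)))) (.tw (.s12 (.s13 (.tw (.c 0 (.s12 (.s13 (.tw (.c 0 (.b 5) (.b 1))))) (.b 247))))))))))))))))),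
  (.tw (.c 0 (.tw (.c 0 (.b 14) (.s13 (.tw (.s12 (.s13 (.c 0 (.b 14) (.c 0 (.b 304) (.tw (.s12 (.s13 (.tw (.c 0 (.b 63) (.b 381)))))))))))))) (.s13 (.tw (.c 0 (.s12 (.s13 (.tw (.c 0 (.b 567) (.b 111))))) (.tw (.s12 (.s13 (.tw (.c 0 (.s13 (.tw (.c 0 (.b 63) (.b 44)))) (.s13 (.tw (.s12 (.s13 (.c 0 (.b 5) (.s13 (.tw (.s12 (.s13 (.c 0 (.b 5) (.b 136))))))))))))))))))))),
  (.tw (.c 0 (.tw (.c 0 (.b 14) (.s13 (.tw (.s12 (.s13 (.c 0 (.b 14) (.c 0 (.b 304) (.tw (.s12 (.s13 (.tw (.c 0 (.b 63) (.b 381)))))))))))))) (.s13 (.tw (.c 0 (.s12 (.s13 (.tw (.c 0 (.tw (.s12 (.s13 (.tw (.c 0 (.b 13) (.b 239)))))) (.b 29))))) (.tw (.s12 (.s13 (.tw (.c 0 (.s13 (.tw (.c 0 (.b 63) (.b 44)))) (.s13 (.tw (.s12 (.s13 (.c 0 (.b 5) (.tw (.s13 (.tw (.c 0 (.b 5) (.b 284)))))))))))))))))))),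
  (.tw (.c 0 (.tw (.c 0 (.b 14) (.s13 (.tw (.s12 (.s13 (.c 0 (.b 14) (.c 0 (.b 304) (.s13 (.tw (.s12 (.s13 (.c 0 (.b 63) (.b 44)))))))))))))) (.s13 (.c 0 (.tw (.c 0 (.tw (.s13 (.tw (.c 0 (.b 152) (.tw (.s12 (.s13 (.tw (.c 0 (.b 24) (.b 536)))))))))) (.s13 (.tw (.c 0 (.s13 (.tw (.c 0 (.b 24) (.b 24)))) (.s13 (.tw (.c 0 (.b 24) (.b 24))))))))) (.b 14))))),
  (.tw (.c 0 (.tw (.c 0 (.b 136) (.s13 (.tw (.s12 (.s13 (.c 0 (.b 136) (.c 0 (.b 136) (.b 249))))))))) (.c 0 (.tw (.c 0 (.tw (.s13 (.tw (.c 0 (.tw (.s12 (.s13 (.tw (.c 0 (.b 14) (.b 405)))))) (.s13 (.tw (.c 0 (.b 24) (.b 24)))))))) (.s13 (.tw (.c 0 (.s13 (.tw (.c 0 (.b 24) (.b 24)))) (.s13 (.tw (.s13 (.c 0 (.b 24) (.b 195)))))))))) (.b 12)))),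
  (.tw (.c 0 (.tw (.c 0 (.b 13) (.s13 (.tw (.s12 (.s13 (.c 0 (.b 284) (.c 0 (.b 136) (.b 29))))))))) (.c 0 (.tw (.c 0 (.s13 (.tw (.c 0 (.b 304) (.s13 (.tw (.s12 (.s13 (.c 0 (.b 63) (.b 44))))))))) (.tw (.s12 (.s13 (.tw (.c 0 (.tw (.s12 (.s13 (.tw (.c 0 (.b 272) (.b 239)))))) (.s13 (.tw (.c 0 (.b 5) (.b 5))))))))))) (.b 1)))),
  (.tw (.c 0 (.tw (.c 0 (.b 13) (.s13 (.tw (.s12 (.s13 (.c 0 (.b 13) (.c 0 (.b 14) (.s13 (.tw (.s12 (.s13 (.c 0 (.b 381) (.b 381)))))))))))))) (.s13 (.tw (.c 0 (.s13 (.tw (.c 0 (.b 247) (.s13 (.tw (.s12 (.s13 (.c 0 (.b 200) (.b 44))))))))) (.s12 (.s13 (.tw (.c 0 (.s13 (.tw (.c 0 (.b 136) (.b 180)))) (.s13 (.tw (.s13 (.c 0 (.b 99) (.b 247)))))))))))))),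
  (.tw (.c 0 (.tw (.c 0 (.b 14) (.s13 (.tw (.s12 (.s13 (.c 0 (.b 13) (.s13 (.tw (.s12 (.s13 (.c 0 (.b 136) (.s13 (.tw (.s12 (.s13 (.c 0 (.b 63) (.b 369)))))))))))))))))) (.s12 (.s13 (.tw (.c 0 (.s12 (.s13 (.tw (.c 0 (.b 136) (.s13 (.tw (.s12 (.s13 (.c 0 (.b 63) (.b 381)))))))))) (.tw (.s12 (.s13 (.tw (.c 0 (.s13 (.tw (.c 0 (.b 14) (.c 0 (.b 136) (.b 200))))) (.s13 (.tw (.s12 (.s13 (.c 0 (.b 313) (.s13 (.tw (.c 0 (.b 5) (.b 63)))))))))))))))))))),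
  (.tw (.c 0 (.tw (.c 0 (.b 14) (.s13 (.tw (.s12 (.s13 (.c 0 (.b 13) (.s13 (.tw (.s12 (.s13 (.c 0 (.b 136) (.s13 (.tw (.s12 (.s13 (.c 0 (.b 63) (.b 369)))))))))))))))))) (.s12 (.s13 (.tw (.c 0 (.s12 (.s13 (.tw (.c 0 (.b 136) (.s13 (.tw (.s12 (.s13 (.c 0 (.b 63) (.b 369)))))))))) (.tw (.s12 (.s13 (.tw (.c 0 (.s13 (.tw (.c 0 (.tw (.c 0 (.b 5) (.b 1))) (.b 247)))) (.tw (.s12 (.s13 (.tw (.c 0 (.s12 (.s13 (.tw (.c 0 (.b 5) (.b 1))))) (.b 247))))))))))))))))),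
  (.tw (.c 0 (.tw (.c 0 (.b 14) (.s13 (.tw (.s12 (.s13 (.c 0 (.b 14) (.c 0 (.b 304) (.tw (.s12 (.s13 (.tw (.c 0 (.b 63) (.b 381)))))))))))))) (.s13 (.tw (.c 0 (.s12 (.s13 (.tw (.c 0 (.b 567) (.b 422))))) (.tw (.s12 (.s13 (.tw (.c 0 (.s13 (.tw (.c 0 (.b 63) (.b 44)))) (.s13 (.tw (.s12 (.s13 (.c 0 (.b 5) (.s13 (.tw (.s12 (.s13 (.c 0 (.b 5) (.b 136))))))))))))))))))))),
  (.tw (.c 0 (.tw (.c 0 (.b 416) (.s13 (.tw (.s12 (.s13 (.c 0 (.b 63) (.b 159)))))))) (.tw (.c 0 (.s13 (.tw (.c 0 (.b 304) (.s13 (.tw (.s12 (.s13 (.c 0 (.b 63) (.b 44))))))))) (.tw (.s12 (.s13 (.tw (.c 0 (.s13 (.tw (.s12 (.c 0 (.b 14) (.c 0 (.b 136) (.b 124)))))) (.s13 (.tw (.c 0 (.b 5) (.c 0 (.b 5) (.b 26)))))))))))))),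
  (.tw (.c 0 (.tw (.c 0 (.b 14) (.s13 (.tw (.s12 (.s13 (.c 0 (.b 14) (.c 0 (.b 304) (.tw (.s12 (.s13 (.tw (.c 0 (.b 63) (.b 381)))))))))))))) (.s13 (.tw (.c 0 (.s12 (.s13 (.tw (.c 0 (.b 136) (.s13 (.tw (.s13 (.c 0 (.b 1) (.b 21))))))))) (.tw (.s12 (.s13 (.tw (.c 0 (.tw (.s12 (.s13 (.tw (.c 0 (.b 5) (.s13 (.tw (.c 0 (.b 5) (.b 124))))))))) (.s13 (.tw (.c 0 (.b 63) (.b 44)))))))))))))),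
  (.tw (.c 0 (.tw (.c 0 (.b 136) (.s13 (.tw (.s12 (.s13 (.c 0 (.b 136) (.c 0 (.b 136) (.b 249))))))))) (.s13 (.c 0 (.tw (.c 0 (.tw (.s13 (.tw (.c 0 (.b 152) (.tw (.s12 (.s13 (.tw (.c 0 (.b 24) (.b 536)))))))))) (.s13 (.tw (.c 0 (.s13 (.tw (.c 0 (.b 24) (.b 24)))) (.s13 (.tw (.c 0 (.b 24) (.b 24))))))))) (.b 57))))),
  (.tw (.c 0 (.tw (.c 0 (.b 348) (.s13 (.tw (.s12 (.s13 (.c 0 (.b 13) (.c 0 (.b 63) (.b 159))))))))) (.tw (.c 0 (.s13 (.tw (.c 0 (.b 136) (.s13 (.tw (.s12 (.s13 (.c 0 (.b 136) (.b 180))))))))) (.tw (.s12 (.s13 (.tw (.c 0 (.s13 (.tw (.c 0 (.b 272) (.b 247)))) (.s13 (.tw (.s13 (.c 0 (.b 5) (.c 0 (.b 5) (.b 12))))))))))))))),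
  (.tw (.c 0 (.tw (.c 0 (.b 348) (.s13 (.tw (.s12 (.s13 (.c 0 (.b 13) (.c 0 (.b 63) (.b 159))))))))) (.tw (.c 0 (.s12 (.s13 (.tw (.c 0 (.b 58) (.s13 (.tw (.s12 (.s13 (.c 0 (.b 136) (.b 44)))))))))) (.tw (.s12 (.s13 (.tw (.c 0 (.s13 (.tw (.c 0 (.b 136) (.b 44)))) (.s13 (.tw (.s12 (.s13 (.c 0 (.b 345) (.s13 (.tw (.s12 (.s13 (.c 0 (.b 202) (.b 5)))))))))))))))))))),
  (.tw (.c 0 (.tw (.c 0 (.b 348) (.s13 (.tw (.s12 (.s13 (.c 0 (.b 13) (.c 0 (.b 63) (.b 159))))))))) (.tw (.c 0 (.s12 (.s13 (.tw (.c 0 (.b 164) (.s13 (.tw (.s12 (.s13 (.c 0 (.b 63) (.b 44)))))))))) (.tw (.s12 (.s13 (.tw (.c 0 (.s13 (.tw (.c 0 (.b 136) (.b 44)))) (.s13 (.tw (.s12 (.s13 (.c 0 (.b 320) (.s13 (.tw (.c 0 (.b 5) (.b 124)))))))))))))))))),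
  (.tw (.c 0 (.tw (.c 0 (.b 348) (.s13 (.tw (.s12 (.s13 (.c 0 (.b 13) (.c 0 (.b 63) (.b 159))))))))) (.tw (.c 0 (.s12 (.s13 (.tw (.c 0 (.b 164) (.s13 (.tw (.s12 (.s13 (.c 0 (.b 63) (.b 44)))))))))) (.tw (.s12 (.s13 (.tw (.c 0 (.s13 (.tw (.c 0 (.b 136) (.b 44)))) (.s13 (.tw (.s12 (.s13 (.c 0 (.b 320) (.s13 (.tw (.c 0 (.b 384) (.b 5)))))))))))))))))),
  (.tw (.c 0 (.tw (.c 0 (.b 348) (.s13 (.tw (.s12 (.s13 (.c 0 (.b 13) (.c 0 (.b 63) (.b 159))))))))) (.tw (.c 0 (.s12 (.s13 (.tw (.c 0 (.b 14) (.s13 (.tw (.s12 (.s13 (.c 0 (.b 136) (.s13 (.tw (.s12 (.s13 (.c 0 (.b 63) (.b 24))))))))))))))) (.tw (.s12 (.s13 (.tw (.c 0 (.s13 (.tw (.c 0 (.b 136) (.b 44)))) (.s13 (.tw (.s12 (.s13 (.c 0 (.b 320) (.s13 (.tw (.c 0 (.b 5) (.b 124)))))))))))))))))),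
  (.tw (.c 0 (.tw (.c 0 (.b 348) (.s13 (.tw (.s12 (.s13 (.c 0 (.b 13) (.c 0 (.b 63) (.b 159))))))))) (.tw (.c 0 (.s12 (.s13 (.tw (.c 0 (.b 14) (.s13 (.tw (.s12 (.s13 (.c 0 (.b 136) (.s13 (.tw (.s12 (.s13 (.c 0 (.b 63) (.b 24))))))))))))))) (.tw (.s12 (.s13 (.tw (.c 0 (.s13 (.tw (.c 0 (.b 136) (.b 44)))) (.s13 (.tw (.s12 (.s13 (.c 0 (.b 320) (.s13 (.tw (.c 0 (.b 384) (.b 5)))))))))))))))))),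
  (.tw (.c 0 (.tw (.c 0 (.b 284) (.s13 (.tw (.s12 (.s13 (.c 0 (.b 63) (.b 93)))))))) (.s13 (.c 0 (.tw (.c 0 (.s13 (.tw (.c 0 (.b 14) (.s13 (.tw (.s12 (.s13 (.c 0 (.b 136) (.s13 (.tw (.s12 (.s13 (.c 0 (.b 44) (.b 12)))))))))))))) (.s13 (.tw (.c 0 (.s13 (.tw (.c 0 (.b 63) (.b 44)))) (.s13 (.tw (.s12 (.c 0 (.b 5) (.c 0 (.b 5) (.b 26))))))))))) (.b 1))))),
  (.tw (.c 0 (.tw (.c 0 (.b 348) (.s13 (.tw (.s12 (.s13 (.c 0 (.b 13) (.c 0 (.b 63) (.b 159))))))))) (.tw (.c 0 (.s12 (.s13 (.tw (.c 0 (.b 164) (.s13 (.tw (.s12 (.s13 (.c 0 (.b 63) (.b 44)))))))))) (.s13 (.tw (.c 0 (.s13 (.tw (.c 0 (.b 136) (.b 44)))) (.s13 (.tw (.s13 (.c 0 (.b 5) (.s13 (.tw (.s13 (.c 0 (.b 5) (.b 465)))))))))))))))),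
  (.tw (.c 0 (.tw (.c 0 (.b 348) (.s13 (.tw (.s12 (.s13 (.c 0 (.b 13) (.c 0 (.b 63) (.b 159))))))))) (.tw (.c 0 (.tw (.s13 (.tw (.c 0 (.b 67) (.s13 (.tw (.s13 (.c 0 (.b 24) (.b 44))))))))) (.tw (.s12 (.s13 (.tw (.c 0 (.s13 (.tw (.s12 (.c 0 (.b 24) (.b 598))))) (.s13 (.tw (.c 0 (.b 5) (.c 0 (.b 5) (.b 26)))))))))))))),
  (.tw (.c 0 (.tw (.c 0 (.b 284) (.s13 (.tw (.s12 (.s13 (.c 0 (.b 63) (.b 93)))))))) (.s13 (.tw (.c 0 (.s12 (.s13 (.tw (.c 0 (.b 164) (.s13 (.tw (.s12 (.s13 (.c 0 (.b 14) (.c 0 (.b 136) (.b 136))))))))))) (.s13 (.tw (.c 0 (.s13 (.tw (.c 0 (.b 136) (.b 44)))) (.s13 (.tw (.s13 (.c 0 (.b 5) (.s13 (.tw (.c 0 (.b 5) (.b 63)))))))))))))))),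
  (.tw (.c 0 (.tw (.c 0 (.b 348) (.s13 (.tw (.s12 (.s13 (.c 0 (.b 13) (.c 0 (.b 63) (.b 159))))))))) (.tw (.c 0 (.s12 (.s13 (.tw (.c 0 (.b 14) (.s13 (.tw (.s12 (.s13 (.c 0 (.b 136) (.s13 (.tw (.s12 (.s13 (.c 0 (.b 63) (.b 24))))))))))))))) (.s13 (.tw (.c 0 (.s13 (.tw (.c 0 (.b 136) (.b 44)))) (.s13 (.tw (.s13 (.c 0 (.b 5) (.s13 (.tw (.s13 (.c 0 (.b 5) (.b 465)))))))))))))))),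
  (.tw (.c 0 (.tw (.c 0 (.b 348) (.s13 (.tw (.s12 (.s13 (.c 0 (.b 13) (.c 0 (.b 63) (.b 159))))))))) (.tw (.c 0 (.s13 (.tw (.c 0 (.b 304) (.s13 (.tw (.s12 (.s13 (.c 0 (.b 63) (.b 44))))))))) (.tw (.s12 (.s13 (.tw (.c 0 (.s13 (.tw (.s12 (.c 0 (.b 14) (.c 0 (.b 136) (.b 124)))))) (.s13 (.tw (.c 0 (.b 5) (.c 0 (.b 5) (.b 26)))))))))))))),
  (.tw (.c 0 (.tw (.c 0 (.b 1) (.s13 (.tw (.s13 (.c 0 (.b 1) (.b 21))))))) (.s13 (.c 0 (.tw (.c 0 (.s13 (.tw (.c 0 (.b 12) (.b 137)))) (.tw (.s13 (.tw (.c 0 (.s13 (.tw (.c 0 (.b 12) (.b 172)))) (.s13 (.tw (.s12 (.s13 (.c 0 (.b 136) (.b 44)))))))))))) (.s13 (.tw (.c 0 (.tw (.s12 (.s13 (.tw (.c 0 (.b 136) (.s13 (.tw (.s12 (.s13 (.c 0 (.b 63) (.b 44))))))))))) (.b 273)))))))),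
  (.tw (.c 0 (.tw (.c 0 (.b 13) (.s13 (.tw (.s12 (.s13 (.c 0 (.b 284) (.c 0 (.b 136) (.b 29))))))))) (.c 0 (.tw (.c 0 (.s13 (.tw (.c 0 (.b 304) (.s13 (.tw (.s12 (.s13 (.c 0 (.b 63) (.b 44))))))))) (.tw (.s12 (.s13 (.tw (.c 0 (.s13 (.tw (.c 0 (.b 124) (.s13 (.tw (.s13 (.c 0 (.b 24) (.b 26)))))))) (.s13 (.tw (.c 0 (.b 5) (.c 0 (.b 5) (.b 1)))))))))))) (.b 1)))),
  (.tw (.c 0 (.tw (.c 0 (.b 13) (.s13 (.tw (.s12 (.s13 (.c 0 (.b 284) (.c 0 (.b 136) (.b 29))))))))) (.c 0 (.tw (.c 0 (.s13 (.tw (.c 0 (.b 304) (.s13 (.tw (.s12 (.s13 (.c 0 (.b 63) (.b 44))))))))) (.tw (.s12 (.s13 (.tw (.c 0 (.s13 (.tw (.c 0 (.b 63) (.b 44)))) (.s13 (.tw (.s12 (.s13 (.c 0 (.b 5) (.tw (.s13 (.tw (.c 0 (.s13 (.tw (.c 0 (.b 24) (.b 26)))) (.b 13))))))))))))))))) (.b 1)))),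
  (.tw (.c 0 (.tw (.c 0 (.b 13) (.s13 (.tw (.s12 (.s13 (.c 0 (.b 284) (.c 0 (.b 136) (.b 29))))))))) (.c 0 (.tw (.c 0 (.s12 (.s13 (.tw (.c 0 (.b 13) (.s13 (.tw (.s13 (.c 0 (.b 99) (.b 247))))))))) (.s13 (.tw (.c 0 (.s13 (.tw (.c 0 (.b 24) (.b 44)))) (.s13 (.tw (.s13 (.c 0 (.b 5) (.c 0 (.b 5) (.b 12))))))))))) (.b 1)))),
  (.tw (.c 0 (.tw (.c 0 (.b 13) (.s13 (.tw (.s12 (.s13 (.c 0 (.b 284) (.c 0 (.b 136) (.b 29))))))))) (.c 0 (.tw (.c 0 (.s12 (.s13 (.tw (.c 0 (.b 164) (.s13 (.tw (.s12 (.s13 (.c 0 (.b 63) (.b 44)))))))))) (.s12 (.s13 (.tw (.c 0 (.s13 (.tw (.s12 (.c 0 (.b 381) (.b 44))))) (.s13 (.tw (.s13 (.c 0 (.b 5) (.c 0 (.b 5) (.b 63)))))))))))) (.b 1)))),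
  (.tw (.c 0 (.tw (.c 0 (.b 13) (.s13 (.tw (.s12 (.s13 (.c 0 (.b 57) (.s13 (.tw (.s12 (.s13 (.c 0 (.b 381) (.b 478))))))))))))) (.s13 (.tw (.c 0 (.s13 (.tw (.c 0 (.b 304) (.s13 (.tw (.s12 (.s13 (.c 0 (.b 63) (.b 400))))))))) (.tw (.s13 (.tw (.c 0 (.s13 (.tw (.c 0 (.b 136) (.b 44)))) (.tw (.s12 (.s13 (.tw (.c 0 (.b 5) (.s13 (.tw (.s12 (.s13 (.c 0 (.b 5) (.b 63)))))))))))))))))))),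
  (.tw (.c 0 (.tw (.c 0 (.b 13) (.s13 (.tw (.s12 (.s13 (.c 0 (.b 284) (.c 0 (.b 136) (.b 29))))))))) (.c 0 (.tw (.c 0 (.s12 (.s13 (.tw (.c 0 (.b 58) (.s13 (.tw (.s12 (.s13 (.c 0 (.b 136) (.b 44)))))))))) (.tw (.s13 (.tw (.c 0 (.s13 (.tw (.c 0 (.b 63) (.b 44)))) (.s13 (.tw (.s12 (.s13 (.c 0 (.b 5) (.c 0 (.b 5) (.b 284))))))))))))) (.b 1)))),
  (.tw (.c 0 (.tw (.c 0 (.b 13) (.s13 (.tw (.s12 (.s13 (.c 0 (.b 284) (.c 0 (.b 136) (.b 29))))))))) (.c 0 (.tw (.c 0 (.s12 (.s13 (.tw (.c 0 (.b 14) (.s13 (.tw (.s12 (.s13 (.c 0 (.b 136) (.s13 (.tw (.s12 (.s13 (.c 0 (.b 63) (.b 24))))))))))))))) (.s12 (.s13 (.tw (.c 0 (.s13 (.tw (.s12 (.c 0 (.b 381) (.b 44))))) (.s13 (.tw (.s13 (.c 0 (.b 5) (.c 0 (.b 5) (.b 63)))))))))))) (.b 1)))),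
  (.tw (.c 0 (.tw (.c 0 (.b 13) (.s13 (.tw (.s12 (.s13 (.c 0 (.b 284) (.c 0 (.b 136) (.b 29))))))))) (.s13 (.c 0 (.tw (.c 0 (.s13 (.tw (.c 0 (.b 58) (.s13 (.tw (.s12 (.s13 (.c 0 (.b 14) (.c 0 (.b 136) (.b 136)))))))))) (.tw (.s13 (.tw (.c 0 (.s13 (.tw (.c 0 (.b 24) (.b 44)))) (.tw (.s12 (.s13 (.tw (.c 0 (.b 5) (.s13 (.tw (.s12 (.s13 (.c 0 (.b 5) (.b 63))))))))))))))))) (.b 1))))),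
  (.tw (.c 0 (.tw (.c 0 (.b 13) (.s13 (.tw (.s12 (.s13 (.c 0 (.b 57) (.s13 (.tw (.s12 (.s13 (.c 0 (.b 381) (.b 478))))))))))))) (.s13 (.tw (.c 0 (.s13 (.tw (.c 0 (.b 58) (.s13 (.tw (.s12 (.s13 (.c 0 (.b 14) (.c 0 (.b 136) (.b 136)))))))))) (.tw (.s13 (.tw (.c 0 (.s13 (.tw (.c 0 (.b 136) (.b 44)))) (.tw (.s12 (.s13 (.tw (.c 0 (.b 5) (.s13 (.tw (.s12 (.s13 (.c 0 (.b 5) (.b 63)))))))))))))))))))),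
  (.tw (.c 0 (.tw (.c 0 (.b 13) (.s13 (.tw (.s12 (.s13 (.c 0 (.b 284) (.c 0 (.b 136) (.b 29))))))))) (.s13 (.c 0 (.tw (.c 0 (.s13 (.tw (.c 0 (.b 14) (.s13 (.tw (.s12 (.s13 (.c 0 (.b 136) (.s13 (.tw (.s12 (.s13 (.c 0 (.b 44) (.b 12)))))))))))))) (.s13 (.tw (.c 0 (.s13 (.tw (.c 0 (.b 57) (.b 44)))) (.s13 (.tw (.s12 (.c 0 (.b 5) (.c 0 (.b 5) (.b 26))))))))))) (.b 1))))),
  (.tw (.c 0 (.tw (.c 0 (.b 13) (.s13 (.tw (.s12 (.s13 (.c 0 (.b 284) (.c 0 (.b 136) (.b 29))))))))) (.s13 (.c 0 (.tw (.c 0 (.s13 (.tw (.c 0 (.b 14) (.s13 (.tw (.s12 (.s13 (.c 0 (.b 136) (.s13 (.tw (.s12 (.s13 (.c 0 (.b 44) (.b 12)))))))))))))) (.s13 (.tw (.c 0 (.s13 (.tw (.c 0 (.b 63) (.b 44)))) (.s13 (.tw (.s12 (.c 0 (.b 5) (.c 0 (.b 5) (.b 26))))))))))) (.b 1))))),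
  (.tw (.c 0 (.s12 (.s13 (.tw (.s12 (.c 0 (.b 13) (.s13 (.tw (.s12 (.s13 (.c 0 (.b 136) (.s13 (.tw (.s12 (.s13 (.c 0 (.b 284) (.b 147)))))))))))))))) (.s13 (.tw (.s12 (.c 0 (.s13 (.tw (.c 0 (.b 14) (.s13 (.tw (.s12 (.s13 (.c 0 (.b 14) (.c 0 (.b 136) (.b 247)))))))))) (.s13 (.tw (.c 0 (.s13 (.tw (.c 0 (.b 5) (.s13 (.tw (.c 0 (.b 5) (.b 63))))))) (.s13 (.tw (.c 0 (.b 63) (.b 44))))))))))))),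
  (.tw (.c 0 (.tw (.c 0 (.b 13) (.s13 (.tw (.s12 (.s13 (.c 0 (.b 284) (.c 0 (.b 136) (.b 29))))))))) (.s13 (.tw (.c 0 (.s12 (.s13 (.tw (.c 0 (.b 462) (.s13 (.tw (.s13 (.c 0 (.b 13) (.b 225))))))))) (.s13 (.tw (.c 0 (.s13 (.tw (.c 0 (.b 136) (.b 44)))) (.s13 (.tw (.s12 (.s13 (.c 0 (.b 5) (.s13 (.tw (.s12 (.s13 (.c 0 (.b 5) (.b 63))))))))))))))))))),
  (.tw (.c 0 (.tw (.c 0 (.b 13) (.s13 (.tw (.s12 (.s13 (.c 0 (.b 284) (.c 0 (.b 136) (.b 29))))))))) (.s13 (.tw (.c 0 (.s12 (.s13 (.tw (.c 0 (.b 164) (.s13 (.tw (.s12 (.s13 (.c 0 (.b 14) (.c 0 (.b 136) (.b 136))))))))))) (.s13 (.tw (.c 0 (.s13 (.tw (.c 0 (.b 136) (.b 44)))) (.s13 (.tw (.s13 (.c 0 (.b 5) (.s13 (.tw (.c 0 (.b 5) (.b 63)))))))))))))))),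
  (.tw (.c 0 (.tw (.c 0 (.b 1) (.s13 (.tw (.s13 (.c 0 (.b 1) (.b 21))))))) (.s13 (.c 0 (.tw (.s12 (.c 0 (.s13 (.tw (.c 0 (.b 12) (.b 172)))) (.tw (.s13 (.tw (.c 0 (.s13 (.tw (.c 0 (.b 12) (.b 172)))) (.s13 (.tw (.s12 (.s13 (.c 0 (.b 136) (.b 44))))))))))))) (.s12 (.s13 (.tw (.c 0 (.s13 (.tw (.c 0 (.b 12) (.b 172)))) (.tw (.s12 (.s13 (.tw (.c 0 (.b 136) (.s13 (.tw (.s12 (.s13 (.c 0 (.b 63) (.b 44))))))))))))))))))),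
  (.tw (.c 0 (.tw (.c 0 (.b 13) (.s13 (.tw (.s12 (.s13 (.c 0 (.b 13) (.c 0 (.b 14) (.s13 (.tw (.s12 (.s13 (.c 0 (.b 381) (.b 381)))))))))))))) (.s13 (.tw (.c 0 (.s13 (.tw (.c 0 (.b 136) (.b 462)))) (.tw (.s13 (.tw (.c 0 (.s13 (.tw (.c 0 (.b 5) (.s13 (.tw (.c 0 (.b 384) (.b 5))))))) (.s13 (.tw (.c 0 (.b 272) (.b 44))))))))))))),
  (.tw (.c 0 (.tw (.c 0 (.b 13) (.s13 (.tw (.s12 (.s13 (.c 0 (.b 13) (.c 0 (.b 14) (.s13 (.tw (.s12 (.s13 (.c 0 (.b 381) (.b 381)))))))))))))) (.s13 (.tw (.c 0 (.s13 (.tw (.c 0 (.b 14) (.s13 (.tw (.s12 (.s13 (.c 0 (.b 136) (.b 180))))))))) (.tw (.s13 (.tw (.c 0 (.s13 (.tw (.c 0 (.b 5) (.s13 (.tw (.c 0 (.b 384) (.b 5))))))) (.s13 (.tw (.c 0 (.b 200) (.b 44))))))))))))),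
  (.tw (.c 0 (.tw (.c 0 (.b 13) (.s13 (.tw (.s12 (.s13 (.c 0 (.b 13) (.c 0 (.b 14) (.s13 (.tw (.s12 (.s13 (.c 0 (.b 381) (.b 381)))))))))))))) (.s13 (.tw (.c 0 (.s13 (.tw (.c 0 (.b 57) (.s13 (.tw (.s12 (.s13 (.c 0 (.b 57) (.b 44))))))))) (.tw (.s13 (.tw (.c 0 (.s13 (.tw (.c 0 (.b 5) (.s13 (.tw (.c 0 (.b 384) (.b 5))))))) (.s13 (.tw (.c 0 (.b 24) (.b 44))))))))))))),
  (.tw (.c 0 (.tw (.c 0 (.b 13) (.s13 (.tw (.s12 (.s13 (.c 0 (.b 13) (.c 0 (.b 136) (.s13 (.tw (.s12 (.s13 (.c 0 (.b 13) (.b 138)))))))))))))) (.s13 (.tw (.c 0 (.s13 (.tw (.c 0 (.b 14) (.s13 (.tw (.s12 (.s13 (.c 0 (.b 13) (.s13 (.tw (.s12 (.s13 (.c 0 (.b 44) (.b 12)))))))))))))) (.tw (.s13 (.tw (.c 0 (.s13 (.tw (.c 0 (.b 136) (.b 44)))) (.s13 (.tw (.s12 (.s13 (.c 0 (.b 5) (.s13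 (.tw (.c 0 (.b 5) (.b 26)))))))))))))))))),
  (.tw (.c 0 (.tw (.c 0 (.b 13) (.s13 (.tw (.s12 (.s13 (.c 0 (.b 13) (.c 0 (.b 14) (.s13 (.tw (.s12 (.s13 (.c 0 (.b 381) (.b 381)))))))))))))) (.s13 (.tw (.c 0 (.s13 (.tw (.c 0 (.b 136) (.s13 (.tw (.s12 (.s13 (.c 0 (.b 63) (.b 400))))))))) (.s13 (.tw (.c 0 (.s13 (.tw (.s12 (.c 0 (.b 5) (.s13 (.tw (.c 0 (.b 384) (.b 5)))))))) (.s13 (.tw (.s12 (.c 0 (.b 381) (.b 44))))))))))))),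
  (.tw (.c 0 (.tw (.c 0 (.b 13) (.s13 (.tw (.s12 (.s13 (.c 0 (.b 13) (.c 0 (.b 14) (.s13 (.tw (.s12 (.s13 (.c 0 (.b 381) (.b 381)))))))))))))) (.s13 (.tw (.c 0 (.s13 (.tw (.c 0 (.b 304) (.s13 (.tw (.s12 (.s13 (.c 0 (.b 63) (.b 400))))))))) (.tw (.s13 (.tw (.c 0 (.s13 (.tw (.c 0 (.b 136) (.b 44)))) (.tw (.s12 (.s13 (.tw (.c 0 (.b 5) (.s13 (.tw (.s12 (.s13 (.c 0 (.b 5) (.b 63)))))))))))))))))))),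
  (.tw (.c 0 (.tw (.c 0 (.b 13) (.s13 (.tw (.s12 (.s13 (.c 0 (.b 13) (.c 0 (.b 14) (.s13 (.tw (.s12 (.s13 (.c 0 (.b 381) (.b 381)))))))))))))) (.s13 (.tw (.c 0 (.s13 (.tw (.c 0 (.b 136) (.s13 (.tw (.s12 (.s13 (.c 0 (.b 13) (.b 139))))))))) (.tw (.s13 (.tw (.c 0 (.s13 (.tw (.c 0 (.b 5) (.s13 (.tw (.c 0 (.b 384) (.b 5))))))) (.s13 (.tw (.c 0 (.b 24) (.b 44))))))))))))),
  (.tw (.c 0 (.tw (.c 0 (.b 13) (.s13 (.tw (.s12 (.s13 (.c 0 (.b 13) (.c 0 (.b 136) (.s13 (.tw (.s12 (.s13 (.c 0 (.b 13) (.b 138)))))))))))))) (.s13 (.tw (.c 0 (.s12 (.s13 (.tw (.c 0 (.b 63) (.b 147))))) (.tw (.s12 (.s13 (.tw (.c 0 (.tw (.s12 (.s13 (.tw (.c 0 (.b 67) (.s13 (.tw (.s13 (.c 0 (.b 14) (.b 44)))))))))) (.s13 (.tw (.c 0 (.b 5) (.s13 (.tw (.c 0 (.b 5) (.b 5))))))))))))))))),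
  (.tw (.c 0 (.tw (.c 0 (.b 13) (.s13 (.tw (.s12 (.s13 (.c 0 (.b 13) (.c 0 (.b 14) (.s13 (.tw (.s12 (.s13 (.c 0 (.b 381) (.b 381)))))))))))))) (.s13 (.tw (.c 0 (.s13 (.tw (.c 0 (.b 136) (.s13 (.tw (.s12 (.s13 (.c 0 (.b 14) (.b 239))))))))) (.s13 (.tw (.c 0 (.s13 (.tw (.s12 (.c 0 (.b 5) (.s13 (.tw (.c 0 (.b 384) (.b 5)))))))) (.s13 (.tw (.s12 (.c 0 (.b 381) (.b 44))))))))))))),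
  (.tw (.c 0 (.tw (.c 0 (.b 13) (.s13 (.tw (.s12 (.s13 (.c 0 (.b 13) (.c 0 (.b 136) (.s13 (.tw (.s12 (.s13 (.c 0 (.b 13) (.b 138)))))))))))))) (.s13 (.tw (.c 0 (.s13 (.tw (.c 0 (.b 58) (.s13 (.tw (.s12 (.s13 (.c 0 (.b 14) (.c 0 (.b 136) (.b 136)))))))))) (.tw (.s13 (.tw (.c 0 (.s13 (.tw (.c 0 (.b 5) (.s13 (.tw (.c 0 (.b 384) (.b 5))))))) (.s13 (.tw (.s12 (.c 0 (.b 44) (.b 12)))))))))))))),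
  (.tw (.c 0 (.tw (.c 0 (.b 13) (.s13 (.tw (.s12 (.s13 (.c 0 (.b 13) (.c 0 (.b 14) (.s13 (.tw (.s12 (.s13 (.c 0 (.b 381) (.b 381)))))))))))))) (.s13 (.tw (.c 0 (.s13 (.tw (.c 0 (.b 14) (.s13 (.tw (.s12 (.s13 (.c 0 (.b 136) (.s13 (.tw (.s12 (.s13 (.c 0 (.b 13) (.b 200)))))))))))))) (.tw (.s13 (.tw (.c 0 (.s13 (.tw (.c 0 (.b 136) (.b 44)))) (.s13 (.tw (.s12 (.s13 (.c 0 (.b 5) (.s13 (.tw (.s12 (.s13 (.c 0 (.b 5) (.b 63)))))))))))))))))))),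
  (.tw (.c 0 (.tw (.c 0 (.b 13) (.s13 (.tw (.s12 (.s13 (.c 0 (.b 13) (.c 0 (.b 14) (.s13 (.tw (.s12 (.s13 (.c 0 (.b 381) (.b 381)))))))))))))) (.s13 (.tw (.c 0 (.s13 (.tw (.c 0 (.b 58) (.s13 (.tw (.s12 (.s13 (.c 0 (.b 14) (.c 0 (.b 136) (.b 136)))))))))) (.tw (.s13 (.tw (.c 0 (.s13 (.tw (.c 0 (.b 136) (.b 44)))) (.tw (.s12 (.s13 (.tw (.c 0 (.b 5) (.s13 (.tw (.s12 (.s13 (.c 0 (.b 5) (.b 63)))))))))))))))))))),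
  (.tw (.c 0 (.tw (.c 0 (.b 1) (.s13 (.tw (.s13 (.c 0 (.b 1) (.b 21))))))) (.s13 (.c 0 (.tw (.c 0 (.b 718) (.tw (.s13 (.tw (.c 0 (.s13 (.tw (.c 0 (.b 12) (.b 172)))) (.s13 (.tw (.s12 (.s13 (.c 0 (.b 136) (.b 44)))))))))))) (.s13 (.tw (.c 0 (.s13 (.tw (.c 0 (.b 12) (.b 172)))) (.tw (.s13 (.tw (.c 0 (.b 304) (.s13 (.tw (.s12 (.s13 (.c 0 (.b 63) (.b 44))))))))))))))))),
  (.tw (.c 0 (.tw (.c 0 (.tw (.s12 (.s13 (.tw (.c 0 (.b 63) (.b 159)))))) (.s13 (.tw (.s12 (.s13 (.c 0 (.b 63) (.c 0 (.b 63) (.b 381))))))))) (.tw (.c 0 (.s12 (.s13 (.tw (.c 0 (.b 247) (.s13 (.tw (.s12 (.s13 (.c 0 (.b 63) (.b 44)))))))))) (.s12 (.s13 (.tw (.c 0 (.s13 (.tw (.c 0 (.b 24) (.b 136)))) (.s13 (.tw (.s13 (.c 0 (.b 443) (.b 99))))))))))))),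
  (.tw (.c 0 (.tw (.c 0 (.tw (.s12 (.s13 (.tw (.c 0 (.b 63) (.b 159)))))) (.s13 (.tw (.s12 (.s13 (.c 0 (.b 63) (.b 108)))))))) (.s13 (.tw (.c 0 (.tw (.s12 (.s13 (.tw (.c 0 (.b 67) (.s13 (.tw (.s13 (.c 0 (.b 164) (.b 44)))))))))) (.tw (.s13 (.tw (.c 0 (.s13 (.tw (.c 0 (.b 63) (.b 44)))) (.s13 (.tw (.c 0 (.b 5) (.s13 (.tw (.s13 (.c 0 (.b 82) (.b 12))))))))))))))))),
  (.tw (.c 0 (.tw (.c 0 (.b 13) (.s13 (.tw (.s12 (.s13 (.c 0 (.b 13) (.c 0 (.b 14) (.s13 (.tw (.s12 (.s13 (.c 0 (.b 381) (.b 381)))))))))))))) (.s13 (.tw (.c 0 (.s13 (.tw (.c 0 (.b 14) (.s13 (.tw (.s12 (.s13 (.c 0 (.b 14) (.c 0 (.b 136) (.b 247)))))))))) (.s13 (.tw (.c 0 (.s13 (.tw (.c 0 (.b 136) (.b 44)))) (.s13 (.tw (.s13 (.c 0 (.b 5) (.c 0 (.b 5) (.b 12)))))))))))))),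
  (.tw (.c 0 (.s12 (.s13 (.tw (.s12 (.c 0 (.b 14) (.s13 (.tw (.s12 (.s13 (.c 0 (.b 304) (.s13 (.tw (.s12 (.s13 (.c 0 (.b 13) (.b 546)))))))))))))))) (.tw (.s12 (.c 0 (.s13 (.tw (.c 0 (.b 136) (.s13 (.tw (.s12 (.s13 (.c 0 (.b 13) (.b 363))))))))) (.s13 (.tw (.c 0 (.s13 (.tw (.c 0 (.b 136) (.b 44)))) (.s13 (.tw (.s13 (.c 0 (.b 199) (.s13 (.tw (.c 0 (.b 384) (.b 5)))))))))))))))),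
  (.tw (.c 0 (.tw (.c 0 (.b 1) (.s13 (.tw (.s13 (.c 0 (.b 1) (.b 21))))))) (.s13 (.c 0 (.tw (.c 0 (.s13 (.tw (.c 0 (.b 12) (.b 137)))) (.tw (.s13 (.tw (.c 0 (.s13 (.tw (.c 0 (.b 12) (.b 172)))) (.s13 (.tw (.s12 (.s13 (.c 0 (.b 24) (.b 136)))))))))))) (.s13 (.tw (.c 0 (.s13 (.tw (.c 0 (.b 12) (.b 172)))) (.tw (.s13 (.tw (.c 0 (.b 304) (.s13 (.tw (.s12 (.s13 (.c 0 (.b 63) (.b 44))))))))))))))))),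
  (.tw (.c 0 (.tw (.c 0 (.b 14) (.s13 (.tw (.s12 (.s13 (.c 0 (.b 13) (.s13 (.tw (.s12 (.s13 (.c 0 (.b 136) (.s13 (.tw (.s12 (.s13 (.c 0 (.b 63) (.b 369)))))))))))))))))) (.s13 (.tw (.c 0 (.tw (.s13 (.tw (.c 0 (.b 587) (.b 185))))) (.s13 (.tw (.c 0 (.s13 (.tw (.c 0 (.b 5) (.s13 (.tw (.c 0 (.b 5) (.b 63))))))) (.s13 (.tw (.c 0 (.b 24) (.b 44)))))))))))),
  (.tw (.c 0 (.tw (.c 0 (.b 14) (.s13 (.tw (.s12 (.s13 (.c 0 (.b 14) (.c 0 (.b 304) (.s13 (.tw (.s12 (.s13 (.c 0 (.b 63) (.b 369)))))))))))))) (.s13 (.tw (.c 0 (.s12 (.s13 (.tw (.c 0 (.b 284) (.b 147))))) (.tw (.s12 (.s13 (.tw (.c 0 (.s13 (.tw (.c 0 (.b 136) (.b 713)))) (.s13 (.tw (.c 0 (.b 73) (.s13 (.tw (.c 0 (.b 5) (.b 5))))))))))))))))),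
  (.tw (.c 0 (.tw (.c 0 (.b 14) (.s13 (.tw (.s12 (.s13 (.c 0 (.b 13) (.s13 (.tw (.s12 (.s13 (.c 0 (.b 136) (.s13 (.tw (.s12 (.s13 (.c 0 (.b 63) (.b 369)))))))))))))))))) (.s13 (.tw (.c 0 (.s12 (.s13 (.tw (.c 0 (.b 284) (.b 147))))) (.s12 (.s13 (.tw (.c 0 (.s13 (.tw (.c 0 (.b 136) (.b 536)))) (.s13 (.tw (.s13 (.s12 (.c 0 (.s13 (.tw (.c 0 (.b 63) (.b 124)))) (.s13 (.tw (.c 0 (.b 5) (.b 5)))))))))))))))))),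
  (.tw (.c 0 (.tw (.c 0 (.b 14) (.s13 (.tw (.s12 (.s13 (.c 0 (.b 13) (.s13 (.tw (.s12 (.s13 (.c 0 (.b 136) (.s13 (.tw (.s12 (.s13 (.c 0 (.b 63) (.b 369)))))))))))))))))) (.s13 (.tw (.c 0 (.s13 (.tw (.c 0 (.b 260) (.b 147)))) (.s12 (.s13 (.tw (.c 0 (.s13 (.tw (.c 0 (.b 136) (.b 536)))) (.s13 (.tw (.s12 (.c 0 (.b 73) (.s13 (.tw (.c 0 (.b 5) (.b 5))))))))))))))))),
  (.tw (.c 0 (.tw (.c 0 (.b 478) (.s13 (.tw (.s12 (.s13 (.c 0 (.b 381) (.c 0 (.b 136) (.b 136))))))))) (.s13 (.c 0 (.tw (.c 0 (.s13 (.tw (.c 0 (.b 58) (.s13 (.tw (.s12 (.s13 (.c 0 (.b 124) (.b 44))))))))) (.tw (.s12 (.s13 (.tw (.c 0 (.s13 (.tw (.c 0 (.b 63) (.b 44)))) (.s13 (.tw (.c 0 (.b 5) (.b 272))))))))))) (.b 1))))),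
  (.tw (.c 0 (.tw (.c 0 (.b 14) (.s13 (.tw (.s12 (.s13 (.c 0 (.b 14) (.c 0 (.b 304) (.s13 (.tw (.s12 (.s13 (.c 0 (.b 63) (.b 369)))))))))))))) (.s13 (.tw (.c 0 (.s13 (.tw (.c 0 (.b 164) (.s13 (.tw (.s12 (.s13 (.c 0 (.b 63) (.b 44))))))))) (.tw (.s13 (.tw (.c 0 (.s13 (.tw (.c 0 (.b 136) (.b 44)))) (.tw (.s12 (.s13 (.tw (.c 0 (.s13 (.tw (.c 0 (.b 5) (.b 26)))) (.b 124))))))))))))))),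
  (.tw (.c 0 (.tw (.c 0 (.b 14) (.s13 (.tw (.s12 (.s13 (.c 0 (.b 13) (.s13 (.tw (.s12 (.s13 (.c 0 (.b 136) (.s13 (.tw (.s12 (.s13 (.c 0 (.b 63) (.b 369)))))))))))))))))) (.s13 (.tw (.c 0 (.s12 (.s13 (.tw (.c 0 (.b 284) (.b 147))))) (.tw (.s12 (.s13 (.tw (.c 0 (.s13 (.tw (.c 0 (.tw (.s12 (.s13 (.tw (.c 0 (.b 63) (.b 124)))))) (.b 136)))) (.s13 (.tw (.c 0 (.b 143) (.s13 (.tw (.c 0 (.b 5) (.b 5))))))))))))))))),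
  (.tw (.c 0 (.tw (.c 0 (.b 14) (.s13 (.tw (.s12 (.s13 (.c 0 (.b 13) (.s13 (.tw (.s12 (.s13 (.c 0 (.b 136) (.s13 (.tw (.s12 (.s13 (.c 0 (.b 63) (.b 369)))))))))))))))))) (.s13 (.tw (.c 0 (.s12 (.s13 (.tw (.c 0 (.b 284) (.b 147))))) (.s12 (.s13 (.tw (.c 0 (.s13 (.tw (.c 0 (.b 136) (.b 536)))) (.s13 (.tw (.s12 (.c 0 (.s13 (.tw (.c 0 (.b 44) (.b 1)))) (.s13 (.tw (.c 0 (.b 5) (.b 5))))))))))))))))),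
  (.tw (.c 0 (.tw (.c 0 (.b 1) (.s13 (.tw (.s13 (.c 0 (.b 1) (.b 21))))))) (.s13 (.tw (.c 0 (.s13 (.tw (.c 0 (.tw (.s12 (.s13 (.tw (.c 0 (.b 63) (.b 159)))))) (.tw (.s12 (.s13 (.tw (.c 0 (.b 381) (.b 381))))))))) (.s13 (.tw (.c 0 (.s13 (.tw (.c 0 (.b 136) (.b 536)))) (.s13 (.tw (.c 0 (.s12 (.s13 (.tw (.c 0 (.b 57) (.b 136))))) (.s13 (.tw (.c 0 (.b 5) (.b 5))))))))))))))),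
  (.tw (.c 0 (.tw (.c 0 (.b 14) (.s13 (.tw (.s12 (.s13 (.c 0 (.b 14) (.c 0 (.b 304) (.s13 (.tw (.s12 (.s13 (.c 0 (.b 63) (.b 369)))))))))))))) (.s13 (.tw (.c 0 (.tw (.s12 (.s13 (.tw (.c 0 (.b 67) (.s13 (.tw (.s13 (.c 0 (.b 164) (.b 44)))))))))) (.tw (.s13 (.tw (.c 0 (.s13 (.tw (.c 0 (.b 5) (.tw (.s12 (.s13 (.tw (.c 0 (.b 13) (.b 200))))))))) (.s13 (.tw (.c 0 (.b 63) (.b 44))))))))))))),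
  (.tw (.c 0 (.tw (.c 0 (.b 14) (.s13 (.tw (.s12 (.s13 (.c 0 (.b 13) (.s13 (.tw (.s12 (.s13 (.c 0 (.b 136) (.s13 (.tw (.s12 (.s13 (.c 0 (.b 63) (.b 369)))))))))))))))))) (.s13 (.tw (.c 0 (.tw (.s13 (.tw (.c 0 (.b 67) (.s13 (.tw (.s13 (.c 0 (.b 164) (.b 44))))))))) (.s12 (.s13 (.tw (.c 0 (.s13 (.tw (.c 0 (.b 5) (.s13 (.tw (.s12 (.s13 (.c 0 (.b 63) (.b 24))))))))) (.s13 (.tw (.s12 (.c 0 (.b 124) (.b 44)))))))))))))),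
  (.tw (.c 0 (.tw (.c 0 (.b 1) (.s13 (.tw (.s13 (.c 0 (.b 1) (.b 21))))))) (.s13 (.tw (.c 0 (.s13 (.tw (.c 0 (.b 652) (.tw (.s12 (.s13 (.tw (.c 0 (.b 381) (.b 381))))))))) (.s12 (.s13 (.tw (.c 0 (.s13 (.tw (.c 0 (.b 136) (.b 536)))) (.s13 (.tw (.c 0 (.tw (.c 0 (.b 136) (.b 136))) (.s13 (.tw (.c 0 (.b 5) (.b 5)))))))))))))))),
  (.tw (.c 0 (.tw (.c 0 (.b 14) (.s13 (.tw (.s12 (.s13 (.c 0 (.b 14) (.c 0 (.b 304) (.tw (.s12 (.s13 (.tw (.c 0 (.b 63) (.b 381)))))))))))))) (.s13 (.tw (.c 0 (.tw (.s12 (.s13 (.tw (.c 0 (.b 67) (.s13 (.tw (.s13 (.c 0 (.b 164) (.b 44)))))))))) (.tw (.s13 (.tw (.c 0 (.s13 (.tw (.c 0 (.b 5) (.tw (.s12 (.s13 (.tw (.c 0 (.b 13) (.b 200))))))))) (.s13 (.tw (.c 0 (.b 63) (.b 44))))))))))))),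
  (.tw (.c 0 (.tw (.c 0 (.b 14) (.s13 (.tw (.s12 (.s13 (.c 0 (.b 13) (.s13 (.tw (.s12 (.s13 (.c 0 (.b 136) (.tw (.s12 (.s13 (.tw (.c 0 (.b 63) (.b 381)))))))))))))))))) (.s13 (.tw (.c 0 (.tw (.s13 (.tw (.c 0 (.b 67) (.s13 (.tw (.s13 (.c 0 (.b 164) (.b 44))))))))) (.s12 (.s13 (.tw (.c 0 (.s13 (.tw (.c 0 (.b 5) (.s13 (.tw (.s12 (.s13 (.c 0 (.b 63) (.b 24))))))))) (.s13 (.tw (.s12 (.c 0 (.b 124) (.b 44)))))))))))))),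
  (.tw (.c 0 (.tw (.c 0 (.b 348) (.s13 (.tw (.s12 (.s13 (.c 0 (.b 23) (.b 21)))))))) (.tw (.c 0 (.s13 (.tw (.c 0 (.b 136) (.s13 (.tw (.s12 (.s13 (.c 0 (.b 136) (.b 180))))))))) (.tw (.s12 (.s13 (.tw (.c 0 (.s13 (.tw (.c 0 (.b 272) (.b 247)))) (.s13 (.tw (.s13 (.c 0 (.b 5) (.c 0 (.b 5) (.b 12))))))))))))))),
  (.tw (.c 0 (.tw (.c 0 (.b 13) (.s13 (.tw (.s12 (.s13 (.c 0 (.b 284) (.c 0 (.b 136) (.b 29))))))))) (.s13 (.tw (.c 0 (.s12 (.s13 (.tw (.c 0 (.tw (.s12 (.s13 (.tw (.c 0 (.b 13) (.s13 (.tw (.s12 (.s13 (.c 0 (.b 24) (.b 136))))))))))) (.b 29))))) (.tw (.s12 (.s13 (.tw (.c 0 (.s13 (.tw (.c 0 (.b 63) (.b 44)))) (.s13 (.tw (.s12 (.s13 (.c 0 (.b 5) (.tw (.s12 (.s13 (.tw (.c 0 (.b 345) (.b 5))))))))))))))))))))),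
  (.tw (.c 0 (.tw (.c 0 (.b 348) (.s13 (.tw (.s12 (.s13 (.c 0 (.b 23) (.b 21)))))))) (.tw (.c 0 (.s12 (.s13 (.tw (.c 0 (.b 164) (.s13 (.tw (.s12 (.s13 (.c 0 (.b 63) (.b 44)))))))))) (.tw (.s12 (.s13 (.tw (.c 0 (.s13 (.tw (.c 0 (.b 136) (.b 44)))) (.s13 (.tw (.s12 (.s13 (.c 0 (.b 320) (.s13 (.tw (.c 0 (.b 5) (.b 124)))))))))))))))))),
  (.tw (.c 0 (.tw (.c 0 (.b 348) (.s13 (.tw (.s12 (.s13 (.c 0 (.b 23) (.b 21)))))))) (.tw (.c 0 (.s12 (.s13 (.tw (.c 0 (.b 164) (.s13 (.tw (.s12 (.s13 (.c 0 (.b 63) (.b 44)))))))))) (.tw (.s12 (.s13 (.tw (.c 0 (.s13 (.tw (.c 0 (.b 136) (.b 44)))) (.s13 (.tw (.s12 (.s13 (.c 0 (.b 320) (.s13 (.tw (.c 0 (.b 384) (.b 5)))))))))))))))))),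
  (.tw (.c 0 (.tw (.c 0 (.b 348) (.s13 (.tw (.s12 (.s13 (.c 0 (.b 23) (.b 21)))))))) (.tw (.c 0 (.s12 (.s13 (.tw (.c 0 (.b 14) (.s13 (.tw (.s12 (.s13 (.c 0 (.b 136) (.s13 (.tw (.s12 (.s13 (.c 0 (.b 63) (.b 24))))))))))))))) (.tw (.s12 (.s13 (.tw (.c 0 (.s13 (.tw (.c 0 (.b 136) (.b 44)))) (.s13 (.tw (.s12 (.s13 (.c 0 (.b 320) (.s13 (.tw (.c 0 (.b 5) (.b 124)))))))))))))))))),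
  (.tw (.c 0 (.tw (.c 0 (.b 348) (.s13 (.tw (.s12 (.s13 (.c 0 (.b 23) (.b 21)))))))) (.tw (.c 0 (.s12 (.s13 (.tw (.c 0 (.b 14) (.s13 (.tw (.s12 (.s13 (.c 0 (.b 136) (.s13 (.tw (.s12 (.s13 (.c 0 (.b 63) (.b 24))))))))))))))) (.tw (.s12 (.s13 (.tw (.c 0 (.s13 (.tw (.c 0 (.b 136) (.b 44)))) (.s13 (.tw (.s12 (.s13 (.c 0 (.b 320) (.s13 (.tw (.c 0 (.b 384) (.b 5)))))))))))))))))),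
  (.tw (.c 0 (.tw (.c 0 (.b 19) (.s13 (.tw (.s12 (.s13 (.c 0 (.b 567) (.b 21)))))))) (.s13 (.tw (.c 0 (.s13 (.tw (.c 0 (.b 14) (.s13 (.tw (.s12 (.s13 (.c 0 (.b 136) (.s13 (.tw (.s12 (.s13 (.c 0 (.b 44) (.b 12)))))))))))))) (.s13 (.tw (.c 0 (.s13 (.tw (.c 0 (.b 63) (.b 44)))) (.s13 (.tw (.s12 (.c 0 (.b 5) (.c 0 (.b 5) (.b 26)))))))))))))),
  (.tw (.c 0 (.tw (.c 0 (.b 348) (.s13 (.tw (.s12 (.s13 (.c 0 (.b 23) (.b 21)))))))) (.tw (.c 0 (.s12 (.s13 (.tw (.c 0 (.b 164) (.s13 (.tw (.s12 (.s13 (.c 0 (.b 63) (.b 44)))))))))) (.s13 (.tw (.c 0 (.s13 (.tw (.c 0 (.b 136) (.b 44)))) (.s13 (.tw (.s13 (.c 0 (.b 5) (.s13 (.tw (.s13 (.c 0 (.b 5) (.b 465)))))))))))))))),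
  (.tw (.c 0 (.tw (.c 0 (.b 348) (.s13 (.tw (.s12 (.s13 (.c 0 (.b 23) (.b 21)))))))) (.tw (.c 0 (.tw (.s13 (.tw (.c 0 (.b 67) (.s13 (.tw (.s13 (.c 0 (.b 24) (.b 44))))))))) (.tw (.s12 (.s13 (.tw (.c 0 (.s13 (.tw (.s12 (.c 0 (.b 24) (.b 598))))) (.s13 (.tw (.c 0 (.b 5) (.c 0 (.b 5) (.b 26)))))))))))))),
  (.tw (.c 0 (.s12 (.s13 (.tw (.s12 (.c 0 (.s13 (.tw (.s13 (.c 0 (.tw (.s12 (.c 0 (.b 14) (.s13 (.tw (.s13 (.s12 (.c 0 (.b 381) (.b 381))))))))) (.b 12))))) (.b 12)))))) (.tw (.s12 (.c 0 (.s13 (.tw (.c 0 (.b 345) (.s13 (.tw (.s12 (.s13 (.c 0 (.b 13) (.b 603))))))))) (.s13 (.tw (.c 0 (.s13 (.tw (.c 0 (.b 136) (.b 44)))) (.s13 (.tw (.s13 (.c 0 (.b 5) (.c 0 (.b 5) (.b 26)))))))))))))),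
  (.tw (.c 0 (.tw (.c 0 (.b 348) (.s13 (.tw (.s12 (.s13 (.c 0 (.b 23) (.b 21)))))))) (.tw (.c 0 (.s12 (.s13 (.tw (.c 0 (.b 14) (.s13 (.tw (.s12 (.s13 (.c 0 (.b 136) (.s13 (.tw (.s12 (.s13 (.c 0 (.b 63) (.b 24))))))))))))))) (.s13 (.tw (.c 0 (.s13 (.tw (.c 0 (.b 136) (.b 44)))) (.s13 (.tw (.s13 (.c 0 (.b 5) (.s13 (.tw (.s13 (.c 0 (.b 5) (.b 465)))))))))))))))),
  (.tw (.c 0 (.tw (.c 0 (.b 348) (.s13 (.tw (.s12 (.s13 (.c 0 (.b 23) (.b 21)))))))) (.tw (.c 0 (.s13 (.tw (.c 0 (.b 304) (.s13 (.tw (.s12 (.s13 (.c 0 (.b 63) (.b 44))))))))) (.tw (.s12 (.s13 (.tw (.c 0 (.s13 (.tw (.s12 (.c 0 (.b 14) (.c 0 (.b 136) (.b 124)))))) (.s13 (.tw (.c 0 (.b 5) (.c 0 (.b 5) (.b 26)))))))))))))),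
  (.tw (.c 0 (.tw (.c 0 (.b 1) (.s13 (.tw (.s13 (.c 0 (.b 1) (.b 21))))))) (.s13 (.tw (.c 0 (.s13 (.tw (.c 0 (.b 348) (.s13 (.tw (.s12 (.s13 (.c 0 (.b 23) (.b 138))))))))) (.s13 (.tw (.c 0 (.s13 (.tw (.c 0 (.b 136) (.c 0 (.b 136) (.b 136))))) (.s13 (.tw (.c 0 (.tw (.c 0 (.b 136) (.b 136))) (.s13 (.tw (.c 0 (.b 5) (.b 5))))))))))))))),
  (.tw (.c 0 (.tw (.c 0 (.b 19) (.s13 (.tw (.s12 (.s13 (.c 0 (.b 538) (.s13 (.tw (.s12 (.s13 (.c 0 (.b 63) (.b 159))))))))))))) (.tw (.c 0 (.s13 (.tw (.c 0 (.b 304) (.s13 (.tw (.s12 (.s13 (.c 0 (.b 63) (.b 44))))))))) (.tw (.s12 (.s13 (.tw (.c 0 (.tw (.s12 (.s13 (.tw (.c 0 (.b 266) (.b 272)))))) (.s13 (.tw (.c 0 (.b 5) (.c 0 (.b 5) (.b 1)))))))))))))),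
  (.tw (.c 0 (.tw (.c 0 (.b 13) (.s13 (.tw (.s12 (.s13 (.c 0 (.b 284) (.c 0 (.b 136) (.b 29))))))))) (.s13 (.tw (.c 0 (.s12 (.s13 (.tw (.c 0 (.b 136) (.s13 (.tw (.s12 (.s13 (.c 0 (.b 284) (.b 147)))))))))) (.tw (.s12 (.s13 (.tw (.c 0 (.s13 (.tw (.c 0 (.b 136) (.b 44)))) (.s13 (.tw (.s12 (.s13 (.c 0 (.s12 (.s13 (.tw (.c 0 (.b 44) (.b 1))))) (.s13 (.tw (.s13 (.c 0 (.b 5) (.b 124)))))))))))))))))))),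
  (.tw (.c 0 (.tw (.c 0 (.b 13) (.s13 (.tw (.s12 (.s13 (.c 0 (.b 284) (.c 0 (.b 136) (.b 29))))))))) (.s13 (.tw (.c 0 (.s12 (.s13 (.tw (.c 0 (.b 136) (.s13 (.tw (.s12 (.s13 (.c 0 (.b 284) (.b 147)))))))))) (.tw (.s12 (.s13 (.tw (.c 0 (.s13 (.tw (.c 0 (.b 136) (.b 44)))) (.s13 (.tw (.s12 (.s13 (.c 0 (.s12 (.s13 (.tw (.c 0 (.b 44) (.b 1))))) (.s13 (.tw (.c 0 (.b 384) (.b 5))))))))))))))))))),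
  (.tw (.c 0 (.tw (.c 0 (.b 19) (.s13 (.tw (.s12 (.s13 (.c 0 (.b 538) (.s13 (.tw (.s12 (.s13 (.c 0 (.b 63) (.b 159))))))))))))) (.tw (.c 0 (.s12 (.s13 (.tw (.c 0 (.b 13) (.s13 (.tw (.s13 (.c 0 (.b 99) (.b 247))))))))) (.s13 (.tw (.c 0 (.s13 (.tw (.c 0 (.b 24) (.b 44)))) (.s13 (.tw (.s13 (.c 0 (.b 5) (.c 0 (.b 5) (.b 12))))))))))))),
  (.tw (.c 0 (.tw (.c 0 (.b 19) (.s13 (.tw (.s12 (.s13 (.c 0 (.b 538) (.s13 (.tw (.s12 (.s13 (.c 0 (.b 63) (.b 159))))))))))))) (.tw (.c 0 (.s12 (.s13 (.tw (.c 0 (.b 164) (.s13 (.tw (.s12 (.s13 (.c 0 (.b 63) (.b 44)))))))))) (.s12 (.s13 (.tw (.c 0 (.s13 (.tw (.s12 (.c 0 (.b 381) (.b 44))))) (.s13 (.tw (.s13 (.c 0 (.b 5) (.c 0 (.b 5) (.b 63)))))))))))))),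
  (.tw (.c 0 (.tw (.c 0 (.b 284) (.s13 (.tw (.s12 (.s13 (.c 0 (.b 63) (.b 93)))))))) (.s13 (.tw (.c 0 (.s13 (.tw (.c 0 (.b 13) (.s13 (.tw (.s12 (.s13 (.c 0 (.b 13) (.c 0 (.b 136) (.b 478)))))))))) (.tw (.s13 (.tw (.c 0 (.s13 (.tw (.c 0 (.b 136) (.b 44)))) (.s13 (.tw (.c 0 (.b 5) (.s13 (.tw (.c 0 (.b 384) (.b 5)))))))))))))))),
  (.tw (.c 0 (.tw (.c 0 (.b 19) (.s13 (.tw (.s12 (.s13 (.c 0 (.b 538) (.s13 (.tw (.s12 (.s13 (.c 0 (.b 63) (.b 159))))))))))))) (.tw (.c 0 (.s12 (.s13 (.tw (.c 0 (.b 58) (.s13 (.tw (.s12 (.s13 (.c 0 (.b 136) (.b 44)))))))))) (.tw (.s13 (.tw (.c 0 (.s13 (.tw (.c 0 (.b 63) (.b 44)))) (.s13 (.tw (.s12 (.s13 (.c 0 (.b 5) (.c 0 (.b 5) (.b 284))))))))))))))),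
  (.tw (.c 0 (.tw (.c 0 (.b 19) (.s13 (.tw (.s12 (.s13 (.c 0 (.b 538) (.s13 (.tw (.s12 (.s13 (.c 0 (.b 63) (.b 159))))))))))))) (.tw (.c 0 (.s12 (.s13 (.tw (.c 0 (.b 14) (.s13 (.tw (.s12 (.s13 (.c 0 (.b 136) (.s13 (.tw (.s12 (.s13 (.c 0 (.b 63) (.b 24))))))))))))))) (.s12 (.s13 (.tw (.c 0 (.s13 (.tw (.s12 (.c 0 (.b 381) (.b 44))))) (.s13 (.tw (.s13 (.c 0 (.b 5) (.c 0 (.b 5) (.b 63)))))))))))))),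
  (.tw (.c 0 (.tw (.c 0 (.b 19) (.s13 (.tw (.s12 (.s13 (.c 0 (.b 538) (.s13 (.tw (.s12 (.s13 (.c 0 (.b 63) (.b 159))))))))))))) (.s13 (.tw (.c 0 (.s13 (.tw (.c 0 (.b 58) (.s13 (.tw (.s12 (.s13 (.c 0 (.b 14) (.c 0 (.b 136) (.b 136)))))))))) (.tw (.s13 (.tw (.c 0 (.s13 (.tw (.c 0 (.b 24) (.b 44)))) (.tw (.s12 (.s13 (.tw (.c 0 (.b 5) (.s13 (.tw (.s12 (.s13 (.c 0 (.b 5) (.b 63)))))))))))))))))))),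
  (.tw (.c 0 (.tw (.c 0 (.b 284) (.s13 (.tw (.s12 (.s13 (.c 0 (.b 63) (.b 93)))))))) (.s13 (.tw (.c 0 (.s13 (.tw (.c 0 (.b 13) (.s13 (.tw (.s12 (.s13 (.c 0 (.b 13) (.c 0 (.b 136) (.b 249)))))))))) (.tw (.s13 (.tw (.c 0 (.s13 (.tw (.c 0 (.b 136) (.b 44)))) (.s13 (.tw (.c 0 (.b 5) (.s13 (.tw (.c 0 (.b 384) (.b 5)))))))))))))))),
  (.tw (.c 0 (.tw (.c 0 (.b 19) (.s13 (.tw (.s12 (.s13 (.c 0 (.b 538) (.s13 (.tw (.s12 (.s13 (.c 0 (.b 63) (.b 159))))))))))))) (.s13 (.tw (.c 0 (.s13 (.tw (.c 0 (.b 14) (.s13 (.tw (.s12 (.s13 (.c 0 (.b 136) (.s13 (.tw (.s12 (.s13 (.c 0 (.b 44) (.b 12)))))))))))))) (.s13 (.tw (.c 0 (.s13 (.tw (.c 0 (.b 57) (.b 44)))) (.s13 (.tw (.s12 (.c 0 (.b 5) (.c 0 (.b 5) (.b 26)))))))))))))),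
  (.tw (.c 0 (.tw (.c 0 (.b 19) (.s13 (.tw (.s12 (.s13 (.c 0 (.b 538) (.s13 (.tw (.s12 (.s13 (.c 0 (.b 63) (.b 159))))))))))))) (.s13 (.tw (.c 0 (.s13 (.tw (.c 0 (.b 14) (.s13 (.tw (.s12 (.s13 (.c 0 (.b 136) (.s13 (.tw (.s12 (.s13 (.c 0 (.b 44) (.b 12)))))))))))))) (.s13 (.tw (.c 0 (.s13 (.tw (.c 0 (.b 63) (.b 44)))) (.s13 (.tw (.s12 (.c 0 (.b 5) (.c 0 (.b 5) (.b 26)))))))))))))),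
  (.tw (.c 0 (.tw (.c 0 (.b 284) (.s13 (.tw (.s12 (.s13 (.c 0 (.b 63) (.b 93)))))))) (.s13 (.tw (.c 0 (.s12 (.s13 (.tw (.c 0 (.b 462) (.s13 (.tw (.s13 (.c 0 (.b 13) (.b 225))))))))) (.s13 (.tw (.c 0 (.s13 (.tw (.c 0 (.b 136) (.b 44)))) (.s13 (.tw (.c 0 (.b 5) (.s13 (.tw (.c 0 (.b 5) (.b 63))))))))))))))),
  (.tw (.c 0 (.s12 (.s13 (.tw (.s12 (.c 0 (.b 311) (.s13 (.tw (.s13 (.c 0 (.b 526) (.b 16)))))))))) (.tw (.s12 (.c 0 (.s13 (.tw (.c 0 (.b 136) (.s13 (.tw (.s12 (.s13 (.c 0 (.b 63) (.b 369))))))))) (.tw (.s12 (.s13 (.tw (.c 0 (.s13 (.tw (.c 0 (.b 136) (.b 44)))) (.tw (.s12 (.s13 (.tw (.c 0 (.b 5) (.s12 (.s13 (.tw (.c 0 (.b 382) (.s13 (.tw (.c 0 (.b 44) (.b 1))))))))))))))))))))))),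
  (.tw (.c 0 (.s12 (.s13 (.tw (.s12 (.c 0 (.b 311) (.s13 (.tw (.s13 (.c 0 (.b 526) (.b 16)))))))))) (.s13 (.tw (.s13 (.s12 (.c 0 (.tw (.s12 (.c 0 (.b 14) (.s13 (.tw (.s12 (.s13 (.c 0 (.b 136) (.c 0 (.b 136) (.b 136)))))))))) (.tw (.s13 (.s12 (.c 0 (.s13 (.tw (.c 0 (.b 5) (.b 5)))) (.s13 (.tw (.c 0 (.b 272) (.b 44))))))))))))))),
  (.tw (.c 0 (.tw (.c 0 (.b 1) (.s13 (.tw (.s13 (.c 0 (.b 1) (.b 21))))))) (.s13 (.c 0 (.tw (.c 0 (.tw (.s13 (.tw (.c 0 (.b 63) (.b 526))))) (.tw (.s13 (.tw (.c 0 (.b 273) (.s13 (.tw (.s12 (.s13 (.c 0 (.b 136) (.b 44)))))))))))) (.s13 (.tw (.c 0 (.tw (.s12 (.s13 (.tw (.c 0 (.b 136) (.s13 (.tw (.s12 (.s13 (.c 0 (.b 63) (.b 44))))))))))) (.b 273)))))))),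
  (.tw (.c 0 (.tw (.c 0 (.b 13) (.s13 (.tw (.s12 (.s13 (.c 0 (.b 284) (.c 0 (.b 136) (.b 29))))))))) (.s13 (.tw (.c 0 (.s12 (.s13 (.tw (.s12 (.c 0 (.b 460) (.s13 (.tw (.s12 (.s13 (.c 0 (.b 13) (.b 266))))))))))) (.s12 (.s13 (.tw (.c 0 (.s13 (.tw (.s12 (.c 0 (.b 272) (.b 44))))) (.s13 (.tw (.c 0 (.b 5) (.c 0 (.b 5) (.b 63)))))))))))))),
  (.tw (.c 0 (.tw (.c 0 (.b 13) (.s13 (.tw (.s12 (.s13 (.c 0 (.b 284) (.c 0 (.b 136) (.b 29))))))))) (.s13 (.tw (.c 0 (.s12 (.s13 (.tw (.c 0 (.b 136) (.s13 (.tw (.s12 (.s13 (.c 0 (.b 13) (.b 546)))))))))) (.tw (.s12 (.s13 (.tw (.c 0 (.s13 (.tw (.c 0 (.b 136) (.b 44)))) (.s13 (.tw (.s12 (.s13 (.c 0 (.tw (.s13 (.tw (.c 0 (.b 202) (.s13 (.tw (.c 0 (.b 44) (.b 1)))))))) (.b 5)))))))))))))))),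
  (.tw (.c 0 (.tw (.c 0 (.b 13) (.s13 (.tw (.s12 (.s13 (.c 0 (.b 57) (.s13 (.tw (.s12 (.s13 (.c 0 (.b 381) (.b 478))))))))))))) (.s13 (.tw (.c 0 (.s13 (.tw (.c 0 (.b 57) (.s13 (.tw (.s12 (.s13 (.c 0 (.b 63) (.b 663))))))))) (.tw (.s13 (.tw (.c 0 (.s13 (.tw (.c 0 (.b 136) (.b 44)))) (.s13 (.tw (.c 0 (.b 5) (.s13 (.tw (.c 0 (.b 384) (.b 5)))))))))))))))),
  (.tw (.c 0 (.tw (.c 0 (.b 13) (.s13 (.tw (.s12 (.s13 (.c 0 (.b 284) (.c 0 (.b 136) (.b 29))))))))) (.s13 (.tw (.c 0 (.s12 (.s13 (.tw (.c 0 (.b 13) (.s13 (.tw (.s12 (.s13 (.c 0 (.b 136) (.b 581)))))))))) (.tw (.s12 (.s13 (.tw (.c 0 (.s13 (.tw (.c 0 (.b 136) (.b 44)))) (.s13 (.tw (.s12 (.s13 (.c 0 (.s12 (.s13 (.tw (.c 0 (.b 44) (.b 1))))) (.s13 (.tw (.c 0 (.b 384) (.b 5))))))))))))))))))),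
  (.tw (.c 0 (.tw (.c 0 (.b 13) (.s13 (.tw (.s12 (.s13 (.c 0 (.b 284) (.c 0 (.b 136) (.b 29))))))))) (.s13 (.tw (.c 0 (.s12 (.s13 (.tw (.s12 (.c 0 (.tw (.s13 (.tw (.c 0 (.b 334) (.b 26))))) (.b 304)))))) (.s12 (.s13 (.tw (.c 0 (.s13 (.tw (.s12 (.c 0 (.b 272) (.b 44))))) (.s13 (.tw (.c 0 (.b 5) (.c 0 (.b 5) (.b 63)))))))))))))),
  (.tw (.c 0 (.tw (.c 0 (.b 13) (.s13 (.tw (.s12 (.s13 (.c 0 (.b 284) (.c 0 (.b 136) (.b 29))))))))) (.s13 (.tw (.c 0 (.s12 (.s13 (.tw (.c 0 (.b 13) (.b 93))))) (.tw (.s12 (.s13 (.tw (.c 0 (.s13 (.tw (.c 0 (.b 44) (.b 247)))) (.s13 (.tw (.c 0 (.tw (.c 0 (.b 63) (.b 136))) (.s13 (.tw (.c 0 (.b 5) (.b 5))))))))))))))))),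
  (.tw (.c 0 (.tw (.c 0 (.b 13) (.s13 (.tw (.s12 (.s13 (.c 0 (.b 284) (.c 0 (.b 136) (.b 29))))))))) (.s13 (.tw (.c 0 (.s12 (.s13 (.tw (.c 0 (.b 13) (.s13 (.tw (.s12 (.s13 (.c 0 (.b 14) (.s13 (.tw (.s12 (.s13 (.c 0 (.b 381) (.b 136))))))))))))))) (.tw (.s12 (.s13 (.tw (.c 0 (.s13 (.tw (.c 0 (.b 136) (.b 44)))) (.s13 (.tw (.s12 (.s13 (.c 0 (.s12 (.s13 (.tw (.c 0 (.b 44) (.b 1))))) (.s13 (.tw (.s13 (.c 0 (.b 5) (.b 124)))))))))))))))))))),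
  (.tw (.c 0 (.tw (.c 0 (.b 13) (.s13 (.tw (.s12 (.s13 (.c 0 (.b 57) (.s13 (.tw (.s12 (.s13 (.c 0 (.b 381) (.b 478))))))))))))) (.s13 (.tw (.c 0 (.s13 (.tw (.c 0 (.b 57) (.s13 (.tw (.s12 (.s13 (.c 0 (.b 57) (.b 44))))))))) (.tw (.s13 (.tw (.c 0 (.s13 (.tw (.c 0 (.b 136) (.b 44)))) (.s13 (.tw (.c 0 (.b 5) (.s13 (.tw (.c 0 (.b 384) (.b 5)))))))))))))))),
  (.tw (.c 0 (.tw (.c 0 (.b 13) (.s13 (.tw (.s12 (.s13 (.c 0 (.b 284) (.c 0 (.b 136) (.b 29))))))))) (.s13 (.tw (.c 0 (.s12 (.s13 (.tw (.c 0 (.b 13) (.s13 (.tw (.s12 (.s13 (.c 0 (.b 14) (.s13 (.tw (.s12 (.s13 (.c 0 (.b 381) (.b 136))))))))))))))) (.tw (.s12 (.s13 (.tw (.c 0 (.s13 (.tw (.c 0 (.b 136) (.b 44)))) (.s13 (.tw (.s12 (.s13 (.c 0 (.s12 (.s13 (.tw (.c 0 (.b 44) (.b 1))))) (.s13 (.tw (.c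 0 (.b 384) (.b 5))))))))))))))))))),
  (.tw (.c 0 (.tw (.c 0 (.b 13) (.s13 (.tw (.s12 (.s13 (.c 0 (.b 284) (.c 0 (.b 136) (.b 29))))))))) (.s13 (.tw (.c 0 (.s13 (.tw (.c 0 (.b 13) (.s13 (.tw (.s12 (.s13 (.c 0 (.b 13) (.c 0 (.b 136) (.b 478)))))))))) (.tw (.s13 (.tw (.c 0 (.s13 (.tw (.c 0 (.b 136) (.b 44)))) (.s13 (.tw (.c 0 (.b 5) (.s13 (.tw (.c 0 (.b 384) (.b 5)))))))))))))))),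
  (.tw (.c 0 (.tw (.c 0 (.b 13) (.s13 (.tw (.s12 (.s13 (.c 0 (.b 284) (.c 0 (.b 136) (.b 29))))))))) (.s13 (.tw (.c 0 (.s12 (.s13 (.tw (.c 0 (.b 13) (.s13 (.tw (.s12 (.s13 (.c 0 (.b 136) (.b 598)))))))))) (.tw (.s12 (.s13 (.tw (.c 0 (.s13 (.tw (.c 0 (.b 136) (.b 44)))) (.s13 (.tw (.s12 (.s13 (.c 0 (.s12 (.s13 (.tw (.c 0 (.b 44) (.b 1))))) (.s13 (.tw (.s13 (.c 0 (.b 5) (.b 124)))))))))))))))))))),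
  (.tw (.c 0 (.tw (.c 0 (.b 13) (.s13 (.tw (.s12 (.s13 (.c 0 (.b 57) (.s13 (.tw (.s12 (.s13 (.c 0 (.b 381) (.b 478))))))))))))) (.s13 (.tw (.c 0 (.s13 (.tw (.c 0 (.b 136) (.s13 (.tw (.s12 (.s13 (.c 0 (.b 13) (.b 139))))))))) (.tw (.s13 (.tw (.c 0 (.s13 (.tw (.c 0 (.b 136) (.b 44)))) (.s13 (.tw (.c 0 (.b 5) (.s13 (.tw (.c 0 (.b 384) (.b 5)))))))))))))))),
  (.tw (.c 0 (.tw (.c 0 (.b 13) (.s13 (.tw (.s12 (.s13 (.c 0 (.b 284) (.c 0 (.b 136) (.b 29))))))))) (.s13 (.tw (.c 0 (.s12 (.s13 (.tw (.c 0 (.b 13) (.s13 (.tw (.s12 (.s13 (.c 0 (.b 136) (.b 598)))))))))) (.tw (.s12 (.s13 (.tw (.c 0 (.s13 (.tw (.c 0 (.b 136) (.b 44)))) (.s13 (.tw (.s12 (.s13 (.c 0 (.s12 (.s13 (.tw (.c 0 (.b 44) (.b 1))))) (.s13 (.tw (.c 0 (.b 384) (.b 5))))))))))))))))))),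
  (.tw (.c 0 (.tw (.c 0 (.b 13) (.s13 (.tw (.s12 (.s13 (.c 0 (.b 57) (.s13 (.tw (.s12 (.s13 (.c 0 (.b 381) (.b 478))))))))))))) (.s13 (.tw (.c 0 (.s13 (.tw (.c 0 (.b 14) (.s13 (.tw (.s12 (.s13 (.c 0 (.b 136) (.s13 (.tw (.s12 (.s13 (.c 0 (.b 13) (.b 200)))))))))))))) (.tw (.s13 (.tw (.c 0 (.s13 (.tw (.c 0 (.b 136) (.b 44)))) (.s13 (.tw (.c 0 (.b 5) (.s13 (.tw (.c 0 (.b 5) (.b 63)))))))))))))))),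
  (.tw (.c 0 (.tw (.c 0 (.b 13) (.s13 (.tw (.s12 (.s13 (.c 0 (.b 284) (.c 0 (.b 136) (.b 29))))))))) (.s13 (.tw (.c 0 (.s12 (.s13 (.tw (.c 0 (.b 13) (.s13 (.tw (.s12 (.s13 (.c 0 (.b 58) (.c 0 (.b 136) (.b 136))))))))))) (.tw (.s12 (.s13 (.tw (.c 0 (.s13 (.tw (.s12 (.c 0 (.b 136) (.b 139))))) (.s13 (.tw (.c 0 (.b 5) (.s13 (.tw (.c 0 (.b 384) (.b 5))))))))))))))))),
  (.tw (.c 0 (.tw (.c 0 (.b 13) (.s13 (.tw (.s12 (.s13 (.c 0 (.b 284) (.c 0 (.b 136) (.b 29))))))))) (.s13 (.tw (.c 0 (.s13 (.tw (.c 0 (.b 13) (.s13 (.tw (.s12 (.s13 (.c 0 (.b 13) (.c 0 (.b 136) (.b 249)))))))))) (.tw (.s13 (.tw (.c 0 (.s13 (.tw (.c 0 (.b 136) (.b 44)))) (.s13 (.tw (.c 0 (.b 5) (.s13 (.tw (.c 0 (.b 384) (.b 5)))))))))))))))),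
  (.tw (.c 0 (.tw (.c 0 (.b 1) (.s13 (.tw (.s13 (.c 0 (.b 1) (.b 21))))))) (.s13 (.c 0 (.tw (.c 0 (.tw (.s13 (.tw (.c 0 (.b 13) (.b 526))))) (.tw (.s13 (.tw (.c 0 (.b 273) (.s13 (.tw (.s12 (.s13 (.c 0 (.b 136) (.b 44)))))))))))) (.s13 (.tw (.c 0 (.tw (.s13 (.tw (.c 0 (.b 284) (.s13 (.tw (.s12 (.s13 (.c 0 (.b 136) (.b 44)))))))))) (.b 273)))))))),
  (.tw (.c 0 (.tw (.c 0 (.tw (.s12 (.s13 (.tw (.c 0 (.b 63) (.b 159)))))) (.tw (.s12 (.s13 (.tw (.c 0 (.b 63) (.c 0 (.b 239) (.b 1))))))))) (.tw (.c 0 (.s12 (.s13 (.tw (.c 0 (.b 247) (.s13 (.tw (.s12 (.s13 (.c 0 (.b 63) (.b 44)))))))))) (.s12 (.s13 (.tw (.c 0 (.s13 (.tw (.c 0 (.b 24) (.b 136)))) (.s13 (.tw (.s13 (.c 0 (.b 443) (.b 99))))))))))))),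
  (.tw (.c 0 (.s12 (.s13 (.tw (.s12 (.c 0 (.b 13) (.s13 (.tw (.s12 (.s13 (.c 0 (.b 136) (.s13 (.tw (.s12 (.s13 (.c 0 (.b 284) (.b 147)))))))))))))))) (.s13 (.tw (.s12 (.c 0 (.s13 (.tw (.c 0 (.b 14) (.s13 (.tw (.s12 (.s13 (.c 0 (.b 14) (.c 0 (.b 136) (.b 247)))))))))) (.s13 (.tw (.c 0 (.s13 (.tw (.c 0 (.b 136) (.b 44)))) (.s13 (.tw (.c 0 (.b 5) (.s13 (.tw (.c 0 (.b 82) (.b 63)))))))))))))))),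
  (.tw (.c 0 (.tw (.c 0 (.b 13) (.s13 (.tw (.s12 (.s13 (.c 0 (.b 284) (.c 0 (.b 136) (.b 29))))))))) (.s13 (.tw (.c 0 (.s13 (.tw (.c 0 (.b 14) (.s13 (.tw (.s12 (.s13 (.c 0 (.b 136) (.s13 (.tw (.s12 (.s13 (.c 0 (.b 24) (.b 136)))))))))))))) (.tw (.s12 (.s13 (.tw (.c 0 (.s13 (.tw (.s12 (.c 0 (.b 136) (.b 598))))) (.s13 (.tw (.c 0 (.b 5) (.c 0 (.b 5) (.b 26))))))))))))))),
  (.tw (.c 0 (.tw (.c 0 (.b 13) (.s13 (.tw (.s12 (.s13 (.c 0 (.b 284) (.c 0 (.b 136) (.b 29))))))))) (.s13 (.tw (.c 0 (.s12 (.s13 (.tw (.c 0 (.b 462) (.s13 (.tw (.s13 (.c 0 (.b 13) (.b 225))))))))) (.s13 (.tw (.c 0 (.s13 (.tw (.c 0 (.b 136) (.b 44)))) (.s13 (.tw (.c 0 (.b 5) (.s13 (.tw (.c 0 (.b 5) (.b 63))))))))))))))),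
  (.tw (.c 0 (.tw (.c 0 (.b 1) (.s13 (.tw (.s13 (.c 0 (.b 1) (.b 21))))))) (.s13 (.c 0 (.tw (.c 0 (.tw (.s13 (.tw (.c 0 (.s13 (.tw (.s12 (.s13 (.c 0 (.b 180) (.b 12)))))) (.b 26))))) (.tw (.s13 (.tw (.c 0 (.b 273) (.s13 (.tw (.s12 (.s13 (.c 0 (.b 24) (.b 136)))))))))))) (.s13 (.tw (.c 0 (.tw (.s13 (.tw (.c 0 (.b 284) (.s13 (.tw (.s12 (.s13 (.c 0 (.b 136) (.b 44)))))))))) (.b 273)))))))),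
  (.tw (.c 0 (.tw (.c 0 (.b 13) (.s13 (.tw (.s12 (.s13 (.c 0 (.b 13) (.c 0 (.b 14) (.s13 (.tw (.s12 (.s13 (.c 0 (.b 381) (.b 381)))))))))))))) (.s13 (.tw (.c 0 (.s12 (.s13 (.tw (.c 0 (.b 13) (.b 546))))) (.tw (.s12 (.s13 (.tw (.c 0 (.s13 (.tw (.c 0 (.b 44) (.b 247)))) (.s13 (.tw (.c 0 (.s13 (.tw (.c 0 (.b 44) (.b 1)))) (.s13 (.tw (.c 0 (.b 5) (.b 5))))))))))))))))),
  (.tw (.c 0 (.tw (.c 0 (.b 13) (.s13 (.tw (.s12 (.s13 (.c 0 (.b 13) (.c 0 (.b 14) (.s13 (.tw (.s12 (.s13 (.c 0 (.b 381) (.b 381)))))))))))))) (.s13 (.tw (.c 0 (.s13 (.tw (.c 0 (.b 14) (.s13 (.tw (.s12 (.s13 (.c 0 (.b 14) (.c 0 (.b 63) (.b 136)))))))))) (.tw (.s13 (.tw (.c 0 (.s13 (.tw (.c 0 (.b 5) (.s13 (.tw (.c 0 (.b 82) (.b 5))))))) (.s13 (.tw (.c 0 (.b 24) (.b 44))))))))))))),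
  (.tw (.c 0 (.tw (.c 0 (.b 13) (.s13 (.tw (.s12 (.s13 (.c 0 (.b 13) (.c 0 (.b 136) (.s13 (.tw (.s12 (.s13 (.c 0 (.b 13) (.b 138)))))))))))))) (.s13 (.tw (.c 0 (.s12 (.s13 (.tw (.c 0 (.b 13) (.b 604))))) (.tw (.s12 (.s13 (.tw (.c 0 (.tw (.s12 (.s13 (.tw (.c 0 (.b 67) (.s13 (.tw (.s13 (.c 0 (.b 14) (.b 44)))))))))) (.s13 (.tw (.c 0 (.b 5) (.s13 (.tw (.c 0 (.b 5) (.b 5))))))))))))))))),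
  (.tw (.c 0 (.tw (.c 0 (.b 13) (.s13 (.tw (.s12 (.s13 (.c 0 (.b 13) (.c 0 (.b 14) (.s13 (.tw (.s12 (.s13 (.c 0 (.b 381) (.b 381)))))))))))))) (.s13 (.tw (.c 0 (.s13 (.tw (.c 0 (.b 14) (.s13 (.tw (.s12 (.s13 (.c 0 (.b 14) (.c 0 (.b 63) (.b 136)))))))))) (.tw (.s13 (.tw (.c 0 (.s13 (.tw (.c 0 (.b 136) (.b 44)))) (.tw (.s12 (.s13 (.tw (.c 0 (.b 5) (.s13 (.tw (.s12 (.s13 (.c 0 (.b 202) (.b 5)))))))))))))))))))),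
  (.tw (.c 0 (.tw (.c 0 (.b 13) (.s13 (.tw (.s12 (.s13 (.c 0 (.b 13) (.c 0 (.b 136) (.s13 (.tw (.s12 (.s13 (.c 0 (.b 13) (.b 138)))))))))))))) (.s13 (.tw (.c 0 (.s13 (.tw (.c 0 (.b 304) (.b 147)))) (.s13 (.tw (.c 0 (.s13 (.tw (.c 0 (.b 136) (.b 44)))) (.s13 (.tw (.s12 (.c 0 (.b 320) (.s13 (.tw (.c 0 (.b 5) (.b 5)))))))))))))))),
  (.tw (.c 0 (.tw (.c 0 (.b 13) (.s13 (.tw (.s12 (.s13 (.c 0 (.b 13) (.c 0 (.b 14) (.s13 (.tw (.s12 (.s13 (.c 0 (.b 381) (.b 381)))))))))))))) (.s13 (.tw (.c 0 (.s13 (.tw (.c 0 (.b 136) (.s13 (.tw (.s12 (.s13 (.c 0 (.b 63) (.b 400))))))))) (.tw (.s13 (.tw (.c 0 (.s13 (.tw (.c 0 (.b 136) (.b 44)))) (.tw (.s12 (.s13 (.tw (.c 0 (.b 269) (.s13 (.tw (.c 0 (.b 384) (.b 5)))))))))))))))))),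
  (.tw (.c 0 (.tw (.c 0 (.b 13) (.s13 (.tw (.s12 (.s13 (.c 0 (.b 13) (.c 0 (.b 14) (.s13 (.tw (.s12 (.s13 (.c 0 (.b 381) (.b 381)))))))))))))) (.s13 (.tw (.c 0 (.s13 (.tw (.c 0 (.b 57) (.s13 (.tw (.s12 (.s13 (.c 0 (.b 57) (.b 44))))))))) (.tw (.s13 (.tw (.c 0 (.s13 (.tw (.c 0 (.b 136) (.b 44)))) (.s13 (.tw (.c 0 (.b 5) (.s13 (.tw (.c 0 (.b 384) (.b 5)))))))))))))))),
  (.tw (.c 0 (.tw (.c 0 (.b 1) (.s13 (.tw (.s13 (.c 0 (.b 1) (.b 21))))))) (.s13 (.c 0 (.tw (.c 0 (.b 279) (.tw (.s13 (.tw (.c 0 (.s13 (.tw (.c 0 (.b 12) (.b 172)))) (.tw (.s12 (.s13 (.tw (.c 0 (.b 136) (.s13 (.tw (.s12 (.s13 (.c 0 (.b 44) (.b 1))))))))))))))))) (.s13 (.tw (.c 0 (.s13 (.tw (.c 0 (.b 12) (.b 172)))) (.tw (.s13 (.tw (.c 0 (.b 304) (.s13 (.tw (.s12 (.s13 (.c 0 (.b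 63) (.b 44))))))))))))))))),
  (.tw (.c 0 (.tw (.c 0 (.b 13) (.s13 (.tw (.s12 (.s13 (.c 0 (.b 13) (.c 0 (.b 14) (.s13 (.tw (.s12 (.s13 (.c 0 (.b 381) (.b 381)))))))))))))) (.s13 (.tw (.c 0 (.s13 (.tw (.c 0 (.b 136) (.s13 (.tw (.s12 (.s13 (.c 0 (.b 13) (.b 139))))))))) (.tw (.s13 (.tw (.c 0 (.s13 (.tw (.c 0 (.b 5) (.s13 (.tw (.c 0 (.b 5) (.b 124))))))) (.s13 (.tw (.c 0 (.b 24) (.b 44))))))))))))),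
  (.tw (.c 0 (.tw (.c 0 (.b 13) (.s13 (.tw (.s12 (.s13 (.c 0 (.b 13) (.c 0 (.b 136) (.s13 (.tw (.s12 (.s13 (.c 0 (.b 13) (.b 138)))))))))))))) (.s13 (.tw (.c 0 (.s13 (.tw (.c 0 (.b 14) (.s13 (.tw (.s12 (.s13 (.c 0 (.b 14) (.c 0 (.b 136) (.b 136)))))))))) (.tw (.s13 (.tw (.c 0 (.s13 (.tw (.c 0 (.b 63) (.s13 (.tw (.s12 (.s13 (.c 0 (.b 63) (.b 24))))))))) (.s13 (.tw (.c 0 (.b 5) (.s13 (.tw (.s12 (.s13 (.c 0 (.b 5) (.b 63)))))))))))))))))),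
  (.tw (.c 0 (.tw (.c 0 (.b 13) (.s13 (.tw (.s12 (.s13 (.c 0 (.b 13) (.c 0 (.b 14) (.s13 (.tw (.s12 (.s13 (.c 0 (.b 381) (.b 381)))))))))))))) (.s13 (.tw (.c 0 (.s13 (.tw (.c 0 (.b 136) (.s13 (.tw (.s12 (.s13 (.c 0 (.b 14) (.b 239))))))))) (.tw (.s13 (.tw (.c 0 (.s13 (.tw (.c 0 (.b 136) (.b 44)))) (.tw (.s12 (.s13 (.tw (.c 0 (.b 269) (.s13 (.tw (.c 0 (.b 384) (.b 5)))))))))))))))))),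
  (.tw (.c 0 (.tw (.c 0 (.b 13) (.s13 (.tw (.s12 (.s13 (.c 0 (.b 13) (.c 0 (.b 14) (.s13 (.tw (.s12 (.s13 (.c 0 (.b 381) (.b 381)))))))))))))) (.s13 (.tw (.c 0 (.s13 (.tw (.c 0 (.b 136) (.s13 (.tw (.s12 (.s13 (.c 0 (.b 13) (.b 139))))))))) (.tw (.s13 (.tw (.c 0 (.s13 (.tw (.c 0 (.b 136) (.b 44)))) (.s13 (.tw (.c 0 (.b 5) (.s13 (.tw (.c 0 (.b 384) (.b 5)))))))))))))))),
  (.tw (.c 0 (.tw (.c 0 (.b 478) (.s13 (.tw (.s12 (.s13 (.c 0 (.b 381) (.c 0 (.b 136) (.b 136))))))))) (.s13 (.tw (.c 0 (.s13 (.tw (.c 0 (.b 642) (.b 273)))) (.tw (.s12 (.s13 (.tw (.c 0 (.s13 (.tw (.c 0 (.tw (.c 0 (.b 63) (.b 136))) (.s13 (.tw (.s13 (.c 0 (.b 24) (.b 29)))))))) (.s13 (.tw (.c 0 (.b 63) (.b 44)))))))))))))),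
  (.tw (.c 0 (.tw (.c 0 (.b 13) (.s13 (.tw (.s12 (.s13 (.c 0 (.b 13) (.c 0 (.b 136) (.s13 (.tw (.s12 (.s13 (.c 0 (.b 13) (.b 138)))))))))))))) (.s13 (.tw (.c 0 (.s13 (.tw (.c 0 (.b 58) (.s13 (.tw (.s12 (.s13 (.c 0 (.b 14) (.c 0 (.b 136) (.b 136)))))))))) (.tw (.s13 (.tw (.c 0 (.s13 (.tw (.s12 (.c 0 (.b 381) (.b 136))))) (.s13 (.tw (.c 0 (.b 5) (.s13 (.tw (.c 0 (.b 384) (.b 5)))))))))))))))),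
  (.tw (.c 0 (.tw (.c 0 (.b 13) (.s13 (.tw (.s12 (.s13 (.c 0 (.b 13) (.c 0 (.b 14) (.s13 (.tw (.s12 (.s13 (.c 0 (.b 381) (.b 381)))))))))))))) (.s13 (.tw (.c 0 (.s13 (.tw (.c 0 (.b 58) (.s13 (.tw (.s12 (.s13 (.c 0 (.b 14) (.c 0 (.b 136) (.b 136)))))))))) (.tw (.s13 (.tw (.c 0 (.s13 (.tw (.c 0 (.b 14) (.c 0 (.b 63) (.b 136))))) (.s13 (.tw (.c 0 (.b 5) (.s13 (.tw (.c 0 (.b 384) (.b 5)))))))))))))))),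
  (.tw (.c 0 (.tw (.c 0 (.b 13) (.s13 (.tw (.s12 (.s13 (.c 0 (.b 13) (.c 0 (.b 14) (.s13 (.tw (.s12 (.s13 (.c 0 (.b 381) (.b 381)))))))))))))) (.s13 (.tw (.c 0 (.s13 (.tw (.c 0 (.b 14) (.s13 (.tw (.s12 (.s13 (.c 0 (.b 136) (.s13 (.tw (.s12 (.s13 (.c 0 (.b 13) (.b 200)))))))))))))) (.tw (.s13 (.tw (.c 0 (.s13 (.tw (.c 0 (.b 136) (.b 44)))) (.s13 (.tw (.c 0 (.b 5) (.s13 (.tw (.c 0 (.b 5) (.b 63)))))))))))))))),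
  (.tw (.c 0 (.tw (.c 0 (.b 1) (.s13 (.tw (.s13 (.c 0 (.b 1) (.b 21))))))) (.s13 (.c 0 (.tw (.c 0 (.tw (.s13 (.tw (.c 0 (.b 13) (.b 578))))) (.tw (.s12 (.s13 (.tw (.c 0 (.b 304) (.s13 (.tw (.s12 (.s13 (.c 0 (.b 136) (.b 44))))))))))))) (.s13 (.tw (.c 0 (.s13 (.tw (.c 0 (.b 12) (.b 172)))) (.tw (.s13 (.tw (.c 0 (.b 304) (.s13 (.tw (.s12 (.s13 (.c 0 (.b 63) (.b 44))))))))))))))))),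
  (.tw (.c 0 (.tw (.c 0 (.tw (.s12 (.s13 (.tw (.c 0 (.b 63) (.b 159)))))) (.tw (.s12 (.s13 (.tw (.c 0 (.b 63) (.c 0 (.b 63) (.b 124))))))))) (.tw (.c 0 (.s12 (.s13 (.tw (.c 0 (.b 247) (.s13 (.tw (.s12 (.s13 (.c 0 (.b 63) (.b 44)))))))))) (.s12 (.s13 (.tw (.c 0 (.s13 (.tw (.c 0 (.b 24) (.b 136)))) (.s13 (.tw (.s13 (.c 0 (.b 443) (.b 99))))))))))))),
  (.tw (.c 0 (.s12 (.s13 (.tw (.s12 (.c 0 (.b 14) (.s13 (.tw (.s12 (.s13 (.c 0 (.b 304) (.s13 (.tw (.s12 (.s13 (.c 0 (.b 13) (.b 546)))))))))))))))) (.s13 (.tw (.s12 (.c 0 (.tw (.s13 (.tw (.c 0 (.b 67) (.s13 (.tw (.s13 (.c 0 (.b 164) (.b 44))))))))) (.tw (.s12 (.s13 (.tw (.c 0 (.tw (.s13 (.s12 (.c 0 (.b 73) (.s13 (.tw (.s12 (.c 0 (.b 44) (.b 12))))))))) (.s13 (.tw (.c 0 (.b 381) (.b 44))))))))))))))),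
  (.tw (.c 0 (.tw (.c 0 (.b 1) (.s13 (.tw (.s13 (.c 0 (.b 1) (.b 21))))))) (.s13 (.c 0 (.tw (.c 0 (.tw (.s13 (.tw (.c 0 (.b 63) (.b 526))))) (.tw (.s13 (.tw (.c 0 (.b 273) (.s13 (.tw (.s12 (.s13 (.c 0 (.b 24) (.b 136)))))))))))) (.s13 (.tw (.c 0 (.s13 (.tw (.c 0 (.b 12) (.b 172)))) (.tw (.s13 (.tw (.c 0 (.b 304) (.s13 (.tw (.s12 (.s13 (.c 0 (.b 63) (.b 44))))))))))))))))),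
  (.tw (.c 0 (.tw (.c 0 (.b 14) (.s13 (.tw (.s12 (.s13 (.c 0 (.b 14) (.c 0 (.b 304) (.s13 (.tw (.s12 (.s13 (.c 0 (.b 63) (.b 369)))))))))))))) (.s13 (.tw (.c 0 (.s12 (.s13 (.tw (.c 0 (.b 13) (.b 581))))) (.tw (.s12 (.s13 (.tw (.c 0 (.s13 (.tw (.c 0 (.b 136) (.b 713)))) (.s13 (.tw (.c 0 (.b 73) (.s13 (.tw (.c 0 (.b 5) (.b 5))))))))))))))))),
  (.tw (.c 0 (.tw (.c 0 (.b 14) (.s13 (.tw (.s12 (.s13 (.c 0 (.b 13) (.s13 (.tw (.s12 (.s13 (.c 0 (.b 136) (.s13 (.tw (.s12 (.s13 (.c 0 (.b 63) (.b 369)))))))))))))))))) (.s13 (.tw (.c 0 (.s12 (.s13 (.tw (.c 0 (.b 13) (.b 581))))) (.s12 (.s13 (.tw (.c 0 (.s13 (.tw (.c 0 (.b 136) (.b 536)))) (.s13 (.tw (.s13 (.s12 (.c 0 (.s13 (.tw (.c 0 (.b 63) (.b 124)))) (.s13 (.tw (.c 0 (.b 5) (.b 5)))))))))))))))))),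
  (.tw (.c 0 (.tw (.c 0 (.b 478) (.s13 (.tw (.s12 (.s13 (.c 0 (.b 381) (.c 0 (.b 136) (.b 136))))))))) (.s13 (.tw (.c 0 (.s12 (.s13 (.tw (.c 0 (.b 136) (.s13 (.tw (.s12 (.s13 (.c 0 (.b 24) (.b 136)))))))))) (.tw (.s12 (.s13 (.tw (.c 0 (.tw (.s12 (.s13 (.tw (.c 0 (.b 320) (.b 67)))))) (.s13 (.tw (.c 0 (.b 5) (.s13 (.tw (.s12 (.s13 (.c 0 (.b 180) (.b 12))))))))))))))))))),
  (.tw (.c 0 (.tw (.c 0 (.b 14) (.s13 (.tw (.s12 (.s13 (.c 0 (.b 14) (.c 0 (.b 304) (.s13 (.tw (.s12 (.s13 (.c 0 (.b 63) (.b 369)))))))))))))) (.s13 (.tw (.c 0 (.s12 (.s13 (.tw (.c 0 (.b 136) (.s13 (.tw (.s13 (.c 0 (.b 14) (.b 405))))))))) (.tw (.s12 (.s13 (.tw (.c 0 (.s13 (.tw (.c 0 (.b 136) (.b 44)))) (.s13 (.tw (.c 0 (.b 5) (.s13 (.tw (.c 0 (.b 82) (.b 63))))))))))))))))),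
  (.tw (.c 0 (.tw (.c 0 (.b 14) (.s13 (.tw (.s12 (.s13 (.c 0 (.b 13) (.s13 (.tw (.s12 (.s13 (.c 0 (.b 136) (.s13 (.tw (.s12 (.s13 (.c 0 (.b 63) (.b 369)))))))))))))))))) (.s13 (.tw (.c 0 (.s12 (.s13 (.tw (.c 0 (.b 13) (.b 581))))) (.tw (.s12 (.s13 (.tw (.c 0 (.s13 (.tw (.c 0 (.tw (.s12 (.s13 (.tw (.c 0 (.b 63) (.b 124)))))) (.b 136)))) (.s13 (.tw (.c 0 (.b 143) (.s13 (.tw (.c 0 (.b 5) (.b 5))))))))))))))))),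
  (.tw (.c 0 (.tw (.c 0 (.b 14) (.s13 (.tw (.s12 (.s13 (.c 0 (.b 13) (.s13 (.tw (.s12 (.s13 (.c 0 (.b 136) (.s13 (.tw (.s12 (.s13 (.c 0 (.b 63) (.b 369)))))))))))))))))) (.s13 (.tw (.c 0 (.s12 (.s13 (.tw (.c 0 (.b 13) (.b 581))))) (.s12 (.s13 (.tw (.c 0 (.s13 (.tw (.c 0 (.b 136) (.b 536)))) (.s13 (.tw (.s12 (.c 0 (.s13 (.tw (.c 0 (.b 44) (.b 1)))) (.s13 (.tw (.c 0 (.b 5) (.b 5))))))))))))))))),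
  (.tw (.c 0 (.tw (.c 0 (.b 1) (.s13 (.tw (.s13 (.c 0 (.b 1) (.b 21))))))) (.s13 (.tw (.c 0 (.s13 (.tw (.c 0 (.b 311) (.s13 (.tw (.s12 (.s13 (.c 0 (.b 13) (.b 239))))))))) (.s12 (.s13 (.tw (.c 0 (.s13 (.tw (.c 0 (.b 63) (.c 0 (.b 63) (.b 136))))) (.s13 (.tw (.s13 (.s12 (.c 0 (.s13 (.tw (.c 0 (.b 381) (.b 136)))) (.tw (.c 0 (.b 5) (.b 5))))))))))))))))),
  (.tw (.c 0 (.tw (.c 0 (.b 14) (.s13 (.tw (.s12 (.s13 (.c 0 (.b 14) (.c 0 (.b 304) (.s13 (.tw (.s12 (.s13 (.c 0 (.b 63) (.b 369)))))))))))))) (.s13 (.tw (.c 0 (.s13 (.tw (.c 0 (.b 14) (.s13 (.tw (.s12 (.s13 (.c 0 (.b 136) (.s13 (.tw (.s12 (.s13 (.c 0 (.b 13) (.b 200)))))))))))))) (.tw (.s13 (.tw (.c 0 (.s13 (.tw (.c 0 (.b 136) (.b 44)))) (.s13 (.tw (.c 0 (.b 5) (.s13 (.tw (.c 0 (.b 63) (.b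 24)))))))))))))))),
  (.tw (.c 0 (.tw (.c 0 (.b 14) (.s13 (.tw (.s12 (.s13 (.c 0 (.b 13) (.s13 (.tw (.s12 (.s13 (.c 0 (.b 136) (.s13 (.tw (.s12 (.s13 (.c 0 (.b 63) (.b 369)))))))))))))))))) (.s13 (.tw (.c 0 (.s13 (.tw (.c 0 (.b 13) (.s13 (.tw (.s12 (.s13 (.c 0 (.b 13) (.b 138))))))))) (.s12 (.s13 (.c 0 (.s12 (.s13 (.tw (.s12 (.c 0 (.b 304) (.s13 (.tw (.s12 (.s13 (.c 0 (.b 136) (.b 44))))))))))) (.tw (.c 0 (.b 136) (.s13 (.tw (.s12 (.s13 (.c 0 (.b 63) (.b 44)))))))))))))))),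
  (.tw (.c 0 (.tw (.c 0 (.b 1) (.s13 (.tw (.s13 (.c 0 (.b 1) (.b 21))))))) (.s13 (.tw (.c 0 (.s13 (.tw (.c 0 (.s13 (.tw (.c 0 (.b 266) (.b 26)))) (.b 76)))) (.s12 (.s13 (.tw (.c 0 (.s13 (.tw (.c 0 (.b 136) (.b 536)))) (.s13 (.tw (.c 0 (.tw (.c 0 (.b 136) (.b 136))) (.s13 (.tw (.c 0 (.b 5) (.b 5)))))))))))))))),
  (.tw (.c 0 (.tw (.c 0 (.b 14) (.s13 (.tw (.s12 (.s13 (.c 0 (.b 13) (.s13 (.tw (.s12 (.s13 (.c 0 (.b 136) (.s13 (.tw (.s12 (.s13 (.c 0 (.b 63) (.b 369)))))))))))))))))) (.s13 (.tw (.c 0 (.tw (.s13 (.tw (.c 0 (.b 67) (.s13 (.tw (.s13 (.c 0 (.b 164) (.b 44))))))))) (.s12 (.s13 (.tw (.c 0 (.s13 (.tw (.c 0 (.b 136) (.b 44)))) (.s13 (.tw (.s12 (.c 0 (.b 264) (.s13 (.tw (.c 0 (.b 44) (.b 1))))))))))))))))),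
  (.c 0 (.s12 (.s13 (.tw (.s12 (.c 0 (.b 14) (.s13 (.tw (.s12 (.s13 (.c 0 (.b 304) (.s13 (.tw (.s12 (.s13 (.c 0 (.b 13) (.b 337)))))))))))))))) (.s13 (.tw (.s12 (.c 0 (.tw (.s13 (.tw (.c 0 (.b 67) (.s13 (.tw (.s13 (.c 0 (.b 164) (.b 44))))))))) (.tw (.s12 (.s13 (.tw (.c 0 (.tw (.s13 (.s12 (.c 0 (.b 73) (.s13 (.tw (.s12 (.c 0 (.b 44) (.b 12))))))))) (.s13 (.tw (.c 0 (.b 381) (.b 44)))))))))))))),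
  (.c 0 (.tw (.c 0 (.b 14) (.s13 (.tw (.s12 (.s13 (.c 0 (.b 13) (.s13 (.tw (.s12 (.s13 (.c 0 (.b 136) (.tw (.s12 (.s13 (.tw (.c 0 (.b 63) (.b 381)))))))))))))))))) (.s13 (.tw (.c 0 (.tw (.s13 (.tw (.c 0 (.b 67) (.s13 (.tw (.s13 (.c 0 (.b 164) (.b 44))))))))) (.s12 (.s13 (.tw (.c 0 (.s13 (.tw (.c 0 (.b 5) (.s13 (.tw (.s12 (.s13 (.c 0 (.b 63) (.b 24))))))))) (.s13 (.tw (.s12 (.c 0 (.b 124) (.b 44))))))))))))),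
  (.tw (.c 0 (.tw (.c 0 (.b 311) (.s13 (.tw (.s12 (.s13 (.c 0 (.b 23) (.b 21)))))))) (.tw (.c 0 (.s12 (.s13 (.tw (.c 0 (.b 284) (.s13 (.tw (.s12 (.s13 (.c 0 (.b 13) (.b 266)))))))))) (.s12 (.s13 (.tw (.c 0 (.s13 (.tw (.s12 (.c 0 (.b 44) (.b 247))))) (.s13 (.tw (.s12 (.c 0 (.b 5) (.c 0 (.b 124) (.b 124)))))))))))))),
  (.tw (.c 0 (.tw (.c 0 (.b 311) (.s13 (.tw (.s12 (.s13 (.c 0 (.b 23) (.b 21)))))))) (.tw (.c 0 (.s12 (.s13 (.tw (.c 0 (.b 14) (.s13 (.tw (.s12 (.s13 (.c 0 (.b 63) (.b 536)))))))))) (.s12 (.s13 (.tw (.c 0 (.s13 (.tw (.s12 (.c 0 (.b 44) (.b 247))))) (.s13 (.tw (.s12 (.c 0 (.b 5) (.c 0 (.b 124) (.b 124)))))))))))))),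
  (.tw (.c 0 (.tw (.c 0 (.b 13) (.s13 (.tw (.s12 (.s13 (.c 0 (.b 284) (.c 0 (.b 136) (.b 29))))))))) (.s13 (.tw (.c 0 (.s12 (.s13 (.tw (.c 0 (.b 136) (.s13 (.tw (.s12 (.s13 (.c 0 (.b 284) (.b 147)))))))))) (.tw (.s12 (.s13 (.tw (.c 0 (.s13 (.tw (.c 0 (.b 136) (.b 44)))) (.tw (.s12 (.s13 (.tw (.c 0 (.s12 (.s13 (.tw (.c 0 (.b 63) (.b 24))))) (.s13 (.tw (.s12 (.c 0 (.b 5) (.b 124)))))))))))))))))))),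
  (.tw (.c 0 (.tw (.c 0 (.b 13) (.s13 (.tw (.s12 (.s13 (.c 0 (.b 284) (.c 0 (.b 136) (.b 29))))))))) (.s13 (.tw (.c 0 (.s12 (.s13 (.tw (.c 0 (.b 136) (.s13 (.tw (.s12 (.s13 (.c 0 (.b 284) (.b 147)))))))))) (.tw (.s12 (.s13 (.tw (.c 0 (.s13 (.tw (.c 0 (.b 136) (.b 44)))) (.tw (.s12 (.s13 (.tw (.c 0 (.s12 (.s13 (.tw (.c 0 (.b 44) (.b 1))))) (.s13 (.tw (.s12 (.c 0 (.b 5) (.b 124)))))))))))))))))))),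
  (.tw (.c 0 (.tw (.c 0 (.b 284) (.s13 (.tw (.s12 (.s13 (.c 0 (.b 63) (.b 93)))))))) (.s13 (.tw (.c 0 (.s12 (.s13 (.tw (.c 0 (.b 13) (.s13 (.tw (.s12 (.s13 (.c 0 (.b 136) (.b 581)))))))))) (.tw (.s12 (.s13 (.tw (.c 0 (.s13 (.tw (.c 0 (.b 136) (.b 44)))) (.s13 (.tw (.c 0 (.tw (.c 0 (.b 63) (.b 136))) (.s13 (.tw (.c 0 (.b 384) (.b 5))))))))))))))))),
  (.tw (.c 0 (.tw (.c 0 (.b 13) (.s13 (.tw (.s12 (.s13 (.c 0 (.b 284) (.c 0 (.b 136) (.b 29))))))))) (.s13 (.tw (.c 0 (.s12 (.s13 (.tw (.c 0 (.b 136) (.s13 (.tw (.s12 (.s13 (.c 0 (.b 284) (.b 147)))))))))) (.tw (.s12 (.s13 (.tw (.c 0 (.s13 (.tw (.c 0 (.b 136) (.b 44)))) (.s13 (.tw (.c 0 (.tw (.c 0 (.b 63) (.b 136))) (.s13 (.tw (.c 0 (.b 384) (.b 5))))))))))))))))),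
  (.tw (.c 0 (.tw (.c 0 (.b 13) (.s13 (.tw (.s12 (.s13 (.c 0 (.b 13) (.c 0 (.b 14) (.s13 (.tw (.s12 (.s13 (.c 0 (.b 381) (.b 381)))))))))))))) (.s13 (.tw (.c 0 (.s13 (.tw (.c 0 (.b 136) (.s13 (.tw (.s12 (.s13 (.c 0 (.b 63) (.b 138))))))))) (.tw (.s13 (.tw (.c 0 (.s13 (.tw (.c 0 (.b 136) (.b 44)))) (.tw (.s12 (.s13 (.tw (.c 0 (.b 313) (.s13 (.tw (.s12 (.c 0 (.b 5) (.b 124))))))))))))))))))),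
  (.tw (.c 0 (.tw (.c 0 (.b 13) (.s13 (.tw (.s12 (.s13 (.c 0 (.b 13) (.c 0 (.b 14) (.s13 (.tw (.s12 (.s13 (.c 0 (.b 381) (.b 381)))))))))))))) (.s13 (.tw (.c 0 (.s13 (.tw (.c 0 (.b 478) (.b 236)))) (.tw (.s13 (.tw (.c 0 (.s13 (.tw (.c 0 (.b 24) (.s13 (.tw (.s12 (.s13 (.c 0 (.b 44) (.b 1))))))))) (.s13 (.tw (.c 0 (.b 5) (.s13 (.tw (.c 0 (.b 5) (.b 124)))))))))))))))),
  (.tw (.c 0 (.tw (.c 0 (.b 13) (.s13 (.tw (.s12 (.s13 (.c 0 (.b 13) (.c 0 (.b 14) (.s13 (.tw (.s12 (.s13 (.c 0 (.b 381) (.b 381)))))))))))))) (.s13 (.tw (.c 0 (.s13 (.tw (.c 0 (.b 57) (.s13 (.tw (.s12 (.s13 (.c 0 (.b 63) (.b 612))))))))) (.tw (.s13 (.tw (.c 0 (.s13 (.tw (.c 0 (.b 136) (.b 44)))) (.s13 (.tw (.c 0 (.b 143) (.s13 (.tw (.c 0 (.b 384) (.b 5)))))))))))))))),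
  (.tw (.c 0 (.tw (.c 0 (.b 284) (.s13 (.tw (.s12 (.s13 (.c 0 (.b 63) (.b 93)))))))) (.s13 (.tw (.c 0 (.s12 (.s13 (.tw (.s12 (.c 0 (.b 136) (.b 147)))))) (.tw (.s12 (.s13 (.tw (.c 0 (.tw (.s12 (.s13 (.tw (.c 0 (.b 67) (.s13 (.tw (.s13 (.c 0 (.b 14) (.b 44)))))))))) (.s13 (.tw (.c 0 (.tw (.c 0 (.b 63) (.b 136))) (.s13 (.tw (.c 0 (.b 5) (.b 5))))))))))))))))),
  (.tw (.c 0 (.tw (.c 0 (.b 13) (.s13 (.tw (.s12 (.s13 (.c 0 (.b 13) (.c 0 (.b 14) (.s13 (.tw (.s12 (.s13 (.c 0 (.b 381) (.b 381)))))))))))))) (.s13 (.tw (.c 0 (.s13 (.tw (.c 0 (.b 478) (.b 236)))) (.tw (.s13 (.tw (.c 0 (.s13 (.tw (.c 0 (.b 249) (.b 44)))) (.s13 (.tw (.c 0 (.b 5) (.s13 (.tw (.c 0 (.b 5) (.b 124)))))))))))))))),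
  (.tw (.c 0 (.tw (.c 0 (.b 13) (.s13 (.tw (.s12 (.s13 (.c 0 (.b 13) (.c 0 (.b 14) (.s13 (.tw (.s12 (.s13 (.c 0 (.b 381) (.b 381)))))))))))))) (.s13 (.tw (.c 0 (.s13 (.tw (.c 0 (.b 136) (.s13 (.tw (.s12 (.s13 (.c 0 (.b 13) (.b 138))))))))) (.tw (.s13 (.tw (.c 0 (.s13 (.tw (.c 0 (.b 136) (.b 44)))) (.s13 (.tw (.c 0 (.b 5) (.s13 (.tw (.c 0 (.b 82) (.b 5)))))))))))))))),
  (.tw (.c 0 (.tw (.c 0 (.b 311) (.s13 (.tw (.s12 (.s13 (.c 0 (.b 23) (.b 21)))))))) (.tw (.c 0 (.s13 (.tw (.c 0 (.b 140) (.s13 (.tw (.s12 (.s13 (.c 0 (.b 14) (.b 591))))))))) (.s12 (.s13 (.tw (.c 0 (.s13 (.tw (.s12 (.c 0 (.b 124) (.b 44))))) (.s13 (.tw (.s12 (.s13 (.c 0 (.b 5) (.c 0 (.b 5) (.b 63))))))))))))))),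
  (.tw (.c 0 (.tw (.c 0 (.b 284) (.s13 (.tw (.s12 (.s13 (.c 0 (.b 63) (.b 93)))))))) (.s13 (.tw (.c 0 (.s12 (.s13 (.tw (.c 0 (.b 13) (.s13 (.tw (.s12 (.s13 (.c 0 (.b 13) (.b 546)))))))))) (.tw (.s12 (.s13 (.tw (.c 0 (.s13 (.tw (.c 0 (.b 136) (.s13 (.tw (.s12 (.s13 (.c 0 (.b 44) (.b 1))))))))) (.s13 (.tw (.c 0 (.tw (.c 0 (.b 63) (.b 136))) (.s13 (.tw (.c 0 (.b 5) (.b 5))))))))))))))))),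
  (.tw (.c 0 (.tw (.c 0 (.b 311) (.s13 (.tw (.s12 (.s13 (.c 0 (.b 23) (.b 21)))))))) (.tw (.c 0 (.s12 (.s13 (.tw (.c 0 (.b 13) (.s13 (.tw (.s12 (.s13 (.c 0 (.b 44) (.b 26)))))))))) (.tw (.s12 (.s13 (.tw (.c 0 (.s13 (.tw (.c 0 (.b 136) (.b 663)))) (.s13 (.tw (.s13 (.c 0 (.b 5) (.s13 (.tw (.c 0 (.b 384) (.b 5))))))))))))))))),
  (.tw (.c 0 (.tw (.c 0 (.b 284) (.s13 (.tw (.s12 (.s13 (.c 0 (.b 63) (.b 93)))))))) (.s13 (.tw (.c 0 (.s12 (.s13 (.tw (.c 0 (.b 13) (.s13 (.tw (.s12 (.s13 (.c 0 (.b 58) (.c 0 (.b 136) (.b 136))))))))))) (.tw (.s12 (.s13 (.tw (.c 0 (.s13 (.tw (.c 0 (.b 136) (.b 44)))) (.s13 (.tw (.c 0 (.b 387) (.s13 (.tw (.c 0 (.b 384) (.b 5))))))))))))))))),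
  (.tw (.c 0 (.tw (.c 0 (.b 311) (.s13 (.tw (.s12 (.s13 (.c 0 (.b 23) (.b 21)))))))) (.tw (.c 0 (.s12 (.s13 (.tw (.c 0 (.b 284) (.b 147))))) (.tw (.s12 (.s13 (.tw (.c 0 (.s13 (.tw (.c 0 (.b 136) (.b 663)))) (.tw (.s12 (.s13 (.tw (.c 0 (.s12 (.s13 (.tw (.c 0 (.b 44) (.b 1))))) (.s13 (.tw (.c 0 (.b 5) (.b 5)))))))))))))))))),
  (.tw (.c 0 (.tw (.c 0 (.b 311) (.s13 (.tw (.s12 (.s13 (.c 0 (.b 23) (.b 21)))))))) (.tw (.c 0 (.s12 (.s13 (.tw (.c 0 (.b 284) (.s13 (.tw (.s12 (.s13 (.c 0 (.b 44) (.b 12)))))))))) (.tw (.s12 (.s13 (.tw (.c 0 (.s13 (.tw (.s12 (.c 0 (.b 14) (.c 0 (.b 136) (.b 124)))))) (.s13 (.tw (.c 0 (.b 5) (.c 0 (.b 5) (.b 26)))))))))))))),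
  (.tw (.c 0 (.tw (.c 0 (.b 1) (.s13 (.tw (.s13 (.c 0 (.b 1) (.b 21))))))) (.s13 (.c 0 (.tw (.c 0 (.b 718) (.tw (.s13 (.tw (.c 0 (.tw (.s12 (.s13 (.tw (.c 0 (.b 136) (.s13 (.tw (.s12 (.s13 (.c 0 (.b 63) (.b 44))))))))))) (.b 273))))))) (.s13 (.tw (.c 0 (.tw (.s12 (.s13 (.tw (.c 0 (.b 136) (.s13 (.tw (.s12 (.s13 (.c 0 (.b 63) (.b 44))))))))))) (.b 273)))))))),
  (.tw (.c 0 (.s12 (.s13 (.tw (.s12 (.c 0 (.b 284) (.s13 (.tw (.s12 (.s13 (.c 0 (.b 63) (.s13 (.tw (.s12 (.s13 (.c 0 (.b 284) (.b 27)))))))))))))))) (.tw (.s13 (.tw (.s12 (.c 0 (.s12 (.s13 (.tw (.s12 (.c 0 (.b 666) (.s13 (.tw (.s12 (.s13 (.c 0 (.b 136) (.s13 (.tw (.s12 (.s13 (.c 0 (.b 44) (.b 1)))))))))))))))) (.s12 (.s13 (.tw (.s12 (.c 0 (.s13 (.tw (.c 0 (.b 44) (.b 12)))) (.tw (.s12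 (.s13 (.tw (.c 0 (.b 5) (.s13 (.tw (.s12 (.s13 (.c 0 (.b 63) (.b 24))))))))))))))))))))))),
  (.tw (.c 0 (.tw (.c 0 (.b 284) (.s13 (.tw (.s12 (.s13 (.c 0 (.b 63) (.b 93)))))))) (.s13 (.tw (.c 0 (.s13 (.tw (.c 0 (.b 462) (.tw (.s12 (.s13 (.tw (.c 0 (.b 381) (.b 381))))))))) (.tw (.s13 (.tw (.c 0 (.s13 (.tw (.c 0 (.b 136) (.b 351)))) (.s13 (.tw (.c 0 (.b 5) (.s13 (.tw (.c 0 (.b 384) (.b 5)))))))))))))))),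
  (.tw (.c 0 (.tw (.c 0 (.b 311) (.s13 (.tw (.s12 (.s13 (.c 0 (.b 23) (.b 21)))))))) (.tw (.c 0 (.s12 (.s13 (.tw (.c 0 (.b 136) (.s13 (.tw (.s12 (.s13 (.c 0 (.b 63) (.b 465)))))))))) (.tw (.s12 (.s13 (.tw (.c 0 (.s13 (.tw (.c 0 (.b 136) (.b 663)))) (.s13 (.tw (.s13 (.c 0 (.b 5) (.s13 (.tw (.c 0 (.b 384) (.b 5))))))))))))))))),
  (.tw (.c 0 (.tw (.c 0 (.b 311) (.s13 (.tw (.s12 (.s13 (.c 0 (.b 23) (.b 21)))))))) (.tw (.c 0 (.s12 (.s13 (.tw (.c 0 (.b 345) (.tw (.s12 (.s13 (.tw (.c 0 (.b 63) (.b 381)))))))))) (.s12 (.s13 (.tw (.c 0 (.s13 (.tw (.s12 (.c 0 (.b 124) (.b 44))))) (.s13 (.tw (.s12 (.s13 (.c 0 (.b 5) (.c 0 (.b 5) (.b 63))))))))))))))),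
  (.tw (.c 0 (.tw (.c 0 (.b 1) (.s13 (.tw (.s13 (.c 0 (.b 1) (.b 21))))))) (.s13 (.c 0 (.tw (.c 0 (.tw (.s12 (.s13 (.tw (.c 0 (.b 63) (.s13 (.tw (.s12 (.s13 (.c 0 (.b 180) (.b 12))))))))))) (.tw (.s13 (.tw (.c 0 (.b 304) (.s13 (.tw (.s12 (.s13 (.c 0 (.b 136) (.b 44)))))))))))) (.s13 (.tw (.c 0 (.tw (.s12 (.s13 (.tw (.c 0 (.b 136) (.s13 (.tw (.s12 (.s13 (.c 0 (.b 63) (.b 44))))))))))) (.b 273)))))))),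
  (.tw (.c 0 (.tw (.c 0 (.b 13) (.s13 (.tw (.s12 (.s13 (.c 0 (.b 284) (.c 0 (.b 136) (.b 29))))))))) (.s13 (.tw (.c 0 (.s12 (.s13 (.tw (.s12 (.c 0 (.b 136) (.b 147)))))) (.tw (.s12 (.s13 (.tw (.c 0 (.s13 (.tw (.c 0 (.tw (.c 0 (.b 63) (.b 136))) (.s13 (.tw (.c 0 (.b 5) (.b 5))))))) (.tw (.s12 (.s13 (.tw (.c 0 (.b 99) (.b 247)))))))))))))))),
  (.tw (.c 0 (.tw (.c 0 (.b 13) (.s13 (.tw (.s12 (.s13 (.c 0 (.b 284) (.c 0 (.b 136) (.b 29))))))))) (.s13 (.tw (.c 0 (.s12 (.s13 (.tw (.c 0 (.b 13) (.s13 (.tw (.s12 (.s13 (.c 0 (.b 13) (.b 546)))))))))) (.tw (.s12 (.s13 (.tw (.c 0 (.s13 (.tw (.c 0 (.tw (.c 0 (.b 63) (.b 136))) (.s13 (.tw (.c 0 (.b 5) (.b 5))))))) (.s13 (.tw (.c 0 (.b 200) (.b 44)))))))))))))),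
  (.tw (.c 0 (.tw (.c 0 (.b 13) (.s13 (.tw (.s12 (.s13 (.c 0 (.b 284) (.c 0 (.b 136) (.b 29))))))))) (.s13 (.tw (.c 0 (.s12 (.s13 (.tw (.c 0 (.b 136) (.s13 (.tw (.s12 (.s13 (.c 0 (.b 13) (.b 546)))))))))) (.tw (.s12 (.s13 (.tw (.c 0 (.s13 (.tw (.c 0 (.b 136) (.b 44)))) (.tw (.s12 (.s13 (.tw (.c 0 (.s12 (.s13 (.tw (.c 0 (.b 63) (.b 24))))) (.s13 (.tw (.c 0 (.b 176) (.b 5))))))))))))))))))),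
  (.tw (.c 0 (.tw (.c 0 (.b 284) (.s13 (.tw (.s12 (.s13 (.c 0 (.b 63) (.b 93)))))))) (.s13 (.tw (.c 0 (.s12 (.s13 (.tw (.c 0 (.b 136) (.s13 (.tw (.s12 (.s13 (.c 0 (.b 13) (.b 546)))))))))) (.tw (.s12 (.s13 (.tw (.c 0 (.s13 (.tw (.c 0 (.b 136) (.b 44)))) (.tw (.s12 (.s13 (.tw (.c 0 (.tw (.c 0 (.b 63) (.b 136))) (.s13 (.tw (.c 0 (.b 176) (.b 5))))))))))))))))))),
  (.tw (.c 0 (.tw (.c 0 (.b 13) (.s13 (.tw (.s12 (.s13 (.c 0 (.b 284) (.c 0 (.b 136) (.b 29))))))))) (.s13 (.tw (.c 0 (.s12 (.s13 (.tw (.c 0 (.b 136) (.s13 (.tw (.s12 (.s13 (.c 0 (.b 13) (.b 546)))))))))) (.tw (.s12 (.s13 (.tw (.c 0 (.s13 (.tw (.c 0 (.b 136) (.b 44)))) (.tw (.s12 (.s13 (.tw (.c 0 (.s12 (.s13 (.tw (.c 0 (.b 44) (.b 1))))) (.s13 (.tw (.c 0 (.b 176) (.b 5))))))))))))))))))),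
  (.tw (.c 0 (.tw (.c 0 (.b 13) (.s13 (.tw (.s12 (.s13 (.c 0 (.b 284) (.c 0 (.b 136) (.b 29))))))))) (.s13 (.tw (.c 0 (.s12 (.s13 (.tw (.c 0 (.b 13) (.s13 (.tw (.s12 (.s13 (.c 0 (.b 136) (.b 581)))))))))) (.tw (.s12 (.s13 (.tw (.c 0 (.s13 (.tw (.c 0 (.b 136) (.b 44)))) (.s13 (.tw (.c 0 (.tw (.c 0 (.b 63) (.b 136))) (.s13 (.tw (.c 0 (.b 384) (.b 5))))))))))))))))),
  (.tw (.c 0 (.tw (.c 0 (.b 13) (.s13 (.tw (.s12 (.s13 (.c 0 (.b 284) (.c 0 (.b 136) (.b 29))))))))) (.s13 (.tw (.c 0 (.s12 (.s13 (.tw (.s12 (.c 0 (.b 136) (.b 147)))))) (.s12 (.s13 (.tw (.c 0 (.s13 (.tw (.s12 (.c 0 (.s13 (.tw (.c 0 (.b 14) (.b 44)))) (.s13 (.tw (.c 0 (.b 5) (.b 5)))))))) (.s13 (.tw (.c 0 (.b 180) (.b 44))))))))))))),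
  (.tw (.c 0 (.tw (.c 0 (.b 13) (.s13 (.tw (.s12 (.s13 (.c 0 (.b 284) (.c 0 (.b 136) (.b 29))))))))) (.s13 (.tw (.c 0 (.s12 (.s13 (.tw (.s12 (.c 0 (.b 136) (.b 147)))))) (.tw (.s12 (.s13 (.tw (.c 0 (.s13 (.tw (.c 0 (.b 24) (.s13 (.tw (.s12 (.s13 (.c 0 (.b 14) (.b 44))))))))) (.s13 (.tw (.c 0 (.tw (.c 0 (.b 63) (.b 136))) (.s13 (.tw (.c 0 (.b 5) (.b 5))))))))))))))))),
  (.tw (.c 0 (.tw (.c 0 (.b 284) (.s13 (.tw (.s12 (.s13 (.c 0 (.b 63) (.b 93)))))))) (.s13 (.tw (.c 0 (.s12 (.s13 (.tw (.c 0 (.b 13) (.s13 (.tw (.s12 (.s13 (.c 0 (.b 13) (.b 337)))))))))) (.tw (.s12 (.s13 (.tw (.c 0 (.s13 (.tw (.c 0 (.b 136) (.s13 (.tw (.s12 (.s13 (.c 0 (.b 44) (.b 1))))))))) (.s13 (.tw (.c 0 (.tw (.c 0 (.b 63) (.b 136))) (.s13 (.tw (.c 0 (.b 5) (.b 5))))))))))))))))),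
  (.tw (.c 0 (.tw (.c 0 (.b 13) (.s13 (.tw (.s12 (.s13 (.c 0 (.b 284) (.c 0 (.b 136) (.b 29))))))))) (.s13 (.tw (.c 0 (.s12 (.s13 (.tw (.s12 (.c 0 (.b 136) (.b 147)))))) (.tw (.s12 (.s13 (.tw (.c 0 (.tw (.s12 (.s13 (.tw (.c 0 (.b 67) (.s13 (.tw (.s13 (.c 0 (.b 14) (.b 44)))))))))) (.tw (.s12 (.s13 (.tw (.c 0 (.s12 (.s13 (.tw (.c 0 (.b 44) (.b 1))))) (.s13 (.tw (.c 0 (.b 5) (.b 5))))))))))))))))))),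
  (.tw (.c 0 (.tw (.c 0 (.b 284) (.s13 (.tw (.s12 (.s13 (.c 0 (.b 63) (.b 93)))))))) (.s13 (.tw (.c 0 (.s12 (.s13 (.tw (.c 0 (.b 136) (.s13 (.tw (.s12 (.s13 (.c 0 (.b 13) (.b 546)))))))))) (.tw (.s12 (.s13 (.tw (.c 0 (.s13 (.tw (.c 0 (.b 136) (.s13 (.tw (.s12 (.s13 (.c 0 (.b 44) (.b 1))))))))) (.s13 (.tw (.c 0 (.tw (.c 0 (.b 63) (.b 136))) (.s13 (.tw (.c 0 (.b 5) (.b 124))))))))))))))))),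
  (.tw (.c 0 (.tw (.c 0 (.b 13) (.s13 (.tw (.s12 (.s13 (.c 0 (.b 284) (.c 0 (.b 136) (.b 29))))))))) (.s13 (.tw (.c 0 (.s12 (.s13 (.tw (.s12 (.c 0 (.b 136) (.b 147)))))) (.tw (.s12 (.s13 (.tw (.c 0 (.tw (.s12 (.s13 (.tw (.c 0 (.b 67) (.s13 (.tw (.s13 (.c 0 (.b 14) (.b 44)))))))))) (.tw (.s12 (.s13 (.tw (.c 0 (.s12 (.s13 (.tw (.c 0 (.b 57) (.b 136))))) (.s13 (.tw (.c 0 (.b 5) (.b 5))))))))))))))))))),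
  (.tw (.c 0 (.tw (.c 0 (.b 13) (.s13 (.tw (.s12 (.s13 (.c 0 (.b 284) (.c 0 (.b 136) (.b 29))))))))) (.s13 (.tw (.c 0 (.s12 (.s13 (.tw (.s12 (.c 0 (.b 136) (.b 147)))))) (.tw (.s12 (.s13 (.tw (.c 0 (.tw (.s12 (.s13 (.tw (.c 0 (.b 67) (.s13 (.tw (.s13 (.c 0 (.b 14) (.b 44)))))))))) (.s13 (.tw (.c 0 (.tw (.c 0 (.b 63) (.b 136))) (.s13 (.tw (.c 0 (.b 5) (.b 5))))))))))))))))),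
  (.tw (.c 0 (.tw (.c 0 (.b 1) (.s13 (.tw (.s13 (.c 0 (.b 1) (.b 21))))))) (.s13 (.c 0 (.tw (.c 0 (.b 23) (.tw (.s12 (.s13 (.tw (.c 0 (.s13 (.tw (.c 0 (.b 12) (.b 172)))) (.tw (.s13 (.tw (.c 0 (.b 63) (.s13 (.tw (.s12 (.s13 (.c 0 (.b 136) (.b 44))))))))))))))))) (.s13 (.tw (.c 0 (.s13 (.tw (.c 0 (.b 12) (.b 172)))) (.tw (.s13 (.tw (.c 0 (.b 304) (.s13 (.tw (.s12 (.s13 (.c 0 (.b 63) (.b 44))))))))))))))))),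
  (.tw (.c 0 (.tw (.c 0 (.b 13) (.s13 (.tw (.s12 (.s13 (.c 0 (.b 284) (.c 0 (.b 136) (.b 29))))))))) (.s13 (.tw (.c 0 (.s12 (.s13 (.tw (.c 0 (.b 13) (.s13 (.tw (.s12 (.s13 (.c 0 (.b 136) (.b 598)))))))))) (.tw (.s12 (.s13 (.tw (.c 0 (.s13 (.tw (.c 0 (.b 136) (.b 44)))) (.tw (.s12 (.s13 (.tw (.c 0 (.s12 (.s13 (.tw (.c 0 (.b 63) (.b 24))))) (.s13 (.tw (.s12 (.c 0 (.b 5) (.b 124)))))))))))))))))))),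
  (.tw (.c 0 (.tw (.c 0 (.b 284) (.s13 (.tw (.s12 (.s13 (.c 0 (.b 63) (.b 93)))))))) (.s13 (.tw (.c 0 (.s12 (.s13 (.tw (.c 0 (.b 13) (.s13 (.tw (.s12 (.s13 (.c 0 (.b 136) (.b 598)))))))))) (.tw (.s12 (.s13 (.tw (.c 0 (.s13 (.tw (.c 0 (.b 136) (.b 44)))) (.s13 (.tw (.c 0 (.tw (.c 0 (.b 63) (.b 136))) (.s13 (.tw (.c 0 (.b 5) (.b 124))))))))))))))))),
  (.tw (.c 0 (.tw (.c 0 (.b 13) (.s13 (.tw (.s12 (.s13 (.c 0 (.b 284) (.c 0 (.b 136) (.b 29))))))))) (.s13 (.tw (.c 0 (.s12 (.s13 (.tw (.c 0 (.b 13) (.s13 (.tw (.s12 (.s13 (.c 0 (.b 13) (.b 546)))))))))) (.tw (.s12 (.s13 (.tw (.c 0 (.s13 (.tw (.c 0 (.b 136) (.s13 (.tw (.s12 (.s13 (.c 0 (.b 44) (.b 1))))))))) (.tw (.s12 (.s13 (.tw (.c 0 (.s12 (.s13 (.tw (.c 0 (.b 57) (.b 136))))) (.s13 (.tw (.c 0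 (.b 5) (.b 5))))))))))))))))))),
  (.tw (.c 0 (.tw (.c 0 (.b 13) (.s13 (.tw (.s12 (.s13 (.c 0 (.b 284) (.c 0 (.b 136) (.b 29))))))))) (.s13 (.tw (.c 0 (.s12 (.s13 (.tw (.c 0 (.b 13) (.s13 (.tw (.s12 (.s13 (.c 0 (.b 13) (.b 546)))))))))) (.tw (.s12 (.s13 (.tw (.c 0 (.s13 (.tw (.c 0 (.b 136) (.s13 (.tw (.s12 (.s13 (.c 0 (.b 44) (.b 1))))))))) (.s13 (.tw (.c 0 (.tw (.c 0 (.b 63) (.b 136))) (.s13 (.tw (.c 0 (.b 5) (.b 5))))))))))))))))),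
  (.tw (.c 0 (.s12 (.s13 (.tw (.s12 (.c 0 (.b 284) (.s13 (.tw (.s12 (.s13 (.c 0 (.b 63) (.s13 (.tw (.s12 (.s13 (.c 0 (.b 284) (.b 27)))))))))))))))) (.s13 (.tw (.s12 (.c 0 (.s13 (.tw (.c 0 (.b 57) (.s13 (.tw (.s12 (.s13 (.c 0 (.b 14) (.c 0 (.b 136) (.b 136)))))))))) (.tw (.s13 (.tw (.c 0 (.s13 (.tw (.c 0 (.b 136) (.b 44)))) (.tw (.s13 (.tw (.c 0 (.s13 (.tw (.s12 (.c 0 (.b 63) (.b 381))))) (.s13 (.tw (.s12 (.c 0 (.b 44) (.b 12))))))))))))))))))),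
  (.tw (.c 0 (.tw (.c 0 (.b 284) (.s13 (.tw (.s12 (.s13 (.c 0 (.b 63) (.b 93)))))))) (.s13 (.tw (.c 0 (.s13 (.tw (.c 0 (.b 136) (.s13 (.tw (.s12 (.s13 (.c 0 (.b 63) (.b 207))))))))) (.tw (.s13 (.tw (.c 0 (.s13 (.tw (.c 0 (.b 136) (.b 44)))) (.tw (.s13 (.tw (.c 0 (.s13 (.tw (.s12 (.c 0 (.b 63) (.b 381))))) (.s13 (.tw (.c 0 (.b 63) (.b 44))))))))))))))))),
  (.tw (.c 0 (.tw (.c 0 (.b 13) (.s13 (.tw (.s12 (.s13 (.c 0 (.b 284) (.c 0 (.b 136) (.b 29))))))))) (.s13 (.tw (.c 0 (.s12 (.s13 (.tw (.c 0 (.b 13) (.s13 (.tw (.s12 (.s13 (.c 0 (.b 58) (.c 0 (.b 136) (.b 136))))))))))) (.tw (.s12 (.s13 (.tw (.c 0 (.s13 (.tw (.c 0 (.b 136) (.b 44)))) (.s13 (.tw (.c 0 (.s13 (.tw (.s12 (.c 0 (.b 334) (.b 73))))) (.b 5)))))))))))))),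
  (.tw (.c 0 (.tw (.c 0 (.b 13) (.s13 (.tw (.s12 (.s13 (.c 0 (.b 284) (.c 0 (.b 136) (.b 29))))))))) (.s13 (.tw (.c 0 (.s12 (.s13 (.tw (.c 0 (.b 13) (.s13 (.tw (.s12 (.s13 (.c 0 (.b 58) (.c 0 (.b 136) (.b 136))))))))))) (.tw (.s12 (.s13 (.tw (.c 0 (.s13 (.tw (.c 0 (.b 136) (.b 44)))) (.s13 (.tw (.c 0 (.b 387) (.s13 (.tw (.c 0 (.b 384) (.b 5))))))))))))))))),
  (.tw (.c 0 (.tw (.c 0 (.b 1) (.s13 (.tw (.s13 (.c 0 (.b 1) (.b 21))))))) (.s13 (.c 0 (.tw (.s12 (.c 0 (.s13 (.tw (.c 0 (.b 12) (.b 172)))) (.tw (.s13 (.tw (.c 0 (.b 279) (.tw (.s12 (.s13 (.tw (.c 0 (.b 136) (.s13 (.tw (.s12 (.s13 (.c 0 (.b 44) (.b 12)))))))))))))))))) (.s12 (.s13 (.tw (.c 0 (.s13 (.tw (.c 0 (.b 12) (.b 172)))) (.tw (.s12 (.s13 (.tw (.c 0 (.b 136) (.s13 (.tw (.s12 (.s13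 (.c 0 (.b 63) (.b 44))))))))))))))))))),
  (.tw (.c 0 (.tw (.c 0 (.b 284) (.s13 (.tw (.s12 (.s13 (.c 0 (.b 63) (.b 93)))))))) (.tw (.s13 (.s12 (.c 0 (.tw (.s13 (.s12 (.c 0 (.s13 (.tw (.s12 (.c 0 (.b 247) (.b 152))))) (.s13 (.tw (.c 0 (.b 381) (.b 44)))))))) (.s13 (.tw (.s12 (.c 0 (.b 304) (.s13 (.tw (.s12 (.s13 (.c 0 (.b 136) (.s13 (.tw (.s12 (.s13 (.c 0 (.b 44) (.b 12))))))))))))))))))))),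
  (.tw (.c 0 (.tw (.c 0 (.b 13) (.s13 (.tw (.s12 (.s13 (.c 0 (.b 284) (.c 0 (.b 136) (.b 29))))))))) (.s13 (.tw (.c 0 (.s13 (.tw (.c 0 (.b 462) (.tw (.s12 (.s13 (.tw (.c 0 (.b 381) (.b 381))))))))) (.tw (.s13 (.tw (.c 0 (.s13 (.tw (.c 0 (.b 136) (.b 351)))) (.s13 (.tw (.c 0 (.b 5) (.s13 (.tw (.c 0 (.b 384) (.b 5)))))))))))))))),
  (.tw (.c 0 (.tw (.c 0 (.b 1) (.s13 (.tw (.s13 (.c 0 (.b 1) (.b 21))))))) (.s13 (.c 0 (.tw (.c 0 (.tw (.s13 (.tw (.c 0 (.b 284) (.b 272))))) (.tw (.s13 (.tw (.c 0 (.b 273) (.s13 (.tw (.s12 (.s13 (.c 0 (.b 24) (.b 136)))))))))))) (.s13 (.tw (.c 0 (.tw (.s13 (.tw (.c 0 (.b 284) (.s13 (.tw (.s12 (.s13 (.c 0 (.b 136) (.b 44)))))))))) (.b 273)))))))),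
  (.tw (.c 0 (.tw (.c 0 (.b 13) (.s13 (.tw (.s12 (.s13 (.c 0 (.b 13) (.c 0 (.b 14) (.s13 (.tw (.s12 (.s13 (.c 0 (.b 381) (.b 381)))))))))))))) (.s13 (.tw (.c 0 (.s13 (.tw (.c 0 (.b 13) (.b 236)))) (.tw (.s13 (.tw (.c 0 (.s13 (.tw (.c 0 (.b 24) (.s13 (.tw (.s12 (.s13 (.c 0 (.b 44) (.b 1))))))))) (.s13 (.tw (.c 0 (.s13 (.tw (.c 0 (.b 44) (.b 1)))) (.s13 (.tw (.c 0 (.b 5) (.b 5)))))))))))))))),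
  (.tw (.c 0 (.tw (.c 0 (.b 284) (.s13 (.tw (.s12 (.s13 (.c 0 (.b 63) (.b 93)))))))) (.s13 (.tw (.c 0 (.s12 (.s13 (.tw (.c 0 (.s13 (.tw (.s12 (.s13 (.c 0 (.b 14) (.c 0 (.b 136) (.b 136))))))) (.b 29))))) (.tw (.s12 (.s13 (.tw (.c 0 (.s13 (.tw (.s12 (.c 0 (.b 136) (.b 405))))) (.s13 (.tw (.c 0 (.b 73) (.s13 (.tw (.c 0 (.b 5) (.b 124))))))))))))))))),
  (.tw (.c 0 (.tw (.c 0 (.b 13) (.s13 (.tw (.s12 (.s13 (.c 0 (.b 13) (.c 0 (.b 14) (.s13 (.tw (.s12 (.s13 (.c 0 (.b 381) (.b 381)))))))))))))) (.s13 (.tw (.c 0 (.s13 (.tw (.c 0 (.b 13) (.b 236)))) (.tw (.s13 (.tw (.c 0 (.s13 (.tw (.c 0 (.b 249) (.b 44)))) (.s13 (.tw (.c 0 (.s13 (.tw (.c 0 (.b 44) (.b 1)))) (.s13 (.tw (.c 0 (.b 5) (.b 5)))))))))))))))),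
  (.tw (.c 0 (.tw (.c 0 (.b 13) (.s13 (.tw (.s12 (.s13 (.c 0 (.b 13) (.c 0 (.b 14) (.s13 (.tw (.s12 (.s13 (.c 0 (.b 381) (.b 381)))))))))))))) (.s13 (.tw (.c 0 (.s13 (.tw (.c 0 (.b 13) (.b 236)))) (.s13 (.c 0 (.s12 (.s13 (.tw (.s12 (.c 0 (.b 666) (.s13 (.tw (.s12 (.s13 (.c 0 (.b 63) (.b 44))))))))))) (.tw (.c 0 (.b 666) (.s13 (.tw (.s12 (.s13 (.c 0 (.b 63) (.b 44))))))))))))))),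
  (.tw (.c 0 (.tw (.c 0 (.b 284) (.s13 (.tw (.s12 (.s13 (.c 0 (.b 63) (.b 93)))))))) (.s13 (.tw (.c 0 (.s12 (.s13 (.tw (.c 0 (.b 136) (.s13 (.tw (.s12 (.s13 (.c 0 (.b 13) (.b 337)))))))))) (.tw (.s12 (.s13 (.tw (.c 0 (.s13 (.tw (.c 0 (.b 136) (.s13 (.tw (.s12 (.s13 (.c 0 (.b 44) (.b 1))))))))) (.s13 (.tw (.c 0 (.tw (.c 0 (.b 63) (.b 136))) (.s13 (.tw (.c 0 (.b 5) (.b 124))))))))))))))))),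
  (.tw (.c 0 (.tw (.c 0 (.b 13) (.s13 (.tw (.s12 (.s13 (.c 0 (.b 13) (.c 0 (.b 14) (.s13 (.tw (.s12 (.s13 (.c 0 (.b 381) (.b 381)))))))))))))) (.s13 (.tw (.c 0 (.s13 (.tw (.c 0 (.b 13) (.b 236)))) (.tw (.s13 (.tw (.c 0 (.s13 (.tw (.c 0 (.b 136) (.s13 (.tw (.s12 (.s13 (.c 0 (.b 44) (.b 1))))))))) (.tw (.s12 (.s13 (.tw (.c 0 (.s13 (.tw (.c 0 (.b 63) (.b 124)))) (.s13 (.tw (.c 0 (.b 5) (.b 5)))))))))))))))))),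
  (.tw (.c 0 (.tw (.c 0 (.b 13) (.s13 (.tw (.s12 (.s13 (.c 0 (.b 13) (.c 0 (.b 14) (.s13 (.tw (.s12 (.s13 (.c 0 (.b 381) (.b 381)))))))))))))) (.s13 (.tw (.c 0 (.s13 (.tw (.c 0 (.b 13) (.b 236)))) (.tw (.s13 (.tw (.c 0 (.s13 (.tw (.c 0 (.b 136) (.s13 (.tw (.s12 (.s13 (.c 0 (.b 44) (.b 1))))))))) (.s13 (.tw (.c 0 (.s13 (.tw (.c 0 (.b 44) (.b 1)))) (.s13 (.tw (.c 0 (.b 5) (.b 5)))))))))))))))),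
  (.tw (.c 0 (.s12 (.s13 (.tw (.s12 (.c 0 (.b 284) (.s13 (.tw (.s12 (.s13 (.c 0 (.b 63) (.s13 (.tw (.s12 (.s13 (.c 0 (.b 284) (.b 27)))))))))))))))) (.s13 (.tw (.s12 (.c 0 (.s13 (.tw (.c 0 (.b 14) (.s13 (.tw (.s12 (.s13 (.c 0 (.b 136) (.b 536))))))))) (.s12 (.s13 (.tw (.c 0 (.s13 (.tw (.c 0 (.b 136) (.b 44)))) (.tw (.s12 (.c 0 (.s13 (.tw (.c 0 (.b 44) (.b 12)))) (.s13 (.tw (.s12 (.c 0 (.b 13) (.b 239)))))))))))))))))),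
  (.tw (.c 0 (.tw (.c 0 (.b 284) (.s13 (.tw (.s12 (.s13 (.c 0 (.b 63) (.b 93)))))))) (.s13 (.tw (.c 0 (.s12 (.s13 (.tw (.c 0 (.s13 (.tw (.s12 (.s13 (.c 0 (.b 14) (.c 0 (.b 136) (.b 136))))))) (.b 16))))) (.s12 (.s13 (.tw (.c 0 (.s13 (.tw (.c 0 (.b 63) (.c 0 (.b 136) (.b 136))))) (.tw (.s13 (.s12 (.c 0 (.s13 (.tw (.s12 (.c 0 (.b 63) (.b 381))))) (.s13 (.tw (.c 0 (.b 63) (.b 44))))))))))))))))),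
  (.tw (.c 0 (.tw (.c 0 (.b 13) (.s13 (.tw (.s12 (.s13 (.c 0 (.b 13) (.c 0 (.b 14) (.s13 (.tw (.s12 (.s13 (.c 0 (.b 381) (.b 381)))))))))))))) (.s13 (.tw (.c 0 (.s13 (.tw (.c 0 (.b 57) (.s13 (.tw (.s12 (.s13 (.c 0 (.b 57) (.b 44))))))))) (.tw (.s13 (.tw (.c 0 (.s13 (.tw (.c 0 (.b 136) (.b 44)))) (.s13 (.tw (.c 0 (.b 143) (.s13 (.tw (.c 0 (.b 384) (.b 5)))))))))))))))),
  (.tw (.c 0 (.tw (.c 0 (.b 13) (.s13 (.tw (.s12 (.s13 (.c 0 (.b 13) (.c 0 (.b 14) (.s13 (.tw (.s12 (.s13 (.c 0 (.b 381) (.b 381)))))))))))))) (.s13 (.tw (.c 0 (.s13 (.tw (.c 0 (.b 57) (.s13 (.tw (.s12 (.s13 (.c 0 (.b 57) (.b 44))))))))) (.tw (.s13 (.tw (.c 0 (.s13 (.tw (.c 0 (.b 136) (.b 44)))) (.s13 (.tw (.c 0 (.b 5) (.s13 (.tw (.c 0 (.b 5) (.b 124)))))))))))))))),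
  (.tw (.c 0 (.tw (.c 0 (.b 1) (.s13 (.tw (.s13 (.c 0 (.b 1) (.b 21))))))) (.s13 (.c 0 (.tw (.c 0 (.b 23) (.s13 (.tw (.s12 (.s13 (.c 0 (.s12 (.s13 (.tw (.c 0 (.b 12) (.b 172))))) (.tw (.s12 (.s13 (.tw (.c 0 (.b 304) (.s13 (.tw (.s12 (.s13 (.c 0 (.b 24) (.b 136)))))))))))))))))) (.s13 (.tw (.c 0 (.s13 (.tw (.c 0 (.b 12) (.b 172)))) (.tw (.s13 (.tw (.c 0 (.b 304) (.s13 (.tw (.s12 (.s13 (.c 0 (.b 63) (.b 44))))))))))))))))),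
  (.tw (.c 0 (.tw (.c 0 (.b 284) (.s13 (.tw (.s12 (.s13 (.c 0 (.b 63) (.b 93)))))))) (.s13 (.tw (.c 0 (.s13 (.tw (.c 0 (.b 14) (.tw (.s12 (.s13 (.tw (.c 0 (.b 136) (.b 536))))))))) (.tw (.s12 (.s13 (.tw (.c 0 (.s13 (.tw (.s12 (.c 0 (.b 136) (.b 405))))) (.s13 (.tw (.c 0 (.s13 (.tw (.c 0 (.b 44) (.b 1)))) (.s13 (.tw (.c 0 (.b 5) (.b 124))))))))))))))))),
  (.tw (.c 0 (.tw (.c 0 (.b 13) (.s13 (.tw (.s12 (.s13 (.c 0 (.b 13) (.c 0 (.b 14) (.s13 (.tw (.s12 (.s13 (.c 0 (.b 381) (.b 381)))))))))))))) (.s13 (.tw (.c 0 (.s13 (.tw (.c 0 (.b 136) (.s13 (.tw (.s12 (.s13 (.c 0 (.b 14) (.b 239))))))))) (.tw (.s13 (.tw (.c 0 (.s13 (.tw (.c 0 (.b 136) (.b 44)))) (.tw (.s12 (.s13 (.tw (.c 0 (.b 269) (.s13 (.tw (.s12 (.c 0 (.b 5) (.b 124))))))))))))))))))),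
  (.tw (.c 0 (.s12 (.s13 (.tw (.s12 (.c 0 (.b 284) (.s13 (.tw (.s12 (.s13 (.c 0 (.b 63) (.s13 (.tw (.s12 (.s13 (.c 0 (.b 284) (.b 27)))))))))))))))) (.s13 (.tw (.s12 (.c 0 (.s13 (.tw (.c 0 (.b 14) (.s13 (.tw (.s12 (.s13 (.c 0 (.b 14) (.c 0 (.b 136) (.b 136)))))))))) (.s12 (.s13 (.tw (.c 0 (.s13 (.tw (.c 0 (.b 63) (.c 0 (.b 136) (.b 136))))) (.tw (.s13 (.s12 (.c 0 (.s13 (.tw (.s12 (.c 0 (.b 63) (.b 381))))) (.s13 (.tw (.s12 (.c 0 (.b 44) (.b 12))))))))))))))))))),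
  (.tw (.c 0 (.tw (.c 0 (.b 284) (.s13 (.tw (.s12 (.s13 (.c 0 (.b 63) (.b 93)))))))) (.s13 (.tw (.c 0 (.s12 (.s13 (.tw (.c 0 (.s13 (.tw (.s12 (.s13 (.c 0 (.b 14) (.c 0 (.b 136) (.b 136))))))) (.b 16))))) (.s12 (.s13 (.c 0 (.s12 (.s13 (.tw (.s12 (.c 0 (.b 304) (.s13 (.tw (.s12 (.s13 (.c 0 (.b 136) (.b 44))))))))))) (.s13 (.tw (.s13 (.c 0 (.b 70) (.b 45))))))))))))),
  (.tw (.c 0 (.tw (.c 0 (.b 13) (.s13 (.tw (.s12 (.s13 (.c 0 (.b 13) (.c 0 (.b 14) (.s13 (.tw (.s12 (.s13 (.c 0 (.b 381) (.b 381)))))))))))))) (.s13 (.tw (.c 0 (.s13 (.tw (.c 0 (.b 136) (.s13 (.tw (.s12 (.s13 (.c 0 (.b 13) (.b 139))))))))) (.tw (.s13 (.tw (.c 0 (.s13 (.tw (.c 0 (.b 136) (.b 44)))) (.s13 (.tw (.c 0 (.b 143) (.s13 (.tw (.c 0 (.b 384) (.b 5)))))))))))))))),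
  (.tw (.c 0 (.tw (.c 0 (.b 13) (.s13 (.tw (.s12 (.s13 (.c 0 (.b 13) (.c 0 (.b 14) (.s13 (.tw (.s12 (.s13 (.c 0 (.b 381) (.b 381)))))))))))))) (.s13 (.tw (.c 0 (.s13 (.tw (.c 0 (.b 136) (.s13 (.tw (.s12 (.s13 (.c 0 (.b 13) (.b 139))))))))) (.tw (.s13 (.tw (.c 0 (.s13 (.tw (.c 0 (.b 136) (.b 44)))) (.s13 (.tw (.c 0 (.b 5) (.s13 (.tw (.c 0 (.b 5) (.b 124)))))))))))))))),
  (.tw (.c 0 (.tw (.c 0 (.b 1) (.s13 (.tw (.s13 (.c 0 (.b 1) (.b 21))))))) (.s13 (.c 0 (.tw (.c 0 (.b 718) (.tw (.s13 (.tw (.c 0 (.b 279) (.tw (.s12 (.s13 (.tw (.c 0 (.b 136) (.s13 (.tw (.s12 (.s13 (.c 0 (.b 44) (.b 12))))))))))))))))) (.s13 (.tw (.c 0 (.s13 (.tw (.c 0 (.b 12) (.b 172)))) (.tw (.s13 (.tw (.c 0 (.b 304) (.s13 (.tw (.s12 (.s13 (.c 0 (.b 63) (.b 44))))))))))))))))),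
  (.tw (.c 0 (.tw (.c 0 (.b 284) (.s13 (.tw (.s12 (.s13 (.c 0 (.b 63) (.b 93)))))))) (.tw (.s13 (.s12 (.c 0 (.tw (.s13 (.s12 (.c 0 (.s13 (.tw (.s12 (.c 0 (.b 247) (.b 152))))) (.s13 (.tw (.c 0 (.b 63) (.b 44)))))))) (.tw (.s13 (.s12 (.c 0 (.b 80) (.s13 (.tw (.s13 (.c 0 (.b 663) (.b 44))))))))))))))),
  (.tw (.c 0 (.tw (.c 0 (.b 13) (.s13 (.tw (.s12 (.s13 (.c 0 (.b 13) (.c 0 (.b 14) (.s13 (.tw (.s12 (.s13 (.c 0 (.b 381) (.b 381)))))))))))))) (.s13 (.tw (.c 0 (.s13 (.tw (.c 0 (.b 58) (.s13 (.tw (.s12 (.s13 (.c 0 (.b 14) (.c 0 (.b 136) (.b 136)))))))))) (.tw (.s13 (.tw (.c 0 (.s13 (.tw (.c 0 (.b 136) (.b 351)))) (.s13 (.tw (.c 0 (.b 5) (.s13 (.tw (.c 0 (.b 384) (.b 5)))))))))))))))),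
  (.c 0 (.tw (.c 0 (.b 1) (.s13 (.tw (.s13 (.c 0 (.b 1) (.b 21))))))) (.s13 (.c 0 (.tw (.c 0 (.tw (.s13 (.tw (.c 0 (.b 284) (.b 200))))) (.tw (.s13 (.tw (.c 0 (.b 273) (.s13 (.tw (.s12 (.s13 (.c 0 (.b 24) (.b 136)))))))))))) (.s13 (.tw (.c 0 (.s13 (.tw (.c 0 (.b 12) (.b 172)))) (.tw (.s13 (.tw (.c 0 (.b 304) (.s13 (.tw (.s12 (.s13 (.c 0 (.b 63) (.b 44)))))))))))))))),
  (.tw (.c 0 (.s12 (.s13 (.tw (.s12 (.c 0 (.b 14) (.s13 (.tw (.s12 (.s13 (.c 0 (.b 304) (.s13 (.tw (.s12 (.s13 (.c 0 (.b 13) (.b 546)))))))))))))))) (.s13 (.tw (.s12 (.c 0 (.s13 (.tw (.c 0 (.b 13) (.s13 (.tw (.s13 (.c 0 (.b 67) (.s13 (.tw (.s13 (.c 0 (.b 14) (.b 44)))))))))))) (.s12 (.s13 (.tw (.c 0 (.s13 (.tw (.c 0 (.b 136) (.b 44)))) (.s13 (.tw (.s13 (.s12 (.c 0 (.b 141) (.s13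 (.tw (.c 0 (.b 44) (.b 12))))))))))))))))))),
  (.c 0 (.tw (.c 0 (.b 1) (.s13 (.tw (.s13 (.c 0 (.b 1) (.b 21))))))) (.s13 (.tw (.c 0 (.s13 (.tw (.c 0 (.s13 (.tw (.c 0 (.b 266) (.b 26)))) (.b 76)))) (.s12 (.s13 (.tw (.c 0 (.s13 (.tw (.c 0 (.b 136) (.b 536)))) (.s13 (.tw (.c 0 (.tw (.c 0 (.b 136) (.b 136))) (.s13 (.tw (.c 0 (.b 5) (.b 5))))))))))))))),
  (.tw (.c 0 (.s12 (.s13 (.tw (.s12 (.c 0 (.b 284) (.s13 (.tw (.s12 (.s13 (.c 0 (.b 63) (.s13 (.tw (.s12 (.s13 (.c 0 (.b 284) (.b 27)))))))))))))))) (.s13 (.tw (.s12 (.c 0 (.s13 (.tw (.c 0 (.b 14) (.s13 (.tw (.s12 (.s13 (.c 0 (.b 14) (.c 0 (.b 136) (.b 136)))))))))) (.s12 (.s13 (.c 0 (.s12 (.s13 (.tw (.s12 (.c 0 (.b 136) (.s13 (.tw (.s12 (.s13 (.c 0 (.b 136) (.b 44))))))))))) (.s13 (.tw (.s13 (.c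 0 (.b 70) (.b 45)))))))))))))),
  (.tw (.c 0 (.tw (.c 0 (.b 284) (.s13 (.tw (.s12 (.s13 (.c 0 (.b 63) (.b 93)))))))) (.s13 (.tw (.c 0 (.s13 (.tw (.c 0 (.b 273) (.s13 (.tw (.s12 (.s13 (.c 0 (.b 136) (.b 180))))))))) (.s13 (.c 0 (.tw (.c 0 (.b 14) (.s13 (.tw (.s12 (.s13 (.c 0 (.b 14) (.c 0 (.b 136) (.b 136))))))))) (.s13 (.tw (.s13 (.c 0 (.b 70) (.b 45)))))))))))),
  (.tw (.c 0 (.tw (.c 0 (.b 14) (.s13 (.tw (.s12 (.s13 (.c 0 (.b 13) (.s13 (.tw (.s12 (.s13 (.c 0 (.b 136) (.s13 (.tw (.s12 (.s13 (.c 0 (.b 63) (.b 369)))))))))))))))))) (.s13 (.tw (.c 0 (.s13 (.tw (.c 0 (.b 14) (.s13 (.tw (.s12 (.s13 (.c 0 (.b 63) (.b 369))))))))) (.tw (.s12 (.s13 (.tw (.c 0 (.s13 (.tw (.s12 (.c 0 (.b 136) (.b 598))))) (.s13 (.tw (.c 0 (.b 320) (.s13 (.tw (.c 0 (.b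 5) (.b 5))))))))))))))))),
  (.tw (.c 0 (.tw (.c 0 (.b 14) (.s13 (.tw (.s12 (.s13 (.c 0 (.b 13) (.s13 (.tw (.s12 (.s13 (.c 0 (.b 136) (.s13 (.tw (.s12 (.s13 (.c 0 (.b 63) (.b 369)))))))))))))))))) (.s13 (.tw (.c 0 (.s13 (.tw (.c 0 (.b 14) (.s13 (.tw (.s12 (.s13 (.c 0 (.b 63) (.b 369))))))))) (.tw (.s12 (.s13 (.tw (.c 0 (.s13 (.tw (.s12 (.c 0 (.b 136) (.b 405))))) (.s13 (.tw (.c 0 (.b 320) (.s13 (.tw (.c 0 (.b 5) (.b 5))))))))))))))))),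
  (.tw (.c 0 (.tw (.c 0 (.b 14) (.s13 (.tw (.s12 (.s13 (.c 0 (.b 14) (.c 0 (.b 304) (.s13 (.tw (.s12 (.s13 (.c 0 (.b 63) (.b 369)))))))))))))) (.s13 (.tw (.c 0 (.s13 (.tw (.c 0 (.b 136) (.s13 (.tw (.s12 (.s13 (.c 0 (.b 13) (.b 139))))))))) (.tw (.s13 (.tw (.c 0 (.s13 (.tw (.c 0 (.b 136) (.b 44)))) (.s13 (.tw (.c 0 (.b 5) (.s13 (.tw (.c 0 (.b 24) (.b 124)))))))))))))))),
  (.tw (.c 0 (.tw (.c 0 (.b 14) (.s13 (.tw (.s12 (.s13 (.c 0 (.b 13) (.s13 (.tw (.s12 (.s13 (.c 0 (.b 136) (.s13 (.tw (.s12 (.s13 (.c 0 (.b 63) (.b 369)))))))))))))))))) (.s13 (.tw (.c 0 (.s13 (.tw (.c 0 (.b 13) (.s13 (.tw (.s12 (.s13 (.c 0 (.b 13) (.b 501))))))))) (.s12 (.s13 (.c 0 (.s12 (.s13 (.tw (.s12 (.c 0 (.b 304) (.s13 (.tw (.s12 (.s13 (.c 0 (.b 136) (.b 44)))))))))))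 (.tw (.c 0 (.b 136) (.s13 (.tw (.s12 (.s13 (.c 0 (.b 63) (.b 44)))))))))))))))),
  (.c 0 (.tw (.c 0 (.b 1) (.s13 (.tw (.s13 (.c 0 (.b 1) (.b 21))))))) (.s13 (.c 0 (.tw (.c 0 (.tw (.s13 (.tw (.c 0 (.b 284) (.b 272))))) (.tw (.s13 (.tw (.c 0 (.b 273) (.s13 (.tw (.s12 (.s13 (.c 0 (.b 24) (.b 136)))))))))))) (.s13 (.tw (.c 0 (.tw (.s13 (.tw (.c 0 (.b 284) (.s13 (.tw (.s12 (.s13 (.c 0 (.b 136) (.b 44)))))))))) (.b 273))))))),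
  (.tw (.c 0 (.tw (.c 0 (.b 14) (.s13 (.tw (.s12 (.s13 (.c 0 (.b 13) (.s13 (.tw (.s12 (.s13 (.c 0 (.b 136) (.s13 (.tw (.s12 (.s13 (.c 0 (.b 63) (.b 369)))))))))))))))))) (.s13 (.tw (.c 0 (.s12 (.s13 (.tw (.c 0 (.b 136) (.s13 (.tw (.s12 (.s13 (.c 0 (.b 58) (.b 44)))))))))) (.tw (.s12 (.s13 (.tw (.c 0 (.s13 (.tw (.c 0 (.b 136) (.s13 (.tw (.s12 (.s13 (.c 0 (.b 44) (.b 1))))))))) (.s13 (.tw (.s12 (.c 0 (.b 5) (.s13 (.tw (.c 0 (.b 63) (.b 24)))))))))))))))))),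
  (.c 0 (.tw (.c 0 (.b 1) (.s13 (.tw (.s13 (.c 0 (.b 1) (.b 21))))))) (.s13 (.c 0 (.tw (.c 0 (.tw (.s13 (.tw (.c 0 (.b 63) (.b 526))))) (.tw (.s13 (.tw (.c 0 (.b 273) (.s13 (.tw (.s12 (.s13 (.c 0 (.b 24) (.b 136)))))))))))) (.s13 (.tw (.c 0 (.s13 (.tw (.c 0 (.b 12) (.b 172)))) (.tw (.s13 (.tw (.c 0 (.b 304) (.s13 (.tw (.s12 (.s13 (.c 0 (.b 63) (.b 44))))))))))))))))]

theorem good0 : ∀ l ∈ box0, G (l, H, H) := by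
  intro l hl
  have h := G_chkTbl tbl_good (ts := box0.map fun l => (l, H, H)) (ds := dv0) (by decide +kernel)
  exact h _ (List.mem_map.mpr ⟨l, hl, rfl⟩)

def box1 : List (List ℕ) := [
  [8,8,8,7,7,7,6,1],
  [8,8,8,7,7,7,7],
  [8,8,8,8,4,4,4,4,4],
  [8,8,8,8,5,4,4,4,3],
  [8,8,8,8,5,5,4,3,3],
  [8,8,8,8,5,5,4,4,1,1],
  [8,8,8,8,5,5,4,4,2],
  [8,8,8,8,5,5,5,3,1,1],
  [8,8,8,8,5,5,5,3,2],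
  [8,8,8,8,5,5,5,4,1],
  [8,8,8,8,5,5,5,5],
  [8,8,8,8,6,4,4,3,3],
  [8,8,8,8,6,4,4,4,1,1],
  [8,8,8,8,6,4,4,4,2],
  [8,8,8,8,6,5,3,3,3],
  [8,8,8,8,6,5,4,3,1,1],
  [8,8,8,8,6,5,4,3,2],
  [8,8,8,8,6,5,4,4,1],
  [8,8,8,8,6,5,5,1,1,1,1],
  [8,8,8,8,6,5,5,2,1,1],
  [8,8,8,8,6,5,5,2,2],
  [8,8,8,8,6,5,5,3,1],
  [8,8,8,8,6,5,5,4],
  [8,8,8,8,6,6,3,3,1,1],
  [8,8,8,8,6,6,3,3,2],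
  [8,8,8,8,6,6,4,1,1,1,1],
  [8,8,8,8,6,6,4,2,1,1],
  [8,8,8,8,6,6,4,2,2],
  [8,8,8,8,6,6,4,3,1],
  [8,8,8,8,6,6,4,4],
  [8,8,8,8,6,6,5,1,1,1],
  [8,8,8,8,6,6,5,2,1],
  [8,8,8,8,6,6,5,3],
  [8,8,8,8,6,6,6,1,1],
  [8,8,8,8,6,6,6,2],
  [8,8,8,8,7,4,3,3,3],
  [8,8,8,8,7,4,4,3,1,1],
  [8,8,8,8,7,4,4,3,2],
  [8,8,8,8,7,4,4,4,1],
  [8,8,8,8,7,5,3,3,1,1],
  [8,8,8,8,7,5,3,3,2],
  [8,8,8,8,7,5,4,1,1,1,1],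
  [8,8,8,8,7,5,4,2,1,1],
  [8,8,8,8,7,5,4,2,2],
  [8,8,8,8,7,5,4,3,1],
  [8,8,8,8,7,5,4,4],
  [8,8,8,8,7,5,5,1,1,1],
  [8,8,8,8,7,5,5,2,1],
  [8,8,8,8,7,5,5,3],
  [8,8,8,8,7,6,3,1,1,1,1],
  [8,8,8,8,7,6,3,2,1,1],
  [8,8,8,8,7,6,3,2,2],
  [8,8,8,8,7,6,3,3,1],
  [8,8,8,8,7,6,4,1,1,1],
  [8,8,8,8,7,6,4,2,1],
  [8,8,8,8,7,6,4,3],
  [8,8,8,8,7,6,5,1,1],
  [8,8,8,8,7,6,5,2],
  [8,8,8,8,7,6,6,1],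
  [8,8,8,8,7,7,1,1,1,1,1,1],
  [8,8,8,8,7,7,2,1,1,1,1],
  [8,8,8,8,7,7,2,2,1,1],
  [8,8,8,8,7,7,2,2,2],
  [8,8,8,8,7,7,3,1,1,1],
  [8,8,8,8,7,7,3,2,1],
  [8,8,8,8,7,7,3,3],
  [8,8,8,8,7,7,4,1,1],
  [8,8,8,8,7,7,4,2],
  [8,8,8,8,7,7,5,1],
  [8,8,8,8,7,7,6],
  [8,8,8,8,8,3,3,3,3],
  [8,8,8,8,8,4,3,3,1,1],
  [8,8,8,8,8,4,3,3,2],
  [8,8,8,8,8,4,4,1,1,1,1],
  [8,8,8,8,8,4,4,2,1,1],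
  [8,8,8,8,8,4,4,2,2],
  [8,8,8,8,8,4,4,3,1],
  [8,8,8,8,8,4,4,4],
  [8,8,8,8,8,5,3,1,1,1,1],
  [8,8,8,8,8,5,3,2,1,1],
  [8,8,8,8,8,5,3,2,2],
  [8,8,8,8,8,5,3,3,1],
  [8,8,8,8,8,5,4,1,1,1],
  [8,8,8,8,8,5,4,2,1],
  [8,8,8,8,8,5,4,3],
  [8,8,8,8,8,5,5,1,1],
  [8,8,8,8,8,5,5,2],
  [8,8,8,8,8,6,1,1,1,1,1,1],
  [8,8,8,8,8,6,2,1,1,1,1],
  [8,8,8,8,8,6,2,2,1,1],
  [8,8,8,8,8,6,2,2,2],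
  [8,8,8,8,8,6,3,1,1,1],
  [8,8,8,8,8,6,3,2,1],
  [8,8,8,8,8,6,3,3],
  [8,8,8,8,8,6,4,1,1],
  [8,8,8,8,8,6,4,2],
  [8,8,8,8,8,6,5,1],
  [8,8,8,8,8,6,6],
  [8,8,8,8,8,7,1,1,1,1,1],
  [8,8,8,8,8,7,2,1,1,1],
  [8,8,8,8,8,7,2,2,1],
  [8,8,8,8,8,7,3,1,1],
  [8,8,8,8,8,7,3,2],
  [8,8,8,8,8,7,4,1],
  [8,8,8,8,8,7,5],
  [8,8,8,8,8,8,1,1,1,1],
  [8,8,8,8,8,8,2,1,1],
  [8,8,8,8,8,8,2,2],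
  [8,8,8,8,8,8,3,1],
  [8,8,8,8,8,8,4],
  [9,6,6,6,5,5,5,5,5],
  [9,6,6,6,6,5,5,5,4],
  [9,6,6,6,6,6,5,4,4],
  [9,6,6,6,6,6,5,5,3],
  [9,6,6,6,6,6,6,4,3],
  [9,6,6,6,6,6,6,5,1,1],
  [9,6,6,6,6,6,6,5,2],
  [9,6,6,6,6,6,6,6,1],
  [9,7,6,5,5,5,5,5,5],
  [9,7,6,6,5,5,5,5,4],
  [9,7,6,6,6,5,5,4,4],
  [9,7,6,6,6,5,5,5,3],
  [9,7,6,6,6,6,4,4,4],
  [9,7,6,6,6,6,5,4,3],
  [9,7,6,6,6,6,5,5,1,1],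
  [9,7,6,6,6,6,5,5,2],
  [9,7,6,6,6,6,6,3,3],
  [9,7,6,6,6,6,6,4,1,1],
  [9,7,6,6,6,6,6,4,2],
  [9,7,6,6,6,6,6,5,1],
  [9,7,6,6,6,6,6,6],
  [9,7,7,5,5,5,5,5,4],
  [9,7,7,6,5,5,5,4,4],
  [9,7,7,6,5,5,5,5,3],
  [9,7,7,6,6,5,4,4,4],
  [9,7,7,6,6,5,5,4,3],
  [9,7,7,6,6,5,5,5,1,1],
  [9,7,7,6,6,5,5,5,2],
  [9,7,7,6,6,6,4,4,3],
  [9,7,7,6,6,6,5,3,3],
  [9,7,7,6,6,6,5,4,1,1],
  [9,7,7,6,6,6,5,4,2],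
  [9,7,7,6,6,6,5,5,1],
  [9,7,7,6,6,6,6,3,1,1],
  [9,7,7,6,6,6,6,3,2],
  [9,7,7,6,6,6,6,4,1],
  [9,7,7,6,6,6,6,5],
  [9,7,7,7,5,5,4,4,4],
  [9,7,7,7,5,5,5,4,3],
  [9,7,7,7,5,5,5,5,1,1],
  [9,7,7,7,5,5,5,5,2],
  [9,7,7,7,6,4,4,4,4],
  [9,7,7,7,6,5,4,4,3],
  [9,7,7,7,6,5,5,3,3],
  [9,7,7,7,6,5,5,4,1,1],
  [9,7,7,7,6,5,5,4,2],
  [9,7,7,7,6,5,5,5,1],
  [9,7,7,7,6,6,4,3,3],
  [9,7,7,7,6,6,4,4,1,1],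
  [9,7,7,7,6,6,4,4,2],
  [9,7,7,7,6,6,5,3,1,1],
  [9,7,7,7,6,6,5,3,2],
  [9,7,7,7,6,6,5,4,1],
  [9,7,7,7,6,6,5,5],
  [9,7,7,7,6,6,6,1,1,1,1],
  [9,7,7,7,6,6,6,2,1,1],
  [9,7,7,7,6,6,6,2,2],
  [9,7,7,7,6,6,6,3,1],
  [9,7,7,7,6,6,6,4],
  [9,7,7,7,7,4,4,4,3],
  [9,7,7,7,7,5,4,3,3],
  [9,7,7,7,7,5,4,4,1,1],
  [9,7,7,7,7,5,4,4,2],
  [9,7,7,7,7,5,5,3,1,1],
  [9,7,7,7,7,5,5,3,2],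
  [9,7,7,7,7,5,5,4,1],
  [9,7,7,7,7,5,5,5],
  [9,7,7,7,7,6,3,3,3],
  [9,7,7,7,7,6,4,3,1,1],
  [9,7,7,7,7,6,4,3,2],
  [9,7,7,7,7,6,4,4,1],
  [9,7,7,7,7,6,5,1,1,1,1],
  [9,7,7,7,7,6,5,2,1,1],
  [9,7,7,7,7,6,5,2,2],
  [9,7,7,7,7,6,5,3,1],
  [9,7,7,7,7,6,5,4],
  [9,7,7,7,7,6,6,1,1,1],
  [9,7,7,7,7,6,6,2,1],
  [9,7,7,7,7,6,6,3],
  [9,7,7,7,7,7,3,3,1,1],
  [9,7,7,7,7,7,3,3,2],
  [9,7,7,7,7,7,4,1,1,1,1],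
  [9,7,7,7,7,7,4,2,1,1],
  [9,7,7,7,7,7,4,2,2],
  [9,7,7,7,7,7,4,3,1],
  [9,7,7,7,7,7,4,4],
  [9,7,7,7,7,7,5,1,1,1],
  [9,7,7,7,7,7,5,2,1],
  [9,7,7,7,7,7,5,3],
  [9,7,7,7,7,7,6,1,1],
  [9,7,7,7,7,7,6,2],
  [9,7,7,7,7,7,7,1],
  [9,8,5,5,5,5,5,5,5],
  [9,8,6,5,5,5,5,5,4],
  [9,8,6,6,5,5,5,4,4],
  [9,8,6,6,5,5,5,5,3],
  [9,8,6,6,6,5,4,4,4],
  [9,8,6,6,6,5,5,4,3],
  [9,8,6,6,6,5,5,5,1,1],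
  [9,8,6,6,6,5,5,5,2],
  [9,8,6,6,6,6,4,4,3],
  [9,8,6,6,6,6,5,3,3],
  [9,8,6,6,6,6,5,4,1,1],
  [9,8,6,6,6,6,5,4,2],
  [9,8,6,6,6,6,5,5,1],
  [9,8,6,6,6,6,6,3,1,1],
  [9,8,6,6,6,6,6,3,2],
  [9,8,6,6,6,6,6,4,1],
  [9,8,6,6,6,6,6,5],
  [9,8,7,5,5,5,5,4,4],
  [9,8,7,5,5,5,5,5,3],
  [9,8,7,6,5,5,4,4,4],
  [9,8,7,6,5,5,5,4,3],
  [9,8,7,6,5,5,5,5,1,1],
  [9,8,7,6,5,5,5,5,2],
  [9,8,7,6,6,4,4,4,4],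
  [9,8,7,6,6,5,4,4,3],
  [9,8,7,6,6,5,5,3,3],
  [9,8,7,6,6,5,5,4,1,1],
  [9,8,7,6,6,5,5,4,2],
  [9,8,7,6,6,5,5,5,1],
  [9,8,7,6,6,6,4,3,3],
  [9,8,7,6,6,6,4,4,1,1],
  [9,8,7,6,6,6,4,4,2],
  [9,8,7,6,6,6,5,3,1,1],
  [9,8,7,6,6,6,5,3,2],
  [9,8,7,6,6,6,5,4,1],
  [9,8,7,6,6,6,5,5],
  [9,8,7,6,6,6,6,1,1,1,1],
  [9,8,7,6,6,6,6,2,1,1],
  [9,8,7,6,6,6,6,2,2],
  [9,8,7,6,6,6,6,3,1],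
  [9,8,7,6,6,6,6,4],
  [9,8,7,7,5,4,4,4,4],
  [9,8,7,7,5,5,4,4,3],
  [9,8,7,7,5,5,5,3,3],
  [9,8,7,7,5,5,5,4,1,1],
  [9,8,7,7,5,5,5,4,2],
  [9,8,7,7,5,5,5,5,1],
  [9,8,7,7,6,4,4,4,3],
  [9,8,7,7,6,5,4,3,3],
  [9,8,7,7,6,5,4,4,1,1],
  [9,8,7,7,6,5,4,4,2],
  [9,8,7,7,6,5,5,3,1,1],
  [9,8,7,7,6,5,5,3,2],
  [9,8,7,7,6,5,5,4,1],
  [9,8,7,7,6,5,5,5],
  [9,8,7,7,6,6,3,3,3],
  [9,8,7,7,6,6,4,3,1,1],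
  [9,8,7,7,6,6,4,3,2],
  [9,8,7,7,6,6,4,4,1],
  [9,8,7,7,6,6,5,1,1,1,1],
  [9,8,7,7,6,6,5,2,1,1],
  [9,8,7,7,6,6,5,2,2],
  [9,8,7,7,6,6,5,3,1],
  [9,8,7,7,6,6,5,4],
  [9,8,7,7,6,6,6,1,1,1],
  [9,8,7,7,6,6,6,2,1],
  [9,8,7,7,6,6,6,3],
  [9,8,7,7,7,4,4,3,3],
  [9,8,7,7,7,4,4,4,1,1],
  [9,8,7,7,7,4,4,4,2],
  [9,8,7,7,7,5,3,3,3],
  [9,8,7,7,7,5,4,3,1,1],
  [9,8,7,7,7,5,4,3,2],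
  [9,8,7,7,7,5,4,4,1],
  [9,8,7,7,7,5,5,1,1,1,1],
  [9,8,7,7,7,5,5,2,1,1],
  [9,8,7,7,7,5,5,2,2],
  [9,8,7,7,7,5,5,3,1],
  [9,8,7,7,7,5,5,4],
  [9,8,7,7,7,6,3,3,1,1],
  [9,8,7,7,7,6,3,3,2],
  [9,8,7,7,7,6,4,1,1,1,1],
  [9,8,7,7,7,6,4,2,1,1],
  [9,8,7,7,7,6,4,2,2],
  [9,8,7,7,7,6,4,3,1],
  [9,8,7,7,7,6,4,4],
  [9,8,7,7,7,6,5,1,1,1],
  [9,8,7,7,7,6,5,2,1],
  [9,8,7,7,7,6,5,3],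
  [9,8,7,7,7,6,6,1,1],
  [9,8,7,7,7,6,6,2],
  [9,8,7,7,7,7,3,1,1,1,1],
  [9,8,7,7,7,7,3,2,1,1],
  [9,8,7,7,7,7,3,2,2],
  [9,8,7,7,7,7,3,3,1],
  [9,8,7,7,7,7,4,1,1,1],
  [9,8,7,7,7,7,4,2,1],
  [9,8,7,7,7,7,4,3]]

def dv1 : List Dv := [
  (.c 0 (.tw (.c 0 (.b 1) (.s13 (.tw (.s13 (.c 0 (.b 1) (.b 21))))))) (.s13 (.tw (.c 0 (.s13 (.tw (.c 0 (.b 652) (.tw (.s12 (.s13 (.tw (.c 0 (.b 381) (.b 381))))))))) (.s12 (.s13 (.tw (.c 0 (.s13 (.tw (.c 0 (.b 136) (.b 536)))) (.s13 (.tw (.c 0 (.tw (.c 0 (.b 136) (.b 136))) (.s13 (.tw (.c 0 (.b 5) (.b 5))))))))))))))),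
  (.c 0 (.tw (.c 0 (.b 1) (.s13 (.tw (.s13 (.c 0 (.b 1) (.b 21))))))) (.s13 (.tw (.c 0 (.s13 (.tw (.c 0 (.b 14) (.s13 (.tw (.s12 (.s13 (.c 0 (.b 462) (.b 462))))))))) (.s12 (.s13 (.tw (.c 0 (.s13 (.tw (.c 0 (.b 136) (.b 536)))) (.s13 (.tw (.c 0 (.tw (.c 0 (.b 136) (.b 136))) (.s13 (.tw (.c 0 (.b 5) (.b 5))))))))))))))),
  (.tw (.c 0 (.tw (.c 0 (.b 13) (.s13 (.tw (.s12 (.s13 (.c 0 (.b 284) (.c 0 (.b 136) (.b 29))))))))) (.s13 (.tw (.c 0 (.tw (.c 0 (.tw (.s13 (.tw (.c 0 (.b 136) (.b 124))))) (.b 136))) (.tw (.s13 (.tw (.c 0 (.s13 (.tw (.c 0 (.b 272) (.b 44)))) (.tw (.s12 (.s13 (.tw (.c 0 (.b 5) (.s13 (.tw (.s12 (.s13 (.c 0 (.b 5) (.b 63)))))))))))))))))))),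
  (.tw (.c 0 (.tw (.c 0 (.b 13) (.s13 (.tw (.s12 (.s13 (.c 0 (.b 284) (.c 0 (.b 136) (.b 29))))))))) (.s13 (.tw (.c 0 (.s12 (.s13 (.tw (.c 0 (.b 13) (.b 207))))) (.tw (.s12 (.s13 (.tw (.c 0 (.s13 (.tw (.c 0 (.b 44) (.b 247)))) (.s13 (.tw (.c 0 (.tw (.c 0 (.b 63) (.b 136))) (.s13 (.tw (.c 0 (.b 5) (.b 5))))))))))))))))),
  (.tw (.c 0 (.tw (.c 0 (.b 13) (.s13 (.tw (.s12 (.s13 (.c 0 (.b 284) (.c 0 (.b 136) (.b 29))))))))) (.s13 (.tw (.c 0 (.s12 (.s13 (.tw (.c 0 (.b 136) (.s13 (.tw (.s12 (.s13 (.c 0 (.b 13) (.b 546)))))))))) (.tw (.s12 (.s13 (.tw (.c 0 (.s13 (.tw (.c 0 (.b 24) (.s13 (.tw (.s12 (.s13 (.c 0 (.b 44) (.b 1))))))))) (.s13 (.tw (.c 0 (.tw (.c 0 (.b 63) (.b 136))) (.s13 (.tw (.c 0 (.b 5) (.b 124))))))))))))))))),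
  (.tw (.c 0 (.tw (.c 0 (.b 13) (.s13 (.tw (.s12 (.s13 (.c 0 (.b 57) (.s13 (.tw (.s12 (.s13 (.c 0 (.b 381) (.b 478))))))))))))) (.s13 (.tw (.c 0 (.s13 (.tw (.c 0 (.b 13) (.b 462)))) (.tw (.s13 (.tw (.c 0 (.s13 (.tw (.c 0 (.b 136) (.s13 (.tw (.s12 (.s13 (.c 0 (.b 44) (.b 1))))))))) (.s13 (.tw (.c 0 (.s13 (.tw (.c 0 (.b 44) (.b 1)))) (.s13 (.tw (.c 0 (.b 5) (.b 5)))))))))))))))),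
  (.tw (.c 0 (.tw (.c 0 (.b 13) (.s13 (.tw (.s12 (.s13 (.c 0 (.b 284) (.c 0 (.b 136) (.b 29))))))))) (.s13 (.tw (.c 0 (.s12 (.s13 (.tw (.c 0 (.b 13) (.s13 (.tw (.s12 (.s13 (.c 0 (.b 136) (.b 581)))))))))) (.tw (.s12 (.s13 (.tw (.c 0 (.s13 (.tw (.c 0 (.b 136) (.b 44)))) (.s13 (.tw (.c 0 (.tw (.c 0 (.b 57) (.b 136))) (.s13 (.tw (.c 0 (.b 5) (.b 124))))))))))))))))),
  (.tw (.c 0 (.tw (.c 0 (.b 13) (.s13 (.tw (.s12 (.s13 (.c 0 (.b 57) (.s13 (.tw (.s12 (.s13 (.c 0 (.b 381) (.b 478))))))))))))) (.s13 (.tw (.c 0 (.s13 (.tw (.c 0 (.b 14) (.s13 (.tw (.s12 (.s13 (.c 0 (.b 63) (.b 536))))))))) (.tw (.s13 (.tw (.c 0 (.s13 (.tw (.c 0 (.b 136) (.s13 (.tw (.s12 (.s13 (.c 0 (.b 44) (.b 1))))))))) (.s13 (.tw (.c 0 (.b 5) (.s13 (.tw (.c 0 (.b 5) (.b 124)))))))))))))))),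
  (.tw (.c 0 (.tw (.c 0 (.b 13) (.s13 (.tw (.s12 (.s13 (.c 0 (.b 284) (.c 0 (.b 136) (.b 29))))))))) (.s13 (.tw (.c 0 (.s12 (.s13 (.tw (.c 0 (.b 136) (.s13 (.tw (.s12 (.s13 (.c 0 (.b 13) (.b 546)))))))))) (.tw (.s12 (.s13 (.tw (.c 0 (.s13 (.tw (.c 0 (.b 136) (.b 44)))) (.tw (.s12 (.s13 (.tw (.c 0 (.b 347) (.tw (.s12 (.s13 (.tw (.c 0 (.b 320) (.b 5))))))))))))))))))))),
  (.tw (.c 0 (.tw (.c 0 (.b 13) (.s13 (.tw (.s12 (.s13 (.c 0 (.b 284) (.c 0 (.b 136) (.b 29))))))))) (.s13 (.tw (.c 0 (.s12 (.s13 (.tw (.c 0 (.b 136) (.s13 (.tw (.s12 (.s13 (.c 0 (.b 13) (.b 546)))))))))) (.tw (.s12 (.s13 (.tw (.c 0 (.s13 (.tw (.c 0 (.b 136) (.b 44)))) (.tw (.s12 (.s13 (.tw (.c 0 (.tw (.c 0 (.b 63) (.b 136))) (.s13 (.tw (.c 0 (.b 176) (.b 5))))))))))))))))))),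
  (.tw (.c 0 (.tw (.c 0 (.b 1) (.s13 (.tw (.s13 (.c 0 (.b 1) (.b 21))))))) (.s13 (.c 0 (.tw (.c 0 (.tw (.s13 (.tw (.c 0 (.b 13) (.b 247))))) (.tw (.s13 (.tw (.c 0 (.b 273) (.s13 (.tw (.s12 (.s13 (.c 0 (.b 136) (.b 44)))))))))))) (.s13 (.tw (.c 0 (.tw (.s13 (.tw (.c 0 (.b 284) (.s13 (.tw (.s12 (.s13 (.c 0 (.b 136) (.b 44)))))))))) (.b 273)))))))),
  (.tw (.c 0 (.tw (.c 0 (.b 13) (.s13 (.tw (.s12 (.s13 (.c 0 (.b 284) (.c 0 (.b 136) (.b 29))))))))) (.s13 (.tw (.c 0 (.s12 (.s13 (.tw (.c 0 (.b 13) (.s13 (.tw (.s12 (.s13 (.c 0 (.b 13) (.b 337)))))))))) (.tw (.s12 (.s13 (.tw (.c 0 (.s13 (.tw (.c 0 (.b 136) (.s13 (.tw (.s12 (.s13 (.c 0 (.b 44) (.b 1))))))))) (.tw (.s12 (.s13 (.tw (.c 0 (.s12 (.s13 (.tw (.c 0 (.b 63) (.b 24))))) (.s13 (.tw (.c 0 (.b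 5) (.b 5))))))))))))))))))),
  (.tw (.c 0 (.tw (.c 0 (.b 13) (.s13 (.tw (.s12 (.s13 (.c 0 (.b 57) (.s13 (.tw (.s12 (.s13 (.c 0 (.b 381) (.b 478))))))))))))) (.s13 (.tw (.c 0 (.s13 (.tw (.c 0 (.b 136) (.b 462)))) (.tw (.s13 (.tw (.c 0 (.s13 (.tw (.c 0 (.b 136) (.b 44)))) (.tw (.s12 (.s13 (.tw (.c 0 (.b 5) (.s13 (.tw (.s12 (.s13 (.c 0 (.b 601) (.b 5)))))))))))))))))))),
  (.tw (.c 0 (.tw (.c 0 (.b 13) (.s13 (.tw (.s12 (.s13 (.c 0 (.b 284) (.c 0 (.b 136) (.b 29))))))))) (.s13 (.tw (.c 0 (.s12 (.s13 (.tw (.c 0 (.b 13) (.s13 (.tw (.s12 (.s13 (.c 0 (.b 13) (.b 337)))))))))) (.tw (.s12 (.s13 (.tw (.c 0 (.s13 (.tw (.c 0 (.b 249) (.b 44)))) (.s13 (.tw (.c 0 (.tw (.c 0 (.b 63) (.b 136))) (.s13 (.tw (.c 0 (.b 5) (.b 5))))))))))))))))),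
  (.tw (.c 0 (.tw (.c 0 (.b 13) (.s13 (.tw (.s12 (.s13 (.c 0 (.b 284) (.c 0 (.b 136) (.b 29))))))))) (.s13 (.tw (.c 0 (.s12 (.s13 (.tw (.c 0 (.b 136) (.s13 (.tw (.s12 (.s13 (.c 0 (.b 13) (.b 337)))))))))) (.tw (.s12 (.s13 (.tw (.c 0 (.s13 (.tw (.c 0 (.b 24) (.s13 (.tw (.s12 (.s13 (.c 0 (.b 44) (.b 1))))))))) (.s13 (.tw (.c 0 (.tw (.c 0 (.b 63) (.b 136))) (.s13 (.tw (.c 0 (.b 5) (.b 124))))))))))))))))),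
  (.tw (.c 0 (.tw (.c 0 (.b 13) (.s13 (.tw (.s12 (.s13 (.c 0 (.b 57) (.s13 (.tw (.s12 (.s13 (.c 0 (.b 381) (.b 478))))))))))))) (.s13 (.tw (.c 0 (.s13 (.tw (.c 0 (.b 136) (.b 236)))) (.tw (.s13 (.tw (.c 0 (.s13 (.tw (.c 0 (.b 136) (.b 44)))) (.tw (.s12 (.s13 (.tw (.c 0 (.s13 (.tw (.c 0 (.b 44) (.b 12)))) (.s13 (.tw (.s12 (.c 0 (.b 5) (.b 124))))))))))))))))))),
  (.tw (.c 0 (.tw (.c 0 (.b 13) (.s13 (.tw (.s12 (.s13 (.c 0 (.b 284) (.c 0 (.b 136) (.b 29))))))))) (.s13 (.tw (.c 0 (.s12 (.s13 (.tw (.c 0 (.b 13) (.s13 (.tw (.s12 (.s13 (.c 0 (.b 13) (.b 337)))))))))) (.tw (.s12 (.s13 (.tw (.c 0 (.s13 (.tw (.c 0 (.b 136) (.s13 (.tw (.s12 (.s13 (.c 0 (.b 44) (.b 1))))))))) (.tw (.s12 (.s13 (.tw (.c 0 (.s12 (.s13 (.tw (.c 0 (.b 57) (.b 136))))) (.s13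 (.tw (.c 0 (.b 5) (.b 5))))))))))))))))))),
  (.tw (.c 0 (.tw (.c 0 (.b 13) (.s13 (.tw (.s12 (.s13 (.c 0 (.b 284) (.c 0 (.b 136) (.b 29))))))))) (.s13 (.tw (.c 0 (.s12 (.s13 (.tw (.c 0 (.b 13) (.s13 (.tw (.s12 (.s13 (.c 0 (.b 13) (.b 337)))))))))) (.tw (.s12 (.s13 (.tw (.c 0 (.s13 (.tw (.c 0 (.b 136) (.s13 (.tw (.s12 (.s13 (.c 0 (.b 44) (.b 1))))))))) (.s13 (.tw (.c 0 (.tw (.c 0 (.b 63) (.b 136))) (.s13 (.tw (.c 0 (.b 5) (.b 5))))))))))))))))),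
  (.tw (.c 0 (.tw (.c 0 (.b 13) (.s13 (.tw (.s12 (.s13 (.c 0 (.b 136) (.c 0 (.b 260) (.b 147))))))))) (.s13 (.tw (.c 0 (.s13 (.tw (.c 0 (.b 14) (.s13 (.tw (.s12 (.s13 (.c 0 (.b 136) (.b 536))))))))) (.tw (.s13 (.tw (.c 0 (.s13 (.tw (.c 0 (.b 136) (.s13 (.tw (.s12 (.s13 (.c 0 (.b 44) (.b 1))))))))) (.s13 (.tw (.c 0 (.b 5) (.s13 (.tw (.c 0 (.b 124) (.b 124)))))))))))))))),
  (.tw (.c 0 (.tw (.c 0 (.b 13) (.s13 (.tw (.s12 (.s13 (.c 0 (.b 57) (.s13 (.tw (.s12 (.s13 (.c 0 (.b 381) (.b 478))))))))))))) (.s13 (.tw (.c 0 (.s13 (.tw (.c 0 (.b 136) (.s13 (.tw (.s12 (.s13 (.c 0 (.b 63) (.b 369))))))))) (.tw (.s13 (.tw (.c 0 (.s13 (.tw (.c 0 (.b 136) (.b 44)))) (.s12 (.s13 (.tw (.c 0 (.s13 (.tw (.s12 (.c 0 (.b 14) (.b 239))))) (.s13 (.tw (.c 0 (.b 63)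 (.b 44))))))))))))))))),
  (.tw (.c 0 (.tw (.c 0 (.b 13) (.s13 (.tw (.s12 (.s13 (.c 0 (.b 284) (.c 0 (.b 136) (.b 29))))))))) (.s13 (.tw (.c 0 (.s12 (.s13 (.tw (.c 0 (.b 136) (.s13 (.tw (.s12 (.s13 (.c 0 (.b 13) (.b 546)))))))))) (.tw (.s12 (.s13 (.tw (.c 0 (.s13 (.tw (.c 0 (.b 136) (.b 44)))) (.tw (.s12 (.s13 (.tw (.c 0 (.s13 (.tw (.c 0 (.b 320) (.b 5)))) (.b 210)))))))))))))))),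
  (.tw (.c 0 (.tw (.c 0 (.b 13) (.s13 (.tw (.s12 (.s13 (.c 0 (.b 284) (.c 0 (.b 136) (.b 29))))))))) (.s13 (.tw (.c 0 (.s12 (.s13 (.tw (.c 0 (.b 136) (.s13 (.tw (.s12 (.s13 (.c 0 (.b 13) (.b 546)))))))))) (.tw (.s12 (.s13 (.tw (.c 0 (.s13 (.tw (.c 0 (.b 136) (.s13 (.tw (.s12 (.s13 (.c 0 (.b 44) (.b 1))))))))) (.s13 (.tw (.c 0 (.tw (.c 0 (.b 63) (.b 136))) (.s13 (.tw (.c 0 (.b 5) (.b 124))))))))))))))))),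
  (.tw (.c 0 (.tw (.c 0 (.b 1) (.s13 (.tw (.s13 (.c 0 (.b 1) (.b 21))))))) (.s13 (.c 0 (.tw (.c 0 (.b 348) (.tw (.s12 (.s13 (.tw (.c 0 (.b 718) (.tw (.s12 (.s13 (.tw (.c 0 (.b 136) (.s13 (.tw (.s12 (.s13 (.c 0 (.b 63) (.b 44)))))))))))))))))) (.s13 (.tw (.c 0 (.s13 (.tw (.c 0 (.b 12) (.b 172)))) (.tw (.s13 (.tw (.c 0 (.b 304) (.s13 (.tw (.s12 (.s13 (.c 0 (.b 63) (.b 44))))))))))))))))),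
  (.tw (.c 0 (.tw (.c 0 (.b 13) (.s13 (.tw (.s12 (.s13 (.c 0 (.b 57) (.s13 (.tw (.s12 (.s13 (.c 0 (.b 381) (.b 478))))))))))))) (.s13 (.tw (.c 0 (.s13 (.tw (.c 0 (.b 136) (.s13 (.tw (.s12 (.s13 (.c 0 (.b 14) (.b 239))))))))) (.tw (.s13 (.tw (.c 0 (.s13 (.tw (.c 0 (.b 136) (.b 44)))) (.s13 (.tw (.c 0 (.b 73) (.s13 (.tw (.c 0 (.b 5) (.b 124)))))))))))))))),
  (.tw (.c 0 (.tw (.c 0 (.b 13) (.s13 (.tw (.s12 (.s13 (.c 0 (.b 284) (.c 0 (.b 136) (.b 29))))))))) (.s13 (.tw (.c 0 (.s12 (.s13 (.tw (.c 0 (.b 13) (.s13 (.tw (.s12 (.s13 (.c 0 (.b 136) (.b 598)))))))))) (.tw (.s12 (.s13 (.tw (.c 0 (.s13 (.tw (.c 0 (.b 136) (.b 44)))) (.s13 (.tw (.c 0 (.tw (.c 0 (.b 57) (.b 136))) (.s13 (.tw (.c 0 (.b 5) (.b 124))))))))))))))))),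
  (.tw (.c 0 (.tw (.c 0 (.b 13) (.s13 (.tw (.s12 (.s13 (.c 0 (.b 136) (.c 0 (.b 260) (.b 147))))))))) (.s13 (.tw (.c 0 (.s13 (.tw (.c 0 (.b 304) (.tw (.s12 (.s13 (.tw (.c 0 (.b 44) (.b 12))))))))) (.tw (.s13 (.tw (.c 0 (.s13 (.tw (.c 0 (.b 136) (.s13 (.tw (.s12 (.s13 (.c 0 (.b 63) (.b 381))))))))) (.s13 (.tw (.c 0 (.b 313) (.s13 (.tw (.c 0 (.b 44) (.b 1)))))))))))))))),
  (.tw (.c 0 (.tw (.c 0 (.b 13) (.s13 (.tw (.s12 (.s13 (.c 0 (.b 57) (.s13 (.tw (.s12 (.s13 (.c 0 (.b 381) (.b 478))))))))))))) (.s13 (.tw (.c 0 (.s13 (.tw (.c 0 (.b 136) (.s13 (.tw (.s12 (.s13 (.c 0 (.b 14) (.b 239))))))))) (.tw (.s13 (.tw (.c 0 (.s13 (.tw (.c 0 (.b 136) (.b 44)))) (.tw (.s13 (.tw (.c 0 (.s13 (.tw (.s12 (.c 0 (.b 63) (.b 381))))) (.s13 (.tw (.c 0 (.b 63) (.b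 44))))))))))))))))),
  (.tw (.c 0 (.tw (.c 0 (.b 13) (.s13 (.tw (.s12 (.s13 (.c 0 (.b 284) (.c 0 (.b 136) (.b 29))))))))) (.s13 (.tw (.c 0 (.s12 (.s13 (.tw (.c 0 (.b 136) (.s13 (.tw (.s12 (.s13 (.c 0 (.b 13) (.b 546)))))))))) (.s12 (.s13 (.c 0 (.s12 (.s13 (.tw (.s12 (.c 0 (.b 666) (.s13 (.tw (.s12 (.s13 (.c 0 (.b 136) (.b 44))))))))))) (.s13 (.tw (.s13 (.c 0 (.b 70) (.b 45))))))))))))),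
  (.tw (.c 0 (.tw (.c 0 (.b 13) (.s13 (.tw (.s12 (.s13 (.c 0 (.b 284) (.c 0 (.b 136) (.b 29))))))))) (.s13 (.tw (.c 0 (.s12 (.s13 (.tw (.c 0 (.b 13) (.s13 (.tw (.s12 (.s13 (.c 0 (.b 136) (.b 598)))))))))) (.tw (.s12 (.s13 (.tw (.c 0 (.s13 (.tw (.c 0 (.b 136) (.b 44)))) (.s13 (.tw (.c 0 (.tw (.c 0 (.b 63) (.b 136))) (.s13 (.tw (.c 0 (.b 5) (.b 124))))))))))))))))),
  (.c 0 (.tw (.c 0 (.b 1) (.s13 (.tw (.s13 (.c 0 (.b 1) (.b 21))))))) (.s13 (.c 0 (.tw (.s12 (.c 0 (.tw (.s12 (.s13 (.tw (.c 0 (.b 63) (.s13 (.tw (.s12 (.s13 (.c 0 (.b 63) (.b 24))))))))))) (.tw (.s13 (.tw (.c 0 (.b 284) (.s13 (.tw (.s12 (.s13 (.c 0 (.b 136) (.b 44))))))))))))) (.s12 (.s13 (.tw (.c 0 (.s13 (.tw (.c 0 (.b 12) (.b 172)))) (.tw (.s12 (.s13 (.tw (.c 0 (.b 136) (.s13 (.tw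 (.s12 (.s13 (.c 0 (.b 63) (.b 44)))))))))))))))))),
  (.tw (.c 0 (.s12 (.s13 (.tw (.s12 (.c 0 (.b 13) (.s13 (.tw (.s12 (.s13 (.c 0 (.b 136) (.s13 (.tw (.s12 (.s13 (.c 0 (.b 284) (.b 147)))))))))))))))) (.s13 (.tw (.s12 (.c 0 (.s13 (.tw (.c 0 (.b 57) (.s13 (.tw (.s12 (.s13 (.c 0 (.b 14) (.c 0 (.b 136) (.b 136)))))))))) (.tw (.s13 (.tw (.c 0 (.s13 (.tw (.c 0 (.b 136) (.b 44)))) (.tw (.s13 (.tw (.c 0 (.s13 (.tw (.s12 (.c 0 (.b 63) (.b 381))))) (.s13 (.tw (.s12 (.c 0 (.b 44) (.b 12))))))))))))))))))),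
  (.tw (.c 0 (.tw (.c 0 (.b 13) (.s13 (.tw (.s12 (.s13 (.c 0 (.b 284) (.c 0 (.b 136) (.b 29))))))))) (.s13 (.tw (.c 0 (.s13 (.tw (.c 0 (.b 136) (.s13 (.tw (.s12 (.s13 (.c 0 (.b 63) (.b 207))))))))) (.tw (.s13 (.tw (.c 0 (.s13 (.tw (.c 0 (.b 136) (.b 44)))) (.tw (.s13 (.tw (.c 0 (.s13 (.tw (.s12 (.c 0 (.b 63) (.b 381))))) (.s13 (.tw (.c 0 (.b 63) (.b 44))))))))))))))))),
  (.c 0 (.tw (.c 0 (.b 1) (.s13 (.tw (.s13 (.c 0 (.b 1) (.b 21))))))) (.s13 (.c 0 (.tw (.c 0 (.b 718) (.tw (.s13 (.tw (.c 0 (.b 279) (.tw (.s12 (.s13 (.tw (.c 0 (.b 136) (.s13 (.tw (.s12 (.s13 (.c 0 (.b 44) (.b 12))))))))))))))))) (.s13 (.tw (.c 0 (.s13 (.tw (.c 0 (.b 12) (.b 172)))) (.tw (.s13 (.tw (.c 0 (.b 304) (.s13 (.tw (.s12 (.s13 (.c 0 (.b 63) (.b 44)))))))))))))))),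
  (.tw (.c 0 (.tw (.c 0 (.b 13) (.s13 (.tw (.s12 (.s13 (.c 0 (.b 284) (.c 0 (.b 136) (.b 29))))))))) (.tw (.s13 (.s12 (.c 0 (.tw (.s13 (.s12 (.c 0 (.s13 (.tw (.s12 (.c 0 (.b 247) (.b 152))))) (.s13 (.tw (.c 0 (.b 381) (.b 44)))))))) (.s13 (.tw (.s12 (.c 0 (.b 304) (.s13 (.tw (.s12 (.s13 (.c 0 (.b 136) (.s13 (.tw (.s12 (.s13 (.c 0 (.b 44) (.b 12))))))))))))))))))))),
  (.c 0 (.tw (.c 0 (.b 1) (.s13 (.tw (.s13 (.c 0 (.b 1) (.b 21))))))) (.s13 (.tw (.c 0 (.s13 (.tw (.c 0 (.b 311) (.s13 (.tw (.s12 (.s13 (.c 0 (.b 13) (.b 239))))))))) (.s12 (.s13 (.tw (.c 0 (.s13 (.tw (.c 0 (.b 63) (.c 0 (.b 63) (.b 136))))) (.s13 (.tw (.s13 (.s12 (.c 0 (.s13 (.tw (.c 0 (.b 381) (.b 136)))) (.tw (.c 0 (.b 5) (.b 5)))))))))))))))),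
  (.tw (.c 0 (.tw (.c 0 (.b 13) (.s13 (.tw (.s12 (.s13 (.c 0 (.b 284) (.c 0 (.b 136) (.b 29))))))))) (.s13 (.tw (.c 0 (.s13 (.tw (.c 0 (.b 666) (.tw (.s12 (.s13 (.tw (.c 0 (.b 63) (.b 430))))))))) (.tw (.s12 (.s13 (.tw (.c 0 (.tw (.s12 (.c 0 (.b 136) (.b 249)))) (.s13 (.tw (.c 0 (.b 709) (.s13 (.tw (.c 0 (.b 5) (.b 124))))))))))))))))),
  (.tw (.c 0 (.tw (.c 0 (.b 13) (.s13 (.tw (.s12 (.s13 (.c 0 (.b 57) (.s13 (.tw (.s12 (.s13 (.c 0 (.b 381) (.b 478))))))))))))) (.s13 (.tw (.c 0 (.s13 (.tw (.c 0 (.b 136) (.b 462)))) (.tw (.s13 (.tw (.c 0 (.s13 (.tw (.c 0 (.b 136) (.b 44)))) (.tw (.s12 (.s13 (.tw (.c 0 (.s13 (.tw (.c 0 (.b 44) (.b 12)))) (.s13 (.tw (.s12 (.c 0 (.b 5) (.b 124))))))))))))))))))),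
  (.tw (.c 0 (.tw (.c 0 (.b 13) (.s13 (.tw (.s12 (.s13 (.c 0 (.b 284) (.c 0 (.b 136) (.b 29))))))))) (.s13 (.tw (.c 0 (.s12 (.s13 (.tw (.c 0 (.s13 (.tw (.s12 (.s13 (.c 0 (.b 14) (.c 0 (.b 136) (.b 136))))))) (.b 16))))) (.tw (.s12 (.s13 (.tw (.c 0 (.s13 (.tw (.c 0 (.b 136) (.b 536)))) (.s13 (.tw (.c 0 (.tw (.c 0 (.b 57) (.b 136))) (.s13 (.tw (.c 0 (.b 5) (.b 124))))))))))))))))),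
  (.tw (.c 0 (.tw (.c 0 (.b 13) (.s13 (.tw (.s12 (.s13 (.c 0 (.b 284) (.c 0 (.b 136) (.b 29))))))))) (.s13 (.tw (.c 0 (.s12 (.s13 (.tw (.c 0 (.s13 (.tw (.s12 (.s13 (.c 0 (.b 14) (.c 0 (.b 136) (.b 136))))))) (.b 29))))) (.tw (.s12 (.s13 (.tw (.c 0 (.s13 (.tw (.s12 (.c 0 (.b 136) (.b 405))))) (.s13 (.tw (.c 0 (.b 73) (.s13 (.tw (.c 0 (.b 5) (.b 124))))))))))))))))),
  (.tw (.c 0 (.tw (.c 0 (.b 13) (.s13 (.tw (.s12 (.s13 (.c 0 (.b 57) (.s13 (.tw (.s12 (.s13 (.c 0 (.b 381) (.b 478))))))))))))) (.s13 (.tw (.c 0 (.s13 (.tw (.c 0 (.b 14) (.s13 (.tw (.s12 (.s13 (.c 0 (.b 136) (.b 351))))))))) (.tw (.s13 (.tw (.c 0 (.s13 (.tw (.c 0 (.b 136) (.s13 (.tw (.s12 (.s13 (.c 0 (.b 44) (.b 1))))))))) (.s13 (.tw (.c 0 (.b 73) (.s13 (.tw (.c 0 (.b 5) (.b 124)))))))))))))))),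
  (.tw (.c 0 (.tw (.c 0 (.b 13) (.s13 (.tw (.s12 (.s13 (.c 0 (.b 284) (.c 0 (.b 136) (.b 29))))))))) (.s13 (.tw (.c 0 (.s12 (.s13 (.tw (.c 0 (.b 136) (.s13 (.tw (.s12 (.s13 (.c 0 (.b 13) (.b 337)))))))))) (.tw (.s12 (.s13 (.tw (.c 0 (.s13 (.tw (.c 0 (.b 136) (.s13 (.tw (.s12 (.s13 (.c 0 (.b 44) (.b 1))))))))) (.s13 (.tw (.c 0 (.tw (.c 0 (.b 57) (.b 136))) (.s13 (.tw (.c 0 (.b 5) (.b 124))))))))))))))))),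
  (.tw (.c 0 (.tw (.c 0 (.b 13) (.s13 (.tw (.s12 (.s13 (.c 0 (.b 136) (.c 0 (.b 260) (.b 147))))))))) (.s13 (.tw (.c 0 (.s13 (.tw (.c 0 (.b 14) (.s13 (.tw (.s12 (.s13 (.c 0 (.b 136) (.b 536))))))))) (.tw (.s13 (.tw (.c 0 (.s13 (.tw (.c 0 (.b 136) (.b 536)))) (.s12 (.s13 (.tw (.c 0 (.s13 (.tw (.s12 (.c 0 (.b 239) (.b 1))))) (.s13 (.tw (.c 0 (.b 44) (.b 12))))))))))))))))),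
  (.tw (.c 0 (.tw (.c 0 (.b 13) (.s13 (.tw (.s12 (.s13 (.c 0 (.b 57) (.s13 (.tw (.s12 (.s13 (.c 0 (.b 381) (.b 478))))))))))))) (.s13 (.tw (.c 0 (.s13 (.tw (.c 0 (.b 14) (.s13 (.tw (.s12 (.s13 (.c 0 (.b 136) (.b 351))))))))) (.tw (.s13 (.tw (.c 0 (.s13 (.tw (.c 0 (.b 136) (.s13 (.tw (.s12 (.s13 (.c 0 (.b 44) (.b 1))))))))) (.tw (.s13 (.tw (.c 0 (.s13 (.tw (.s12 (.c 0 (.b 63) (.b 381))))) (.s13 (.tw (.c 0 (.b 63) (.b 44))))))))))))))))),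
  (.tw (.c 0 (.tw (.c 0 (.b 13) (.s13 (.tw (.s12 (.s13 (.c 0 (.b 284) (.c 0 (.b 136) (.b 29))))))))) (.s13 (.tw (.c 0 (.s12 (.s13 (.tw (.c 0 (.b 136) (.s13 (.tw (.s12 (.s13 (.c 0 (.b 13) (.b 337)))))))))) (.tw (.s12 (.s13 (.tw (.c 0 (.s13 (.tw (.c 0 (.b 136) (.b 44)))) (.tw (.s12 (.s13 (.tw (.c 0 (.s13 (.tw (.c 0 (.b 320) (.b 5)))) (.b 210)))))))))))))))),
  (.tw (.c 0 (.tw (.c 0 (.b 13) (.s13 (.tw (.s12 (.s13 (.c 0 (.b 284) (.c 0 (.b 136) (.b 29))))))))) (.s13 (.tw (.c 0 (.s12 (.s13 (.tw (.c 0 (.b 136) (.s13 (.tw (.s12 (.s13 (.c 0 (.b 13) (.b 337)))))))))) (.tw (.s12 (.s13 (.tw (.c 0 (.s13 (.tw (.c 0 (.b 136) (.s13 (.tw (.s12 (.s13 (.c 0 (.b 44) (.b 1))))))))) (.s13 (.tw (.c 0 (.tw (.c 0 (.b 63) (.b 136))) (.s13 (.tw (.c 0 (.b 5) (.b 124))))))))))))))))),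
  (.c 0 (.tw (.c 0 (.b 1) (.s13 (.tw (.s13 (.c 0 (.b 1) (.b 21))))))) (.s13 (.c 0 (.tw (.c 0 (.b 348) (.tw (.s12 (.s13 (.tw (.c 0 (.b 718) (.tw (.s12 (.s13 (.tw (.c 0 (.b 136) (.s13 (.tw (.s12 (.s13 (.c 0 (.b 63) (.b 44)))))))))))))))))) (.s13 (.tw (.c 0 (.s13 (.tw (.c 0 (.b 12) (.b 172)))) (.tw (.s13 (.tw (.c 0 (.b 304) (.s13 (.tw (.s12 (.s13 (.c 0 (.b 63) (.b 44)))))))))))))))),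
  (.tw (.c 0 (.s12 (.s13 (.tw (.s12 (.c 0 (.b 13) (.s13 (.tw (.s12 (.s13 (.c 0 (.b 136) (.s13 (.tw (.s12 (.s13 (.c 0 (.b 284) (.b 147)))))))))))))))) (.s13 (.tw (.s12 (.c 0 (.s13 (.tw (.c 0 (.b 14) (.s13 (.tw (.s12 (.s13 (.c 0 (.b 136) (.b 536))))))))) (.s12 (.s13 (.tw (.c 0 (.s13 (.tw (.c 0 (.b 136) (.b 44)))) (.tw (.s12 (.c 0 (.s13 (.tw (.c 0 (.b 44) (.b 12)))) (.s13 (.tw (.s12 (.c 0 (.b 13) (.b 239)))))))))))))))))),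
  (.tw (.c 0 (.tw (.c 0 (.b 13) (.s13 (.tw (.s12 (.s13 (.c 0 (.b 284) (.c 0 (.b 136) (.b 29))))))))) (.s13 (.tw (.c 0 (.s12 (.s13 (.tw (.c 0 (.s13 (.tw (.s12 (.s13 (.c 0 (.b 14) (.c 0 (.b 136) (.b 136))))))) (.b 16))))) (.s12 (.s13 (.tw (.c 0 (.s13 (.tw (.c 0 (.b 63) (.c 0 (.b 136) (.b 136))))) (.tw (.s13 (.s12 (.c 0 (.s13 (.tw (.s12 (.c 0 (.b 63) (.b 381))))) (.s13 (.tw (.c 0 (.b 63) (.b 44))))))))))))))))),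
  (.c 0 (.tw (.c 0 (.b 1) (.s13 (.tw (.s13 (.c 0 (.b 1) (.b 21))))))) (.s13 (.c 0 (.tw (.c 0 (.b 23) (.s13 (.tw (.s12 (.s13 (.c 0 (.s12 (.s13 (.tw (.c 0 (.b 12) (.b 172))))) (.tw (.s12 (.s13 (.tw (.c 0 (.b 304) (.s13 (.tw (.s12 (.s13 (.c 0 (.b 24) (.b 136)))))))))))))))))) (.s13 (.tw (.c 0 (.s13 (.tw (.c 0 (.b 12) (.b 172)))) (.tw (.s13 (.tw (.c 0 (.b 304) (.s13 (.tw (.s12 (.s13 (.c 0 (.b 63) (.b 44)))))))))))))))),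
  (.tw (.c 0 (.tw (.c 0 (.b 13) (.s13 (.tw (.s12 (.s13 (.c 0 (.b 136) (.c 0 (.b 260) (.b 147))))))))) (.s13 (.tw (.c 0 (.s13 (.tw (.c 0 (.b 14) (.s13 (.tw (.s12 (.s13 (.c 0 (.b 14) (.c 0 (.b 136) (.b 136)))))))))) (.tw (.s13 (.tw (.c 0 (.s13 (.tw (.c 0 (.b 136) (.b 536)))) (.tw (.s13 (.tw (.c 0 (.s13 (.tw (.s12 (.c 0 (.b 63) (.b 381))))) (.s13 (.tw (.s12 (.c 0 (.b 44) (.b 12)))))))))))))))))),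
  (.tw (.c 0 (.tw (.c 0 (.b 13) (.s13 (.tw (.s12 (.s13 (.c 0 (.b 57) (.s13 (.tw (.s12 (.s13 (.c 0 (.b 381) (.b 478))))))))))))) (.s13 (.tw (.c 0 (.s13 (.tw (.c 0 (.b 14) (.s13 (.tw (.s12 (.s13 (.c 0 (.b 14) (.c 0 (.b 136) (.b 136)))))))))) (.tw (.s13 (.tw (.c 0 (.s13 (.tw (.c 0 (.b 136) (.b 536)))) (.tw (.s13 (.tw (.c 0 (.s13 (.tw (.s12 (.c 0 (.b 63) (.b 381))))) (.s13 (.tw (.c 0 (.b 63) (.b 44))))))))))))))))),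
  (.tw (.c 0 (.tw (.c 0 (.b 13) (.s13 (.tw (.s12 (.s13 (.c 0 (.b 284) (.c 0 (.b 136) (.b 29))))))))) (.s13 (.tw (.c 0 (.s12 (.s13 (.tw (.c 0 (.b 136) (.s13 (.tw (.s12 (.s13 (.c 0 (.b 13) (.b 337)))))))))) (.s12 (.s13 (.c 0 (.s12 (.s13 (.tw (.s12 (.c 0 (.b 666) (.s13 (.tw (.s12 (.s13 (.c 0 (.b 136) (.b 44))))))))))) (.s13 (.tw (.s13 (.c 0 (.b 70) (.b 45))))))))))))),
  (.tw (.c 0 (.tw (.c 0 (.b 13) (.s13 (.tw (.s12 (.s13 (.c 0 (.b 284) (.c 0 (.b 136) (.b 29))))))))) (.s13 (.tw (.c 0 (.s13 (.tw (.c 0 (.b 14) (.tw (.s12 (.s13 (.tw (.c 0 (.b 136) (.b 536))))))))) (.tw (.s12 (.s13 (.tw (.c 0 (.s13 (.tw (.s12 (.c 0 (.b 136) (.b 405))))) (.s13 (.tw (.c 0 (.s13 (.tw (.c 0 (.b 44) (.b 1)))) (.s13 (.tw (.c 0 (.b 5) (.b 124))))))))))))))))),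
  (.tw (.c 0 (.s12 (.s13 (.tw (.s12 (.c 0 (.b 13) (.s13 (.tw (.s12 (.s13 (.c 0 (.b 136) (.s13 (.tw (.s12 (.s13 (.c 0 (.b 284) (.b 147)))))))))))))))) (.s13 (.tw (.s12 (.c 0 (.s13 (.tw (.c 0 (.b 14) (.s13 (.tw (.s12 (.s13 (.c 0 (.b 14) (.c 0 (.b 136) (.b 136)))))))))) (.s12 (.s13 (.tw (.c 0 (.s13 (.tw (.c 0 (.b 63) (.c 0 (.b 136) (.b 136))))) (.tw (.s13 (.s12 (.c 0 (.s13 (.tw (.s12 (.c 0 (.b 63) (.b 381))))) (.s13 (.tw (.s12 (.c 0 (.b 44) (.b 12))))))))))))))))))),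
  (.tw (.c 0 (.tw (.c 0 (.b 13) (.s13 (.tw (.s12 (.s13 (.c 0 (.b 284) (.c 0 (.b 136) (.b 29))))))))) (.s13 (.tw (.c 0 (.s12 (.s13 (.tw (.c 0 (.s13 (.tw (.s12 (.s13 (.c 0 (.b 14) (.c 0 (.b 136) (.b 136))))))) (.b 16))))) (.s12 (.s13 (.c 0 (.s12 (.s13 (.tw (.s12 (.c 0 (.b 304) (.s13 (.tw (.s12 (.s13 (.c 0 (.b 136) (.b 44))))))))))) (.s13 (.tw (.s13 (.c 0 (.b 70) (.b 45))))))))))))),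
  (.c 0 (.tw (.c 0 (.b 1) (.s13 (.tw (.s13 (.c 0 (.b 1) (.b 21))))))) (.s13 (.c 0 (.tw (.s12 (.c 0 (.s13 (.tw (.c 0 (.b 12) (.b 172)))) (.tw (.s13 (.tw (.c 0 (.b 279) (.tw (.s12 (.s13 (.tw (.c 0 (.b 136) (.s13 (.tw (.s12 (.s13 (.c 0 (.b 44) (.b 12)))))))))))))))))) (.s12 (.s13 (.tw (.c 0 (.s13 (.tw (.c 0 (.b 12) (.b 172)))) (.tw (.s12 (.s13 (.tw (.c 0 (.b 136) (.s13 (.tw (.s12 (.s13 (.c 0 (.b 63) (.b 44)))))))))))))))))),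
  (.tw (.c 0 (.tw (.c 0 (.b 13) (.s13 (.tw (.s12 (.s13 (.c 0 (.b 284) (.c 0 (.b 136) (.b 29))))))))) (.tw (.s13 (.s12 (.c 0 (.tw (.s13 (.s12 (.c 0 (.s13 (.tw (.s12 (.c 0 (.b 247) (.b 152))))) (.s13 (.tw (.c 0 (.b 63) (.b 44)))))))) (.tw (.s13 (.s12 (.c 0 (.b 80) (.s13 (.tw (.s13 (.c 0 (.b 663) (.b 44))))))))))))))),
  (.c 0 (.tw (.c 0 (.b 1) (.s13 (.tw (.s13 (.c 0 (.b 1) (.b 21))))))) (.s13 (.c 0 (.tw (.c 0 (.tw (.s13 (.tw (.c 0 (.b 13) (.b 578))))) (.tw (.s12 (.s13 (.tw (.c 0 (.b 304) (.s13 (.tw (.s12 (.s13 (.c 0 (.b 136) (.b 44))))))))))))) (.s13 (.tw (.c 0 (.s13 (.tw (.c 0 (.b 12) (.b 172)))) (.tw (.s13 (.tw (.c 0 (.b 304) (.s13 (.tw (.s12 (.s13 (.c 0 (.b 63) (.b 44)))))))))))))))),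
  (.c 0 (.tw (.c 0 (.b 1) (.s13 (.tw (.s13 (.c 0 (.b 1) (.b 21))))))) (.s13 (.tw (.c 0 (.s13 (.tw (.c 0 (.tw (.s12 (.s13 (.tw (.c 0 (.b 63) (.b 159)))))) (.tw (.s12 (.s13 (.tw (.c 0 (.b 381) (.b 381))))))))) (.s13 (.tw (.c 0 (.s13 (.tw (.c 0 (.b 136) (.b 536)))) (.s13 (.tw (.c 0 (.s12 (.s13 (.tw (.c 0 (.b 57) (.b 136))))) (.s13 (.tw (.c 0 (.b 5) (.b 5)))))))))))))),
  (.tw (.c 0 (.tw (.c 0 (.b 14) (.s13 (.tw (.s12 (.s13 (.c 0 (.b 478) (.s13 (.tw (.s12 (.s13 (.c 0 (.b 136) (.s13 (.tw (.s12 (.s13 (.c 0 (.b 63) (.b 381)))))))))))))))))) (.s13 (.tw (.c 0 (.tw (.s13 (.tw (.c 0 (.b 67) (.s13 (.tw (.s13 (.c 0 (.b 14) (.b 44))))))))) (.tw (.s12 (.s13 (.tw (.c 0 (.tw (.c 0 (.b 136) (.b 136))) (.s13 (.tw (.c 0 (.s13 (.tw (.c 0 (.b 63) (.b 24)))) (.s13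 (.tw (.c 0 (.b 14) (.b 180))))))))))))))))),
  (.tw (.c 0 (.tw (.c 0 (.b 13) (.s13 (.tw (.s12 (.s13 (.c 0 (.b 136) (.c 0 (.b 260) (.b 147))))))))) (.s13 (.tw (.c 0 (.s13 (.tw (.c 0 (.b 14) (.s13 (.tw (.s12 (.s13 (.c 0 (.b 14) (.c 0 (.b 136) (.b 136)))))))))) (.s13 (.c 0 (.tw (.c 0 (.b 304) (.tw (.s12 (.s13 (.tw (.c 0 (.b 44) (.b 12)))))))) (.s13 (.tw (.s13 (.c 0 (.b 70) (.b 45)))))))))))),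
  (.tw (.c 0 (.tw (.c 0 (.b 13) (.s13 (.tw (.s12 (.s13 (.c 0 (.b 57) (.s13 (.tw (.s12 (.s13 (.c 0 (.b 381) (.b 478))))))))))))) (.s13 (.tw (.c 0 (.s13 (.tw (.c 0 (.b 14) (.s13 (.tw (.s12 (.s13 (.c 0 (.b 14) (.c 0 (.b 136) (.b 136)))))))))) (.s13 (.c 0 (.tw (.c 0 (.b 304) (.s13 (.tw (.s12 (.s13 (.c 0 (.b 63) (.b 44)))))))) (.s13 (.tw (.s13 (.c 0 (.b 70) (.b 45)))))))))))),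
  (.tw (.c 0 (.tw (.c 0 (.b 13) (.s13 (.tw (.s12 (.s13 (.c 0 (.b 284) (.c 0 (.b 136) (.b 29))))))))) (.s13 (.tw (.c 0 (.s13 (.tw (.c 0 (.b 14) (.tw (.s12 (.s13 (.tw (.c 0 (.b 136) (.b 536))))))))) (.s12 (.s13 (.tw (.c 0 (.s13 (.tw (.c 0 (.b 14) (.c 0 (.b 136) (.b 136))))) (.s13 (.tw (.s13 (.s12 (.c 0 (.b 208) (.s13 (.tw (.s13 (.c 0 (.b 5) (.b 143))))))))))))))))))),
  (.tw (.c 0 (.s12 (.s13 (.tw (.s12 (.c 0 (.b 13) (.s13 (.tw (.s12 (.s13 (.c 0 (.b 136) (.s13 (.tw (.s12 (.s13 (.c 0 (.b 284) (.b 147)))))))))))))))) (.s13 (.tw (.s12 (.c 0 (.s13 (.tw (.c 0 (.b 14) (.s13 (.tw (.s12 (.s13 (.c 0 (.b 14) (.c 0 (.b 136) (.b 136)))))))))) (.s12 (.s13 (.c 0 (.s12 (.s13 (.tw (.s12 (.c 0 (.b 136) (.s13 (.tw (.s12 (.s13 (.c 0 (.b 136) (.b 44))))))))))) (.s13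 (.tw (.s13 (.c 0 (.b 70) (.b 45)))))))))))))),
  (.tw (.c 0 (.tw (.c 0 (.b 13) (.s13 (.tw (.s12 (.s13 (.c 0 (.b 284) (.c 0 (.b 136) (.b 29))))))))) (.s13 (.tw (.c 0 (.s13 (.tw (.c 0 (.b 273) (.s13 (.tw (.s12 (.s13 (.c 0 (.b 136) (.b 180))))))))) (.s13 (.c 0 (.tw (.c 0 (.b 14) (.s13 (.tw (.s12 (.s13 (.c 0 (.b 14) (.c 0 (.b 136) (.b 136))))))))) (.s13 (.tw (.s13 (.c 0 (.b 70) (.b 45)))))))))))),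
  (.c 0 (.tw (.c 0 (.b 1) (.s13 (.tw (.s13 (.c 0 (.b 1) (.b 21))))))) (.s13 (.c 0 (.tw (.c 0 (.tw (.s12 (.s13 (.tw (.c 0 (.b 63) (.s13 (.tw (.s12 (.s13 (.c 0 (.b 180) (.b 12))))))))))) (.tw (.s13 (.tw (.c 0 (.b 304) (.s13 (.tw (.s12 (.s13 (.c 0 (.b 136) (.b 44)))))))))))) (.s13 (.tw (.c 0 (.tw (.s12 (.s13 (.tw (.c 0 (.b 136) (.s13 (.tw (.s12 (.s13 (.c 0 (.b 63) (.b 44))))))))))) (.b 273))))))),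
  (.tw (.c 0 (.tw (.c 0 (.b 14) (.s13 (.tw (.s12 (.s13 (.c 0 (.b 13) (.s13 (.tw (.s12 (.s13 (.c 0 (.b 136) (.s13 (.tw (.s12 (.s13 (.c 0 (.b 63) (.b 369)))))))))))))))))) (.s13 (.tw (.c 0 (.s12 (.s13 (.tw (.c 0 (.b 136) (.b 536))))) (.tw (.s12 (.s13 (.tw (.c 0 (.s13 (.tw (.c 0 (.b 136) (.s13 (.tw (.s12 (.s13 (.c 0 (.b 44) (.b 12))))))))) (.tw (.s12 (.s13 (.tw (.c 0 (.tw (.c 0 (.b 63) (.b 24))) (.s13 (.tw (.c 0 (.b 44) (.b 12))))))))))))))))))),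
  (.c 0 (.tw (.c 0 (.b 1) (.s13 (.tw (.s13 (.c 0 (.b 1) (.b 21))))))) (.s13 (.c 0 (.tw (.c 0 (.tw (.s13 (.tw (.c 0 (.s13 (.tw (.s12 (.s13 (.c 0 (.b 180) (.b 12)))))) (.b 26))))) (.tw (.s13 (.tw (.c 0 (.b 273) (.s13 (.tw (.s12 (.s13 (.c 0 (.b 24) (.b 136)))))))))))) (.s13 (.tw (.c 0 (.tw (.s13 (.tw (.c 0 (.b 284) (.s13 (.tw (.s12 (.s13 (.c 0 (.b 136) (.b 44)))))))))) (.b 273))))))),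
  (.c 0 (.tw (.c 0 (.b 1) (.s13 (.tw (.s13 (.c 0 (.b 1) (.b 21))))))) (.s13 (.c 0 (.tw (.c 0 (.s13 (.tw (.c 0 (.b 12) (.b 137)))) (.tw (.s13 (.tw (.c 0 (.s13 (.tw (.c 0 (.b 12) (.b 172)))) (.s13 (.tw (.s12 (.s13 (.c 0 (.b 24) (.b 136)))))))))))) (.s13 (.tw (.c 0 (.s13 (.tw (.c 0 (.b 12) (.b 172)))) (.tw (.s13 (.tw (.c 0 (.b 304) (.s13 (.tw (.s12 (.s13 (.c 0 (.b 63) (.b 44)))))))))))))))),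
  (.c 0 (.tw (.c 0 (.b 1) (.s13 (.tw (.s13 (.c 0 (.b 1) (.b 21))))))) (.s13 (.tw (.c 0 (.s13 (.tw (.c 0 (.b 14) (.s13 (.tw (.s12 (.s13 (.c 0 (.b 304) (.s13 (.tw (.s12 (.s13 (.c 0 (.b 13) (.b 337)))))))))))))) (.s12 (.s13 (.tw (.c 0 (.s13 (.tw (.c 0 (.b 136) (.b 536)))) (.s13 (.tw (.c 0 (.tw (.c 0 (.b 136) (.b 136))) (.s13 (.tw (.c 0 (.b 5) (.b 5))))))))))))))),
  (.tw (.c 0 (.tw (.c 0 (.b 13) (.s13 (.tw (.s12 (.s13 (.c 0 (.b 13) (.c 0 (.b 14) (.s13 (.tw (.s12 (.s13 (.c 0 (.b 381) (.b 381)))))))))))))) (.s13 (.tw (.c 0 (.s13 (.tw (.c 0 (.s13 (.tw (.s12 (.c 0 (.b 239) (.b 1))))) (.tw (.s12 (.s13 (.tw (.c 0 (.b 5) (.b 239))))))))) (.s12 (.s13 (.tw (.c 0 (.s13 (.tw (.s12 (.c 0 (.b 239) (.b 1))))) (.tw (.s12 (.s13 (.tw (.c 0 (.b 5) (.b 239))))))))))))))),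
  (.tw (.c 0 (.tw (.c 0 (.b 13) (.s13 (.tw (.s12 (.s13 (.c 0 (.b 13) (.c 0 (.b 136) (.s13 (.tw (.s12 (.s13 (.c 0 (.b 13) (.b 138)))))))))))))) (.s13 (.tw (.c 0 (.s13 (.tw (.c 0 (.b 58) (.s13 (.tw (.s12 (.s13 (.c 0 (.b 136) (.b 536))))))))) (.tw (.s13 (.tw (.c 0 (.s13 (.tw (.c 0 (.b 14) (.c 0 (.b 136) (.b 136))))) (.s12 (.s13 (.tw (.c 0 (.s13 (.tw (.s12 (.c 0 (.b 239) (.b 1))))) (.s13 (.tw (.c 0 (.b 63) (.b 381))))))))))))))))),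
  (.tw (.c 0 (.tw (.c 0 (.b 13) (.s13 (.tw (.s12 (.s13 (.c 0 (.b 13) (.c 0 (.b 14) (.s13 (.tw (.s12 (.s13 (.c 0 (.b 381) (.b 381)))))))))))))) (.s13 (.tw (.c 0 (.s13 (.tw (.c 0 (.b 136) (.b 462)))) (.tw (.s13 (.tw (.c 0 (.s13 (.tw (.c 0 (.b 136) (.s13 (.tw (.s12 (.s13 (.c 0 (.b 44) (.b 1))))))))) (.s13 (.tw (.c 0 (.s13 (.tw (.s12 (.c 0 (.b 63) (.b 124))))) (.s13 (.tw (.c 0 (.b 5) (.b 124)))))))))))))))),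
  (.tw (.c 0 (.tw (.c 0 (.b 14) (.s13 (.tw (.s12 (.s13 (.c 0 (.b 136) (.c 0 (.b 666) (.b 666))))))))) (.s13 (.tw (.c 0 (.s12 (.s13 (.tw (.c 0 (.b 14) (.c 0 (.b 136) (.b 136)))))) (.s13 (.tw (.s12 (.s13 (.c 0 (.s12 (.s13 (.tw (.c 0 (.b 136) (.b 41))))) (.tw (.s12 (.s13 (.tw (.c 0 (.b 348) (.s13 (.tw (.c 0 (.b 5) (.b 5))))))))))))))))))),
  (.tw (.c 0 (.tw (.c 0 (.b 13) (.s13 (.tw (.s12 (.s13 (.c 0 (.b 13) (.c 0 (.b 136) (.s13 (.tw (.s12 (.s13 (.c 0 (.b 13) (.b 138)))))))))))))) (.s13 (.tw (.c 0 (.s13 (.tw (.c 0 (.b 14) (.s13 (.tw (.s12 (.s13 (.c 0 (.b 136) (.b 536))))))))) (.tw (.s13 (.tw (.c 0 (.s13 (.tw (.c 0 (.b 136) (.b 536)))) (.tw (.s12 (.s13 (.tw (.c 0 (.b 208) (.s13 (.tw (.c 0 (.b 5) (.b 381)))))))))))))))))),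
  (.tw (.c 0 (.tw (.c 0 (.b 13) (.s13 (.tw (.s12 (.s13 (.c 0 (.b 13) (.c 0 (.b 14) (.s13 (.tw (.s12 (.s13 (.c 0 (.b 381) (.b 381)))))))))))))) (.s13 (.tw (.c 0 (.s13 (.tw (.c 0 (.b 136) (.b 462)))) (.tw (.s13 (.tw (.c 0 (.s13 (.tw (.c 0 (.b 136) (.b 44)))) (.tw (.s12 (.s13 (.tw (.c 0 (.b 210) (.s13 (.tw (.s12 (.s13 (.c 0 (.b 601) (.b 5)))))))))))))))))))),
  (.tw (.c 0 (.tw (.c 0 (.b 13) (.s13 (.tw (.s12 (.s13 (.c 0 (.b 13) (.c 0 (.b 14) (.s13 (.tw (.s12 (.s13 (.c 0 (.b 381) (.b 381)))))))))))))) (.s13 (.tw (.c 0 (.s13 (.tw (.c 0 (.b 136) (.b 462)))) (.tw (.s13 (.tw (.c 0 (.s13 (.tw (.c 0 (.b 136) (.b 44)))) (.tw (.s12 (.s13 (.tw (.c 0 (.s13 (.tw (.c 0 (.b 44) (.b 12)))) (.s13 (.tw (.s12 (.c 0 (.b 5) (.b 124))))))))))))))))))),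
  (.c 0 (.tw (.c 0 (.b 1) (.s13 (.tw (.s13 (.c 0 (.b 1) (.b 21))))))) (.s13 (.c 0 (.tw (.c 0 (.tw (.s13 (.tw (.c 0 (.b 13) (.b 247))))) (.tw (.s13 (.tw (.c 0 (.b 273) (.s13 (.tw (.s12 (.s13 (.c 0 (.b 136) (.b 44)))))))))))) (.s13 (.tw (.c 0 (.tw (.s13 (.tw (.c 0 (.b 284) (.s13 (.tw (.s12 (.s13 (.c 0 (.b 136) (.b 44)))))))))) (.b 273))))))),
  (.tw (.c 0 (.tw (.c 0 (.b 478) (.s13 (.tw (.s12 (.s13 (.c 0 (.b 381) (.c 0 (.b 136) (.b 136))))))))) (.s13 (.tw (.c 0 (.s12 (.s13 (.tw (.s12 (.c 0 (.b 136) (.b 536)))))) (.tw (.s12 (.s13 (.tw (.c 0 (.s12 (.s13 (.tw (.c 0 (.b 136) (.b 29))))) (.s12 (.s13 (.tw (.c 0 (.s13 (.tw (.s12 (.c 0 (.b 14) (.s13 (.tw (.s12 (.s13 (.c 0 (.b 44) (.b 1)))))))))) (.s13 (.tw (.c 0 (.b 63) (.b 44)))))))))))))))))),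
  (.tw (.c 0 (.tw (.c 0 (.b 13) (.s13 (.tw (.s12 (.s13 (.c 0 (.b 13) (.c 0 (.b 136) (.s13 (.tw (.s12 (.s13 (.c 0 (.b 13) (.b 138)))))))))))))) (.s13 (.tw (.c 0 (.s13 (.tw (.c 0 (.b 14) (.s13 (.tw (.s12 (.s13 (.c 0 (.b 14) (.c 0 (.b 136) (.b 136)))))))))) (.tw (.s13 (.tw (.c 0 (.s13 (.tw (.c 0 (.b 136) (.b 536)))) (.s13 (.tw (.c 0 (.b 73) (.s13 (.tw (.c 0 (.b 82) (.b 124)))))))))))))))),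
  (.tw (.c 0 (.tw (.c 0 (.b 13) (.s13 (.tw (.s12 (.s13 (.c 0 (.b 13) (.c 0 (.b 14) (.s13 (.tw (.s12 (.s13 (.c 0 (.b 381) (.b 381)))))))))))))) (.s13 (.tw (.c 0 (.s13 (.tw (.c 0 (.b 136) (.b 462)))) (.tw (.s13 (.tw (.c 0 (.s13 (.tw (.c 0 (.b 14) (.c 0 (.b 136) (.b 136))))) (.tw (.s12 (.s13 (.tw (.c 0 (.s13 (.tw (.c 0 (.b 44) (.b 12)))) (.s13 (.tw (.s12 (.c 0 (.b 5) (.b 124))))))))))))))))))),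
  (.tw (.c 0 (.tw (.c 0 (.b 13) (.s13 (.tw (.s12 (.s13 (.c 0 (.b 13) (.c 0 (.b 14) (.s13 (.tw (.s12 (.s13 (.c 0 (.b 381) (.b 381)))))))))))))) (.s13 (.tw (.c 0 (.s13 (.tw (.c 0 (.b 14) (.s13 (.tw (.s12 (.s13 (.c 0 (.b 136) (.b 351))))))))) (.tw (.s13 (.tw (.c 0 (.s13 (.tw (.c 0 (.b 136) (.s13 (.tw (.s12 (.s13 (.c 0 (.b 44) (.b 1))))))))) (.s13 (.tw (.c 0 (.b 73) (.s13 (.tw (.c 0 (.b 5) (.b 124)))))))))))))))),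
  (.tw (.c 0 (.tw (.c 0 (.b 13) (.s13 (.tw (.s12 (.s13 (.c 0 (.b 13) (.c 0 (.b 136) (.s13 (.tw (.s12 (.s13 (.c 0 (.b 13) (.b 138)))))))))))))) (.s13 (.tw (.c 0 (.s13 (.tw (.c 0 (.b 14) (.s13 (.tw (.s12 (.s13 (.c 0 (.b 136) (.b 536))))))))) (.tw (.s13 (.tw (.c 0 (.s13 (.tw (.c 0 (.b 136) (.b 536)))) (.s12 (.s13 (.tw (.c 0 (.s13 (.tw (.s12 (.c 0 (.b 239) (.b 1))))) (.s13 (.tw (.c 0 (.b 44) (.b 12))))))))))))))))),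
  (.tw (.c 0 (.tw (.c 0 (.b 13) (.s13 (.tw (.s12 (.s13 (.c 0 (.b 13) (.c 0 (.b 14) (.s13 (.tw (.s12 (.s13 (.c 0 (.b 381) (.b 381)))))))))))))) (.s13 (.tw (.c 0 (.s13 (.tw (.c 0 (.b 14) (.s13 (.tw (.s12 (.s13 (.c 0 (.b 136) (.b 351))))))))) (.tw (.s13 (.tw (.c 0 (.s13 (.tw (.c 0 (.b 136) (.s13 (.tw (.s12 (.s13 (.c 0 (.b 44) (.b 1))))))))) (.tw (.s13 (.tw (.c 0 (.s13 (.tw (.s12 (.c 0 (.b 63) (.b 381))))) (.s13 (.tw (.c 0 (.b 63) (.b 44))))))))))))))))),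
  (.c 0 (.tw (.c 0 (.b 1) (.s13 (.tw (.s13 (.c 0 (.b 1) (.b 21))))))) (.s13 (.c 0 (.tw (.c 0 (.b 23) (.tw (.s12 (.s13 (.tw (.c 0 (.s13 (.tw (.c 0 (.b 12) (.b 172)))) (.tw (.s13 (.tw (.c 0 (.b 63) (.s13 (.tw (.s12 (.s13 (.c 0 (.b 136) (.b 44))))))))))))))))) (.s13 (.tw (.c 0 (.s13 (.tw (.c 0 (.b 12) (.b 172)))) (.tw (.s13 (.tw (.c 0 (.b 304) (.s13 (.tw (.s12 (.s13 (.c 0 (.b 63) (.b 44)))))))))))))))),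
  (.tw (.c 0 (.s12 (.s13 (.tw (.s12 (.c 0 (.b 14) (.s13 (.tw (.s12 (.s13 (.c 0 (.b 304) (.s13 (.tw (.s12 (.s13 (.c 0 (.b 13) (.b 546)))))))))))))))) (.s13 (.tw (.s12 (.c 0 (.s13 (.tw (.c 0 (.b 14) (.s13 (.tw (.s12 (.s13 (.c 0 (.b 136) (.b 536))))))))) (.tw (.s12 (.s13 (.tw (.c 0 (.s13 (.tw (.c 0 (.b 136) (.b 44)))) (.s13 (.tw (.c 0 (.tw (.c 0 (.b 136) (.b 136))) (.s13 (.tw (.s12 (.s13 (.c 0 (.b 44) (.b 12)))))))))))))))))))),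
  (.c 0 (.tw (.c 0 (.b 1) (.s13 (.tw (.s13 (.c 0 (.b 1) (.b 21))))))) (.s13 (.c 0 (.tw (.c 0 (.b 279) (.tw (.s13 (.tw (.c 0 (.s13 (.tw (.c 0 (.b 12) (.b 172)))) (.tw (.s12 (.s13 (.tw (.c 0 (.b 136) (.s13 (.tw (.s12 (.s13 (.c 0 (.b 44) (.b 1))))))))))))))))) (.s13 (.tw (.c 0 (.s13 (.tw (.c 0 (.b 12) (.b 172)))) (.tw (.s13 (.tw (.c 0 (.b 304) (.s13 (.tw (.s12 (.s13 (.c 0 (.b 63) (.b 44)))))))))))))))),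
  (.tw (.c 0 (.tw (.c 0 (.b 14) (.s13 (.tw (.s12 (.s13 (.c 0 (.b 478) (.s13 (.tw (.s12 (.s13 (.c 0 (.b 136) (.s13 (.tw (.s12 (.s13 (.c 0 (.b 63) (.b 381)))))))))))))))))) (.s13 (.tw (.c 0 (.tw (.s13 (.tw (.c 0 (.b 67) (.s13 (.tw (.s13 (.c 0 (.b 14) (.b 44))))))))) (.s13 (.tw (.s12 (.s13 (.c 0 (.tw (.c 0 (.b 136) (.b 136))) (.s13 (.tw (.c 0 (.s13 (.tw (.c 0 (.b 14) (.b 44)))) (.b 247)))))))))))))),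
  (.tw (.c 0 (.tw (.c 0 (.b 478) (.s13 (.tw (.s12 (.s13 (.c 0 (.b 381) (.c 0 (.b 136) (.b 136))))))))) (.s13 (.tw (.c 0 (.s12 (.s13 (.tw (.s12 (.c 0 (.b 136) (.b 536)))))) (.tw (.s12 (.s13 (.tw (.c 0 (.s12 (.s13 (.tw (.s12 (.c 0 (.b 13) (.b 598)))))) (.s13 (.tw (.c 0 (.b 296) (.s13 (.tw (.c 0 (.b 5) (.b 5))))))))))))))))),
  (.tw (.c 0 (.tw (.c 0 (.b 13) (.s13 (.tw (.s12 (.s13 (.c 0 (.b 13) (.c 0 (.b 136) (.s13 (.tw (.s12 (.s13 (.c 0 (.b 13) (.b 138)))))))))))))) (.s13 (.tw (.c 0 (.s13 (.tw (.c 0 (.b 14) (.s13 (.tw (.s12 (.s13 (.c 0 (.b 14) (.c 0 (.b 136) (.b 136)))))))))) (.s13 (.c 0 (.tw (.c 0 (.b 304) (.s13 (.tw (.s12 (.s13 (.c 0 (.b 63) (.b 180)))))))) (.s13 (.tw (.s13 (.c 0 (.b 70) (.b 45)))))))))))),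
  (.tw (.c 0 (.tw (.c 0 (.b 13) (.s13 (.tw (.s12 (.s13 (.c 0 (.b 13) (.c 0 (.b 14) (.s13 (.tw (.s12 (.s13 (.c 0 (.b 381) (.b 381)))))))))))))) (.s13 (.tw (.c 0 (.s13 (.tw (.c 0 (.b 14) (.s13 (.tw (.s12 (.s13 (.c 0 (.b 136) (.b 351))))))))) (.s13 (.c 0 (.s12 (.s13 (.tw (.s12 (.c 0 (.b 666) (.s13 (.tw (.s12 (.s13 (.c 0 (.b 63) (.b 44))))))))))) (.s13 (.tw (.s13 (.c 0 (.b 70) (.b 45)))))))))))),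
  (.tw (.c 0 (.tw (.c 0 (.b 13) (.s13 (.tw (.s12 (.s13 (.c 0 (.b 13) (.c 0 (.b 136) (.s13 (.tw (.s12 (.s13 (.c 0 (.b 13) (.b 138)))))))))))))) (.s13 (.tw (.c 0 (.s13 (.tw (.c 0 (.b 14) (.s13 (.tw (.s12 (.s13 (.c 0 (.b 14) (.c 0 (.b 136) (.b 136)))))))))) (.tw (.s13 (.tw (.c 0 (.s13 (.tw (.c 0 (.b 136) (.b 536)))) (.tw (.s13 (.tw (.c 0 (.s13 (.tw (.s12 (.c 0 (.b 63) (.b 381))))) (.s13 (.tw (.s12 (.c 0 (.b 44) (.b 12)))))))))))))))))),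
  (.tw (.c 0 (.tw (.c 0 (.b 13) (.s13 (.tw (.s12 (.s13 (.c 0 (.b 13) (.c 0 (.b 14) (.s13 (.tw (.s12 (.s13 (.c 0 (.b 381) (.b 381)))))))))))))) (.s13 (.tw (.c 0 (.s13 (.tw (.c 0 (.b 14) (.s13 (.tw (.s12 (.s13 (.c 0 (.b 14) (.c 0 (.b 136) (.b 136)))))))))) (.tw (.s13 (.tw (.c 0 (.s13 (.tw (.c 0 (.b 136) (.b 536)))) (.tw (.s13 (.tw (.c 0 (.s13 (.tw (.s12 (.c 0 (.b 63) (.b 381))))) (.s13 (.tw (.c 0 (.b 63) (.b 44))))))))))))))))),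
  (.c 0 (.tw (.c 0 (.b 1) (.s13 (.tw (.s13 (.c 0 (.b 1) (.b 21))))))) (.s13 (.c 0 (.tw (.c 0 (.b 718) (.tw (.s13 (.tw (.c 0 (.tw (.s12 (.s13 (.tw (.c 0 (.b 136) (.s13 (.tw (.s12 (.s13 (.c 0 (.b 63) (.b 44))))))))))) (.b 273))))))) (.s13 (.tw (.c 0 (.tw (.s12 (.s13 (.tw (.c 0 (.b 136) (.s13 (.tw (.s12 (.s13 (.c 0 (.b 63) (.b 44))))))))))) (.b 273))))))),
  (.tw (.c 0 (.s12 (.s13 (.tw (.s12 (.c 0 (.b 14) (.s13 (.tw (.s12 (.s13 (.c 0 (.b 304) (.s13 (.tw (.s12 (.s13 (.c 0 (.b 13) (.b 546)))))))))))))))) (.s13 (.tw (.s12 (.c 0 (.s12 (.s13 (.tw (.c 0 (.b 136) (.tw (.s12 (.s13 (.tw (.c 0 (.b 63) (.b 381)))))))))) (.tw (.s12 (.s13 (.tw (.c 0 (.s12 (.s13 (.tw (.c 0 (.b 136) (.b 29))))) (.s13 (.tw (.c 0 (.tw (.c 0 (.b 136) (.b 136))) (.s13 (.tw (.c 0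 (.b 5) (.b 143)))))))))))))))))),
  (.c 0 (.tw (.c 0 (.b 1) (.s13 (.tw (.s13 (.c 0 (.b 1) (.b 21))))))) (.s13 (.c 0 (.tw (.c 0 (.tw (.s13 (.tw (.c 0 (.b 13) (.b 526))))) (.tw (.s13 (.tw (.c 0 (.b 273) (.s13 (.tw (.s12 (.s13 (.c 0 (.b 136) (.b 44)))))))))))) (.s13 (.tw (.c 0 (.tw (.s13 (.tw (.c 0 (.b 284) (.s13 (.tw (.s12 (.s13 (.c 0 (.b 136) (.b 44)))))))))) (.b 273))))))),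
  (.c 0 (.tw (.c 0 (.b 1) (.s13 (.tw (.s13 (.c 0 (.b 1) (.b 21))))))) (.s13 (.c 0 (.tw (.c 0 (.b 718) (.tw (.s13 (.tw (.c 0 (.s13 (.tw (.c 0 (.b 12) (.b 172)))) (.s13 (.tw (.s12 (.s13 (.c 0 (.b 136) (.b 44)))))))))))) (.s13 (.tw (.c 0 (.s13 (.tw (.c 0 (.b 12) (.b 172)))) (.tw (.s13 (.tw (.c 0 (.b 304) (.s13 (.tw (.s12 (.s13 (.c 0 (.b 63) (.b 44)))))))))))))))),
  (.c 0 (.tw (.c 0 (.b 1) (.s13 (.tw (.s13 (.c 0 (.b 1) (.b 21))))))) (.s13 (.tw (.c 0 (.s13 (.tw (.c 0 (.b 136) (.s13 (.tw (.s12 (.s13 (.c 0 (.b 13) (.b 207))))))))) (.s13 (.tw (.c 0 (.s13 (.tw (.c 0 (.b 136) (.c 0 (.b 136) (.b 136))))) (.s13 (.tw (.c 0 (.tw (.c 0 (.b 136) (.b 136))) (.s13 (.tw (.c 0 (.b 5) (.b 5)))))))))))))),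
  (.tw (.c 0 (.tw (.c 0 (.b 478) (.s13 (.tw (.s12 (.s13 (.c 0 (.b 381) (.c 0 (.b 136) (.b 136))))))))) (.s13 (.tw (.c 0 (.s12 (.s13 (.tw (.c 0 (.b 136) (.s13 (.tw (.s12 (.s13 (.c 0 (.b 24) (.b 136)))))))))) (.tw (.s12 (.s13 (.tw (.c 0 (.tw (.c 0 (.b 136) (.b 136))) (.s12 (.s13 (.tw (.c 0 (.s13 (.tw (.c 0 (.b 24) (.b 136)))) (.s13 (.tw (.s12 (.c 0 (.b 13) (.b 400))))))))))))))))))),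
  (.tw (.c 0 (.tw (.c 0 (.b 13) (.s13 (.tw (.s12 (.s13 (.c 0 (.b 13) (.c 0 (.b 136) (.s13 (.tw (.s12 (.s13 (.c 0 (.b 13) (.b 138)))))))))))))) (.s13 (.tw (.c 0 (.s13 (.tw (.c 0 (.b 14) (.s13 (.tw (.s12 (.s13 (.c 0 (.b 14) (.c 0 (.b 136) (.b 136)))))))))) (.s13 (.c 0 (.tw (.c 0 (.b 304) (.tw (.s12 (.s13 (.tw (.c 0 (.b 44) (.b 12)))))))) (.s13 (.tw (.s13 (.c 0 (.b 70) (.b 45)))))))))))),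
  (.tw (.c 0 (.tw (.c 0 (.b 13) (.s13 (.tw (.s12 (.s13 (.c 0 (.b 13) (.c 0 (.b 14) (.s13 (.tw (.s12 (.s13 (.c 0 (.b 381) (.b 381)))))))))))))) (.s13 (.tw (.c 0 (.s13 (.tw (.c 0 (.b 14) (.s13 (.tw (.s12 (.s13 (.c 0 (.b 14) (.c 0 (.b 136) (.b 136)))))))))) (.s13 (.c 0 (.tw (.c 0 (.b 304) (.s13 (.tw (.s12 (.s13 (.c 0 (.b 63) (.b 44)))))))) (.s13 (.tw (.s13 (.c 0 (.b 70) (.b 45)))))))))))),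
  (.tw (.c 0 (.s12 (.s13 (.tw (.s12 (.c 0 (.b 14) (.s13 (.tw (.s12 (.s13 (.c 0 (.b 304) (.s13 (.tw (.s12 (.s13 (.c 0 (.b 13) (.b 546)))))))))))))))) (.s13 (.tw (.s12 (.c 0 (.tw (.s13 (.tw (.c 0 (.b 67) (.s13 (.tw (.s13 (.c 0 (.b 14) (.b 44))))))))) (.s12 (.s13 (.tw (.c 0 (.s13 (.tw (.c 0 (.b 136) (.c 0 (.b 136) (.b 136))))) (.s13 (.tw (.s13 (.s12 (.c 0 (.b 95) (.s13 (.tw (.c 0 (.b 44) (.b 12))))))))))))))))))),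
  (.c 0 (.tw (.c 0 (.b 1) (.s13 (.tw (.s13 (.c 0 (.b 1) (.b 21))))))) (.s13 (.c 0 (.tw (.c 0 (.tw (.s13 (.tw (.c 0 (.b 63) (.b 526))))) (.tw (.s13 (.tw (.c 0 (.b 273) (.s13 (.tw (.s12 (.s13 (.c 0 (.b 136) (.b 44)))))))))))) (.s13 (.tw (.c 0 (.tw (.s12 (.s13 (.tw (.c 0 (.b 136) (.s13 (.tw (.s12 (.s13 (.c 0 (.b 63) (.b 44))))))))))) (.b 273))))))),
  (.c 0 (.tw (.c 0 (.b 1) (.s13 (.tw (.s13 (.c 0 (.b 1) (.b 21))))))) (.s13 (.c 0 (.tw (.s12 (.c 0 (.s13 (.tw (.c 0 (.b 12) (.b 172)))) (.tw (.s13 (.tw (.c 0 (.s13 (.tw (.c 0 (.b 12) (.b 172)))) (.s13 (.tw (.s12 (.s13 (.c 0 (.b 136) (.b 44))))))))))))) (.s12 (.s13 (.tw (.c 0 (.s13 (.tw (.c 0 (.b 12) (.b 172)))) (.tw (.s12 (.s13 (.tw (.c 0 (.b 136) (.s13 (.tw (.s12 (.s13 (.c 0 (.b 63) (.b 44)))))))))))))))))),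
  (.c 0 (.tw (.c 0 (.b 1) (.s13 (.tw (.s13 (.c 0 (.b 1) (.b 21))))))) (.tw (.c 0 (.s12 (.s13 (.tw (.c 0 (.b 57) (.s13 (.tw (.s12 (.s13 (.c 0 (.b 136) (.c 0 (.b 136) (.b 136))))))))))) (.s12 (.s13 (.tw (.c 0 (.s13 (.tw (.c 0 (.b 136) (.b 536)))) (.tw (.s12 (.s13 (.tw (.c 0 (.s12 (.s13 (.tw (.c 0 (.b 14) (.b 351))))) (.s13 (.tw (.c 0 (.b 5) (.b 5)))))))))))))))),
  (.tw (.c 0 (.tw (.c 0 (.b 14) (.s13 (.tw (.s12 (.s13 (.c 0 (.b 14) (.c 0 (.b 304) (.s13 (.tw (.s12 (.s13 (.c 0 (.b 63) (.b 369)))))))))))))) (.s13 (.tw (.c 0 (.tw (.s13 (.c 0 (.b 70) (.b 45)))) (.s13 (.c 0 (.tw (.s13 (.tw (.s13 (.c 0 (.b 67) (.s13 (.tw (.s13 (.c 0 (.b 14) (.b 44)))))))))) (.tw (.s12 (.s13 (.s12 (.c 0 (.b 67) (.s13 (.tw (.s13 (.c 0 (.b 14) (.b 44))))))))))))))))),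
  (.tw (.c 0 (.tw (.c 0 (.b 14) (.s13 (.tw (.s12 (.s13 (.c 0 (.b 13) (.s13 (.tw (.s12 (.s13 (.c 0 (.b 136) (.s13 (.tw (.s12 (.s13 (.c 0 (.b 63) (.b 369)))))))))))))))))) (.s13 (.tw (.c 0 (.tw (.s13 (.tw (.c 0 (.b 67) (.s13 (.tw (.s13 (.c 0 (.b 14) (.b 44))))))))) (.s12 (.s13 (.c 0 (.tw (.c 0 (.b 14) (.s13 (.tw (.s12 (.s13 (.c 0 (.b 63) (.c 0 (.b 136) (.b 136))))))))) (.s13 (.tw (.s13 (.c 0 (.b 70) (.b 45))))))))))))),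
  (.c 0 (.tw (.c 0 (.b 1) (.s13 (.tw (.s13 (.c 0 (.b 1) (.b 21))))))) (.s13 (.tw (.c 0 (.s13 (.tw (.c 0 (.b 348) (.s13 (.tw (.s12 (.s13 (.c 0 (.b 23) (.b 138))))))))) (.s13 (.tw (.c 0 (.s13 (.tw (.c 0 (.b 136) (.c 0 (.b 136) (.b 136))))) (.s13 (.tw (.c 0 (.tw (.c 0 (.b 136) (.b 136))) (.s13 (.tw (.c 0 (.b 5) (.b 5)))))))))))))),
  (.c 0 (.tw (.c 0 (.b 1) (.s13 (.tw (.s13 (.c 0 (.b 1) (.b 21))))))) (.s13 (.c 0 (.tw (.c 0 (.s13 (.tw (.c 0 (.b 12) (.b 137)))) (.tw (.s13 (.tw (.c 0 (.s13 (.tw (.c 0 (.b 12) (.b 172)))) (.s13 (.tw (.s12 (.s13 (.c 0 (.b 136) (.b 44)))))))))))) (.s13 (.tw (.c 0 (.tw (.s12 (.s13 (.tw (.c 0 (.b 136) (.s13 (.tw (.s12 (.s13 (.c 0 (.b 63) (.b 44))))))))))) (.b 273))))))),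
  (.c 0 (.tw (.c 0 (.b 1) (.s13 (.tw (.s13 (.c 0 (.b 1) (.b 21))))))) (.tw (.c 0 (.s12 (.s13 (.tw (.c 0 (.s13 (.tw (.c 0 (.b 136) (.b 536)))) (.tw (.s12 (.s13 (.tw (.c 0 (.s12 (.s13 (.tw (.c 0 (.b 14) (.b 351))))) (.s13 (.tw (.c 0 (.b 5) (.b 5))))))))))))) (.s12 (.s13 (.tw (.c 0 (.b 58) (.s13 (.tw (.s12 (.s13 (.c 0 (.b 136) (.c 0 (.b 136) (.b 136)))))))))))))),
  (.tw (.c 0 (.tw (.c 0 (.b 13) (.s13 (.tw (.s12 (.s13 (.c 0 (.b 284) (.c 0 (.b 136) (.b 29))))))))) (.s13 (.c 0 (.tw (.c 0 (.s13 (.tw (.c 0 (.s13 (.tw (.c 0 (.b 180) (.b 12)))) (.s13 (.tw (.s13 (.c 0 (.b 99) (.b 247)))))))) (.s12 (.s13 (.tw (.c 0 (.s13 (.tw (.c 0 (.b 180) (.b 12)))) (.s13 (.tw (.s13 (.c 0 (.b 99) (.b 247))))))))))) (.b 1))))),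
  (.tw (.c 0 (.tw (.c 0 (.b 13) (.s13 (.tw (.s12 (.s13 (.c 0 (.b 13) (.c 0 (.b 14) (.s13 (.tw (.s12 (.s13 (.c 0 (.b 381) (.b 381)))))))))))))) (.s13 (.tw (.c 0 (.s13 (.tw (.c 0 (.b 247) (.s13 (.tw (.s12 (.s13 (.c 0 (.b 200) (.b 44))))))))) (.tw (.s12 (.s13 (.tw (.c 0 (.tw (.s13 (.s12 (.c 0 (.b 15) (.s13 (.tw (.c 0 (.b 24) (.b 24)))))))) (.s13 (.tw (.c 0 (.b 24) (.b 142)))))))))))))),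
  (.tw (.c 0 (.tw (.c 0 (.b 14) (.s13 (.tw (.s12 (.s13 (.c 0 (.b 13) (.s13 (.tw (.s12 (.s13 (.c 0 (.b 136) (.s13 (.tw (.s12 (.s13 (.c 0 (.b 63) (.b 369)))))))))))))))))) (.s13 (.tw (.c 0 (.s12 (.s13 (.tw (.c 0 (.b 530) (.b 111))))) (.tw (.s12 (.s13 (.tw (.c 0 (.s13 (.tw (.s12 (.c 0 (.b 5) (.s13 (.tw (.c 0 (.b 5) (.b 63)))))))) (.s13 (.tw (.c 0 (.b 200) (.b 44)))))))))))))),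
  (.tw (.c 0 (.tw (.c 0 (.b 14) (.s13 (.tw (.s12 (.s13 (.c 0 (.b 13) (.s13 (.tw (.s12 (.s13 (.c 0 (.b 136) (.s13 (.tw (.s12 (.s13 (.c 0 (.b 63) (.b 369)))))))))))))))))) (.s13 (.tw (.c 0 (.s12 (.s13 (.tw (.c 0 (.b 567) (.b 177))))) (.s12 (.s13 (.tw (.c 0 (.s13 (.tw (.s13 (.s12 (.c 0 (.b 5) (.s13 (.tw (.c 0 (.b 5) (.b 124))))))))) (.s13 (.tw (.c 0 (.b 180) (.b 44))))))))))))),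
  (.tw (.c 0 (.tw (.c 0 (.b 14) (.s13 (.tw (.s12 (.s13 (.c 0 (.b 14) (.c 0 (.b 304) (.tw (.s12 (.s13 (.tw (.c 0 (.b 63) (.b 381)))))))))))))) (.s13 (.tw (.c 0 (.tw (.c 0 (.tw (.s12 (.s13 (.tw (.c 0 (.b 63) (.b 172)))))) (.b 14))) (.tw (.s12 (.s13 (.tw (.c 0 (.s13 (.tw (.c 0 (.b 63) (.b 44)))) (.tw (.s12 (.s13 (.tw (.c 0 (.b 5) (.s12 (.s13 (.tw (.c 0 (.b 5) (.b 192)))))))))))))))))))),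
  (.tw (.c 0 (.tw (.c 0 (.tw (.s13 (.tw (.c 0 (.b 478) (.b 16))))) (.b 111))) (.tw (.c 0 (.s13 (.tw (.c 0 (.b 304) (.s13 (.tw (.s12 (.s13 (.c 0 (.b 63) (.b 44))))))))) (.tw (.s12 (.s13 (.tw (.c 0 (.s13 (.tw (.s12 (.c 0 (.b 14) (.c 0 (.b 136) (.b 124)))))) (.s13 (.tw (.c 0 (.b 5) (.c 0 (.b 5) (.b 26)))))))))))))),
  (.tw (.c 0 (.tw (.c 0 (.b 14) (.s13 (.tw (.s12 (.s13 (.c 0 (.b 14) (.c 0 (.b 304) (.tw (.s12 (.s13 (.tw (.c 0 (.b 63) (.b 381)))))))))))))) (.s13 (.tw (.c 0 (.s12 (.s13 (.tw (.c 0 (.b 567) (.b 111))))) (.tw (.s12 (.s13 (.tw (.c 0 (.tw (.s12 (.s13 (.tw (.c 0 (.b 5) (.s13 (.tw (.c 0 (.b 5) (.b 124))))))))) (.s13 (.tw (.c 0 (.b 63) (.b 44)))))))))))))),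
  (.tw (.c 0 (.tw (.c 0 (.b 136) (.s13 (.tw (.s12 (.s13 (.c 0 (.b 136) (.c 0 (.b 136) (.b 249))))))))) (.s13 (.c 0 (.tw (.c 0 (.tw (.s13 (.tw (.c 0 (.b 152) (.tw (.s12 (.s13 (.tw (.c 0 (.b 24) (.b 536)))))))))) (.s13 (.tw (.c 0 (.s13 (.tw (.c 0 (.b 24) (.b 24)))) (.s13 (.tw (.c 0 (.b 24) (.b 24))))))))) (.b 53))))),
  (.tw (.c 0 (.tw (.c 0 (.tw (.s13 (.tw (.c 0 (.b 478) (.b 16))))) (.b 422))) (.tw (.c 0 (.s13 (.tw (.c 0 (.b 136) (.s13 (.tw (.s12 (.s13 (.c 0 (.b 136) (.b 180))))))))) (.tw (.s12 (.s13 (.tw (.c 0 (.s13 (.tw (.c 0 (.b 272) (.b 247)))) (.s13 (.tw (.s13 (.c 0 (.b 5) (.c 0 (.b 5) (.b 12))))))))))))))),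
  (.tw (.c 0 (.tw (.c 0 (.tw (.s13 (.tw (.c 0 (.b 478) (.b 16))))) (.b 422))) (.tw (.c 0 (.s12 (.s13 (.tw (.c 0 (.b 58) (.s13 (.tw (.s12 (.s13 (.c 0 (.b 136) (.b 44)))))))))) (.tw (.s12 (.s13 (.tw (.c 0 (.s13 (.tw (.c 0 (.b 136) (.b 44)))) (.s13 (.tw (.s12 (.s13 (.c 0 (.b 345) (.s13 (.tw (.s12 (.s13 (.c 0 (.b 202) (.b 5)))))))))))))))))))),
  (.tw (.c 0 (.tw (.c 0 (.tw (.s13 (.tw (.c 0 (.b 478) (.b 16))))) (.b 422))) (.tw (.c 0 (.s12 (.s13 (.tw (.c 0 (.b 164) (.s13 (.tw (.s12 (.s13 (.c 0 (.b 63) (.b 44)))))))))) (.tw (.s12 (.s13 (.tw (.c 0 (.s13 (.tw (.c 0 (.b 136) (.b 44)))) (.s13 (.tw (.s12 (.s13 (.c 0 (.b 320) (.s13 (.tw (.c 0 (.b 5) (.b 124)))))))))))))))))),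
  (.tw (.c 0 (.tw (.c 0 (.tw (.s13 (.tw (.c 0 (.b 478) (.b 16))))) (.b 422))) (.tw (.c 0 (.s12 (.s13 (.tw (.c 0 (.b 164) (.s13 (.tw (.s12 (.s13 (.c 0 (.b 63) (.b 44)))))))))) (.tw (.s12 (.s13 (.tw (.c 0 (.s13 (.tw (.c 0 (.b 136) (.b 44)))) (.s13 (.tw (.s12 (.s13 (.c 0 (.b 320) (.s13 (.tw (.c 0 (.b 384) (.b 5)))))))))))))))))),
  (.tw (.c 0 (.tw (.c 0 (.tw (.s13 (.tw (.c 0 (.b 478) (.b 16))))) (.b 422))) (.tw (.c 0 (.s12 (.s13 (.tw (.c 0 (.b 14) (.s13 (.tw (.s12 (.s13 (.c 0 (.b 136) (.s13 (.tw (.s12 (.s13 (.c 0 (.b 63) (.b 24))))))))))))))) (.tw (.s12 (.s13 (.tw (.c 0 (.s13 (.tw (.c 0 (.b 136) (.b 44)))) (.s13 (.tw (.s12 (.s13 (.c 0 (.b 320) (.s13 (.tw (.c 0 (.b 5) (.b 124)))))))))))))))))),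
  (.tw (.c 0 (.tw (.c 0 (.tw (.s13 (.tw (.c 0 (.b 478) (.b 16))))) (.b 422))) (.tw (.c 0 (.s12 (.s13 (.tw (.c 0 (.b 14) (.s13 (.tw (.s12 (.s13 (.c 0 (.b 136) (.s13 (.tw (.s12 (.s13 (.c 0 (.b 63) (.b 24))))))))))))))) (.tw (.s12 (.s13 (.tw (.c 0 (.s13 (.tw (.c 0 (.b 136) (.b 44)))) (.s13 (.tw (.s12 (.s13 (.c 0 (.b 320) (.s13 (.tw (.c 0 (.b 384) (.b 5)))))))))))))))))),
  (.tw (.c 0 (.tw (.c 0 (.b 416) (.s13 (.tw (.s12 (.s13 (.c 0 (.b 63) (.b 159)))))))) (.s13 (.c 0 (.tw (.c 0 (.s13 (.tw (.c 0 (.b 14) (.s13 (.tw (.s12 (.s13 (.c 0 (.b 136) (.s13 (.tw (.s12 (.s13 (.c 0 (.b 44) (.b 12)))))))))))))) (.s13 (.tw (.c 0 (.s13 (.tw (.c 0 (.b 63) (.b 44)))) (.s13 (.tw (.s12 (.c 0 (.b 5) (.c 0 (.b 5) (.b 26))))))))))) (.b 1))))),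
  (.tw (.c 0 (.tw (.c 0 (.tw (.s13 (.tw (.c 0 (.b 478) (.b 16))))) (.b 422))) (.tw (.c 0 (.s12 (.s13 (.tw (.c 0 (.b 164) (.s13 (.tw (.s12 (.s13 (.c 0 (.b 63) (.b 44)))))))))) (.s13 (.tw (.c 0 (.s13 (.tw (.c 0 (.b 136) (.b 44)))) (.s13 (.tw (.s13 (.c 0 (.b 5) (.s13 (.tw (.s13 (.c 0 (.b 5) (.b 465)))))))))))))))),
  (.tw (.c 0 (.tw (.c 0 (.tw (.s13 (.tw (.c 0 (.b 478) (.b 16))))) (.b 422))) (.tw (.c 0 (.tw (.s13 (.tw (.c 0 (.b 67) (.s13 (.tw (.s13 (.c 0 (.b 24) (.b 44))))))))) (.tw (.s12 (.s13 (.tw (.c 0 (.s13 (.tw (.s12 (.c 0 (.b 24) (.b 598))))) (.s13 (.tw (.c 0 (.b 5) (.c 0 (.b 5) (.b 26)))))))))))))),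
  (.tw (.c 0 (.tw (.c 0 (.b 416) (.s13 (.tw (.s12 (.s13 (.c 0 (.b 63) (.b 159)))))))) (.s13 (.tw (.c 0 (.s12 (.s13 (.tw (.c 0 (.b 164) (.s13 (.tw (.s12 (.s13 (.c 0 (.b 14) (.c 0 (.b 136) (.b 136))))))))))) (.s13 (.tw (.c 0 (.s13 (.tw (.c 0 (.b 136) (.b 44)))) (.s13 (.tw (.s13 (.c 0 (.b 5) (.s13 (.tw (.c 0 (.b 5) (.b 63)))))))))))))))),
  (.tw (.c 0 (.tw (.c 0 (.tw (.s13 (.tw (.c 0 (.b 478) (.b 16))))) (.b 422))) (.tw (.c 0 (.s12 (.s13 (.tw (.c 0 (.b 14) (.s13 (.tw (.s12 (.s13 (.c 0 (.b 136) (.s13 (.tw (.s12 (.s13 (.c 0 (.b 63) (.b 24))))))))))))))) (.s13 (.tw (.c 0 (.s13 (.tw (.c 0 (.b 136) (.b 44)))) (.s13 (.tw (.s13 (.c 0 (.b 5) (.s13 (.tw (.s13 (.c 0 (.b 5) (.b 465)))))))))))))))),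
  (.tw (.c 0 (.tw (.c 0 (.tw (.s13 (.tw (.c 0 (.b 478) (.b 16))))) (.b 422))) (.tw (.c 0 (.s13 (.tw (.c 0 (.b 304) (.s13 (.tw (.s12 (.s13 (.c 0 (.b 63) (.b 44))))))))) (.tw (.s12 (.s13 (.tw (.c 0 (.s13 (.tw (.s12 (.c 0 (.b 14) (.c 0 (.b 136) (.b 124)))))) (.s13 (.tw (.c 0 (.b 5) (.c 0 (.b 5) (.b 26)))))))))))))),
  (.c 0 (.tw (.c 0 (.b 14) (.s13 (.tw (.s12 (.s13 (.c 0 (.b 13) (.s13 (.tw (.s12 (.s13 (.c 0 (.b 136) (.s13 (.tw (.s12 (.s13 (.c 0 (.b 63) (.b 369)))))))))))))))))) (.s13 (.tw (.c 0 (.tw (.s13 (.tw (.c 0 (.b 67) (.s13 (.tw (.s13 (.c 0 (.b 14) (.b 44))))))))) (.s12 (.s13 (.c 0 (.tw (.c 0 (.b 14) (.s13 (.tw (.s12 (.s13 (.c 0 (.b 63) (.c 0 (.b 136) (.b 136))))))))) (.s13 (.tw (.s13 (.c 0 (.b 70) (.b 45)))))))))))),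
  (.tw (.c 0 (.tw (.c 0 (.b 348) (.s13 (.tw (.s12 (.s13 (.c 0 (.b 13) (.c 0 (.b 63) (.b 159))))))))) (.c 0 (.tw (.c 0 (.s13 (.tw (.c 0 (.b 304) (.s13 (.tw (.s12 (.s13 (.c 0 (.b 63) (.b 44))))))))) (.tw (.s12 (.s13 (.tw (.c 0 (.tw (.s12 (.s13 (.tw (.c 0 (.b 266) (.b 272)))))) (.s13 (.tw (.c 0 (.b 5) (.c 0 (.b 5) (.b 1)))))))))))) (.b 1)))),
  (.tw (.c 0 (.tw (.c 0 (.b 348) (.s13 (.tw (.s12 (.s13 (.c 0 (.b 13) (.c 0 (.b 63) (.b 159))))))))) (.c 0 (.tw (.c 0 (.s13 (.tw (.c 0 (.b 304) (.s13 (.tw (.s12 (.s13 (.c 0 (.b 63) (.b 44))))))))) (.tw (.s12 (.s13 (.tw (.c 0 (.s13 (.tw (.c 0 (.b 124) (.s13 (.tw (.s13 (.c 0 (.b 24) (.b 26)))))))) (.s13 (.tw (.c 0 (.b 5) (.c 0 (.b 5) (.b 1)))))))))))) (.b 1)))),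
  (.tw (.c 0 (.tw (.c 0 (.b 348) (.s13 (.tw (.s12 (.s13 (.c 0 (.b 13) (.c 0 (.b 63) (.b 159))))))))) (.c 0 (.tw (.c 0 (.s13 (.tw (.c 0 (.b 304) (.s13 (.tw (.s12 (.s13 (.c 0 (.b 63) (.b 44))))))))) (.tw (.s12 (.s13 (.tw (.c 0 (.s13 (.tw (.c 0 (.b 63) (.b 44)))) (.s13 (.tw (.s12 (.s13 (.c 0 (.b 5) (.tw (.s13 (.tw (.c 0 (.s13 (.tw (.c 0 (.b 24) (.b 26)))) (.b 13))))))))))))))))) (.b 1)))),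
  (.tw (.c 0 (.tw (.c 0 (.b 348) (.s13 (.tw (.s12 (.s13 (.c 0 (.b 13) (.c 0 (.b 63) (.b 159))))))))) (.c 0 (.tw (.c 0 (.s12 (.s13 (.tw (.c 0 (.b 13) (.s13 (.tw (.s13 (.c 0 (.b 99) (.b 247))))))))) (.s13 (.tw (.c 0 (.s13 (.tw (.c 0 (.b 24) (.b 44)))) (.s13 (.tw (.s13 (.c 0 (.b 5) (.c 0 (.b 5) (.b 12))))))))))) (.b 1)))),
  (.tw (.c 0 (.tw (.c 0 (.b 348) (.s13 (.tw (.s12 (.s13 (.c 0 (.b 13) (.c 0 (.b 63) (.b 159))))))))) (.c 0 (.tw (.c 0 (.s12 (.s13 (.tw (.c 0 (.b 164) (.s13 (.tw (.s12 (.s13 (.c 0 (.b 63) (.b 44)))))))))) (.s12 (.s13 (.tw (.c 0 (.s13 (.tw (.s12 (.c 0 (.b 381) (.b 44))))) (.s13 (.tw (.s13 (.c 0 (.b 5) (.c 0 (.b 5) (.b 63)))))))))))) (.b 1)))),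
  (.tw (.c 0 (.tw (.c 0 (.b 284) (.s13 (.tw (.s12 (.s13 (.c 0 (.b 63) (.b 93)))))))) (.s13 (.c 0 (.tw (.c 0 (.s13 (.tw (.c 0 (.b 304) (.s13 (.tw (.s12 (.s13 (.c 0 (.b 63) (.b 400))))))))) (.tw (.s13 (.tw (.c 0 (.s13 (.tw (.c 0 (.b 136) (.b 44)))) (.tw (.s12 (.s13 (.tw (.c 0 (.b 5) (.s13 (.tw (.s12 (.s13 (.c 0 (.b 5) (.b 63))))))))))))))))) (.b 1))))),
  (.tw (.c 0 (.tw (.c 0 (.b 348) (.s13 (.tw (.s12 (.s13 (.c 0 (.b 13) (.c 0 (.b 63) (.b 159))))))))) (.c 0 (.tw (.c 0 (.s12 (.s13 (.tw (.c 0 (.b 58) (.s13 (.tw (.s12 (.s13 (.c 0 (.b 136) (.b 44)))))))))) (.tw (.s13 (.tw (.c 0 (.s13 (.tw (.c 0 (.b 63) (.b 44)))) (.s13 (.tw (.s12 (.s13 (.c 0 (.b 5) (.c 0 (.b 5) (.b 284))))))))))))) (.b 1)))),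
  (.tw (.c 0 (.tw (.c 0 (.b 348) (.s13 (.tw (.s12 (.s13 (.c 0 (.b 13) (.c 0 (.b 63) (.b 159))))))))) (.c 0 (.tw (.c 0 (.s12 (.s13 (.tw (.c 0 (.b 14) (.s13 (.tw (.s12 (.s13 (.c 0 (.b 136) (.s13 (.tw (.s12 (.s13 (.c 0 (.b 63) (.b 24))))))))))))))) (.s12 (.s13 (.tw (.c 0 (.s13 (.tw (.s12 (.c 0 (.b 381) (.b 44))))) (.s13 (.tw (.s13 (.c 0 (.b 5) (.c 0 (.b 5) (.b 63)))))))))))) (.b 1)))),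
  (.tw (.c 0 (.tw (.c 0 (.b 348) (.s13 (.tw (.s12 (.s13 (.c 0 (.b 13) (.c 0 (.b 63) (.b 159))))))))) (.s13 (.c 0 (.tw (.c 0 (.s13 (.tw (.c 0 (.b 58) (.s13 (.tw (.s12 (.s13 (.c 0 (.b 14) (.c 0 (.b 136) (.b 136)))))))))) (.tw (.s13 (.tw (.c 0 (.s13 (.tw (.c 0 (.b 24) (.b 44)))) (.tw (.s12 (.s13 (.tw (.c 0 (.b 5) (.s13 (.tw (.s12 (.s13 (.c 0 (.b 5) (.b 63))))))))))))))))) (.b 1))))),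
  (.tw (.c 0 (.tw (.c 0 (.b 284) (.s13 (.tw (.s12 (.s13 (.c 0 (.b 63) (.b 93)))))))) (.s13 (.c 0 (.tw (.c 0 (.s13 (.tw (.c 0 (.b 58) (.s13 (.tw (.s12 (.s13 (.c 0 (.b 14) (.c 0 (.b 136) (.b 136)))))))))) (.tw (.s13 (.tw (.c 0 (.s13 (.tw (.c 0 (.b 136) (.b 44)))) (.tw (.s12 (.s13 (.tw (.c 0 (.b 5) (.s13 (.tw (.s12 (.s13 (.c 0 (.b 5) (.b 63))))))))))))))))) (.b 1))))),
  (.tw (.c 0 (.tw (.c 0 (.b 348) (.s13 (.tw (.s12 (.s13 (.c 0 (.b 13) (.c 0 (.b 63) (.b 159))))))))) (.s13 (.c 0 (.tw (.c 0 (.s13 (.tw (.c 0 (.b 14) (.s13 (.tw (.s12 (.s13 (.c 0 (.b 136) (.s13 (.tw (.s12 (.s13 (.c 0 (.b 44) (.b 12)))))))))))))) (.s13 (.tw (.c 0 (.s13 (.tw (.c 0 (.b 57) (.b 44)))) (.s13 (.tw (.s12 (.c 0 (.b 5) (.c 0 (.b 5) (.b 26))))))))))) (.b 1))))),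
  (.tw (.c 0 (.tw (.c 0 (.b 348) (.s13 (.tw (.s12 (.s13 (.c 0 (.b 13) (.c 0 (.b 63) (.b 159))))))))) (.s13 (.c 0 (.tw (.c 0 (.s13 (.tw (.c 0 (.b 14) (.s13 (.tw (.s12 (.s13 (.c 0 (.b 136) (.s13 (.tw (.s12 (.s13 (.c 0 (.b 44) (.b 12)))))))))))))) (.s13 (.tw (.c 0 (.s13 (.tw (.c 0 (.b 63) (.b 44)))) (.s13 (.tw (.s12 (.c 0 (.b 5) (.c 0 (.b 5) (.b 26))))))))))) (.b 1))))),
  (.tw (.c 0 (.tw (.c 0 (.b 284) (.s13 (.tw (.s12 (.s13 (.c 0 (.b 63) (.b 93)))))))) (.s13 (.tw (.c 0 (.s12 (.s13 (.tw (.c 0 (.b 164) (.s13 (.tw (.s12 (.s13 (.c 0 (.b 14) (.c 0 (.b 136) (.b 136))))))))))) (.s13 (.tw (.c 0 (.s13 (.tw (.c 0 (.s13 (.tw (.c 0 (.b 5) (.b 284)))) (.b 5)))) (.s13 (.tw (.c 0 (.b 63) (.b 44)))))))))))),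
  (.tw (.c 0 (.tw (.c 0 (.b 348) (.s13 (.tw (.s12 (.s13 (.c 0 (.b 13) (.c 0 (.b 63) (.b 159))))))))) (.s13 (.tw (.c 0 (.s12 (.s13 (.tw (.c 0 (.b 462) (.s13 (.tw (.s13 (.c 0 (.b 13) (.b 225))))))))) (.s13 (.tw (.c 0 (.s13 (.tw (.c 0 (.b 136) (.b 44)))) (.s13 (.tw (.s12 (.s13 (.c 0 (.b 5) (.s13 (.tw (.s12 (.s13 (.c 0 (.b 5) (.b 63))))))))))))))))))),
  (.tw (.c 0 (.tw (.c 0 (.b 348) (.s13 (.tw (.s12 (.s13 (.c 0 (.b 13) (.c 0 (.b 63) (.b 159))))))))) (.s13 (.tw (.c 0 (.s12 (.s13 (.tw (.c 0 (.b 164) (.s13 (.tw (.s12 (.s13 (.c 0 (.b 14) (.c 0 (.b 136) (.b 136))))))))))) (.s13 (.tw (.c 0 (.s13 (.tw (.c 0 (.b 136) (.b 44)))) (.s13 (.tw (.s13 (.c 0 (.b 5) (.s13 (.tw (.c 0 (.b 5) (.b 63)))))))))))))))),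
  (.c 0 (.s12 (.s13 (.tw (.s12 (.c 0 (.b 14) (.s13 (.tw (.s12 (.s13 (.c 0 (.b 304) (.s13 (.tw (.s12 (.s13 (.c 0 (.b 13) (.b 546)))))))))))))))) (.s13 (.tw (.s12 (.c 0 (.tw (.s13 (.tw (.c 0 (.b 67) (.s13 (.tw (.s13 (.c 0 (.b 14) (.b 44))))))))) (.s12 (.s13 (.tw (.c 0 (.s13 (.tw (.c 0 (.b 136) (.c 0 (.b 136) (.b 136))))) (.s13 (.tw (.s13 (.s12 (.c 0 (.b 95) (.s13 (.tw (.c 0 (.b 44) (.b 12)))))))))))))))))),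
  (.tw (.c 0 (.tw (.c 0 (.b 13) (.s13 (.tw (.s12 (.s13 (.c 0 (.b 284) (.c 0 (.b 136) (.b 29))))))))) (.s13 (.c 0 (.tw (.c 0 (.s13 (.tw (.c 0 (.b 136) (.b 236)))) (.tw (.s13 (.tw (.c 0 (.s13 (.tw (.c 0 (.b 5) (.s13 (.tw (.c 0 (.b 384) (.b 5))))))) (.s13 (.tw (.c 0 (.b 272) (.b 44)))))))))) (.b 1))))),
  (.tw (.c 0 (.tw (.c 0 (.b 13) (.s13 (.tw (.s12 (.s13 (.c 0 (.b 284) (.c 0 (.b 136) (.b 29))))))))) (.s13 (.c 0 (.tw (.c 0 (.s13 (.tw (.c 0 (.b 14) (.s13 (.tw (.s12 (.s13 (.c 0 (.b 63) (.b 536))))))))) (.tw (.s13 (.tw (.c 0 (.s13 (.tw (.c 0 (.b 5) (.s13 (.tw (.c 0 (.b 384) (.b 5))))))) (.s13 (.tw (.c 0 (.b 200) (.b 44)))))))))) (.b 1))))),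
  (.tw (.c 0 (.tw (.c 0 (.b 13) (.s13 (.tw (.s12 (.s13 (.c 0 (.b 57) (.s13 (.tw (.s12 (.s13 (.c 0 (.b 381) (.b 478))))))))))))) (.s13 (.tw (.c 0 (.b 107) (.s12 (.s13 (.tw (.c 0 (.s13 (.tw (.s12 (.c 0 (.b 136) (.s13 (.tw (.s12 (.s13 (.c 0 (.b 44) (.b 12)))))))))) (.s13 (.tw (.s12 (.c 0 (.s13 (.tw (.c 0 (.b 14) (.b 44)))) (.s13 (.tw (.c 0 (.b 5) (.b 5))))))))))))))))),
  (.tw (.c 0 (.tw (.c 0 (.b 13) (.s13 (.tw (.s12 (.s13 (.c 0 (.b 284) (.c 0 (.b 136) (.b 29))))))))) (.s13 (.c 0 (.tw (.c 0 (.s13 (.tw (.c 0 (.b 136) (.s13 (.tw (.s12 (.s13 (.c 0 (.b 63) (.b 501))))))))) (.s13 (.tw (.c 0 (.s13 (.tw (.s12 (.c 0 (.b 5) (.s13 (.tw (.c 0 (.b 384) (.b 5)))))))) (.s13 (.tw (.s12 (.c 0 (.b 381) (.b 44)))))))))) (.b 1))))),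
  (.tw (.c 0 (.tw (.c 0 (.b 13) (.s13 (.tw (.s12 (.s13 (.c 0 (.b 284) (.c 0 (.b 136) (.b 29))))))))) (.s13 (.c 0 (.tw (.c 0 (.s13 (.tw (.c 0 (.b 136) (.b 462)))) (.tw (.s13 (.tw (.c 0 (.s13 (.tw (.c 0 (.b 5) (.s13 (.tw (.c 0 (.b 384) (.b 5))))))) (.s13 (.tw (.c 0 (.b 272) (.b 44)))))))))) (.b 1))))),
  (.tw (.c 0 (.tw (.c 0 (.b 13) (.s13 (.tw (.s12 (.s13 (.c 0 (.b 284) (.c 0 (.b 136) (.b 29))))))))) (.s13 (.c 0 (.tw (.c 0 (.s13 (.tw (.c 0 (.b 14) (.s13 (.tw (.s12 (.s13 (.c 0 (.b 136) (.b 180))))))))) (.tw (.s13 (.tw (.c 0 (.s13 (.tw (.c 0 (.b 5) (.s13 (.tw (.c 0 (.b 384) (.b 5))))))) (.s13 (.tw (.c 0 (.b 200) (.b 44)))))))))) (.b 1))))),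
  (.tw (.c 0 (.tw (.c 0 (.b 13) (.s13 (.tw (.s12 (.s13 (.c 0 (.b 284) (.c 0 (.b 136) (.b 29))))))))) (.s13 (.c 0 (.tw (.c 0 (.s13 (.tw (.c 0 (.b 57) (.s13 (.tw (.s12 (.s13 (.c 0 (.b 57) (.b 44))))))))) (.tw (.s13 (.tw (.c 0 (.s13 (.tw (.c 0 (.b 5) (.s13 (.tw (.c 0 (.b 384) (.b 5))))))) (.s13 (.tw (.c 0 (.b 24) (.b 44)))))))))) (.b 1))))),
  (.tw (.c 0 (.tw (.c 0 (.b 13) (.s13 (.tw (.s12 (.s13 (.c 0 (.b 57) (.s13 (.tw (.s12 (.s13 (.c 0 (.b 381) (.b 478))))))))))))) (.s13 (.tw (.c 0 (.s12 (.s13 (.tw (.s12 (.c 0 (.b 13) (.b 546)))))) (.tw (.s12 (.s13 (.tw (.c 0 (.tw (.s12 (.s13 (.tw (.c 0 (.b 67) (.s13 (.tw (.s13 (.c 0 (.b 14) (.b 44)))))))))) (.s13 (.tw (.c 0 (.s13 (.tw (.c 0 (.b 44) (.b 1)))) (.s13 (.tw (.c 0 (.b 5) (.b 5))))))))))))))))),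
  (.tw (.c 0 (.tw (.c 0 (.b 13) (.s13 (.tw (.s12 (.s13 (.c 0 (.b 284) (.c 0 (.b 136) (.b 29))))))))) (.s13 (.c 0 (.tw (.c 0 (.s13 (.tw (.c 0 (.b 136) (.s13 (.tw (.s12 (.s13 (.c 0 (.b 63) (.b 400))))))))) (.s13 (.tw (.c 0 (.s13 (.tw (.s12 (.c 0 (.b 5) (.s13 (.tw (.c 0 (.b 384) (.b 5)))))))) (.s13 (.tw (.s12 (.c 0 (.b 381) (.b 44)))))))))) (.b 1))))),
  (.tw (.c 0 (.tw (.c 0 (.b 13) (.s13 (.tw (.s12 (.s13 (.c 0 (.b 284) (.c 0 (.b 136) (.b 29))))))))) (.s13 (.c 0 (.tw (.c 0 (.s13 (.tw (.c 0 (.b 304) (.s13 (.tw (.s12 (.s13 (.c 0 (.b 63) (.b 400))))))))) (.tw (.s13 (.tw (.c 0 (.s13 (.tw (.c 0 (.b 136) (.b 44)))) (.tw (.s12 (.s13 (.tw (.c 0 (.b 5) (.s13 (.tw (.s12 (.s13 (.c 0 (.b 5) (.b 63))))))))))))))))) (.b 1))))),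
  (.tw (.c 0 (.tw (.c 0 (.b 13) (.s13 (.tw (.s12 (.s13 (.c 0 (.b 284) (.c 0 (.b 136) (.b 29))))))))) (.s13 (.c 0 (.tw (.c 0 (.s13 (.tw (.c 0 (.b 136) (.s13 (.tw (.s12 (.s13 (.c 0 (.b 13) (.b 139))))))))) (.tw (.s13 (.tw (.c 0 (.s13 (.tw (.c 0 (.b 5) (.s13 (.tw (.c 0 (.b 384) (.b 5))))))) (.s13 (.tw (.c 0 (.b 24) (.b 44)))))))))) (.b 1))))),
  (.tw (.c 0 (.tw (.c 0 (.b 13) (.s13 (.tw (.s12 (.s13 (.c 0 (.b 57) (.s13 (.tw (.s12 (.s13 (.c 0 (.b 381) (.b 478))))))))))))) (.s13 (.tw (.c 0 (.s13 (.tw (.c 0 (.b 279) (.b 29)))) (.tw (.s13 (.tw (.c 0 (.s13 (.tw (.c 0 (.b 136) (.s13 (.tw (.s12 (.s13 (.c 0 (.b 44) (.b 1))))))))) (.s13 (.tw (.c 0 (.s13 (.tw (.c 0 (.b 44) (.b 1)))) (.s13 (.tw (.c 0 (.b 5) (.b 5)))))))))))))))),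
  (.tw (.c 0 (.tw (.c 0 (.b 13) (.s13 (.tw (.s12 (.s13 (.c 0 (.b 284) (.c 0 (.b 136) (.b 29))))))))) (.s13 (.c 0 (.tw (.c 0 (.s13 (.tw (.c 0 (.b 136) (.s13 (.tw (.s12 (.s13 (.c 0 (.b 14) (.b 239))))))))) (.s13 (.tw (.c 0 (.s13 (.tw (.s12 (.c 0 (.b 5) (.s13 (.tw (.c 0 (.b 384) (.b 5)))))))) (.s13 (.tw (.s12 (.c 0 (.b 381) (.b 44)))))))))) (.b 1))))),
  (.tw (.c 0 (.tw (.c 0 (.b 13) (.s13 (.tw (.s12 (.s13 (.c 0 (.b 57) (.s13 (.tw (.s12 (.s13 (.c 0 (.b 381) (.b 478))))))))))))) (.s13 (.tw (.c 0 (.s13 (.tw (.c 0 (.b 58) (.s13 (.tw (.s12 (.s13 (.c 0 (.b 14) (.c 0 (.b 136) (.b 136)))))))))) (.tw (.s13 (.tw (.c 0 (.s13 (.tw (.c 0 (.b 5) (.s13 (.tw (.c 0 (.b 5) (.b 465))))))) (.s13 (.tw (.c 0 (.b 63) (.b 44))))))))))))),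
  (.tw (.c 0 (.tw (.c 0 (.b 13) (.s13 (.tw (.s12 (.s13 (.c 0 (.b 284) (.c 0 (.b 136) (.b 29))))))))) (.s13 (.c 0 (.tw (.c 0 (.s13 (.tw (.c 0 (.b 14) (.s13 (.tw (.s12 (.s13 (.c 0 (.b 136) (.s13 (.tw (.s12 (.s13 (.c 0 (.b 13) (.b 200)))))))))))))) (.tw (.s13 (.tw (.c 0 (.s13 (.tw (.c 0 (.b 136) (.b 44)))) (.s13 (.tw (.s12 (.s13 (.c 0 (.b 5) (.s13 (.tw (.s12 (.s13 (.c 0 (.b 5) (.b 63))))))))))))))))) (.b 1))))),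
  (.tw (.c 0 (.tw (.c 0 (.b 13) (.s13 (.tw (.s12 (.s13 (.c 0 (.b 284) (.c 0 (.b 136) (.b 29))))))))) (.s13 (.c 0 (.tw (.c 0 (.s13 (.tw (.c 0 (.b 58) (.s13 (.tw (.s12 (.s13 (.c 0 (.b 14) (.c 0 (.b 136) (.b 136)))))))))) (.tw (.s13 (.tw (.c 0 (.s13 (.tw (.c 0 (.b 136) (.b 44)))) (.tw (.s12 (.s13 (.tw (.c 0 (.b 5) (.s13 (.tw (.s12 (.s13 (.c 0 (.b 5) (.b 63))))))))))))))))) (.b 1))))),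
  (.c 0 (.s12 (.s13 (.tw (.s12 (.c 0 (.b 14) (.s13 (.tw (.s12 (.s13 (.c 0 (.b 304) (.s13 (.tw (.s12 (.s13 (.c 0 (.b 13) (.b 546)))))))))))))))) (.s13 (.tw (.s12 (.c 0 (.s12 (.s13 (.tw (.c 0 (.b 136) (.tw (.s12 (.s13 (.tw (.c 0 (.b 63) (.b 381)))))))))) (.tw (.s12 (.s13 (.tw (.c 0 (.s12 (.s13 (.tw (.c 0 (.b 136) (.b 29))))) (.s13 (.tw (.c 0 (.tw (.c 0 (.b 136) (.b 136))) (.s13 (.tw (.c 0 (.b 5) (.b 143))))))))))))))))),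
  (.tw (.c 0 (.tw (.c 0 (.b 13) (.s13 (.tw (.s12 (.s13 (.c 0 (.b 136) (.c 0 (.b 260) (.b 147))))))))) (.tw (.s13 (.s12 (.c 0 (.tw (.s13 (.s12 (.c 0 (.b 192) (.s13 (.tw (.s13 (.c 0 (.b 24) (.b 44))))))))) (.tw (.s13 (.s12 (.c 0 (.s13 (.tw (.c 0 (.b 381) (.b 44)))) (.s13 (.tw (.s13 (.s12 (.c 0 (.b 272) (.b 239)))))))))))))))),
  (.tw (.c 0 (.s12 (.s13 (.tw (.s12 (.c 0 (.b 13) (.s13 (.tw (.s12 (.s13 (.c 0 (.b 136) (.s13 (.tw (.s12 (.s13 (.c 0 (.b 284) (.b 147)))))))))))))))) (.s13 (.tw (.s12 (.c 0 (.s13 (.tw (.c 0 (.b 14) (.s13 (.tw (.s12 (.s13 (.c 0 (.b 136) (.tw (.s12 (.s13 (.tw (.c 0 (.b 44) (.b 12)))))))))))))) (.s13 (.tw (.c 0 (.s13 (.tw (.s12 (.c 0 (.b 5) (.tw (.s12 (.s13 (.tw (.c 0 (.b 23) (.b 272)))))))))) (.s13 (.tw (.c 0 (.b 63) (.b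 44))))))))))))),
  (.tw (.c 0 (.tw (.c 0 (.b 13) (.s13 (.tw (.s12 (.s13 (.c 0 (.b 284) (.c 0 (.b 136) (.b 29))))))))) (.s13 (.c 0 (.tw (.c 0 (.s13 (.tw (.c 0 (.b 14) (.s13 (.tw (.s12 (.s13 (.c 0 (.b 14) (.c 0 (.b 136) (.b 247)))))))))) (.s13 (.tw (.c 0 (.s13 (.tw (.c 0 (.b 136) (.b 44)))) (.s13 (.tw (.s13 (.c 0 (.b 5) (.c 0 (.b 5) (.b 12))))))))))) (.b 1))))),
  (.tw (.c 0 (.tw (.c 0 (.b 13) (.s13 (.tw (.s12 (.s13 (.c 0 (.b 284) (.c 0 (.b 136) (.b 29))))))))) (.s13 (.tw (.c 0 (.s12 (.s13 (.tw (.c 0 (.b 164) (.s13 (.tw (.s12 (.s13 (.c 0 (.b 14) (.c 0 (.b 136) (.b 136))))))))))) (.s13 (.tw (.c 0 (.s13 (.tw (.c 0 (.s13 (.tw (.c 0 (.b 5) (.b 284)))) (.b 5)))) (.s13 (.tw (.c 0 (.b 63) (.b 44)))))))))))),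
  (.c 0 (.tw (.c 0 (.b 14) (.s13 (.tw (.s12 (.s13 (.c 0 (.b 13) (.s13 (.tw (.s12 (.s13 (.c 0 (.b 136) (.s13 (.tw (.s12 (.s13 (.c 0 (.b 63) (.b 369)))))))))))))))))) (.s13 (.tw (.c 0 (.s12 (.s13 (.tw (.c 0 (.b 136) (.b 536))))) (.tw (.s12 (.s13 (.tw (.c 0 (.s13 (.tw (.c 0 (.b 136) (.s13 (.tw (.s12 (.s13 (.c 0 (.b 44) (.b 12))))))))) (.tw (.s12 (.s13 (.tw (.c 0 (.tw (.c 0 (.b 63) (.b 24))) (.s13 (.tw (.c 0 (.b 44) (.b 12)))))))))))))))))),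
  (.tw (.c 0 (.tw (.c 0 (.b 13) (.s13 (.tw (.s12 (.s13 (.c 0 (.b 13) (.c 0 (.b 14) (.s13 (.tw (.s12 (.s13 (.c 0 (.b 381) (.b 381)))))))))))))) (.s13 (.tw (.c 0 (.s12 (.s13 (.tw (.s12 (.c 0 (.b 13) (.b 546)))))) (.s12 (.s13 (.tw (.c 0 (.s13 (.tw (.s12 (.c 0 (.s13 (.tw (.c 0 (.b 14) (.b 44)))) (.s13 (.tw (.c 0 (.b 5) (.b 5)))))))) (.s13 (.tw (.s12 (.c 0 (.b 200) (.b 44)))))))))))))),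
  (.tw (.c 0 (.tw (.c 0 (.b 13) (.s13 (.tw (.s12 (.s13 (.c 0 (.b 13) (.c 0 (.b 14) (.s13 (.tw (.s12 (.s13 (.c 0 (.b 381) (.b 381)))))))))))))) (.s13 (.tw (.c 0 (.s12 (.s13 (.tw (.s12 (.c 0 (.b 13) (.b 546)))))) (.tw (.s12 (.s13 (.tw (.c 0 (.s13 (.tw (.c 0 (.b 24) (.s13 (.tw (.s12 (.s13 (.c 0 (.b 14) (.b 44))))))))) (.s13 (.tw (.c 0 (.s13 (.tw (.c 0 (.b 44) (.b 1)))) (.s13 (.tw (.c 0 (.b 5) (.b 5))))))))))))))))),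
  (.tw (.c 0 (.tw (.c 0 (.b 13) (.s13 (.tw (.s12 (.s13 (.c 0 (.b 13) (.c 0 (.b 136) (.s13 (.tw (.s12 (.s13 (.c 0 (.b 13) (.b 138)))))))))))))) (.s13 (.tw (.c 0 (.s12 (.s13 (.tw (.s12 (.c 0 (.b 13) (.b 501)))))) (.tw (.s12 (.s13 (.tw (.c 0 (.tw (.s12 (.s13 (.tw (.c 0 (.b 67) (.s13 (.tw (.s13 (.c 0 (.b 14) (.b 44)))))))))) (.s13 (.tw (.c 0 (.b 5) (.s13 (.tw (.c 0 (.b 5) (.b 5))))))))))))))))),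
  (.tw (.c 0 (.tw (.c 0 (.b 13) (.s13 (.tw (.s12 (.s13 (.c 0 (.b 13) (.c 0 (.b 14) (.s13 (.tw (.s12 (.s13 (.c 0 (.b 381) (.b 381)))))))))))))) (.s13 (.tw (.c 0 (.s12 (.s13 (.tw (.s12 (.c 0 (.b 13) (.b 546)))))) (.s12 (.s13 (.tw (.c 0 (.s13 (.tw (.s12 (.c 0 (.b 249) (.b 44))))) (.s13 (.tw (.s12 (.c 0 (.s13 (.tw (.c 0 (.b 14) (.b 44)))) (.s13 (.tw (.c 0 (.b 5) (.b 5))))))))))))))))),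
  (.tw (.c 0 (.tw (.c 0 (.b 13) (.s13 (.tw (.s12 (.s13 (.c 0 (.b 13) (.c 0 (.b 136) (.s13 (.tw (.s12 (.s13 (.c 0 (.b 13) (.b 138)))))))))))))) (.s13 (.tw (.c 0 (.tw (.c 0 (.b 279) (.b 16))) (.tw (.s13 (.tw (.c 0 (.s13 (.tw (.c 0 (.b 136) (.s13 (.tw (.s12 (.s13 (.c 0 (.b 44) (.b 12))))))))) (.s13 (.tw (.c 0 (.b 320) (.s13 (.tw (.c 0 (.b 5) (.b 5)))))))))))))))),
  (.tw (.c 0 (.tw (.c 0 (.b 13) (.s13 (.tw (.s12 (.s13 (.c 0 (.b 13) (.c 0 (.b 14) (.s13 (.tw (.s12 (.s13 (.c 0 (.b 381) (.b 381)))))))))))))) (.s13 (.tw (.c 0 (.s12 (.s13 (.tw (.s12 (.c 0 (.b 13) (.b 546)))))) (.tw (.s12 (.s13 (.tw (.c 0 (.tw (.s12 (.s13 (.tw (.c 0 (.b 67) (.s13 (.tw (.s13 (.c 0 (.b 14) (.b 44)))))))))) (.tw (.s12 (.s13 (.tw (.c 0 (.s13 (.tw (.c 0 (.b 63) (.b 124))))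 (.s13 (.tw (.c 0 (.b 5) (.b 5))))))))))))))))))),
  (.tw (.c 0 (.tw (.c 0 (.b 13) (.s13 (.tw (.s12 (.s13 (.c 0 (.b 13) (.c 0 (.b 14) (.s13 (.tw (.s12 (.s13 (.c 0 (.b 381) (.b 381)))))))))))))) (.s13 (.tw (.c 0 (.s12 (.s13 (.tw (.s12 (.c 0 (.b 13) (.b 546)))))) (.tw (.s12 (.s13 (.tw (.c 0 (.tw (.s12 (.s13 (.tw (.c 0 (.b 67) (.s13 (.tw (.s13 (.c 0 (.b 14) (.b 44)))))))))) (.s13 (.tw (.c 0 (.s13 (.tw (.c 0 (.b 44) (.b 1)))) (.s13 (.tw (.c 0 (.b 5) (.b 5))))))))))))))))),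
  (.c 0 (.s12 (.s13 (.tw (.s12 (.c 0 (.b 14) (.s13 (.tw (.s12 (.s13 (.c 0 (.b 304) (.s13 (.tw (.s12 (.s13 (.c 0 (.b 13) (.b 546)))))))))))))))) (.s13 (.tw (.s12 (.c 0 (.s13 (.tw (.c 0 (.b 14) (.s13 (.tw (.s12 (.s13 (.c 0 (.b 136) (.b 536))))))))) (.tw (.s12 (.s13 (.tw (.c 0 (.s13 (.tw (.c 0 (.b 136) (.b 44)))) (.s13 (.tw (.c 0 (.tw (.c 0 (.b 136) (.b 136))) (.s13 (.tw (.s12 (.s13 (.c 0 (.b 44) (.b 12))))))))))))))))))),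
  (.tw (.c 0 (.tw (.c 0 (.b 13) (.s13 (.tw (.s12 (.s13 (.c 0 (.b 13) (.c 0 (.b 14) (.s13 (.tw (.s12 (.s13 (.c 0 (.b 381) (.b 381)))))))))))))) (.s13 (.tw (.c 0 (.s13 (.tw (.c 0 (.b 279) (.b 29)))) (.s13 (.c 0 (.s12 (.s13 (.tw (.s12 (.c 0 (.b 666) (.s13 (.tw (.s12 (.s13 (.c 0 (.b 63) (.b 44))))))))))) (.tw (.c 0 (.b 666) (.s13 (.tw (.s12 (.s13 (.c 0 (.b 63) (.b 44))))))))))))))),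
  (.tw (.c 0 (.tw (.c 0 (.b 13) (.s13 (.tw (.s12 (.s13 (.c 0 (.b 13) (.c 0 (.b 136) (.s13 (.tw (.s12 (.s13 (.c 0 (.b 13) (.b 138)))))))))))))) (.s13 (.tw (.c 0 (.s13 (.tw (.c 0 (.b 279) (.b 29)))) (.tw (.s13 (.tw (.c 0 (.s13 (.tw (.c 0 (.b 136) (.s13 (.tw (.s12 (.s13 (.c 0 (.b 44) (.b 1))))))))) (.s13 (.tw (.c 0 (.b 320) (.s13 (.tw (.c 0 (.b 5) (.b 5)))))))))))))))),
  (.tw (.c 0 (.tw (.c 0 (.b 13) (.s13 (.tw (.s12 (.s13 (.c 0 (.b 13) (.c 0 (.b 14) (.s13 (.tw (.s12 (.s13 (.c 0 (.b 381) (.b 381)))))))))))))) (.s13 (.tw (.c 0 (.s13 (.tw (.c 0 (.b 279) (.b 29)))) (.tw (.s13 (.tw (.c 0 (.s13 (.tw (.c 0 (.b 136) (.s13 (.tw (.s12 (.s13 (.c 0 (.b 44) (.b 1))))))))) (.tw (.s12 (.s13 (.tw (.c 0 (.s13 (.tw (.c 0 (.b 63) (.b 124)))) (.s13 (.tw (.c 0 (.b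 5) (.b 5)))))))))))))))))),
  (.tw (.c 0 (.tw (.c 0 (.b 13) (.s13 (.tw (.s12 (.s13 (.c 0 (.b 13) (.c 0 (.b 14) (.s13 (.tw (.s12 (.s13 (.c 0 (.b 381) (.b 381)))))))))))))) (.s13 (.tw (.c 0 (.s13 (.tw (.c 0 (.b 279) (.b 29)))) (.tw (.s13 (.tw (.c 0 (.s13 (.tw (.c 0 (.b 136) (.s13 (.tw (.s12 (.s13 (.c 0 (.b 44) (.b 1))))))))) (.s13 (.tw (.c 0 (.s13 (.tw (.c 0 (.b 44) (.b 1)))) (.s13 (.tw (.c 0 (.b 5) (.b 5)))))))))))))))),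
  (.tw (.c 0 (.tw (.c 0 (.tw (.s12 (.s13 (.tw (.c 0 (.b 63) (.b 159)))))) (.s13 (.tw (.s12 (.s13 (.c 0 (.b 63) (.c 0 (.b 63) (.b 381))))))))) (.s13 (.c 0 (.tw (.c 0 (.s13 (.tw (.c 0 (.b 58) (.s13 (.tw (.s12 (.s13 (.c 0 (.b 124) (.b 44))))))))) (.tw (.s12 (.s13 (.tw (.c 0 (.s13 (.tw (.c 0 (.b 63) (.b 44)))) (.s13 (.tw (.c 0 (.b 5) (.b 272))))))))))) (.b 1))))),
  (.tw (.c 0 (.tw (.c 0 (.b 13) (.s13 (.tw (.s12 (.s13 (.c 0 (.b 13) (.c 0 (.b 136) (.s13 (.tw (.s12 (.s13 (.c 0 (.b 13) (.b 138)))))))))))))) (.s13 (.tw (.c 0 (.s13 (.tw (.c 0 (.b 58) (.s13 (.tw (.s12 (.s13 (.c 0 (.b 14) (.c 0 (.b 136) (.b 136)))))))))) (.tw (.s13 (.tw (.c 0 (.s13 (.tw (.c 0 (.b 5) (.s13 (.tw (.c 0 (.b 13) (.b 272))))))) (.s13 (.tw (.c 0 (.b 381) (.b 44))))))))))))),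
  (.tw (.c 0 (.tw (.c 0 (.b 13) (.s13 (.tw (.s12 (.s13 (.c 0 (.b 13) (.c 0 (.b 14) (.s13 (.tw (.s12 (.s13 (.c 0 (.b 381) (.b 381)))))))))))))) (.s13 (.tw (.c 0 (.s13 (.tw (.c 0 (.b 58) (.s13 (.tw (.s12 (.s13 (.c 0 (.b 14) (.c 0 (.b 136) (.b 136)))))))))) (.tw (.s13 (.tw (.c 0 (.s13 (.tw (.c 0 (.b 304) (.b 44)))) (.s13 (.tw (.s13 (.c 0 (.b 5) (.c 0 (.b 5) (.b 12))))))))))))))),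
  (.tw (.c 0 (.tw (.c 0 (.b 13) (.s13 (.tw (.s12 (.s13 (.c 0 (.b 13) (.c 0 (.b 14) (.s13 (.tw (.s12 (.s13 (.c 0 (.b 381) (.b 381)))))))))))))) (.s13 (.tw (.c 0 (.s13 (.tw (.c 0 (.b 58) (.s13 (.tw (.s12 (.s13 (.c 0 (.b 14) (.c 0 (.b 136) (.b 136)))))))))) (.tw (.s13 (.tw (.c 0 (.s13 (.tw (.c 0 (.b 5) (.s13 (.tw (.c 0 (.b 5) (.b 465))))))) (.s13 (.tw (.c 0 (.b 63) (.b 44))))))))))))),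
  (.c 0 (.tw (.c 0 (.b 13) (.s13 (.tw (.s12 (.s13 (.c 0 (.b 284) (.c 0 (.b 136) (.b 29))))))))) (.tw (.s13 (.s12 (.c 0 (.tw (.s13 (.s12 (.c 0 (.s13 (.tw (.s12 (.c 0 (.b 247) (.b 152))))) (.s13 (.tw (.c 0 (.b 63) (.b 44)))))))) (.tw (.s13 (.s12 (.c 0 (.b 80) (.s13 (.tw (.s13 (.c 0 (.b 663) (.b 44)))))))))))))),
  (.tw (.c 0 (.tw (.c 0 (.b 13) (.s13 (.tw (.s12 (.s13 (.c 0 (.b 13) (.c 0 (.b 136) (.s13 (.tw (.s12 (.s13 (.c 0 (.b 13) (.b 138)))))))))))))) (.tw (.s13 (.s12 (.c 0 (.tw (.s13 (.s12 (.c 0 (.b 192) (.s13 (.tw (.s13 (.c 0 (.b 24) (.b 44))))))))) (.tw (.s13 (.s12 (.c 0 (.s13 (.tw (.c 0 (.b 381) (.b 44)))) (.s13 (.tw (.s13 (.s12 (.c 0 (.b 272) (.b 239)))))))))))))))),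
  (.tw (.c 0 (.s12 (.s13 (.tw (.s12 (.c 0 (.b 14) (.s13 (.tw (.s12 (.s13 (.c 0 (.b 304) (.s13 (.tw (.s12 (.s13 (.c 0 (.b 13) (.b 546)))))))))))))))) (.s13 (.tw (.s12 (.c 0 (.s12 (.s13 (.tw (.c 0 (.b 284) (.b 147))))) (.tw (.s12 (.s13 (.tw (.c 0 (.s13 (.tw (.c 0 (.b 136) (.b 236)))) (.s13 (.tw (.c 0 (.tw (.c 0 (.b 136) (.b 136))) (.s13 (.tw (.c 0 (.b 5) (.b 5)))))))))))))))))),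
  (.c 0 (.tw (.c 0 (.b 14) (.s13 (.tw (.s12 (.s13 (.c 0 (.b 13) (.s13 (.tw (.s12 (.s13 (.c 0 (.b 136) (.s13 (.tw (.s12 (.s13 (.c 0 (.b 63) (.b 369)))))))))))))))))) (.s13 (.tw (.c 0 (.s12 (.s13 (.tw (.c 0 (.b 136) (.s13 (.tw (.s12 (.s13 (.c 0 (.b 58) (.b 44)))))))))) (.tw (.s12 (.s13 (.tw (.c 0 (.s13 (.tw (.c 0 (.b 136) (.s13 (.tw (.s12 (.s13 (.c 0 (.b 44) (.b 1))))))))) (.s13 (.tw (.s12 (.c 0 (.b 5) (.s13 (.tw (.c 0 (.b 63) (.b 24))))))))))))))))),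
  (.tw (.c 0 (.tw (.c 0 (.b 14) (.s13 (.tw (.s12 (.s13 (.c 0 (.b 14) (.c 0 (.b 304) (.s13 (.tw (.s12 (.s13 (.c 0 (.b 63) (.b 369)))))))))))))) (.s13 (.tw (.c 0 (.s12 (.s13 (.tw (.c 0 (.b 530) (.b 29))))) (.tw (.s12 (.s13 (.tw (.c 0 (.s13 (.tw (.c 0 (.b 136) (.b 713)))) (.s13 (.tw (.c 0 (.b 73) (.s13 (.tw (.c 0 (.b 5) (.b 5))))))))))))))))),
  (.tw (.c 0 (.tw (.c 0 (.b 14) (.s13 (.tw (.s12 (.s13 (.c 0 (.b 13) (.s13 (.tw (.s12 (.s13 (.c 0 (.b 136) (.s13 (.tw (.s12 (.s13 (.c 0 (.b 63) (.b 369)))))))))))))))))) (.s13 (.tw (.c 0 (.s12 (.s13 (.tw (.c 0 (.b 530) (.b 29))))) (.s12 (.s13 (.tw (.c 0 (.s13 (.tw (.c 0 (.b 136) (.b 536)))) (.s13 (.tw (.s13 (.s12 (.c 0 (.s13 (.tw (.c 0 (.b 63) (.b 124)))) (.s13 (.tw (.c 0 (.b 5) (.b 5)))))))))))))))))),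
  (.tw (.c 0 (.tw (.c 0 (.b 478) (.s13 (.tw (.s12 (.s13 (.c 0 (.b 381) (.c 0 (.b 136) (.b 136))))))))) (.s13 (.c 0 (.s13 (.tw (.s13 (.s12 (.c 0 (.s13 (.tw (.s12 (.c 0 (.b 247) (.s13 (.tw (.s12 (.s13 (.c 0 (.b 63) (.b 44)))))))))) (.s13 (.tw (.s12 (.c 0 (.s13 (.tw (.s13 (.c 0 (.b 320) (.b 267))))) (.s13 (.tw (.c 0 (.b 24) (.b 24))))))))))))) (.b 14))))),
  (.tw (.c 0 (.tw (.c 0 (.b 14) (.s13 (.tw (.s12 (.s13 (.c 0 (.b 14) (.c 0 (.b 304) (.s13 (.tw (.s12 (.s13 (.c 0 (.b 63) (.b 369)))))))))))))) (.s13 (.tw (.c 0 (.s12 (.s13 (.tw (.c 0 (.b 284) (.b 147))))) (.tw (.s12 (.s13 (.tw (.c 0 (.s13 (.tw (.c 0 (.b 136) (.b 236)))) (.s13 (.tw (.c 0 (.b 73) (.s13 (.tw (.c 0 (.b 5) (.b 5))))))))))))))))),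
  (.tw (.c 0 (.tw (.c 0 (.b 14) (.s13 (.tw (.s12 (.s13 (.c 0 (.b 13) (.s13 (.tw (.s12 (.s13 (.c 0 (.b 136) (.s13 (.tw (.s12 (.s13 (.c 0 (.b 63) (.b 369)))))))))))))))))) (.s13 (.tw (.c 0 (.s12 (.s13 (.tw (.c 0 (.b 530) (.b 29))))) (.tw (.s12 (.s13 (.tw (.c 0 (.s13 (.tw (.c 0 (.tw (.s12 (.s13 (.tw (.c 0 (.b 63) (.b 124)))))) (.b 136)))) (.s13 (.tw (.c 0 (.b 143) (.s13 (.tw (.c 0 (.b 5) (.b 5))))))))))))))))),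
  (.tw (.c 0 (.tw (.c 0 (.b 14) (.s13 (.tw (.s12 (.s13 (.c 0 (.b 13) (.s13 (.tw (.s12 (.s13 (.c 0 (.b 136) (.s13 (.tw (.s12 (.s13 (.c 0 (.b 63) (.b 369)))))))))))))))))) (.s13 (.tw (.c 0 (.s12 (.s13 (.tw (.c 0 (.b 530) (.b 29))))) (.s12 (.s13 (.tw (.c 0 (.s13 (.tw (.c 0 (.b 136) (.b 536)))) (.s13 (.tw (.s12 (.c 0 (.s13 (.tw (.c 0 (.b 44) (.b 1)))) (.s13 (.tw (.c 0 (.b 5) (.b 5))))))))))))))))),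
  (.c 0 (.tw (.c 0 (.b 13) (.s13 (.tw (.s12 (.s13 (.c 0 (.b 284) (.c 0 (.b 136) (.b 29))))))))) (.tw (.s13 (.s12 (.c 0 (.tw (.s13 (.s12 (.c 0 (.s13 (.tw (.s12 (.c 0 (.b 247) (.b 152))))) (.s13 (.tw (.c 0 (.b 381) (.b 44)))))))) (.s13 (.tw (.s12 (.c 0 (.b 304) (.s13 (.tw (.s12 (.s13 (.c 0 (.b 136) (.s13 (.tw (.s12 (.s13 (.c 0 (.b 44) (.b 12)))))))))))))))))))),
  (.tw (.c 0 (.tw (.c 0 (.b 14) (.s13 (.tw (.s12 (.s13 (.c 0 (.b 14) (.c 0 (.b 304) (.s13 (.tw (.s12 (.s13 (.c 0 (.b 63) (.b 369)))))))))))))) (.s13 (.tw (.c 0 (.s13 (.tw (.c 0 (.b 58) (.s13 (.tw (.s12 (.s13 (.c 0 (.b 124) (.b 44))))))))) (.tw (.s12 (.s13 (.tw (.c 0 (.s13 (.tw (.c 0 (.b 5) (.tw (.s12 (.s13 (.tw (.c 0 (.b 13) (.b 272))))))))) (.s13 (.tw (.c 0 (.b 63) (.b 44)))))))))))))),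
  (.tw (.c 0 (.tw (.c 0 (.b 14) (.s13 (.tw (.s12 (.s13 (.c 0 (.b 13) (.s13 (.tw (.s12 (.s13 (.c 0 (.b 136) (.s13 (.tw (.s12 (.s13 (.c 0 (.b 63) (.b 369)))))))))))))))))) (.s13 (.tw (.c 0 (.s12 (.s13 (.tw (.c 0 (.b 284) (.b 147))))) (.s12 (.s13 (.tw (.c 0 (.s13 (.tw (.s12 (.c 0 (.b 356) (.s13 (.tw (.c 0 (.b 5) (.b 5)))))))) (.s13 (.tw (.c 0 (.b 63) (.c 0 (.b 136) (.b 136)))))))))))))),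
  (.c 0 (.s12 (.s13 (.tw (.s12 (.c 0 (.b 14) (.s13 (.tw (.s12 (.s13 (.c 0 (.b 304) (.s13 (.tw (.s12 (.s13 (.c 0 (.b 13) (.b 546)))))))))))))))) (.s13 (.tw (.s12 (.c 0 (.s13 (.tw (.c 0 (.b 13) (.s13 (.tw (.s13 (.c 0 (.b 67) (.s13 (.tw (.s13 (.c 0 (.b 14) (.b 44)))))))))))) (.s12 (.s13 (.tw (.c 0 (.s13 (.tw (.c 0 (.b 136) (.b 44)))) (.s13 (.tw (.s13 (.s12 (.c 0 (.b 141) (.s13 (.tw (.c 0 (.b 44) (.b 12)))))))))))))))))),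
  (.c 0 (.tw (.c 0 (.b 14) (.s13 (.tw (.s12 (.s13 (.c 0 (.b 13) (.s13 (.tw (.s12 (.s13 (.c 0 (.b 136) (.s13 (.tw (.s12 (.s13 (.c 0 (.b 63) (.b 369)))))))))))))))))) (.s13 (.tw (.c 0 (.s13 (.tw (.c 0 (.b 14) (.s13 (.tw (.s12 (.s13 (.c 0 (.b 14) (.c 0 (.b 136) (.b 247)))))))))) (.s12 (.s13 (.tw (.c 0 (.s13 (.tw (.c 0 (.b 5) (.tw (.s12 (.s13 (.tw (.c 0 (.b 13) (.b 272))))))))) (.s13 (.tw (.c 0 (.b 63) (.b 44)))))))))))),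
  (.c 0 (.tw (.c 0 (.b 14) (.s13 (.tw (.s12 (.s13 (.c 0 (.b 13) (.s13 (.tw (.s12 (.s13 (.c 0 (.b 136) (.s13 (.tw (.s12 (.s13 (.c 0 (.b 63) (.b 369)))))))))))))))))) (.s13 (.tw (.c 0 (.tw (.s13 (.tw (.c 0 (.b 67) (.s13 (.tw (.s13 (.c 0 (.b 164) (.b 44))))))))) (.s12 (.s13 (.tw (.c 0 (.s13 (.tw (.c 0 (.b 136) (.b 44)))) (.s13 (.tw (.s12 (.c 0 (.b 264) (.s13 (.tw (.c 0 (.b 44) (.b 1)))))))))))))))),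
  (.c 0 (.tw (.c 0 (.b 14) (.s13 (.tw (.s12 (.s13 (.c 0 (.b 14) (.c 0 (.b 304) (.tw (.s12 (.s13 (.tw (.c 0 (.b 63) (.b 381)))))))))))))) (.s13 (.tw (.c 0 (.tw (.s12 (.s13 (.tw (.c 0 (.b 67) (.s13 (.tw (.s13 (.c 0 (.b 164) (.b 44)))))))))) (.tw (.s13 (.tw (.c 0 (.s13 (.tw (.c 0 (.b 5) (.tw (.s12 (.s13 (.tw (.c 0 (.b 13) (.b 200))))))))) (.s13 (.tw (.c 0 (.b 63) (.b 44)))))))))))),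
  (.tw (.c 0 (.tw (.c 0 (.b 348) (.s13 (.tw (.s12 (.s13 (.c 0 (.b 23) (.b 21)))))))) (.c 0 (.tw (.c 0 (.s13 (.tw (.c 0 (.b 304) (.s13 (.tw (.s12 (.s13 (.c 0 (.b 63) (.b 44))))))))) (.tw (.s12 (.s13 (.tw (.c 0 (.tw (.s12 (.s13 (.tw (.c 0 (.b 272) (.b 239)))))) (.s13 (.tw (.c 0 (.b 5) (.b 5))))))))))) (.b 1)))),
  (.tw (.c 0 (.tw (.c 0 (.b 348) (.s13 (.tw (.s12 (.s13 (.c 0 (.b 23) (.b 21)))))))) (.c 0 (.tw (.c 0 (.s13 (.tw (.c 0 (.b 304) (.s13 (.tw (.s12 (.s13 (.c 0 (.b 63) (.b 44))))))))) (.tw (.s12 (.s13 (.tw (.c 0 (.tw (.s12 (.s13 (.tw (.c 0 (.b 266) (.b 272)))))) (.s13 (.tw (.c 0 (.b 5) (.c 0 (.b 5) (.b 1)))))))))))) (.b 1)))),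
  (.tw (.c 0 (.tw (.c 0 (.b 348) (.s13 (.tw (.s12 (.s13 (.c 0 (.b 23) (.b 21)))))))) (.c 0 (.tw (.c 0 (.s13 (.tw (.c 0 (.b 304) (.s13 (.tw (.s12 (.s13 (.c 0 (.b 63) (.b 44))))))))) (.tw (.s12 (.s13 (.tw (.c 0 (.s13 (.tw (.c 0 (.b 124) (.s13 (.tw (.s13 (.c 0 (.b 24) (.b 26)))))))) (.s13 (.tw (.c 0 (.b 5) (.c 0 (.b 5) (.b 1)))))))))))) (.b 1)))),
  (.tw (.c 0 (.tw (.c 0 (.b 348) (.s13 (.tw (.s12 (.s13 (.c 0 (.b 23) (.b 21)))))))) (.c 0 (.tw (.c 0 (.s13 (.tw (.c 0 (.b 304) (.s13 (.tw (.s12 (.s13 (.c 0 (.b 63) (.b 44))))))))) (.tw (.s12 (.s13 (.tw (.c 0 (.s13 (.tw (.c 0 (.b 63) (.b 44)))) (.s13 (.tw (.s12 (.s13 (.c 0 (.b 5) (.tw (.s13 (.tw (.c 0 (.s13 (.tw (.c 0 (.b 24) (.b 26)))) (.b 13))))))))))))))))) (.b 1)))),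
  (.tw (.c 0 (.tw (.c 0 (.b 348) (.s13 (.tw (.s12 (.s13 (.c 0 (.b 23) (.b 21)))))))) (.c 0 (.tw (.c 0 (.s12 (.s13 (.tw (.c 0 (.b 13) (.s13 (.tw (.s13 (.c 0 (.b 99) (.b 247))))))))) (.s13 (.tw (.c 0 (.s13 (.tw (.c 0 (.b 24) (.b 44)))) (.s13 (.tw (.s13 (.c 0 (.b 5) (.c 0 (.b 5) (.b 12))))))))))) (.b 1)))),
  (.tw (.c 0 (.tw (.c 0 (.b 348) (.s13 (.tw (.s12 (.s13 (.c 0 (.b 23) (.b 21)))))))) (.c 0 (.tw (.c 0 (.s12 (.s13 (.tw (.c 0 (.b 164) (.s13 (.tw (.s12 (.s13 (.c 0 (.b 63) (.b 44)))))))))) (.s12 (.s13 (.tw (.c 0 (.s13 (.tw (.s12 (.c 0 (.b 381) (.b 44))))) (.s13 (.tw (.s13 (.c 0 (.b 5) (.c 0 (.b 5) (.b 63)))))))))))) (.b 1)))),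
  (.tw (.c 0 (.tw (.c 0 (.b 416) (.s13 (.tw (.s12 (.s13 (.c 0 (.b 63) (.b 159)))))))) (.s13 (.tw (.c 0 (.s13 (.tw (.c 0 (.b 13) (.s13 (.tw (.s12 (.s13 (.c 0 (.b 13) (.c 0 (.b 136) (.b 478)))))))))) (.tw (.s13 (.tw (.c 0 (.s13 (.tw (.c 0 (.b 136) (.b 44)))) (.s13 (.tw (.c 0 (.b 5) (.s13 (.tw (.c 0 (.b 384) (.b 5)))))))))))))))),
  (.tw (.c 0 (.tw (.c 0 (.b 348) (.s13 (.tw (.s12 (.s13 (.c 0 (.b 23) (.b 21)))))))) (.c 0 (.tw (.c 0 (.s12 (.s13 (.tw (.c 0 (.b 58) (.s13 (.tw (.s12 (.s13 (.c 0 (.b 136) (.b 44)))))))))) (.tw (.s13 (.tw (.c 0 (.s13 (.tw (.c 0 (.b 63) (.b 44)))) (.s13 (.tw (.s12 (.s13 (.c 0 (.b 5) (.c 0 (.b 5) (.b 284))))))))))))) (.b 1)))),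
  (.tw (.c 0 (.tw (.c 0 (.b 348) (.s13 (.tw (.s12 (.s13 (.c 0 (.b 23) (.b 21)))))))) (.c 0 (.tw (.c 0 (.s12 (.s13 (.tw (.c 0 (.b 14) (.s13 (.tw (.s12 (.s13 (.c 0 (.b 136) (.s13 (.tw (.s12 (.s13 (.c 0 (.b 63) (.b 24))))))))))))))) (.s12 (.s13 (.tw (.c 0 (.s13 (.tw (.s12 (.c 0 (.b 381) (.b 44))))) (.s13 (.tw (.s13 (.c 0 (.b 5) (.c 0 (.b 5) (.b 63)))))))))))) (.b 1)))),
  (.tw (.c 0 (.tw (.c 0 (.b 348) (.s13 (.tw (.s12 (.s13 (.c 0 (.b 23) (.b 21)))))))) (.s13 (.c 0 (.tw (.c 0 (.s13 (.tw (.c 0 (.b 58) (.s13 (.tw (.s12 (.s13 (.c 0 (.b 14) (.c 0 (.b 136) (.b 136)))))))))) (.tw (.s13 (.tw (.c 0 (.s13 (.tw (.c 0 (.b 24) (.b 44)))) (.tw (.s12 (.s13 (.tw (.c 0 (.b 5) (.s13 (.tw (.s12 (.s13 (.c 0 (.b 5) (.b 63))))))))))))))))) (.b 1))))),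
  (.tw (.c 0 (.tw (.c 0 (.b 416) (.s13 (.tw (.s12 (.s13 (.c 0 (.b 63) (.b 159)))))))) (.s13 (.tw (.c 0 (.s13 (.tw (.c 0 (.b 13) (.s13 (.tw (.s12 (.s13 (.c 0 (.b 13) (.c 0 (.b 136) (.b 249)))))))))) (.tw (.s13 (.tw (.c 0 (.s13 (.tw (.c 0 (.b 136) (.b 44)))) (.s13 (.tw (.c 0 (.b 5) (.s13 (.tw (.c 0 (.b 384) (.b 5)))))))))))))))),
  (.tw (.c 0 (.tw (.c 0 (.b 348) (.s13 (.tw (.s12 (.s13 (.c 0 (.b 23) (.b 21)))))))) (.s13 (.c 0 (.tw (.c 0 (.s13 (.tw (.c 0 (.b 14) (.s13 (.tw (.s12 (.s13 (.c 0 (.b 136) (.s13 (.tw (.s12 (.s13 (.c 0 (.b 44) (.b 12)))))))))))))) (.s13 (.tw (.c 0 (.s13 (.tw (.c 0 (.b 57) (.b 44)))) (.s13 (.tw (.s12 (.c 0 (.b 5) (.c 0 (.b 5) (.b 26))))))))))) (.b 1))))),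
  (.tw (.c 0 (.tw (.c 0 (.b 348) (.s13 (.tw (.s12 (.s13 (.c 0 (.b 23) (.b 21)))))))) (.s13 (.c 0 (.tw (.c 0 (.s13 (.tw (.c 0 (.b 14) (.s13 (.tw (.s12 (.s13 (.c 0 (.b 136) (.s13 (.tw (.s12 (.s13 (.c 0 (.b 44) (.b 12)))))))))))))) (.s13 (.tw (.c 0 (.s13 (.tw (.c 0 (.b 63) (.b 44)))) (.s13 (.tw (.s12 (.c 0 (.b 5) (.c 0 (.b 5) (.b 26))))))))))) (.b 1))))),
  (.tw (.c 0 (.tw (.c 0 (.b 416) (.s13 (.tw (.s12 (.s13 (.c 0 (.b 63) (.b 159)))))))) (.s13 (.tw (.c 0 (.s12 (.s13 (.tw (.c 0 (.b 462) (.s13 (.tw (.s13 (.c 0 (.b 13) (.b 225))))))))) (.s13 (.tw (.c 0 (.s13 (.tw (.c 0 (.b 136) (.b 44)))) (.s13 (.tw (.c 0 (.b 5) (.s13 (.tw (.c 0 (.b 5) (.b 63))))))))))))))),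
  (.tw (.c 0 (.tw (.c 0 (.b 348) (.s13 (.tw (.s12 (.s13 (.c 0 (.b 23) (.b 21)))))))) (.s13 (.tw (.c 0 (.s12 (.s13 (.tw (.c 0 (.b 462) (.s13 (.tw (.s13 (.c 0 (.b 13) (.b 225))))))))) (.s13 (.tw (.c 0 (.s13 (.tw (.c 0 (.b 136) (.b 44)))) (.s13 (.tw (.s12 (.s13 (.c 0 (.b 5) (.s13 (.tw (.s12 (.s13 (.c 0 (.b 5) (.b 63))))))))))))))))))),
  (.tw (.c 0 (.tw (.c 0 (.b 348) (.s13 (.tw (.s12 (.s13 (.c 0 (.b 23) (.b 21)))))))) (.s13 (.tw (.c 0 (.s12 (.s13 (.tw (.c 0 (.b 164) (.s13 (.tw (.s12 (.s13 (.c 0 (.b 14) (.c 0 (.b 136) (.b 136))))))))))) (.s13 (.tw (.c 0 (.s13 (.tw (.c 0 (.b 136) (.b 44)))) (.s13 (.tw (.s13 (.c 0 (.b 5) (.s13 (.tw (.c 0 (.b 5) (.b 63)))))))))))))))),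
  (.c 0 (.tw (.c 0 (.b 13) (.s13 (.tw (.s12 (.s13 (.c 0 (.b 13) (.c 0 (.b 14) (.s13 (.tw (.s12 (.s13 (.c 0 (.b 381) (.b 381)))))))))))))) (.s13 (.tw (.c 0 (.s13 (.tw (.c 0 (.b 14) (.s13 (.tw (.s12 (.s13 (.c 0 (.b 14) (.c 0 (.b 136) (.b 136)))))))))) (.s13 (.c 0 (.tw (.c 0 (.b 304) (.s13 (.tw (.s12 (.s13 (.c 0 (.b 63) (.b 44)))))))) (.s13 (.tw (.s13 (.c 0 (.b 70) (.b 45))))))))))),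
  (.tw (.c 0 (.tw (.c 0 (.b 348) (.s13 (.tw (.s12 (.s13 (.c 0 (.b 13) (.c 0 (.b 63) (.b 159))))))))) (.s13 (.tw (.c 0 (.s12 (.s13 (.tw (.c 0 (.b 136) (.s13 (.tw (.s12 (.s13 (.c 0 (.b 284) (.b 147)))))))))) (.tw (.s12 (.s13 (.tw (.c 0 (.s13 (.tw (.c 0 (.b 136) (.b 44)))) (.s13 (.tw (.s12 (.s13 (.c 0 (.s12 (.s13 (.tw (.c 0 (.b 44) (.b 1))))) (.s13 (.tw (.s13 (.c 0 (.b 5) (.b 124)))))))))))))))))))),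
  (.tw (.c 0 (.tw (.c 0 (.b 348) (.s13 (.tw (.s12 (.s13 (.c 0 (.b 13) (.c 0 (.b 63) (.b 159))))))))) (.s13 (.tw (.c 0 (.s12 (.s13 (.tw (.c 0 (.b 136) (.s13 (.tw (.s12 (.s13 (.c 0 (.b 284) (.b 147)))))))))) (.tw (.s12 (.s13 (.tw (.c 0 (.s13 (.tw (.c 0 (.b 136) (.b 44)))) (.s13 (.tw (.s12 (.s13 (.c 0 (.s12 (.s13 (.tw (.c 0 (.b 44) (.b 1))))) (.s13 (.tw (.c 0 (.b 384) (.b 5))))))))))))))))))),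
  (.tw (.c 0 (.tw (.c 0 (.b 13) (.s13 (.tw (.s12 (.s13 (.c 0 (.b 284) (.c 0 (.b 136) (.b 29))))))))) (.s13 (.c 0 (.tw (.c 0 (.s13 (.tw (.c 0 (.b 57) (.s13 (.tw (.s12 (.s13 (.c 0 (.b 63) (.b 612))))))))) (.tw (.s13 (.tw (.c 0 (.s13 (.tw (.c 0 (.b 5) (.s13 (.tw (.c 0 (.b 5) (.b 124))))))) (.s13 (.tw (.c 0 (.b 24) (.b 44)))))))))) (.b 1))))),
  (.tw (.c 0 (.tw (.c 0 (.b 348) (.s13 (.tw (.s12 (.s13 (.c 0 (.b 13) (.c 0 (.b 63) (.b 159))))))))) (.s13 (.tw (.c 0 (.s12 (.s13 (.tw (.c 0 (.b 136) (.s13 (.tw (.s12 (.s13 (.c 0 (.b 13) (.b 546)))))))))) (.tw (.s12 (.s13 (.tw (.c 0 (.s13 (.tw (.c 0 (.b 136) (.b 44)))) (.s13 (.tw (.s12 (.s13 (.c 0 (.tw (.s13 (.tw (.c 0 (.b 202) (.s13 (.tw (.c 0 (.b 44) (.b 1)))))))) (.b 5)))))))))))))))),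
  (.tw (.c 0 (.tw (.c 0 (.b 416) (.s13 (.tw (.s12 (.s13 (.c 0 (.b 63) (.b 159)))))))) (.s13 (.tw (.c 0 (.s12 (.s13 (.tw (.c 0 (.b 13) (.s13 (.tw (.s12 (.s13 (.c 0 (.b 136) (.b 581)))))))))) (.tw (.s12 (.s13 (.tw (.c 0 (.s13 (.tw (.c 0 (.b 136) (.b 44)))) (.s13 (.tw (.c 0 (.tw (.c 0 (.b 63) (.b 136))) (.s13 (.tw (.c 0 (.b 384) (.b 5))))))))))))))))),
  (.tw (.c 0 (.tw (.c 0 (.b 13) (.s13 (.tw (.s12 (.s13 (.c 0 (.b 284) (.c 0 (.b 136) (.b 29))))))))) (.s13 (.c 0 (.tw (.c 0 (.s13 (.tw (.c 0 (.b 136) (.s13 (.tw (.s12 (.s13 (.c 0 (.b 13) (.b 138))))))))) (.tw (.s13 (.tw (.c 0 (.s13 (.tw (.c 0 (.b 136) (.b 44)))) (.tw (.s12 (.s13 (.tw (.c 0 (.b 5) (.s13 (.tw (.s12 (.s13 (.c 0 (.b 202) (.b 5))))))))))))))))) (.b 1))))),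
  (.tw (.c 0 (.tw (.c 0 (.b 348) (.s13 (.tw (.s12 (.s13 (.c 0 (.b 13) (.c 0 (.b 63) (.b 159))))))))) (.s13 (.tw (.c 0 (.s12 (.s13 (.tw (.s12 (.c 0 (.tw (.s13 (.tw (.c 0 (.b 334) (.b 26))))) (.b 304)))))) (.s12 (.s13 (.tw (.c 0 (.s13 (.tw (.s12 (.c 0 (.b 272) (.b 44))))) (.s13 (.tw (.c 0 (.b 5) (.c 0 (.b 5) (.b 63)))))))))))))),
  (.tw (.c 0 (.tw (.c 0 (.b 348) (.s13 (.tw (.s12 (.s13 (.c 0 (.b 13) (.c 0 (.b 63) (.b 159))))))))) (.s13 (.tw (.c 0 (.s12 (.s13 (.tw (.c 0 (.b 13) (.b 93))))) (.tw (.s12 (.s13 (.tw (.c 0 (.s13 (.tw (.c 0 (.b 44) (.b 247)))) (.s13 (.tw (.c 0 (.tw (.c 0 (.b 63) (.b 136))) (.s13 (.tw (.c 0 (.b 5) (.b 5))))))))))))))))),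
  (.tw (.c 0 (.tw (.c 0 (.b 348) (.s13 (.tw (.s12 (.s13 (.c 0 (.b 13) (.c 0 (.b 63) (.b 159))))))))) (.s13 (.tw (.c 0 (.s12 (.s13 (.tw (.c 0 (.b 13) (.s13 (.tw (.s12 (.s13 (.c 0 (.b 14) (.s13 (.tw (.s12 (.s13 (.c 0 (.b 381) (.b 136))))))))))))))) (.tw (.s12 (.s13 (.tw (.c 0 (.s13 (.tw (.c 0 (.b 136) (.b 44)))) (.s13 (.tw (.s12 (.s13 (.c 0 (.s12 (.s13 (.tw (.c 0 (.b 44) (.b 1))))) (.s13 (.tw (.s13 (.c 0 (.b 5) (.b 124)))))))))))))))))))),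
  (.tw (.c 0 (.tw (.c 0 (.b 416) (.s13 (.tw (.s12 (.s13 (.c 0 (.b 63) (.b 159)))))))) (.s13 (.tw (.c 0 (.s12 (.s13 (.tw (.s12 (.c 0 (.b 136) (.b 147)))))) (.tw (.s12 (.s13 (.tw (.c 0 (.tw (.s12 (.s13 (.tw (.c 0 (.b 67) (.s13 (.tw (.s13 (.c 0 (.b 14) (.b 44)))))))))) (.s13 (.tw (.c 0 (.tw (.c 0 (.b 63) (.b 136))) (.s13 (.tw (.c 0 (.b 5) (.b 5))))))))))))))))),
  (.tw (.c 0 (.tw (.c 0 (.b 348) (.s13 (.tw (.s12 (.s13 (.c 0 (.b 13) (.c 0 (.b 63) (.b 159))))))))) (.s13 (.tw (.c 0 (.s12 (.s13 (.tw (.c 0 (.b 13) (.s13 (.tw (.s12 (.s13 (.c 0 (.b 14) (.s13 (.tw (.s12 (.s13 (.c 0 (.b 381) (.b 136))))))))))))))) (.tw (.s12 (.s13 (.tw (.c 0 (.s13 (.tw (.c 0 (.b 136) (.b 44)))) (.s13 (.tw (.s12 (.s13 (.c 0 (.s12 (.s13 (.tw (.c 0 (.b 44) (.b 1))))) (.s13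 (.tw (.c 0 (.b 384) (.b 5))))))))))))))))))),
  (.tw (.c 0 (.tw (.c 0 (.b 348) (.s13 (.tw (.s12 (.s13 (.c 0 (.b 13) (.c 0 (.b 63) (.b 159))))))))) (.s13 (.tw (.c 0 (.s13 (.tw (.c 0 (.b 13) (.s13 (.tw (.s12 (.s13 (.c 0 (.b 13) (.c 0 (.b 136) (.b 478)))))))))) (.tw (.s13 (.tw (.c 0 (.s13 (.tw (.c 0 (.b 136) (.b 44)))) (.s13 (.tw (.c 0 (.b 5) (.s13 (.tw (.c 0 (.b 384) (.b 5)))))))))))))))),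
  (.tw (.c 0 (.tw (.c 0 (.b 348) (.s13 (.tw (.s12 (.s13 (.c 0 (.b 13) (.c 0 (.b 63) (.b 159))))))))) (.s13 (.tw (.c 0 (.s12 (.s13 (.tw (.c 0 (.b 13) (.s13 (.tw (.s12 (.s13 (.c 0 (.b 136) (.b 598)))))))))) (.tw (.s12 (.s13 (.tw (.c 0 (.s13 (.tw (.c 0 (.b 136) (.b 44)))) (.s13 (.tw (.s12 (.s13 (.c 0 (.s12 (.s13 (.tw (.c 0 (.b 44) (.b 1))))) (.s13 (.tw (.s13 (.c 0 (.b 5) (.b 124)))))))))))))))))))),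
  (.tw (.c 0 (.tw (.c 0 (.b 416) (.s13 (.tw (.s12 (.s13 (.c 0 (.b 63) (.b 159)))))))) (.s13 (.tw (.c 0 (.s12 (.s13 (.tw (.c 0 (.b 13) (.s13 (.tw (.s12 (.s13 (.c 0 (.b 13) (.b 546)))))))))) (.tw (.s12 (.s13 (.tw (.c 0 (.s13 (.tw (.c 0 (.b 136) (.s13 (.tw (.s12 (.s13 (.c 0 (.b 44) (.b 1))))))))) (.s13 (.tw (.c 0 (.tw (.c 0 (.b 63) (.b 136))) (.s13 (.tw (.c 0 (.b 5) (.b 5))))))))))))))))),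
  (.tw (.c 0 (.tw (.c 0 (.b 348) (.s13 (.tw (.s12 (.s13 (.c 0 (.b 13) (.c 0 (.b 63) (.b 159))))))))) (.s13 (.tw (.c 0 (.s12 (.s13 (.tw (.c 0 (.b 13) (.s13 (.tw (.s12 (.s13 (.c 0 (.b 136) (.b 598)))))))))) (.tw (.s12 (.s13 (.tw (.c 0 (.s13 (.tw (.c 0 (.b 136) (.b 44)))) (.s13 (.tw (.s12 (.s13 (.c 0 (.s12 (.s13 (.tw (.c 0 (.b 44) (.b 1))))) (.s13 (.tw (.c 0 (.b 384) (.b 5))))))))))))))))))),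
  (.tw (.c 0 (.tw (.c 0 (.b 416) (.s13 (.tw (.s12 (.s13 (.c 0 (.b 63) (.b 159)))))))) (.s13 (.tw (.c 0 (.s12 (.s13 (.tw (.c 0 (.b 13) (.s13 (.tw (.s12 (.s13 (.c 0 (.b 58) (.c 0 (.b 136) (.b 136))))))))))) (.tw (.s12 (.s13 (.tw (.c 0 (.s13 (.tw (.c 0 (.b 136) (.b 44)))) (.s13 (.tw (.c 0 (.b 387) (.s13 (.tw (.c 0 (.b 384) (.b 5))))))))))))))))),
  (.tw (.c 0 (.tw (.c 0 (.b 348) (.s13 (.tw (.s12 (.s13 (.c 0 (.b 13) (.c 0 (.b 63) (.b 159))))))))) (.s13 (.tw (.c 0 (.s12 (.s13 (.tw (.c 0 (.b 13) (.s13 (.tw (.s12 (.s13 (.c 0 (.b 58) (.c 0 (.b 136) (.b 136))))))))))) (.tw (.s12 (.s13 (.tw (.c 0 (.s13 (.tw (.s12 (.c 0 (.b 136) (.b 139))))) (.s13 (.tw (.c 0 (.b 5) (.s13 (.tw (.c 0 (.b 384) (.b 5))))))))))))))))),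
  (.tw (.c 0 (.tw (.c 0 (.b 348) (.s13 (.tw (.s12 (.s13 (.c 0 (.b 13) (.c 0 (.b 63) (.b 159))))))))) (.s13 (.tw (.c 0 (.s13 (.tw (.c 0 (.b 13) (.s13 (.tw (.s12 (.s13 (.c 0 (.b 13) (.c 0 (.b 136) (.b 249)))))))))) (.tw (.s13 (.tw (.c 0 (.s13 (.tw (.c 0 (.b 136) (.b 44)))) (.s13 (.tw (.c 0 (.b 5) (.s13 (.tw (.c 0 (.b 384) (.b 5)))))))))))))))),
  (.c 0 (.tw (.c 0 (.b 13) (.s13 (.tw (.s12 (.s13 (.c 0 (.b 13) (.c 0 (.b 14) (.s13 (.tw (.s12 (.s13 (.c 0 (.b 381) (.b 381)))))))))))))) (.s13 (.tw (.c 0 (.s13 (.tw (.c 0 (.b 14) (.s13 (.tw (.s12 (.s13 (.c 0 (.b 14) (.c 0 (.b 136) (.b 136)))))))))) (.tw (.s13 (.tw (.c 0 (.s13 (.tw (.c 0 (.b 136) (.b 536)))) (.tw (.s13 (.tw (.c 0 (.s13 (.tw (.s12 (.c 0 (.b 63) (.b 381))))) (.s13 (.tw (.c 0 (.b 63) (.b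 44)))))))))))))))),
  (.tw (.c 0 (.s12 (.s13 (.tw (.s12 (.c 0 (.b 416) (.c 0 (.b 478) (.b 29))))))) (.tw (.s13 (.tw (.s12 (.c 0 (.s12 (.s13 (.tw (.s12 (.c 0 (.b 666) (.s13 (.tw (.s12 (.s13 (.c 0 (.b 136) (.s13 (.tw (.s12 (.s13 (.c 0 (.b 44) (.b 1)))))))))))))))) (.s12 (.s13 (.tw (.s12 (.c 0 (.s13 (.tw (.c 0 (.b 44) (.b 12)))) (.tw (.s12 (.s13 (.tw (.c 0 (.b 5) (.s13 (.tw (.s12 (.s13 (.c 0 (.b 63) (.b 24))))))))))))))))))))))),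
  (.tw (.c 0 (.tw (.c 0 (.b 416) (.s13 (.tw (.s12 (.s13 (.c 0 (.b 63) (.b 159)))))))) (.s13 (.tw (.c 0 (.s13 (.tw (.c 0 (.b 462) (.tw (.s12 (.s13 (.tw (.c 0 (.b 381) (.b 381))))))))) (.tw (.s13 (.tw (.c 0 (.s13 (.tw (.c 0 (.b 136) (.b 351)))) (.s13 (.tw (.c 0 (.b 5) (.s13 (.tw (.c 0 (.b 384) (.b 5)))))))))))))))),
  (.tw (.c 0 (.tw (.c 0 (.b 348) (.s13 (.tw (.s12 (.s13 (.c 0 (.b 13) (.c 0 (.b 63) (.b 159))))))))) (.s13 (.tw (.c 0 (.s13 (.tw (.c 0 (.b 14) (.s13 (.tw (.s12 (.s13 (.c 0 (.b 136) (.s13 (.tw (.s12 (.s13 (.c 0 (.b 24) (.b 136)))))))))))))) (.tw (.s12 (.s13 (.tw (.c 0 (.s13 (.tw (.s12 (.c 0 (.b 136) (.b 598))))) (.s13 (.tw (.c 0 (.b 5) (.c 0 (.b 5) (.b 26))))))))))))))),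
  (.tw (.c 0 (.tw (.c 0 (.b 348) (.s13 (.tw (.s12 (.s13 (.c 0 (.b 13) (.c 0 (.b 63) (.b 159))))))))) (.s13 (.tw (.c 0 (.s12 (.s13 (.tw (.c 0 (.b 462) (.s13 (.tw (.s13 (.c 0 (.b 13) (.b 225))))))))) (.s13 (.tw (.c 0 (.s13 (.tw (.c 0 (.b 136) (.b 44)))) (.s13 (.tw (.c 0 (.b 5) (.s13 (.tw (.c 0 (.b 5) (.b 63))))))))))))))),
  (.c 0 (.tw (.c 0 (.b 13) (.s13 (.tw (.s12 (.s13 (.c 0 (.b 284) (.c 0 (.b 136) (.b 29))))))))) (.s13 (.tw (.c 0 (.s13 (.tw (.c 0 (.b 273) (.s13 (.tw (.s12 (.s13 (.c 0 (.b 136) (.b 180))))))))) (.s13 (.c 0 (.tw (.c 0 (.b 14) (.s13 (.tw (.s12 (.s13 (.c 0 (.b 14) (.c 0 (.b 136) (.b 136))))))))) (.s13 (.tw (.s13 (.c 0 (.b 70) (.b 45))))))))))),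
  (.tw (.c 0 (.tw (.c 0 (.b 13) (.s13 (.tw (.s12 (.s13 (.c 0 (.b 284) (.c 0 (.b 136) (.b 29))))))))) (.s13 (.c 0 (.tw (.c 0 (.s13 (.tw (.c 0 (.b 304) (.s13 (.tw (.s12 (.s13 (.c 0 (.b 63) (.b 501))))))))) (.tw (.s13 (.tw (.c 0 (.s13 (.tw (.c 0 (.b 24) (.b 405)))) (.s13 (.tw (.c 0 (.b 5) (.s13 (.tw (.s12 (.s13 (.c 0 (.b 5) (.b 63))))))))))))))) (.b 1))))),
  (.tw (.c 0 (.tw (.c 0 (.b 13) (.s13 (.tw (.s12 (.s13 (.c 0 (.b 284) (.c 0 (.b 136) (.b 29))))))))) (.s13 (.c 0 (.tw (.c 0 (.s13 (.tw (.c 0 (.b 136) (.b 236)))) (.tw (.s13 (.tw (.c 0 (.s13 (.tw (.c 0 (.b 200) (.s13 (.tw (.s12 (.s13 (.c 0 (.b 44) (.b 1))))))))) (.s13 (.tw (.c 0 (.b 5) (.s13 (.tw (.c 0 (.b 384) (.b 5))))))))))))) (.b 1))))),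
  (.tw (.c 0 (.tw (.c 0 (.b 13) (.s13 (.tw (.s12 (.s13 (.c 0 (.b 284) (.c 0 (.b 136) (.b 29))))))))) (.s13 (.c 0 (.tw (.c 0 (.s13 (.tw (.c 0 (.b 14) (.s13 (.tw (.s12 (.s13 (.c 0 (.b 381) (.b 351))))))))) (.tw (.s13 (.tw (.c 0 (.s13 (.tw (.c 0 (.b 5) (.s13 (.tw (.c 0 (.b 82) (.b 5))))))) (.s13 (.tw (.c 0 (.b 24) (.b 44)))))))))) (.b 1))))),
  (.tw (.c 0 (.tw (.c 0 (.b 416) (.s13 (.tw (.s12 (.s13 (.c 0 (.b 63) (.b 159)))))))) (.s13 (.tw (.c 0 (.s12 (.s13 (.tw (.c 0 (.b 136) (.s13 (.tw (.s12 (.s13 (.c 0 (.b 13) (.b 546)))))))))) (.tw (.s12 (.s13 (.tw (.c 0 (.s13 (.tw (.c 0 (.b 136) (.b 44)))) (.tw (.s12 (.s13 (.tw (.c 0 (.tw (.c 0 (.b 63) (.b 136))) (.s13 (.tw (.c 0 (.b 176) (.b 5))))))))))))))))))),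
  (.tw (.c 0 (.tw (.c 0 (.b 13) (.s13 (.tw (.s12 (.s13 (.c 0 (.b 284) (.c 0 (.b 136) (.b 29))))))))) (.s13 (.c 0 (.tw (.c 0 (.s13 (.tw (.c 0 (.b 14) (.s13 (.tw (.s12 (.s13 (.c 0 (.b 381) (.b 351))))))))) (.tw (.s13 (.tw (.c 0 (.s13 (.tw (.c 0 (.b 136) (.b 44)))) (.tw (.s12 (.s13 (.tw (.c 0 (.b 5) (.s13 (.tw (.s12 (.s13 (.c 0 (.b 202) (.b 5))))))))))))))))) (.b 1))))),
  (.tw (.c 0 (.tw (.c 0 (.b 13) (.s13 (.tw (.s12 (.s13 (.c 0 (.b 284) (.c 0 (.b 136) (.b 29))))))))) (.s13 (.c 0 (.tw (.c 0 (.s13 (.tw (.c 0 (.b 57) (.s13 (.tw (.s12 (.s13 (.c 0 (.b 63) (.b 663))))))))) (.tw (.s13 (.tw (.c 0 (.s13 (.tw (.c 0 (.b 136) (.b 44)))) (.s13 (.tw (.c 0 (.b 5) (.s13 (.tw (.c 0 (.b 384) (.b 5))))))))))))) (.b 1))))),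
  (.tw (.c 0 (.tw (.c 0 (.b 13) (.s13 (.tw (.s12 (.s13 (.c 0 (.b 284) (.c 0 (.b 136) (.b 29))))))))) (.s13 (.c 0 (.tw (.c 0 (.s12 (.s13 (.tw (.c 0 (.b 13) (.b 546))))) (.tw (.s12 (.s13 (.tw (.c 0 (.s13 (.tw (.c 0 (.b 44) (.b 247)))) (.s13 (.tw (.c 0 (.s13 (.tw (.c 0 (.b 44) (.b 1)))) (.s13 (.tw (.c 0 (.b 5) (.b 5)))))))))))))) (.b 1))))),
  (.tw (.c 0 (.tw (.c 0 (.b 13) (.s13 (.tw (.s12 (.s13 (.c 0 (.b 284) (.c 0 (.b 136) (.b 29))))))))) (.s13 (.c 0 (.tw (.c 0 (.s13 (.tw (.c 0 (.b 14) (.s13 (.tw (.s12 (.s13 (.c 0 (.b 14) (.c 0 (.b 63) (.b 136)))))))))) (.tw (.s13 (.tw (.c 0 (.s13 (.tw (.c 0 (.b 5) (.s13 (.tw (.c 0 (.b 82) (.b 5))))))) (.s13 (.tw (.c 0 (.b 24) (.b 44)))))))))) (.b 1))))),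
  (.tw (.c 0 (.tw (.c 0 (.b 416) (.s13 (.tw (.s12 (.s13 (.c 0 (.b 63) (.b 159)))))))) (.s13 (.tw (.c 0 (.s12 (.s13 (.tw (.c 0 (.b 13) (.s13 (.tw (.s12 (.s13 (.c 0 (.b 13) (.b 337)))))))))) (.tw (.s12 (.s13 (.tw (.c 0 (.s13 (.tw (.c 0 (.b 136) (.s13 (.tw (.s12 (.s13 (.c 0 (.b 44) (.b 1))))))))) (.s13 (.tw (.c 0 (.tw (.c 0 (.b 63) (.b 136))) (.s13 (.tw (.c 0 (.b 5) (.b 5))))))))))))))))),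
  (.tw (.c 0 (.tw (.c 0 (.b 13) (.s13 (.tw (.s12 (.s13 (.c 0 (.b 284) (.c 0 (.b 136) (.b 29))))))))) (.s13 (.c 0 (.tw (.c 0 (.s13 (.tw (.c 0 (.b 14) (.s13 (.tw (.s12 (.s13 (.c 0 (.b 14) (.c 0 (.b 63) (.b 136)))))))))) (.tw (.s13 (.tw (.c 0 (.s13 (.tw (.c 0 (.b 136) (.b 44)))) (.tw (.s12 (.s13 (.tw (.c 0 (.b 5) (.s13 (.tw (.s12 (.s13 (.c 0 (.b 202) (.b 5))))))))))))))))) (.b 1))))),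
  (.tw (.c 0 (.tw (.c 0 (.b 416) (.s13 (.tw (.s12 (.s13 (.c 0 (.b 63) (.b 159)))))))) (.s13 (.tw (.c 0 (.s12 (.s13 (.tw (.c 0 (.b 136) (.s13 (.tw (.s12 (.s13 (.c 0 (.b 13) (.b 546)))))))))) (.tw (.s12 (.s13 (.tw (.c 0 (.s13 (.tw (.c 0 (.b 136) (.s13 (.tw (.s12 (.s13 (.c 0 (.b 44) (.b 1))))))))) (.s13 (.tw (.c 0 (.tw (.c 0 (.b 63) (.b 136))) (.s13 (.tw (.c 0 (.b 5) (.b 124))))))))))))))))),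
  (.tw (.c 0 (.tw (.c 0 (.b 13) (.s13 (.tw (.s12 (.s13 (.c 0 (.b 284) (.c 0 (.b 136) (.b 29))))))))) (.s13 (.c 0 (.tw (.c 0 (.s13 (.tw (.c 0 (.b 136) (.s13 (.tw (.s12 (.s13 (.c 0 (.b 63) (.b 400))))))))) (.tw (.s13 (.tw (.c 0 (.s13 (.tw (.c 0 (.b 136) (.b 44)))) (.tw (.s12 (.s13 (.tw (.c 0 (.b 269) (.s13 (.tw (.c 0 (.b 384) (.b 5))))))))))))))) (.b 1))))),
  (.tw (.c 0 (.tw (.c 0 (.b 13) (.s13 (.tw (.s12 (.s13 (.c 0 (.b 284) (.c 0 (.b 136) (.b 29))))))))) (.s13 (.c 0 (.tw (.c 0 (.s13 (.tw (.c 0 (.b 57) (.s13 (.tw (.s12 (.s13 (.c 0 (.b 57) (.b 44))))))))) (.tw (.s13 (.tw (.c 0 (.s13 (.tw (.c 0 (.b 136) (.b 44)))) (.s13 (.tw (.c 0 (.b 5) (.s13 (.tw (.c 0 (.b 384) (.b 5))))))))))))) (.b 1))))),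
  (.c 0 (.tw (.c 0 (.b 13) (.s13 (.tw (.s12 (.s13 (.c 0 (.b 13) (.c 0 (.b 14) (.s13 (.tw (.s12 (.s13 (.c 0 (.b 381) (.b 381)))))))))))))) (.s13 (.tw (.c 0 (.s13 (.tw (.c 0 (.b 14) (.s13 (.tw (.s12 (.s13 (.c 0 (.b 136) (.b 351))))))))) (.tw (.s13 (.tw (.c 0 (.s13 (.tw (.c 0 (.b 136) (.s13 (.tw (.s12 (.s13 (.c 0 (.b 44) (.b 1))))))))) (.tw (.s13 (.tw (.c 0 (.s13 (.tw (.s12 (.c 0 (.b 63) (.b 381))))) (.s13 (.tw (.c 0 (.b 63) (.b 44)))))))))))))))),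
  (.tw (.c 0 (.tw (.c 0 (.b 13) (.s13 (.tw (.s12 (.s13 (.c 0 (.b 284) (.c 0 (.b 136) (.b 29))))))))) (.s13 (.c 0 (.tw (.c 0 (.s13 (.tw (.c 0 (.b 136) (.s13 (.tw (.s12 (.s13 (.c 0 (.b 13) (.b 139))))))))) (.tw (.s13 (.tw (.c 0 (.s13 (.tw (.c 0 (.b 5) (.s13 (.tw (.c 0 (.b 5) (.b 124))))))) (.s13 (.tw (.c 0 (.b 24) (.b 44)))))))))) (.b 1))))),
  (.tw (.c 0 (.tw (.c 0 (.b 416) (.s13 (.tw (.s12 (.s13 (.c 0 (.b 63) (.b 159)))))))) (.s13 (.tw (.c 0 (.s12 (.s13 (.tw (.c 0 (.b 13) (.s13 (.tw (.s12 (.s13 (.c 0 (.b 136) (.b 598)))))))))) (.tw (.s12 (.s13 (.tw (.c 0 (.s13 (.tw (.c 0 (.b 136) (.b 44)))) (.s13 (.tw (.c 0 (.tw (.c 0 (.b 63) (.b 136))) (.s13 (.tw (.c 0 (.b 5) (.b 124))))))))))))))))),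
  (.tw (.c 0 (.tw (.c 0 (.b 13) (.s13 (.tw (.s12 (.s13 (.c 0 (.b 284) (.c 0 (.b 136) (.b 29))))))))) (.s13 (.c 0 (.tw (.c 0 (.s13 (.tw (.c 0 (.b 136) (.s13 (.tw (.s12 (.s13 (.c 0 (.b 14) (.b 239))))))))) (.tw (.s13 (.tw (.c 0 (.s13 (.tw (.c 0 (.b 136) (.b 44)))) (.tw (.s12 (.s13 (.tw (.c 0 (.b 269) (.s13 (.tw (.c 0 (.b 384) (.b 5))))))))))))))) (.b 1))))),
  (.tw (.c 0 (.tw (.c 0 (.b 13) (.s13 (.tw (.s12 (.s13 (.c 0 (.b 284) (.c 0 (.b 136) (.b 29))))))))) (.s13 (.c 0 (.tw (.c 0 (.s13 (.tw (.c 0 (.b 136) (.s13 (.tw (.s12 (.s13 (.c 0 (.b 13) (.b 139))))))))) (.tw (.s13 (.tw (.c 0 (.s13 (.tw (.c 0 (.b 136) (.b 44)))) (.s13 (.tw (.c 0 (.b 5) (.s13 (.tw (.c 0 (.b 384) (.b 5))))))))))))) (.b 1))))),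
  (.tw (.c 0 (.s12 (.s13 (.tw (.s12 (.c 0 (.b 416) (.c 0 (.b 478) (.b 29))))))) (.s13 (.tw (.s12 (.c 0 (.s13 (.tw (.c 0 (.b 57) (.s13 (.tw (.s12 (.s13 (.c 0 (.b 14) (.c 0 (.b 136) (.b 136)))))))))) (.tw (.s13 (.tw (.c 0 (.s13 (.tw (.c 0 (.b 136) (.b 44)))) (.tw (.s13 (.tw (.c 0 (.s13 (.tw (.s12 (.c 0 (.b 63) (.b 381))))) (.s13 (.tw (.s12 (.c 0 (.b 44) (.b 12))))))))))))))))))),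
  (.tw (.c 0 (.tw (.c 0 (.b 416) (.s13 (.tw (.s12 (.s13 (.c 0 (.b 63) (.b 159)))))))) (.s13 (.tw (.c 0 (.s13 (.tw (.c 0 (.b 136) (.s13 (.tw (.s12 (.s13 (.c 0 (.b 63) (.b 207))))))))) (.tw (.s13 (.tw (.c 0 (.s13 (.tw (.c 0 (.b 136) (.b 44)))) (.tw (.s13 (.tw (.c 0 (.s13 (.tw (.s12 (.c 0 (.b 63) (.b 381))))) (.s13 (.tw (.c 0 (.b 63) (.b 44))))))))))))))))),
  (.tw (.c 0 (.tw (.c 0 (.b 13) (.s13 (.tw (.s12 (.s13 (.c 0 (.b 284) (.c 0 (.b 136) (.b 29))))))))) (.s13 (.c 0 (.tw (.c 0 (.s13 (.tw (.c 0 (.b 58) (.s13 (.tw (.s12 (.s13 (.c 0 (.b 14) (.c 0 (.b 136) (.b 136)))))))))) (.tw (.s13 (.tw (.c 0 (.s13 (.tw (.c 0 (.b 14) (.c 0 (.b 63) (.b 136))))) (.s13 (.tw (.c 0 (.b 5) (.s13 (.tw (.c 0 (.b 384) (.b 5))))))))))))) (.b 1))))),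
  (.tw (.c 0 (.tw (.c 0 (.b 13) (.s13 (.tw (.s12 (.s13 (.c 0 (.b 284) (.c 0 (.b 136) (.b 29))))))))) (.s13 (.c 0 (.tw (.c 0 (.s13 (.tw (.c 0 (.b 14) (.s13 (.tw (.s12 (.s13 (.c 0 (.b 136) (.s13 (.tw (.s12 (.s13 (.c 0 (.b 13) (.b 200)))))))))))))) (.tw (.s13 (.tw (.c 0 (.s13 (.tw (.c 0 (.b 136) (.b 44)))) (.s13 (.tw (.c 0 (.b 5) (.s13 (.tw (.c 0 (.b 5) (.b 63))))))))))))) (.b 1))))),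
  (.c 0 (.tw (.c 0 (.b 13) (.s13 (.tw (.s12 (.s13 (.c 0 (.b 284) (.c 0 (.b 136) (.b 29))))))))) (.s13 (.tw (.c 0 (.s12 (.s13 (.tw (.c 0 (.s13 (.tw (.s12 (.s13 (.c 0 (.b 14) (.c 0 (.b 136) (.b 136))))))) (.b 16))))) (.s12 (.s13 (.c 0 (.s12 (.s13 (.tw (.s12 (.c 0 (.b 304) (.s13 (.tw (.s12 (.s13 (.c 0 (.b 136) (.b 44))))))))))) (.s13 (.tw (.s13 (.c 0 (.b 70) (.b 45)))))))))))),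
  (.tw (.c 0 (.tw (.c 0 (.b 416) (.s13 (.tw (.s12 (.s13 (.c 0 (.b 63) (.b 159)))))))) (.tw (.s13 (.s12 (.c 0 (.tw (.s13 (.s12 (.c 0 (.s13 (.tw (.s12 (.c 0 (.b 247) (.b 152))))) (.s13 (.tw (.c 0 (.b 381) (.b 44)))))))) (.s13 (.tw (.s12 (.c 0 (.b 304) (.s13 (.tw (.s12 (.s13 (.c 0 (.b 136) (.s13 (.tw (.s12 (.s13 (.c 0 (.b 44) (.b 12))))))))))))))))))))),
  (.tw (.c 0 (.tw (.c 0 (.b 13) (.s13 (.tw (.s12 (.s13 (.c 0 (.b 284) (.c 0 (.b 136) (.b 29))))))))) (.s13 (.tw (.c 0 (.s13 (.tw (.c 0 (.b 14) (.s13 (.tw (.s12 (.s13 (.c 0 (.b 136) (.s13 (.tw (.s12 (.s13 (.c 0 (.b 24) (.b 136)))))))))))))) (.tw (.s12 (.s13 (.tw (.c 0 (.tw (.s12 (.c 0 (.b 136) (.b 462)))) (.s13 (.tw (.c 0 (.b 5) (.c 0 (.b 5) (.b 26))))))))))))))),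
  (.c 0 (.tw (.c 0 (.b 14) (.s13 (.tw (.s12 (.s13 (.c 0 (.b 13) (.s13 (.tw (.s12 (.s13 (.c 0 (.b 136) (.s13 (.tw (.s12 (.s13 (.c 0 (.b 63) (.b 369)))))))))))))))))) (.s13 (.tw (.c 0 (.s13 (.tw (.c 0 (.b 13) (.s13 (.tw (.s12 (.s13 (.c 0 (.b 13) (.b 501))))))))) (.s12 (.s13 (.c 0 (.s12 (.s13 (.tw (.s12 (.c 0 (.b 304) (.s13 (.tw (.s12 (.s13 (.c 0 (.b 136) (.b 44))))))))))) (.tw (.c 0 (.b 136) (.s13 (.tw (.s12 (.s13 (.c 0 (.b 63) (.b 44))))))))))))))),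
  (.tw (.c 0 (.tw (.c 0 (.b 13) (.s13 (.tw (.s12 (.s13 (.c 0 (.b 13) (.c 0 (.b 14) (.s13 (.tw (.s12 (.s13 (.c 0 (.b 381) (.b 381)))))))))))))) (.s13 (.tw (.c 0 (.s12 (.s13 (.tw (.c 0 (.b 13) (.b 546))))) (.tw (.s12 (.s13 (.tw (.c 0 (.s13 (.tw (.c 0 (.b 24) (.tw (.s12 (.s13 (.tw (.c 0 (.b 44) (.b 12))))))))) (.s13 (.tw (.c 0 (.s13 (.tw (.c 0 (.b 44) (.b 1)))) (.s13 (.tw (.c 0 (.b 5) (.b 5))))))))))))))))),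
  (.tw (.c 0 (.tw (.c 0 (.b 416) (.s13 (.tw (.s12 (.s13 (.c 0 (.b 63) (.b 159)))))))) (.s13 (.tw (.c 0 (.s12 (.s13 (.tw (.c 0 (.s13 (.tw (.s12 (.s13 (.c 0 (.b 14) (.c 0 (.b 136) (.b 136))))))) (.b 29))))) (.tw (.s12 (.s13 (.tw (.c 0 (.s13 (.tw (.s12 (.c 0 (.b 136) (.b 405))))) (.s13 (.tw (.c 0 (.b 73) (.s13 (.tw (.c 0 (.b 5) (.b 124))))))))))))))))),
  (.tw (.c 0 (.tw (.c 0 (.b 13) (.s13 (.tw (.s12 (.s13 (.c 0 (.b 13) (.c 0 (.b 14) (.s13 (.tw (.s12 (.s13 (.c 0 (.b 381) (.b 381)))))))))))))) (.s13 (.tw (.c 0 (.s12 (.s13 (.tw (.c 0 (.b 13) (.b 546))))) (.s12 (.s13 (.tw (.c 0 (.s13 (.tw (.s12 (.c 0 (.s13 (.tw (.c 0 (.b 44) (.b 12)))) (.s13 (.tw (.c 0 (.b 5) (.b 5)))))))) (.s13 (.tw (.s12 (.c 0 (.b 249) (.b 44)))))))))))))),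
  (.tw (.c 0 (.tw (.c 0 (.b 13) (.s13 (.tw (.s12 (.s13 (.c 0 (.b 13) (.c 0 (.b 14) (.s13 (.tw (.s12 (.s13 (.c 0 (.b 381) (.b 381)))))))))))))) (.s13 (.tw (.c 0 (.tw (.c 0 (.b 279) (.b 57))) (.s13 (.c 0 (.s12 (.s13 (.tw (.s12 (.c 0 (.b 666) (.s13 (.tw (.s12 (.s13 (.c 0 (.b 63) (.b 44))))))))))) (.tw (.c 0 (.b 666) (.s13 (.tw (.s12 (.s13 (.c 0 (.b 63) (.b 44))))))))))))))),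
  (.tw (.c 0 (.tw (.c 0 (.b 416) (.s13 (.tw (.s12 (.s13 (.c 0 (.b 63) (.b 159)))))))) (.s13 (.tw (.c 0 (.s12 (.s13 (.tw (.c 0 (.b 136) (.s13 (.tw (.s12 (.s13 (.c 0 (.b 13) (.b 337)))))))))) (.tw (.s12 (.s13 (.tw (.c 0 (.s13 (.tw (.c 0 (.b 136) (.s13 (.tw (.s12 (.s13 (.c 0 (.b 44) (.b 1))))))))) (.s13 (.tw (.c 0 (.tw (.c 0 (.b 63) (.b 136))) (.s13 (.tw (.c 0 (.b 5) (.b 124))))))))))))))))),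
  (.tw (.c 0 (.tw (.c 0 (.b 13) (.s13 (.tw (.s12 (.s13 (.c 0 (.b 13) (.c 0 (.b 14) (.s13 (.tw (.s12 (.s13 (.c 0 (.b 381) (.b 381)))))))))))))) (.s13 (.tw (.c 0 (.s12 (.s13 (.tw (.c 0 (.b 13) (.b 546))))) (.tw (.s12 (.s13 (.tw (.c 0 (.s13 (.tw (.c 0 (.b 136) (.tw (.s12 (.s13 (.tw (.c 0 (.b 44) (.b 12))))))))) (.tw (.s12 (.s13 (.tw (.c 0 (.s13 (.tw (.c 0 (.b 63) (.b 124)))) (.s13 (.tw (.c 0 (.b 5) (.b 5))))))))))))))))))),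
  (.tw (.c 0 (.tw (.c 0 (.b 13) (.s13 (.tw (.s12 (.s13 (.c 0 (.b 13) (.c 0 (.b 14) (.s13 (.tw (.s12 (.s13 (.c 0 (.b 381) (.b 381)))))))))))))) (.s13 (.tw (.c 0 (.s12 (.s13 (.tw (.c 0 (.b 13) (.b 546))))) (.tw (.s12 (.s13 (.tw (.c 0 (.s13 (.tw (.c 0 (.b 136) (.tw (.s12 (.s13 (.tw (.c 0 (.b 44) (.b 12))))))))) (.s13 (.tw (.c 0 (.s13 (.tw (.c 0 (.b 44) (.b 1)))) (.s13 (.tw (.c 0 (.b 5) (.b 5))))))))))))))))),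
  (.tw (.c 0 (.s12 (.s13 (.tw (.s12 (.c 0 (.b 416) (.c 0 (.b 478) (.b 29))))))) (.s13 (.tw (.s12 (.c 0 (.s13 (.tw (.c 0 (.b 14) (.s13 (.tw (.s12 (.s13 (.c 0 (.b 136) (.b 536))))))))) (.s12 (.s13 (.tw (.c 0 (.s13 (.tw (.c 0 (.b 136) (.b 44)))) (.tw (.s12 (.c 0 (.s13 (.tw (.c 0 (.b 44) (.b 12)))) (.s13 (.tw (.s12 (.c 0 (.b 13) (.b 239)))))))))))))))))),
  (.tw (.c 0 (.tw (.c 0 (.b 416) (.s13 (.tw (.s12 (.s13 (.c 0 (.b 63) (.b 159)))))))) (.s13 (.tw (.c 0 (.s12 (.s13 (.tw (.c 0 (.s13 (.tw (.s12 (.s13 (.c 0 (.b 14) (.c 0 (.b 136) (.b 136))))))) (.b 16))))) (.s12 (.s13 (.tw (.c 0 (.s13 (.tw (.c 0 (.b 63) (.c 0 (.b 136) (.b 136))))) (.tw (.s13 (.s12 (.c 0 (.s13 (.tw (.s12 (.c 0 (.b 63) (.b 381))))) (.s13 (.tw (.c 0 (.b 63) (.b 44))))))))))))))))),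
  (.tw (.c 0 (.tw (.c 0 (.b 13) (.s13 (.tw (.s12 (.s13 (.c 0 (.b 13) (.c 0 (.b 14) (.s13 (.tw (.s12 (.s13 (.c 0 (.b 381) (.b 381)))))))))))))) (.s13 (.tw (.c 0 (.s13 (.tw (.c 0 (.b 57) (.s13 (.tw (.s12 (.s13 (.c 0 (.b 57) (.b 44))))))))) (.tw (.s13 (.tw (.c 0 (.s13 (.tw (.c 0 (.b 5) (.s13 (.tw (.s13 (.c 0 (.b 140) (.b 143)))))))) (.s13 (.tw (.c 0 (.b 136) (.b 44))))))))))))),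
  (.tw (.c 0 (.tw (.c 0 (.b 13) (.s13 (.tw (.s12 (.s13 (.c 0 (.b 13) (.c 0 (.b 14) (.s13 (.tw (.s12 (.s13 (.c 0 (.b 381) (.b 381)))))))))))))) (.s13 (.tw (.c 0 (.s13 (.tw (.c 0 (.b 57) (.s13 (.tw (.s12 (.s13 (.c 0 (.b 57) (.b 44))))))))) (.tw (.s13 (.tw (.c 0 (.s13 (.tw (.c 0 (.b 5) (.s13 (.tw (.c 0 (.b 5) (.b 465))))))) (.s13 (.tw (.c 0 (.b 136) (.b 44))))))))))))),
  (.c 0 (.tw (.c 0 (.b 13) (.s13 (.tw (.s12 (.s13 (.c 0 (.b 284) (.c 0 (.b 136) (.b 29))))))))) (.s13 (.tw (.c 0 (.s12 (.s13 (.tw (.c 0 (.s13 (.tw (.s12 (.s13 (.c 0 (.b 14) (.c 0 (.b 136) (.b 136))))))) (.b 16))))) (.s12 (.s13 (.tw (.c 0 (.s13 (.tw (.c 0 (.b 63) (.c 0 (.b 136) (.b 136))))) (.tw (.s13 (.s12 (.c 0 (.s13 (.tw (.s12 (.c 0 (.b 63) (.b 381))))) (.s13 (.tw (.c 0 (.b 63)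 (.b 44)))))))))))))))),
  (.tw (.c 0 (.tw (.c 0 (.b 416) (.s13 (.tw (.s12 (.s13 (.c 0 (.b 63) (.b 159)))))))) (.s13 (.tw (.c 0 (.s13 (.tw (.c 0 (.b 14) (.tw (.s12 (.s13 (.tw (.c 0 (.b 136) (.b 536))))))))) (.tw (.s12 (.s13 (.tw (.c 0 (.s13 (.tw (.s12 (.c 0 (.b 136) (.b 405))))) (.s13 (.tw (.c 0 (.s13 (.tw (.c 0 (.b 44) (.b 1)))) (.s13 (.tw (.c 0 (.b 5) (.b 124))))))))))))))))),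
  (.tw (.c 0 (.tw (.c 0 (.b 13) (.s13 (.tw (.s12 (.s13 (.c 0 (.b 13) (.c 0 (.b 14) (.s13 (.tw (.s12 (.s13 (.c 0 (.b 381) (.b 381)))))))))))))) (.s13 (.tw (.c 0 (.s13 (.tw (.c 0 (.b 136) (.s13 (.tw (.s12 (.s13 (.c 0 (.b 13) (.b 139))))))))) (.tw (.s13 (.tw (.c 0 (.s13 (.tw (.c 0 (.b 5) (.s13 (.tw (.c 0 (.b 5) (.b 26))))))) (.s13 (.tw (.c 0 (.b 249) (.b 44))))))))))))),
  (.tw (.c 0 (.s12 (.s13 (.tw (.s12 (.c 0 (.b 416) (.c 0 (.b 478) (.b 29))))))) (.s13 (.tw (.s12 (.c 0 (.s13 (.tw (.c 0 (.b 14) (.s13 (.tw (.s12 (.s13 (.c 0 (.b 14) (.c 0 (.b 136) (.b 136)))))))))) (.s12 (.s13 (.tw (.c 0 (.s13 (.tw (.c 0 (.b 63) (.c 0 (.b 136) (.b 136))))) (.tw (.s13 (.s12 (.c 0 (.s13 (.tw (.s12 (.c 0 (.b 63) (.b 381))))) (.s13 (.tw (.s12 (.c 0 (.b 44) (.b 12))))))))))))))))))),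
  (.tw (.c 0 (.tw (.c 0 (.b 416) (.s13 (.tw (.s12 (.s13 (.c 0 (.b 63) (.b 159)))))))) (.s13 (.tw (.c 0 (.s12 (.s13 (.tw (.c 0 (.s13 (.tw (.s12 (.s13 (.c 0 (.b 14) (.c 0 (.b 136) (.b 136))))))) (.b 16))))) (.s12 (.s13 (.c 0 (.s12 (.s13 (.tw (.s12 (.c 0 (.b 304) (.s13 (.tw (.s12 (.s13 (.c 0 (.b 136) (.b 44))))))))))) (.s13 (.tw (.s13 (.c 0 (.b 70) (.b 45))))))))))))),
  (.tw (.c 0 (.tw (.c 0 (.b 13) (.s13 (.tw (.s12 (.s13 (.c 0 (.b 13) (.c 0 (.b 14) (.s13 (.tw (.s12 (.s13 (.c 0 (.b 381) (.b 381)))))))))))))) (.s13 (.tw (.c 0 (.s13 (.tw (.s12 (.c 0 (.b 13) (.s13 (.tw (.s12 (.s13 (.c 0 (.b 13) (.b 337)))))))))) (.tw (.s13 (.tw (.c 0 (.tw (.s12 (.s13 (.tw (.c 0 (.b 67) (.s13 (.tw (.s13 (.c 0 (.b 14) (.b 44)))))))))) (.s13 (.tw (.c 0 (.b 143) (.s13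 (.tw (.c 0 (.b 82) (.b 5)))))))))))))))),
  (.tw (.c 0 (.tw (.c 0 (.b 13) (.s13 (.tw (.s12 (.s13 (.c 0 (.b 13) (.c 0 (.b 14) (.s13 (.tw (.s12 (.s13 (.c 0 (.b 381) (.b 381)))))))))))))) (.s13 (.tw (.c 0 (.s13 (.tw (.c 0 (.b 136) (.s13 (.tw (.s12 (.s13 (.c 0 (.b 13) (.b 139))))))))) (.tw (.s13 (.tw (.c 0 (.s13 (.tw (.c 0 (.b 5) (.s13 (.tw (.c 0 (.b 5) (.b 465))))))) (.s13 (.tw (.c 0 (.b 136) (.b 44))))))))))))),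
  (.c 0 (.tw (.c 0 (.b 13) (.s13 (.tw (.s12 (.s13 (.c 0 (.b 284) (.c 0 (.b 136) (.b 29))))))))) (.s13 (.tw (.c 0 (.s13 (.tw (.c 0 (.b 136) (.s13 (.tw (.s12 (.s13 (.c 0 (.b 63) (.b 207))))))))) (.tw (.s13 (.tw (.c 0 (.s13 (.tw (.c 0 (.b 136) (.b 44)))) (.tw (.s13 (.tw (.c 0 (.s13 (.tw (.s12 (.c 0 (.b 63) (.b 381))))) (.s13 (.tw (.c 0 (.b 63) (.b 44)))))))))))))))),
  (.tw (.c 0 (.tw (.c 0 (.b 416) (.s13 (.tw (.s12 (.s13 (.c 0 (.b 63) (.b 159)))))))) (.tw (.s13 (.s12 (.c 0 (.tw (.s13 (.s12 (.c 0 (.s13 (.tw (.s12 (.c 0 (.b 247) (.b 152))))) (.s13 (.tw (.c 0 (.b 63) (.b 44)))))))) (.tw (.s13 (.s12 (.c 0 (.b 80) (.s13 (.tw (.s13 (.c 0 (.b 663) (.b 44))))))))))))))),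
  (.c 0 (.tw (.c 0 (.b 13) (.s13 (.tw (.s12 (.s13 (.c 0 (.b 13) (.c 0 (.b 14) (.s13 (.tw (.s12 (.s13 (.c 0 (.b 381) (.b 381)))))))))))))) (.s13 (.tw (.c 0 (.s13 (.tw (.c 0 (.b 58) (.s13 (.tw (.s12 (.s13 (.c 0 (.b 14) (.c 0 (.b 136) (.b 136)))))))))) (.tw (.s13 (.tw (.c 0 (.s13 (.tw (.c 0 (.b 5) (.s13 (.tw (.c 0 (.b 19) (.b 272))))))) (.s13 (.tw (.c 0 (.b 136) (.b 44)))))))))))),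
  (.c 0 (.tw (.c 0 (.b 13) (.s13 (.tw (.s12 (.s13 (.c 0 (.b 13) (.c 0 (.b 14) (.s13 (.tw (.s12 (.s13 (.c 0 (.b 381) (.b 381)))))))))))))) (.s13 (.tw (.c 0 (.s13 (.tw (.c 0 (.b 58) (.s13 (.tw (.s12 (.s13 (.c 0 (.b 14) (.c 0 (.b 136) (.b 136)))))))))) (.tw (.s13 (.tw (.c 0 (.s13 (.tw (.c 0 (.b 136) (.b 351)))) (.s13 (.tw (.c 0 (.b 5) (.s13 (.tw (.c 0 (.b 384) (.b 5))))))))))))))),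
  (.c 0 (.tw (.c 0 (.b 14) (.s13 (.tw (.s12 (.s13 (.c 0 (.b 13) (.s13 (.tw (.s12 (.s13 (.c 0 (.b 136) (.s13 (.tw (.s12 (.s13 (.c 0 (.b 63) (.b 369)))))))))))))))))) (.s13 (.tw (.c 0 (.s12 (.s13 (.tw (.c 0 (.b 284) (.b 147))))) (.s12 (.s13 (.tw (.c 0 (.s13 (.tw (.s12 (.c 0 (.b 356) (.s13 (.tw (.c 0 (.b 5) (.b 5)))))))) (.s13 (.tw (.c 0 (.b 63) (.c 0 (.b 136) (.b 136))))))))))))),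
  (.c 0 (.tw (.c 0 (.b 14) (.s13 (.tw (.s12 (.s13 (.c 0 (.b 13) (.s13 (.tw (.s12 (.s13 (.c 0 (.b 136) (.s13 (.tw (.s12 (.s13 (.c 0 (.b 63) (.b 369)))))))))))))))))) (.s13 (.tw (.c 0 (.s13 (.tw (.c 0 (.b 13) (.s13 (.tw (.s12 (.s13 (.c 0 (.b 13) (.b 138))))))))) (.s12 (.s13 (.c 0 (.s12 (.s13 (.tw (.s12 (.c 0 (.b 304) (.s13 (.tw (.s12 (.s13 (.c 0 (.b 136) (.b 44))))))))))) (.tw (.c 0 (.b 136) (.s13 (.tw (.s12 (.s13 (.c 0 (.b 63) (.b 44))))))))))))))),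
  (.tw (.c 0 (.s12 (.s13 (.tw (.s12 (.c 0 (.b 416) (.c 0 (.b 478) (.b 29))))))) (.s13 (.tw (.s12 (.c 0 (.s13 (.tw (.c 0 (.b 14) (.s13 (.tw (.s12 (.s13 (.c 0 (.b 14) (.c 0 (.b 136) (.b 136)))))))))) (.s12 (.s13 (.c 0 (.s12 (.s13 (.tw (.s12 (.c 0 (.b 136) (.s13 (.tw (.s12 (.s13 (.c 0 (.b 136) (.b 44))))))))))) (.s13 (.tw (.s13 (.c 0 (.b 70) (.b 45)))))))))))))),
  (.tw (.c 0 (.tw (.c 0 (.b 416) (.s13 (.tw (.s12 (.s13 (.c 0 (.b 63) (.b 159)))))))) (.s13 (.tw (.c 0 (.s13 (.tw (.c 0 (.b 273) (.s13 (.tw (.s12 (.s13 (.c 0 (.b 136) (.b 180))))))))) (.s13 (.c 0 (.tw (.c 0 (.b 14) (.s13 (.tw (.s12 (.s13 (.c 0 (.b 14) (.c 0 (.b 136) (.b 136))))))))) (.s13 (.tw (.s13 (.c 0 (.b 70) (.b 45)))))))))))),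
  (.tw (.c 0 (.tw (.c 0 (.b 14) (.s13 (.tw (.s12 (.s13 (.c 0 (.b 13) (.s13 (.tw (.s12 (.s13 (.c 0 (.b 136) (.s13 (.tw (.s12 (.s13 (.c 0 (.b 63) (.b 369)))))))))))))))))) (.s13 (.tw (.c 0 (.s12 (.s13 (.tw (.c 0 (.b 13) (.b 581))))) (.tw (.s12 (.s13 (.tw (.c 0 (.s13 (.tw (.c 0 (.b 558) (.b 304)))) (.s13 (.tw (.c 0 (.b 143) (.s13 (.tw (.c 0 (.b 5) (.b 5))))))))))))))))),
  (.tw (.c 0 (.tw (.c 0 (.b 14) (.s13 (.tw (.s12 (.s13 (.c 0 (.b 13) (.s13 (.tw (.s12 (.s13 (.c 0 (.b 136) (.s13 (.tw (.s12 (.s13 (.c 0 (.b 63) (.b 369)))))))))))))))))) (.s13 (.tw (.c 0 (.s12 (.s13 (.tw (.c 0 (.b 13) (.b 581))))) (.s12 (.s13 (.tw (.c 0 (.s13 (.tw (.s12 (.c 0 (.s13 (.tw (.c 0 (.b 63) (.b 381)))) (.s13 (.tw (.c 0 (.b 5) (.b 5)))))))) (.s13 (.tw (.c 0 (.b 136) (.b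 536))))))))))))),
  (.tw (.c 0 (.tw (.c 0 (.b 14) (.s13 (.tw (.s12 (.s13 (.c 0 (.b 14) (.c 0 (.b 304) (.s13 (.tw (.s12 (.s13 (.c 0 (.b 63) (.b 369)))))))))))))) (.s13 (.tw (.c 0 (.s12 (.s13 (.tw (.c 0 (.b 136) (.s13 (.tw (.s13 (.c 0 (.b 14) (.b 405))))))))) (.tw (.s12 (.s13 (.tw (.c 0 (.s13 (.tw (.c 0 (.b 5) (.s13 (.tw (.c 0 (.b 63) (.b 200))))))) (.s13 (.tw (.c 0 (.b 136) (.b 44)))))))))))))),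
  (.c 0 (.tw (.c 0 (.b 13) (.s13 (.tw (.s12 (.s13 (.c 0 (.b 284) (.c 0 (.b 136) (.b 29))))))))) (.s13 (.tw (.c 0 (.s13 (.tw (.c 0 (.b 14) (.s13 (.tw (.s12 (.s13 (.c 0 (.b 136) (.s13 (.tw (.s12 (.s13 (.c 0 (.b 24) (.b 136)))))))))))))) (.tw (.s12 (.s13 (.tw (.c 0 (.tw (.s12 (.c 0 (.b 136) (.b 462)))) (.s13 (.tw (.c 0 (.b 5) (.c 0 (.b 5) (.b 26)))))))))))))),
  (.c 0 (.tw (.c 0 (.b 13) (.s13 (.tw (.s12 (.s13 (.c 0 (.b 284) (.c 0 (.b 136) (.b 29))))))))) (.s13 (.tw (.c 0 (.s13 (.tw (.c 0 (.b 462) (.tw (.s12 (.s13 (.tw (.c 0 (.b 381) (.b 381))))))))) (.tw (.s13 (.tw (.c 0 (.s13 (.tw (.c 0 (.b 136) (.b 351)))) (.s13 (.tw (.c 0 (.b 5) (.s13 (.tw (.c 0 (.b 384) (.b 5)))))))))))))))]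

theorem good1 : ∀ l ∈ box1, G (l, H, H) := by
  intro l hl
  have h := G_chkTbl tbl_good (ts := box1.map fun l => (l, H, H)) (ds := dv1) (by decide +kernel)
  exact h _ (List.mem_map.mpr ⟨l, hl, rfl⟩)

def box2 : List (List ℕ) := [
  [9,8,7,7,7,7,5,1,1],
  [9,8,7,7,7,7,5,2],
  [9,8,7,7,7,7,6,1],
  [9,8,7,7,7,7,7],
  [9,8,8,5,5,5,4,4,4],
  [9,8,8,5,5,5,5,4,3],
  [9,8,8,5,5,5,5,5,1,1],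
  [9,8,8,5,5,5,5,5,2],
  [9,8,8,6,5,4,4,4,4],
  [9,8,8,6,5,5,4,4,3],
  [9,8,8,6,5,5,5,3,3],
  [9,8,8,6,5,5,5,4,1,1],
  [9,8,8,6,5,5,5,4,2],
  [9,8,8,6,5,5,5,5,1],
  [9,8,8,6,6,4,4,4,3],
  [9,8,8,6,6,5,4,3,3],
  [9,8,8,6,6,5,4,4,1,1],
  [9,8,8,6,6,5,4,4,2],
  [9,8,8,6,6,5,5,3,1,1],
  [9,8,8,6,6,5,5,3,2],
  [9,8,8,6,6,5,5,4,1],
  [9,8,8,6,6,5,5,5],
  [9,8,8,6,6,6,3,3,3],
  [9,8,8,6,6,6,4,3,1,1],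
  [9,8,8,6,6,6,4,3,2],
  [9,8,8,6,6,6,4,4,1],
  [9,8,8,6,6,6,5,1,1,1,1],
  [9,8,8,6,6,6,5,2,1,1],
  [9,8,8,6,6,6,5,2,2],
  [9,8,8,6,6,6,5,3,1],
  [9,8,8,6,6,6,5,4],
  [9,8,8,6,6,6,6,1,1,1],
  [9,8,8,6,6,6,6,2,1],
  [9,8,8,6,6,6,6,3],
  [9,8,8,7,4,4,4,4,4],
  [9,8,8,7,5,4,4,4,3],
  [9,8,8,7,5,5,4,3,3],
  [9,8,8,7,5,5,4,4,1,1],
  [9,8,8,7,5,5,4,4,2],
  [9,8,8,7,5,5,5,3,1,1],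
  [9,8,8,7,5,5,5,3,2],
  [9,8,8,7,5,5,5,4,1],
  [9,8,8,7,5,5,5,5],
  [9,8,8,7,6,4,4,3,3],
  [9,8,8,7,6,4,4,4,1,1],
  [9,8,8,7,6,4,4,4,2],
  [9,8,8,7,6,5,3,3,3],
  [9,8,8,7,6,5,4,3,1,1],
  [9,8,8,7,6,5,4,3,2],
  [9,8,8,7,6,5,4,4,1],
  [9,8,8,7,6,5,5,1,1,1,1],
  [9,8,8,7,6,5,5,2,1,1],
  [9,8,8,7,6,5,5,2,2],
  [9,8,8,7,6,5,5,3,1],
  [9,8,8,7,6,5,5,4],
  [9,8,8,7,6,6,3,3,1,1],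
  [9,8,8,7,6,6,3,3,2],
  [9,8,8,7,6,6,4,1,1,1,1],
  [9,8,8,7,6,6,4,2,1,1],
  [9,8,8,7,6,6,4,2,2],
  [9,8,8,7,6,6,4,3,1],
  [9,8,8,7,6,6,4,4],
  [9,8,8,7,6,6,5,1,1,1],
  [9,8,8,7,6,6,5,2,1],
  [9,8,8,7,6,6,5,3],
  [9,8,8,7,6,6,6,1,1],
  [9,8,8,7,6,6,6,2],
  [9,8,8,7,7,4,3,3,3],
  [9,8,8,7,7,4,4,3,1,1],
  [9,8,8,7,7,4,4,3,2],
  [9,8,8,7,7,4,4,4,1],
  [9,8,8,7,7,5,3,3,1,1],
  [9,8,8,7,7,5,3,3,2],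
  [9,8,8,7,7,5,4,1,1,1,1],
  [9,8,8,7,7,5,4,2,1,1],
  [9,8,8,7,7,5,4,2,2],
  [9,8,8,7,7,5,4,3,1],
  [9,8,8,7,7,5,4,4],
  [9,8,8,7,7,5,5,1,1,1],
  [9,8,8,7,7,5,5,2,1],
  [9,8,8,7,7,5,5,3],
  [9,8,8,7,7,6,3,1,1,1,1],
  [9,8,8,7,7,6,3,2,1,1],
  [9,8,8,7,7,6,3,2,2],
  [9,8,8,7,7,6,3,3,1],
  [9,8,8,7,7,6,4,1,1,1],
  [9,8,8,7,7,6,4,2,1],
  [9,8,8,7,7,6,4,3],
  [9,8,8,7,7,6,5,1,1],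
  [9,8,8,7,7,6,5,2],
  [9,8,8,7,7,6,6,1],
  [9,8,8,7,7,7,1,1,1,1,1,1],
  [9,8,8,7,7,7,2,1,1,1,1],
  [9,8,8,7,7,7,2,2,1,1],
  [9,8,8,7,7,7,2,2,2],
  [9,8,8,7,7,7,3,1,1,1],
  [9,8,8,7,7,7,3,2,1],
  [9,8,8,7,7,7,3,3],
  [9,8,8,7,7,7,4,1,1],
  [9,8,8,7,7,7,4,2],
  [9,8,8,7,7,7,5,1],
  [9,8,8,7,7,7,6],
  [9,8,8,8,4,4,4,4,3],
  [9,8,8,8,5,4,4,3,3],
  [9,8,8,8,5,4,4,4,1,1],
  [9,8,8,8,5,4,4,4,2],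
  [9,8,8,8,5,5,3,3,3],
  [9,8,8,8,5,5,4,3,1,1],
  [9,8,8,8,5,5,4,3,2],
  [9,8,8,8,5,5,4,4,1],
  [9,8,8,8,5,5,5,1,1,1,1],
  [9,8,8,8,5,5,5,2,1,1],
  [9,8,8,8,5,5,5,2,2],
  [9,8,8,8,5,5,5,3,1],
  [9,8,8,8,5,5,5,4],
  [9,8,8,8,6,4,3,3,3],
  [9,8,8,8,6,4,4,3,1,1],
  [9,8,8,8,6,4,4,3,2],
  [9,8,8,8,6,4,4,4,1],
  [9,8,8,8,6,5,3,3,1,1],
  [9,8,8,8,6,5,3,3,2],
  [9,8,8,8,6,5,4,1,1,1,1],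
  [9,8,8,8,6,5,4,2,1,1],
  [9,8,8,8,6,5,4,2,2],
  [9,8,8,8,6,5,4,3,1],
  [9,8,8,8,6,5,4,4],
  [9,8,8,8,6,5,5,1,1,1],
  [9,8,8,8,6,5,5,2,1],
  [9,8,8,8,6,5,5,3],
  [9,8,8,8,6,6,3,1,1,1,1],
  [9,8,8,8,6,6,3,2,1,1],
  [9,8,8,8,6,6,3,2,2],
  [9,8,8,8,6,6,3,3,1],
  [9,8,8,8,6,6,4,1,1,1],
  [9,8,8,8,6,6,4,2,1],
  [9,8,8,8,6,6,4,3],
  [9,8,8,8,6,6,5,1,1],
  [9,8,8,8,6,6,5,2],
  [9,8,8,8,6,6,6,1],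
  [9,8,8,8,7,3,3,3,3],
  [9,8,8,8,7,4,3,3,1,1],
  [9,8,8,8,7,4,3,3,2],
  [9,8,8,8,7,4,4,1,1,1,1],
  [9,8,8,8,7,4,4,2,1,1],
  [9,8,8,8,7,4,4,2,2],
  [9,8,8,8,7,4,4,3,1],
  [9,8,8,8,7,4,4,4],
  [9,8,8,8,7,5,3,1,1,1,1],
  [9,8,8,8,7,5,3,2,1,1],
  [9,8,8,8,7,5,3,2,2],
  [9,8,8,8,7,5,3,3,1],
  [9,8,8,8,7,5,4,1,1,1],
  [9,8,8,8,7,5,4,2,1],
  [9,8,8,8,7,5,4,3],
  [9,8,8,8,7,5,5,1,1],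
  [9,8,8,8,7,5,5,2],
  [9,8,8,8,7,6,1,1,1,1,1,1],
  [9,8,8,8,7,6,2,1,1,1,1],
  [9,8,8,8,7,6,2,2,1,1],
  [9,8,8,8,7,6,2,2,2],
  [9,8,8,8,7,6,3,1,1,1],
  [9,8,8,8,7,6,3,2,1],
  [9,8,8,8,7,6,3,3],
  [9,8,8,8,7,6,4,1,1],
  [9,8,8,8,7,6,4,2],
  [9,8,8,8,7,6,5,1],
  [9,8,8,8,7,6,6],
  [9,8,8,8,7,7,1,1,1,1,1],
  [9,8,8,8,7,7,2,1,1,1],
  [9,8,8,8,7,7,2,2,1],
  [9,8,8,8,7,7,3,1,1],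
  [9,8,8,8,7,7,3,2],
  [9,8,8,8,7,7,4,1],
  [9,8,8,8,7,7,5],
  [9,8,8,8,8,3,3,3,1,1],
  [9,8,8,8,8,3,3,3,2],
  [9,8,8,8,8,4,3,1,1,1,1],
  [9,8,8,8,8,4,3,2,1,1],
  [9,8,8,8,8,4,3,2,2],
  [9,8,8,8,8,4,3,3,1],
  [9,8,8,8,8,4,4,1,1,1],
  [9,8,8,8,8,4,4,2,1],
  [9,8,8,8,8,4,4,3],
  [9,8,8,8,8,5,1,1,1,1,1,1],
  [9,8,8,8,8,5,2,1,1,1,1],
  [9,8,8,8,8,5,2,2,1,1],
  [9,8,8,8,8,5,2,2,2],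
  [9,8,8,8,8,5,3,1,1,1],
  [9,8,8,8,8,5,3,2,1],
  [9,8,8,8,8,5,3,3],
  [9,8,8,8,8,5,4,1,1],
  [9,8,8,8,8,5,4,2],
  [9,8,8,8,8,5,5,1],
  [9,8,8,8,8,6,1,1,1,1,1],
  [9,8,8,8,8,6,2,1,1,1],
  [9,8,8,8,8,6,2,2,1],
  [9,8,8,8,8,6,3,1,1],
  [9,8,8,8,8,6,3,2],
  [9,8,8,8,8,6,4,1],
  [9,8,8,8,8,6,5],
  [9,8,8,8,8,7,1,1,1,1],
  [9,8,8,8,8,7,2,1,1],
  [9,8,8,8,8,7,2,2],
  [9,8,8,8,8,7,3,1],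
  [9,8,8,8,8,7,4],
  [9,8,8,8,8,8,1,1,1],
  [9,8,8,8,8,8,2,1],
  [9,8,8,8,8,8,3],
  [9,9,5,5,5,5,5,5,4],
  [9,9,6,5,5,5,5,4,4],
  [9,9,6,5,5,5,5,5,3],
  [9,9,6,6,5,5,4,4,4],
  [9,9,6,6,5,5,5,4,3],
  [9,9,6,6,5,5,5,5,1,1],
  [9,9,6,6,5,5,5,5,2],
  [9,9,6,6,6,4,4,4,4],
  [9,9,6,6,6,5,4,4,3],
  [9,9,6,6,6,5,5,3,3],
  [9,9,6,6,6,5,5,4,1,1],
  [9,9,6,6,6,5,5,4,2],
  [9,9,6,6,6,5,5,5,1],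
  [9,9,6,6,6,6,4,3,3],
  [9,9,6,6,6,6,4,4,1,1],
  [9,9,6,6,6,6,4,4,2],
  [9,9,6,6,6,6,5,3,1,1],
  [9,9,6,6,6,6,5,3,2],
  [9,9,6,6,6,6,5,4,1],
  [9,9,6,6,6,6,5,5],
  [9,9,6,6,6,6,6,1,1,1,1],
  [9,9,6,6,6,6,6,2,1,1],
  [9,9,6,6,6,6,6,2,2],
  [9,9,6,6,6,6,6,3,1],
  [9,9,6,6,6,6,6,4],
  [9,9,7,5,5,5,4,4,4],
  [9,9,7,5,5,5,5,4,3],
  [9,9,7,5,5,5,5,5,1,1],
  [9,9,7,5,5,5,5,5,2],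
  [9,9,7,6,5,4,4,4,4],
  [9,9,7,6,5,5,4,4,3],
  [9,9,7,6,5,5,5,3,3],
  [9,9,7,6,5,5,5,4,1,1],
  [9,9,7,6,5,5,5,4,2],
  [9,9,7,6,5,5,5,5,1],
  [9,9,7,6,6,4,4,4,3],
  [9,9,7,6,6,5,4,3,3],
  [9,9,7,6,6,5,4,4,1,1],
  [9,9,7,6,6,5,4,4,2],
  [9,9,7,6,6,5,5,3,1,1],
  [9,9,7,6,6,5,5,3,2],
  [9,9,7,6,6,5,5,4,1],
  [9,9,7,6,6,5,5,5],
  [9,9,7,6,6,6,3,3,3],
  [9,9,7,6,6,6,4,3,1,1],
  [9,9,7,6,6,6,4,3,2],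
  [9,9,7,6,6,6,4,4,1],
  [9,9,7,6,6,6,5,1,1,1,1],
  [9,9,7,6,6,6,5,2,1,1],
  [9,9,7,6,6,6,5,2,2],
  [9,9,7,6,6,6,5,3,1],
  [9,9,7,6,6,6,5,4],
  [9,9,7,6,6,6,6,1,1,1],
  [9,9,7,6,6,6,6,2,1],
  [9,9,7,6,6,6,6,3],
  [9,9,7,7,4,4,4,4,4],
  [9,9,7,7,5,4,4,4,3],
  [9,9,7,7,5,5,4,3,3],
  [9,9,7,7,5,5,4,4,1,1],
  [9,9,7,7,5,5,4,4,2],
  [9,9,7,7,5,5,5,3,1,1],
  [9,9,7,7,5,5,5,3,2],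
  [9,9,7,7,5,5,5,4,1],
  [9,9,7,7,5,5,5,5],
  [9,9,7,7,6,4,4,3,3],
  [9,9,7,7,6,4,4,4,1,1],
  [9,9,7,7,6,4,4,4,2],
  [9,9,7,7,6,5,3,3,3],
  [9,9,7,7,6,5,4,3,1,1],
  [9,9,7,7,6,5,4,3,2],
  [9,9,7,7,6,5,4,4,1],
  [9,9,7,7,6,5,5,1,1,1,1],
  [9,9,7,7,6,5,5,2,1,1],
  [9,9,7,7,6,5,5,2,2],
  [9,9,7,7,6,5,5,3,1],
  [9,9,7,7,6,5,5,4],
  [9,9,7,7,6,6,3,3,1,1],
  [9,9,7,7,6,6,3,3,2],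
  [9,9,7,7,6,6,4,1,1,1,1],
  [9,9,7,7,6,6,4,2,1,1],
  [9,9,7,7,6,6,4,2,2],
  [9,9,7,7,6,6,4,3,1],
  [9,9,7,7,6,6,4,4],
  [9,9,7,7,6,6,5,1,1,1],
  [9,9,7,7,6,6,5,2,1],
  [9,9,7,7,6,6,5,3],
  [9,9,7,7,6,6,6,1,1],
  [9,9,7,7,6,6,6,2],
  [9,9,7,7,7,4,3,3,3],
  [9,9,7,7,7,4,4,3,1,1],
  [9,9,7,7,7,4,4,3,2],
  [9,9,7,7,7,4,4,4,1]]

def dv2 : List Dv := [
  (.c 0 (.s12 (.s13 (.tw (.s12 (.c 0 (.b 14) (.s13 (.tw (.s12 (.s13 (.c 0 (.b 304) (.s13 (.tw (.s12 (.s13 (.c 0 (.b 13) (.b 546)))))))))))))))) (.s13 (.tw (.s12 (.c 0 (.s12 (.s13 (.tw (.c 0 (.b 284) (.b 147))))) (.tw (.s12 (.s13 (.tw (.c 0 (.s13 (.tw (.c 0 (.b 136) (.b 236)))) (.s13 (.tw (.c 0 (.tw (.c 0 (.b 136) (.b 136))) (.s13 (.tw (.c 0 (.b 5) (.b 5))))))))))))))))),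
  (.c 0 (.s12 (.s13 (.tw (.s12 (.c 0 (.b 14) (.s13 (.tw (.s12 (.s13 (.c 0 (.b 304) (.s13 (.tw (.s12 (.s13 (.c 0 (.b 13) (.b 546)))))))))))))))) (.s13 (.tw (.s12 (.c 0 (.tw (.s13 (.tw (.c 0 (.b 67) (.s13 (.tw (.s13 (.c 0 (.b 164) (.b 44))))))))) (.tw (.s12 (.s13 (.tw (.c 0 (.tw (.s13 (.s12 (.c 0 (.b 73) (.s13 (.tw (.s12 (.c 0 (.b 44) (.b 12))))))))) (.s13 (.tw (.c 0 (.b 381) (.b 44)))))))))))))),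
  (.c 0 (.tw (.c 0 (.b 14) (.s13 (.tw (.s12 (.s13 (.c 0 (.b 13) (.s13 (.tw (.s12 (.s13 (.c 0 (.b 136) (.s13 (.tw (.s12 (.s13 (.c 0 (.b 63) (.b 369)))))))))))))))))) (.s13 (.tw (.c 0 (.tw (.s13 (.tw (.c 0 (.b 67) (.s13 (.tw (.s13 (.c 0 (.b 164) (.b 44))))))))) (.s12 (.s13 (.tw (.c 0 (.s13 (.tw (.c 0 (.b 5) (.s13 (.tw (.s12 (.s13 (.c 0 (.b 63) (.b 24))))))))) (.s13 (.tw (.s12 (.c 0 (.b 124) (.b 44))))))))))))),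
  (.c 0 (.tw (.c 0 (.b 14) (.s13 (.tw (.s12 (.s13 (.c 0 (.b 14) (.c 0 (.b 304) (.tw (.s12 (.s13 (.tw (.c 0 (.b 63) (.b 381)))))))))))))) (.s13 (.tw (.c 0 (.tw (.s12 (.s13 (.tw (.c 0 (.b 67) (.s13 (.tw (.s13 (.c 0 (.b 164) (.b 44)))))))))) (.tw (.s13 (.tw (.c 0 (.s13 (.tw (.c 0 (.b 63) (.b 44)))) (.s13 (.tw (.c 0 (.b 5) (.s13 (.tw (.s13 (.c 0 (.b 82) (.b 12)))))))))))))))),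
  (.tw (.c 0 (.tw (.c 0 (.b 348) (.s13 (.tw (.s12 (.s13 (.c 0 (.b 13) (.c 0 (.b 63) (.b 159))))))))) (.s13 (.tw (.c 0 (.s12 (.s13 (.tw (.c 0 (.b 136) (.s13 (.tw (.s12 (.s13 (.c 0 (.b 284) (.b 147)))))))))) (.tw (.s12 (.s13 (.tw (.c 0 (.s13 (.tw (.c 0 (.b 136) (.b 44)))) (.tw (.s12 (.s13 (.tw (.c 0 (.s12 (.s13 (.tw (.c 0 (.b 63) (.b 24))))) (.s13 (.tw (.s12 (.c 0 (.b 5) (.b 124)))))))))))))))))))),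
  (.tw (.c 0 (.tw (.c 0 (.b 348) (.s13 (.tw (.s12 (.s13 (.c 0 (.b 13) (.c 0 (.b 63) (.b 159))))))))) (.s13 (.tw (.c 0 (.s12 (.s13 (.tw (.c 0 (.b 136) (.s13 (.tw (.s12 (.s13 (.c 0 (.b 284) (.b 147)))))))))) (.tw (.s12 (.s13 (.tw (.c 0 (.s13 (.tw (.c 0 (.b 136) (.b 44)))) (.tw (.s12 (.s13 (.tw (.c 0 (.s12 (.s13 (.tw (.c 0 (.b 44) (.b 1))))) (.s13 (.tw (.s12 (.c 0 (.b 5) (.b 124)))))))))))))))))))),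
  (.tw (.c 0 (.tw (.c 0 (.b 284) (.s13 (.tw (.s12 (.s13 (.c 0 (.b 63) (.b 93)))))))) (.s13 (.c 0 (.tw (.c 0 (.s13 (.tw (.c 0 (.b 136) (.s13 (.tw (.s12 (.s13 (.c 0 (.b 13) (.b 138))))))))) (.tw (.s13 (.tw (.c 0 (.s13 (.tw (.c 0 (.b 136) (.b 44)))) (.s13 (.tw (.c 0 (.b 5) (.s13 (.tw (.c 0 (.b 82) (.b 5))))))))))))) (.b 1))))),
  (.tw (.c 0 (.tw (.c 0 (.b 348) (.s13 (.tw (.s12 (.s13 (.c 0 (.b 13) (.c 0 (.b 63) (.b 159))))))))) (.s13 (.tw (.c 0 (.s12 (.s13 (.tw (.c 0 (.b 136) (.s13 (.tw (.s12 (.s13 (.c 0 (.b 284) (.b 147)))))))))) (.tw (.s12 (.s13 (.tw (.c 0 (.s13 (.tw (.c 0 (.b 136) (.b 44)))) (.s13 (.tw (.c 0 (.tw (.c 0 (.b 63) (.b 136))) (.s13 (.tw (.c 0 (.b 384) (.b 5))))))))))))))))),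
  (.tw (.c 0 (.tw (.c 0 (.b 348) (.s13 (.tw (.s12 (.s13 (.c 0 (.b 13) (.c 0 (.b 63) (.b 159))))))))) (.s13 (.tw (.c 0 (.s12 (.s13 (.tw (.s12 (.c 0 (.b 136) (.b 147)))))) (.tw (.s12 (.s13 (.tw (.c 0 (.s13 (.tw (.c 0 (.tw (.c 0 (.b 63) (.b 136))) (.s13 (.tw (.c 0 (.b 5) (.b 5))))))) (.tw (.s12 (.s13 (.tw (.c 0 (.b 99) (.b 247)))))))))))))))),
  (.tw (.c 0 (.tw (.c 0 (.b 348) (.s13 (.tw (.s12 (.s13 (.c 0 (.b 13) (.c 0 (.b 63) (.b 159))))))))) (.s13 (.tw (.c 0 (.s12 (.s13 (.tw (.c 0 (.b 13) (.s13 (.tw (.s12 (.s13 (.c 0 (.b 13) (.b 546)))))))))) (.tw (.s12 (.s13 (.tw (.c 0 (.s13 (.tw (.c 0 (.tw (.c 0 (.b 63) (.b 136))) (.s13 (.tw (.c 0 (.b 5) (.b 5))))))) (.s13 (.tw (.c 0 (.b 200) (.b 44)))))))))))))),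
  (.tw (.c 0 (.tw (.c 0 (.b 348) (.s13 (.tw (.s12 (.s13 (.c 0 (.b 13) (.c 0 (.b 63) (.b 159))))))))) (.s13 (.tw (.c 0 (.s12 (.s13 (.tw (.c 0 (.b 136) (.s13 (.tw (.s12 (.s13 (.c 0 (.b 13) (.b 546)))))))))) (.tw (.s12 (.s13 (.tw (.c 0 (.s13 (.tw (.c 0 (.b 136) (.b 44)))) (.tw (.s12 (.s13 (.tw (.c 0 (.s12 (.s13 (.tw (.c 0 (.b 63) (.b 24))))) (.s13 (.tw (.c 0 (.b 176) (.b 5))))))))))))))))))),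
  (.tw (.c 0 (.tw (.c 0 (.b 284) (.s13 (.tw (.s12 (.s13 (.c 0 (.b 63) (.b 93)))))))) (.s13 (.c 0 (.tw (.c 0 (.s12 (.s13 (.tw (.s12 (.c 0 (.b 136) (.b 29)))))) (.tw (.s12 (.s13 (.tw (.c 0 (.tw (.s12 (.s13 (.tw (.c 0 (.b 67) (.s13 (.tw (.s13 (.c 0 (.b 14) (.b 44)))))))))) (.s13 (.tw (.c 0 (.s13 (.tw (.c 0 (.b 44) (.b 1)))) (.s13 (.tw (.c 0 (.b 5) (.b 5)))))))))))))) (.b 1))))),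
  (.tw (.c 0 (.tw (.c 0 (.b 348) (.s13 (.tw (.s12 (.s13 (.c 0 (.b 13) (.c 0 (.b 63) (.b 159))))))))) (.s13 (.tw (.c 0 (.s12 (.s13 (.tw (.c 0 (.b 136) (.s13 (.tw (.s12 (.s13 (.c 0 (.b 13) (.b 546)))))))))) (.tw (.s12 (.s13 (.tw (.c 0 (.s13 (.tw (.c 0 (.b 136) (.b 44)))) (.tw (.s12 (.s13 (.tw (.c 0 (.s12 (.s13 (.tw (.c 0 (.b 44) (.b 1))))) (.s13 (.tw (.c 0 (.b 176) (.b 5))))))))))))))))))),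
  (.tw (.c 0 (.tw (.c 0 (.b 348) (.s13 (.tw (.s12 (.s13 (.c 0 (.b 13) (.c 0 (.b 63) (.b 159))))))))) (.s13 (.tw (.c 0 (.s12 (.s13 (.tw (.c 0 (.b 13) (.s13 (.tw (.s12 (.s13 (.c 0 (.b 136) (.b 581)))))))))) (.tw (.s12 (.s13 (.tw (.c 0 (.s13 (.tw (.c 0 (.b 136) (.b 44)))) (.s13 (.tw (.c 0 (.tw (.c 0 (.b 63) (.b 136))) (.s13 (.tw (.c 0 (.b 384) (.b 5))))))))))))))))),
  (.tw (.c 0 (.tw (.c 0 (.b 348) (.s13 (.tw (.s12 (.s13 (.c 0 (.b 13) (.c 0 (.b 63) (.b 159))))))))) (.s13 (.tw (.c 0 (.s12 (.s13 (.tw (.s12 (.c 0 (.b 136) (.b 147)))))) (.s12 (.s13 (.tw (.c 0 (.s13 (.tw (.s12 (.c 0 (.s13 (.tw (.c 0 (.b 14) (.b 44)))) (.s13 (.tw (.c 0 (.b 5) (.b 5)))))))) (.s13 (.tw (.c 0 (.b 180) (.b 44))))))))))))),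
  (.tw (.c 0 (.tw (.c 0 (.b 348) (.s13 (.tw (.s12 (.s13 (.c 0 (.b 13) (.c 0 (.b 63) (.b 159))))))))) (.s13 (.tw (.c 0 (.s12 (.s13 (.tw (.s12 (.c 0 (.b 136) (.b 147)))))) (.tw (.s12 (.s13 (.tw (.c 0 (.s13 (.tw (.c 0 (.b 24) (.s13 (.tw (.s12 (.s13 (.c 0 (.b 14) (.b 44))))))))) (.s13 (.tw (.c 0 (.tw (.c 0 (.b 63) (.b 136))) (.s13 (.tw (.c 0 (.b 5) (.b 5))))))))))))))))),
  (.tw (.c 0 (.tw (.c 0 (.b 284) (.s13 (.tw (.s12 (.s13 (.c 0 (.b 63) (.b 93)))))))) (.s13 (.c 0 (.tw (.c 0 (.s13 (.tw (.c 0 (.b 13) (.b 236)))) (.tw (.s13 (.tw (.c 0 (.s13 (.tw (.c 0 (.b 136) (.s13 (.tw (.s12 (.s13 (.c 0 (.b 44) (.b 1))))))))) (.s13 (.tw (.c 0 (.s13 (.tw (.c 0 (.b 44) (.b 1)))) (.s13 (.tw (.c 0 (.b 5) (.b 5))))))))))))) (.b 1))))),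
  (.tw (.c 0 (.tw (.c 0 (.b 348) (.s13 (.tw (.s12 (.s13 (.c 0 (.b 13) (.c 0 (.b 63) (.b 159))))))))) (.s13 (.tw (.c 0 (.s12 (.s13 (.tw (.s12 (.c 0 (.b 136) (.b 147)))))) (.tw (.s12 (.s13 (.tw (.c 0 (.tw (.s12 (.s13 (.tw (.c 0 (.b 67) (.s13 (.tw (.s13 (.c 0 (.b 14) (.b 44)))))))))) (.tw (.s12 (.s13 (.tw (.c 0 (.s12 (.s13 (.tw (.c 0 (.b 44) (.b 1))))) (.s13 (.tw (.c 0 (.b 5) (.b 5))))))))))))))))))),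
  (.tw (.c 0 (.tw (.c 0 (.b 284) (.s13 (.tw (.s12 (.s13 (.c 0 (.b 63) (.b 93)))))))) (.s13 (.c 0 (.tw (.c 0 (.s13 (.tw (.c 0 (.b 57) (.s13 (.tw (.s12 (.s13 (.c 0 (.b 57) (.b 44))))))))) (.tw (.s13 (.tw (.c 0 (.s13 (.tw (.c 0 (.b 136) (.b 44)))) (.s13 (.tw (.c 0 (.b 5) (.s13 (.tw (.c 0 (.b 5) (.b 124))))))))))))) (.b 1))))),
  (.tw (.c 0 (.tw (.c 0 (.b 348) (.s13 (.tw (.s12 (.s13 (.c 0 (.b 13) (.c 0 (.b 63) (.b 159))))))))) (.s13 (.tw (.c 0 (.s12 (.s13 (.tw (.s12 (.c 0 (.b 136) (.b 147)))))) (.tw (.s12 (.s13 (.tw (.c 0 (.tw (.s12 (.s13 (.tw (.c 0 (.b 67) (.s13 (.tw (.s13 (.c 0 (.b 14) (.b 44)))))))))) (.tw (.s12 (.s13 (.tw (.c 0 (.s12 (.s13 (.tw (.c 0 (.b 57) (.b 136))))) (.s13 (.tw (.c 0 (.b 5) (.b 5))))))))))))))))))),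
  (.tw (.c 0 (.tw (.c 0 (.b 348) (.s13 (.tw (.s12 (.s13 (.c 0 (.b 13) (.c 0 (.b 63) (.b 159))))))))) (.s13 (.tw (.c 0 (.s12 (.s13 (.tw (.s12 (.c 0 (.b 136) (.b 147)))))) (.tw (.s12 (.s13 (.tw (.c 0 (.tw (.s12 (.s13 (.tw (.c 0 (.b 67) (.s13 (.tw (.s13 (.c 0 (.b 14) (.b 44)))))))))) (.s13 (.tw (.c 0 (.tw (.c 0 (.b 63) (.b 136))) (.s13 (.tw (.c 0 (.b 5) (.b 5))))))))))))))))),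
  (.c 0 (.tw (.c 0 (.b 13) (.s13 (.tw (.s12 (.s13 (.c 0 (.b 13) (.c 0 (.b 14) (.s13 (.tw (.s12 (.s13 (.c 0 (.b 381) (.b 381)))))))))))))) (.s13 (.tw (.c 0 (.s13 (.tw (.c 0 (.b 14) (.s13 (.tw (.s12 (.s13 (.c 0 (.b 136) (.b 351))))))))) (.tw (.s13 (.tw (.c 0 (.s13 (.tw (.c 0 (.b 136) (.s13 (.tw (.s12 (.s13 (.c 0 (.b 44) (.b 1))))))))) (.s13 (.tw (.c 0 (.b 73) (.s13 (.tw (.c 0 (.b 5) (.b 124))))))))))))))),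
  (.tw (.c 0 (.tw (.c 0 (.b 348) (.s13 (.tw (.s12 (.s13 (.c 0 (.b 13) (.c 0 (.b 63) (.b 159))))))))) (.s13 (.tw (.c 0 (.s12 (.s13 (.tw (.c 0 (.b 13) (.s13 (.tw (.s12 (.s13 (.c 0 (.b 136) (.b 598)))))))))) (.tw (.s12 (.s13 (.tw (.c 0 (.s13 (.tw (.c 0 (.b 136) (.b 44)))) (.tw (.s12 (.s13 (.tw (.c 0 (.s12 (.s13 (.tw (.c 0 (.b 63) (.b 24))))) (.s13 (.tw (.s12 (.c 0 (.b 5) (.b 124)))))))))))))))))))),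
  (.tw (.c 0 (.tw (.c 0 (.b 284) (.s13 (.tw (.s12 (.s13 (.c 0 (.b 63) (.b 93)))))))) (.s13 (.c 0 (.tw (.c 0 (.s13 (.tw (.c 0 (.b 136) (.s13 (.tw (.s12 (.s13 (.c 0 (.b 13) (.b 139))))))))) (.tw (.s13 (.tw (.c 0 (.s13 (.tw (.c 0 (.b 136) (.b 44)))) (.s13 (.tw (.c 0 (.b 5) (.s13 (.tw (.c 0 (.b 5) (.b 124))))))))))))) (.b 1))))),
  (.tw (.c 0 (.tw (.c 0 (.b 348) (.s13 (.tw (.s12 (.s13 (.c 0 (.b 13) (.c 0 (.b 63) (.b 159))))))))) (.s13 (.tw (.c 0 (.s12 (.s13 (.tw (.c 0 (.b 13) (.s13 (.tw (.s12 (.s13 (.c 0 (.b 13) (.b 546)))))))))) (.tw (.s12 (.s13 (.tw (.c 0 (.s13 (.tw (.c 0 (.b 136) (.s13 (.tw (.s12 (.s13 (.c 0 (.b 44) (.b 1))))))))) (.tw (.s12 (.s13 (.tw (.c 0 (.s12 (.s13 (.tw (.c 0 (.b 57) (.b 136))))) (.s13 (.tw (.c 0 (.b 5) (.b 5))))))))))))))))))),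
  (.tw (.c 0 (.tw (.c 0 (.b 348) (.s13 (.tw (.s12 (.s13 (.c 0 (.b 13) (.c 0 (.b 63) (.b 159))))))))) (.s13 (.tw (.c 0 (.s12 (.s13 (.tw (.c 0 (.b 13) (.s13 (.tw (.s12 (.s13 (.c 0 (.b 13) (.b 546)))))))))) (.tw (.s12 (.s13 (.tw (.c 0 (.s13 (.tw (.c 0 (.b 136) (.s13 (.tw (.s12 (.s13 (.c 0 (.b 44) (.b 1))))))))) (.s13 (.tw (.c 0 (.tw (.c 0 (.b 63) (.b 136))) (.s13 (.tw (.c 0 (.b 5) (.b 5))))))))))))))))),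
  (.tw (.c 0 (.tw (.c 0 (.b 13) (.s13 (.tw (.s12 (.s13 (.c 0 (.b 136) (.c 0 (.b 1) (.s13 (.tw (.s13 (.c 0 (.b 1) (.b 21))))))))))))) (.s13 (.tw (.c 0 (.s13 (.tw (.c 0 (.b 58) (.s13 (.tw (.s12 (.s13 (.c 0 (.b 14) (.c 0 (.b 136) (.b 136)))))))))) (.tw (.s13 (.tw (.c 0 (.s13 (.tw (.c 0 (.b 5) (.s13 (.tw (.c 0 (.b 124) (.b 200))))))) (.s13 (.tw (.c 0 (.b 136) (.b 44))))))))))))),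
  (.tw (.c 0 (.tw (.c 0 (.b 284) (.s13 (.tw (.s12 (.s13 (.c 0 (.b 63) (.b 93)))))))) (.s13 (.c 0 (.tw (.c 0 (.s13 (.tw (.c 0 (.b 58) (.s13 (.tw (.s12 (.s13 (.c 0 (.b 14) (.c 0 (.b 136) (.b 136)))))))))) (.tw (.s13 (.tw (.c 0 (.s13 (.tw (.c 0 (.b 136) (.b 351)))) (.s13 (.tw (.c 0 (.b 5) (.s13 (.tw (.c 0 (.b 384) (.b 5))))))))))))) (.b 1))))),
  (.tw (.c 0 (.tw (.c 0 (.b 348) (.s13 (.tw (.s12 (.s13 (.c 0 (.b 13) (.c 0 (.b 63) (.b 159))))))))) (.s13 (.tw (.c 0 (.s12 (.s13 (.tw (.c 0 (.b 13) (.s13 (.tw (.s12 (.s13 (.c 0 (.b 58) (.c 0 (.b 136) (.b 136))))))))))) (.tw (.s12 (.s13 (.tw (.c 0 (.s13 (.tw (.c 0 (.b 136) (.b 44)))) (.s13 (.tw (.c 0 (.s13 (.tw (.s12 (.c 0 (.b 334) (.b 73))))) (.b 5)))))))))))))),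
  (.tw (.c 0 (.tw (.c 0 (.b 348) (.s13 (.tw (.s12 (.s13 (.c 0 (.b 13) (.c 0 (.b 63) (.b 159))))))))) (.s13 (.tw (.c 0 (.s12 (.s13 (.tw (.c 0 (.b 13) (.s13 (.tw (.s12 (.s13 (.c 0 (.b 58) (.c 0 (.b 136) (.b 136))))))))))) (.tw (.s12 (.s13 (.tw (.c 0 (.s13 (.tw (.c 0 (.b 136) (.b 44)))) (.s13 (.tw (.c 0 (.b 387) (.s13 (.tw (.c 0 (.b 384) (.b 5))))))))))))))))),
  (.c 0 (.tw (.c 0 (.b 13) (.s13 (.tw (.s12 (.s13 (.c 0 (.b 284) (.c 0 (.b 136) (.b 29))))))))) (.s13 (.tw (.c 0 (.s13 (.tw (.c 0 (.b 14) (.tw (.s12 (.s13 (.tw (.c 0 (.b 136) (.b 536))))))))) (.tw (.s12 (.s13 (.tw (.c 0 (.s13 (.tw (.s12 (.c 0 (.b 136) (.b 405))))) (.s13 (.tw (.c 0 (.s13 (.tw (.c 0 (.b 44) (.b 1)))) (.s13 (.tw (.c 0 (.b 5) (.b 124)))))))))))))))),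
  (.tw (.c 0 (.tw (.c 0 (.b 284) (.s13 (.tw (.s12 (.s13 (.c 0 (.b 63) (.b 93)))))))) (.s13 (.tw (.c 0 (.s12 (.s13 (.tw (.c 0 (.b 164) (.s13 (.tw (.s12 (.s13 (.c 0 (.b 14) (.c 0 (.b 136) (.b 136))))))))))) (.s13 (.tw (.c 0 (.s13 (.tw (.c 0 (.s13 (.tw (.c 0 (.b 63) (.b 247)))) (.b 5)))) (.s13 (.tw (.c 0 (.b 136) (.b 44)))))))))))),
  (.c 0 (.tw (.c 0 (.b 14) (.s13 (.tw (.s12 (.s13 (.c 0 (.b 13) (.s13 (.tw (.s12 (.s13 (.c 0 (.b 136) (.s13 (.tw (.s12 (.s13 (.c 0 (.b 63) (.b 369)))))))))))))))))) (.s13 (.tw (.c 0 (.s12 (.s13 (.tw (.c 0 (.b 13) (.b 581))))) (.s12 (.s13 (.tw (.c 0 (.s13 (.tw (.s12 (.c 0 (.s13 (.tw (.c 0 (.b 63) (.b 381)))) (.s13 (.tw (.c 0 (.b 5) (.b 5)))))))) (.s13 (.tw (.c 0 (.b 136) (.b 536)))))))))))),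
  (.c 0 (.tw (.c 0 (.b 14) (.s13 (.tw (.s12 (.s13 (.c 0 (.b 13) (.s13 (.tw (.s12 (.s13 (.c 0 (.b 136) (.s13 (.tw (.s12 (.s13 (.c 0 (.b 63) (.b 369)))))))))))))))))) (.s13 (.tw (.c 0 (.s13 (.tw (.c 0 (.b 14) (.s13 (.tw (.s12 (.s13 (.c 0 (.b 63) (.b 369))))))))) (.tw (.s12 (.s13 (.tw (.c 0 (.s13 (.tw (.s12 (.c 0 (.b 136) (.b 405))))) (.s13 (.tw (.c 0 (.b 320) (.s13 (.tw (.c 0 (.b 5) (.b 5)))))))))))))))),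
  (.tw (.c 0 (.tw (.c 0 (.b 348) (.s13 (.tw (.s12 (.s13 (.c 0 (.b 13) (.c 0 (.b 63) (.b 159))))))))) (.s13 (.tw (.c 0 (.tw (.c 0 (.tw (.s13 (.tw (.c 0 (.b 136) (.b 124))))) (.b 136))) (.tw (.s13 (.tw (.c 0 (.s13 (.tw (.c 0 (.b 272) (.b 44)))) (.tw (.s12 (.s13 (.tw (.c 0 (.b 5) (.s13 (.tw (.s12 (.s13 (.c 0 (.b 5) (.b 63)))))))))))))))))))),
  (.tw (.c 0 (.tw (.c 0 (.b 348) (.s13 (.tw (.s12 (.s13 (.c 0 (.b 13) (.c 0 (.b 63) (.b 159))))))))) (.s13 (.tw (.c 0 (.s12 (.s13 (.tw (.c 0 (.b 13) (.b 207))))) (.tw (.s12 (.s13 (.tw (.c 0 (.s13 (.tw (.c 0 (.b 44) (.b 247)))) (.s13 (.tw (.c 0 (.tw (.c 0 (.b 63) (.b 136))) (.s13 (.tw (.c 0 (.b 5) (.b 5))))))))))))))))),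
  (.tw (.c 0 (.tw (.c 0 (.b 348) (.s13 (.tw (.s12 (.s13 (.c 0 (.b 13) (.c 0 (.b 63) (.b 159))))))))) (.s13 (.tw (.c 0 (.s12 (.s13 (.tw (.c 0 (.b 136) (.s13 (.tw (.s12 (.s13 (.c 0 (.b 13) (.b 546)))))))))) (.tw (.s12 (.s13 (.tw (.c 0 (.s13 (.tw (.c 0 (.b 24) (.s13 (.tw (.s12 (.s13 (.c 0 (.b 44) (.b 1))))))))) (.s13 (.tw (.c 0 (.tw (.c 0 (.b 63) (.b 136))) (.s13 (.tw (.c 0 (.b 5) (.b 124))))))))))))))))),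
  (.tw (.c 0 (.tw (.c 0 (.b 284) (.s13 (.tw (.s12 (.s13 (.c 0 (.b 63) (.b 93)))))))) (.s13 (.c 0 (.tw (.c 0 (.s13 (.tw (.c 0 (.b 12) (.b 137)))) (.tw (.s13 (.tw (.c 0 (.s13 (.tw (.c 0 (.b 12) (.b 172)))) (.s13 (.tw (.s12 (.s13 (.c 0 (.b 136) (.b 44)))))))))))) (.tw (.c 0 (.b 718) (.c 0 (.b 136) (.b 136)))))))),
  (.tw (.c 0 (.tw (.c 0 (.b 348) (.s13 (.tw (.s12 (.s13 (.c 0 (.b 13) (.c 0 (.b 63) (.b 159))))))))) (.s13 (.tw (.c 0 (.s12 (.s13 (.tw (.c 0 (.b 13) (.s13 (.tw (.s12 (.s13 (.c 0 (.b 136) (.b 581)))))))))) (.tw (.s12 (.s13 (.tw (.c 0 (.s13 (.tw (.c 0 (.b 136) (.b 44)))) (.s13 (.tw (.c 0 (.tw (.c 0 (.b 57) (.b 136))) (.s13 (.tw (.c 0 (.b 5) (.b 124))))))))))))))))),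
  (.tw (.c 0 (.tw (.c 0 (.b 284) (.s13 (.tw (.s12 (.s13 (.c 0 (.b 63) (.b 93)))))))) (.s13 (.c 0 (.tw (.c 0 (.s13 (.tw (.c 0 (.b 14) (.s13 (.tw (.s12 (.s13 (.c 0 (.b 63) (.b 536))))))))) (.tw (.s13 (.tw (.c 0 (.s13 (.tw (.c 0 (.b 136) (.s13 (.tw (.s12 (.s13 (.c 0 (.b 44) (.b 1))))))))) (.s13 (.tw (.c 0 (.b 5) (.s13 (.tw (.c 0 (.b 5) (.b 124))))))))))))) (.b 1))))),
  (.tw (.c 0 (.tw (.c 0 (.b 348) (.s13 (.tw (.s12 (.s13 (.c 0 (.b 13) (.c 0 (.b 63) (.b 159))))))))) (.s13 (.tw (.c 0 (.s12 (.s13 (.tw (.c 0 (.b 136) (.s13 (.tw (.s12 (.s13 (.c 0 (.b 13) (.b 546)))))))))) (.tw (.s12 (.s13 (.tw (.c 0 (.s13 (.tw (.c 0 (.b 136) (.b 44)))) (.tw (.s12 (.s13 (.tw (.c 0 (.b 347) (.tw (.s12 (.s13 (.tw (.c 0 (.b 320) (.b 5))))))))))))))))))))),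
  (.tw (.c 0 (.tw (.c 0 (.b 348) (.s13 (.tw (.s12 (.s13 (.c 0 (.b 13) (.c 0 (.b 63) (.b 159))))))))) (.s13 (.tw (.c 0 (.s12 (.s13 (.tw (.c 0 (.b 136) (.s13 (.tw (.s12 (.s13 (.c 0 (.b 13) (.b 546)))))))))) (.tw (.s12 (.s13 (.tw (.c 0 (.s13 (.tw (.c 0 (.b 136) (.b 44)))) (.tw (.s12 (.s13 (.tw (.c 0 (.tw (.c 0 (.b 63) (.b 136))) (.s13 (.tw (.c 0 (.b 176) (.b 5))))))))))))))))))),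
  (.c 0 (.tw (.c 0 (.b 13) (.s13 (.tw (.s12 (.s13 (.c 0 (.b 13) (.c 0 (.b 14) (.s13 (.tw (.s12 (.s13 (.c 0 (.b 381) (.b 381)))))))))))))) (.s13 (.tw (.c 0 (.s13 (.tw (.c 0 (.b 136) (.b 462)))) (.tw (.s13 (.tw (.c 0 (.s13 (.tw (.c 0 (.b 136) (.b 44)))) (.tw (.s12 (.s13 (.tw (.c 0 (.s13 (.tw (.c 0 (.b 44) (.b 12)))) (.s13 (.tw (.s12 (.c 0 (.b 5) (.b 124)))))))))))))))))),
  (.tw (.c 0 (.tw (.c 0 (.b 348) (.s13 (.tw (.s12 (.s13 (.c 0 (.b 13) (.c 0 (.b 63) (.b 159))))))))) (.s13 (.tw (.c 0 (.s12 (.s13 (.tw (.c 0 (.b 13) (.s13 (.tw (.s12 (.s13 (.c 0 (.b 13) (.b 337)))))))))) (.tw (.s12 (.s13 (.tw (.c 0 (.s13 (.tw (.c 0 (.b 136) (.s13 (.tw (.s12 (.s13 (.c 0 (.b 44) (.b 1))))))))) (.tw (.s12 (.s13 (.tw (.c 0 (.s12 (.s13 (.tw (.c 0 (.b 63) (.b 24)))))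 (.s13 (.tw (.c 0 (.b 5) (.b 5))))))))))))))))))),
  (.tw (.c 0 (.tw (.c 0 (.b 284) (.s13 (.tw (.s12 (.s13 (.c 0 (.b 63) (.b 93)))))))) (.s13 (.c 0 (.tw (.c 0 (.s13 (.tw (.c 0 (.b 12) (.b 137)))) (.tw (.s13 (.tw (.c 0 (.s13 (.tw (.c 0 (.b 12) (.b 172)))) (.s13 (.tw (.s12 (.s13 (.c 0 (.b 136) (.b 44)))))))))))) (.tw (.c 0 (.b 460) (.s13 (.tw (.s12 (.s13 (.c 0 (.b 136) (.b 351)))))))))))),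
  (.tw (.c 0 (.tw (.c 0 (.b 348) (.s13 (.tw (.s12 (.s13 (.c 0 (.b 13) (.c 0 (.b 63) (.b 159))))))))) (.s13 (.tw (.c 0 (.s12 (.s13 (.tw (.c 0 (.b 13) (.s13 (.tw (.s12 (.s13 (.c 0 (.b 13) (.b 337)))))))))) (.tw (.s12 (.s13 (.tw (.c 0 (.s13 (.tw (.c 0 (.b 249) (.b 44)))) (.s13 (.tw (.c 0 (.tw (.c 0 (.b 63) (.b 136))) (.s13 (.tw (.c 0 (.b 5) (.b 5))))))))))))))))),
  (.tw (.c 0 (.tw (.c 0 (.b 348) (.s13 (.tw (.s12 (.s13 (.c 0 (.b 13) (.c 0 (.b 63) (.b 159))))))))) (.s13 (.tw (.c 0 (.s12 (.s13 (.tw (.c 0 (.b 136) (.s13 (.tw (.s12 (.s13 (.c 0 (.b 13) (.b 337)))))))))) (.tw (.s12 (.s13 (.tw (.c 0 (.s13 (.tw (.c 0 (.b 24) (.s13 (.tw (.s12 (.s13 (.c 0 (.b 44) (.b 1))))))))) (.s13 (.tw (.c 0 (.tw (.c 0 (.b 63) (.b 136))) (.s13 (.tw (.c 0 (.b 5) (.b 124))))))))))))))))),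
  (.tw (.c 0 (.tw (.c 0 (.b 284) (.s13 (.tw (.s12 (.s13 (.c 0 (.b 63) (.b 93)))))))) (.s13 (.c 0 (.tw (.c 0 (.s13 (.tw (.c 0 (.b 136) (.b 236)))) (.tw (.s13 (.tw (.c 0 (.s13 (.tw (.c 0 (.b 136) (.b 44)))) (.tw (.s12 (.s13 (.tw (.c 0 (.s13 (.tw (.c 0 (.b 44) (.b 12)))) (.s13 (.tw (.s12 (.c 0 (.b 5) (.b 124)))))))))))))))) (.b 1))))),
  (.tw (.c 0 (.tw (.c 0 (.b 348) (.s13 (.tw (.s12 (.s13 (.c 0 (.b 13) (.c 0 (.b 63) (.b 159))))))))) (.s13 (.tw (.c 0 (.s12 (.s13 (.tw (.c 0 (.b 13) (.s13 (.tw (.s12 (.s13 (.c 0 (.b 13) (.b 337)))))))))) (.tw (.s12 (.s13 (.tw (.c 0 (.s13 (.tw (.c 0 (.b 136) (.s13 (.tw (.s12 (.s13 (.c 0 (.b 44) (.b 1))))))))) (.tw (.s12 (.s13 (.tw (.c 0 (.s12 (.s13 (.tw (.c 0 (.b 57) (.b 136))))) (.s13 (.tw (.c 0 (.b 5) (.b 5))))))))))))))))))),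
  (.tw (.c 0 (.tw (.c 0 (.b 348) (.s13 (.tw (.s12 (.s13 (.c 0 (.b 13) (.c 0 (.b 63) (.b 159))))))))) (.s13 (.tw (.c 0 (.s12 (.s13 (.tw (.c 0 (.b 13) (.s13 (.tw (.s12 (.s13 (.c 0 (.b 13) (.b 337)))))))))) (.tw (.s12 (.s13 (.tw (.c 0 (.s13 (.tw (.c 0 (.b 136) (.s13 (.tw (.s12 (.s13 (.c 0 (.b 44) (.b 1))))))))) (.s13 (.tw (.c 0 (.tw (.c 0 (.b 63) (.b 136))) (.s13 (.tw (.c 0 (.b 5) (.b 5))))))))))))))))),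
  (.tw (.c 0 (.tw (.c 0 (.b 13) (.s13 (.tw (.s12 (.s13 (.c 0 (.b 136) (.c 0 (.b 1) (.s13 (.tw (.s13 (.c 0 (.b 1) (.b 21))))))))))))) (.s13 (.tw (.c 0 (.s13 (.tw (.c 0 (.b 14) (.s13 (.tw (.s12 (.s13 (.c 0 (.b 136) (.b 536))))))))) (.tw (.s13 (.tw (.c 0 (.s13 (.tw (.c 0 (.b 5) (.s13 (.tw (.c 0 (.b 124) (.b 200))))))) (.s13 (.tw (.c 0 (.b 136) (.s13 (.tw (.s12 (.s13 (.c 0 (.b 44) (.b 1)))))))))))))))))),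
  (.tw (.c 0 (.tw (.c 0 (.b 284) (.s13 (.tw (.s12 (.s13 (.c 0 (.b 63) (.b 93)))))))) (.s13 (.c 0 (.tw (.c 0 (.s13 (.tw (.c 0 (.b 136) (.s13 (.tw (.s12 (.s13 (.c 0 (.b 63) (.b 369))))))))) (.tw (.s13 (.tw (.c 0 (.s13 (.tw (.c 0 (.b 136) (.b 44)))) (.s12 (.s13 (.tw (.c 0 (.s13 (.tw (.s12 (.c 0 (.b 14) (.b 239))))) (.s13 (.tw (.c 0 (.b 63) (.b 44)))))))))))))) (.b 1))))),
  (.tw (.c 0 (.tw (.c 0 (.b 348) (.s13 (.tw (.s12 (.s13 (.c 0 (.b 13) (.c 0 (.b 63) (.b 159))))))))) (.s13 (.tw (.c 0 (.s12 (.s13 (.tw (.c 0 (.b 136) (.s13 (.tw (.s12 (.s13 (.c 0 (.b 13) (.b 546)))))))))) (.tw (.s12 (.s13 (.tw (.c 0 (.s13 (.tw (.c 0 (.b 136) (.b 44)))) (.tw (.s12 (.s13 (.tw (.c 0 (.s13 (.tw (.c 0 (.b 320) (.b 5)))) (.b 210)))))))))))))))),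
  (.tw (.c 0 (.tw (.c 0 (.b 348) (.s13 (.tw (.s12 (.s13 (.c 0 (.b 13) (.c 0 (.b 63) (.b 159))))))))) (.s13 (.tw (.c 0 (.s12 (.s13 (.tw (.c 0 (.b 136) (.s13 (.tw (.s12 (.s13 (.c 0 (.b 13) (.b 546)))))))))) (.tw (.s12 (.s13 (.tw (.c 0 (.s13 (.tw (.c 0 (.b 136) (.s13 (.tw (.s12 (.s13 (.c 0 (.b 44) (.b 1))))))))) (.s13 (.tw (.c 0 (.tw (.c 0 (.b 63) (.b 136))) (.s13 (.tw (.c 0 (.b 5) (.b 124))))))))))))))))),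
  (.c 0 (.tw (.c 0 (.b 13) (.s13 (.tw (.s12 (.s13 (.c 0 (.b 284) (.c 0 (.b 136) (.b 29))))))))) (.s13 (.tw (.c 0 (.s12 (.s13 (.tw (.c 0 (.b 136) (.s13 (.tw (.s12 (.s13 (.c 0 (.b 13) (.b 337)))))))))) (.tw (.s12 (.s13 (.tw (.c 0 (.s13 (.tw (.c 0 (.b 136) (.s13 (.tw (.s12 (.s13 (.c 0 (.b 44) (.b 1))))))))) (.s13 (.tw (.c 0 (.tw (.c 0 (.b 63) (.b 136))) (.s13 (.tw (.c 0 (.b 5) (.b 124)))))))))))))))),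
  (.tw (.c 0 (.tw (.c 0 (.b 284) (.s13 (.tw (.s12 (.s13 (.c 0 (.b 63) (.b 93)))))))) (.s13 (.c 0 (.tw (.c 0 (.s13 (.tw (.c 0 (.b 136) (.s13 (.tw (.s12 (.s13 (.c 0 (.b 14) (.b 239))))))))) (.tw (.s13 (.tw (.c 0 (.s13 (.tw (.c 0 (.b 136) (.b 44)))) (.s13 (.tw (.c 0 (.b 73) (.s13 (.tw (.c 0 (.b 5) (.b 124))))))))))))) (.b 1))))),
  (.tw (.c 0 (.tw (.c 0 (.b 348) (.s13 (.tw (.s12 (.s13 (.c 0 (.b 13) (.c 0 (.b 63) (.b 159))))))))) (.s13 (.tw (.c 0 (.s12 (.s13 (.tw (.c 0 (.b 13) (.s13 (.tw (.s12 (.s13 (.c 0 (.b 136) (.b 598)))))))))) (.tw (.s12 (.s13 (.tw (.c 0 (.s13 (.tw (.c 0 (.b 136) (.b 44)))) (.s13 (.tw (.c 0 (.tw (.c 0 (.b 57) (.b 136))) (.s13 (.tw (.c 0 (.b 5) (.b 124))))))))))))))))),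
  (.tw (.c 0 (.tw (.c 0 (.b 13) (.s13 (.tw (.s12 (.s13 (.c 0 (.b 136) (.c 0 (.b 1) (.s13 (.tw (.s13 (.c 0 (.b 1) (.b 21))))))))))))) (.s13 (.tw (.c 0 (.tw (.s13 (.c 0 (.b 70) (.b 45)))) (.tw (.s13 (.tw (.c 0 (.s12 (.s13 (.tw (.c 0 (.s13 (.tw (.s12 (.c 0 (.b 239) (.b 1))))) (.s13 (.tw (.c 0 (.b 58) (.b 44)))))))) (.s13 (.tw (.c 0 (.b 136) (.b 44))))))))))))),
  (.tw (.c 0 (.tw (.c 0 (.b 284) (.s13 (.tw (.s12 (.s13 (.c 0 (.b 63) (.b 93)))))))) (.s13 (.c 0 (.tw (.c 0 (.s13 (.tw (.c 0 (.b 136) (.s13 (.tw (.s12 (.s13 (.c 0 (.b 14) (.b 239))))))))) (.tw (.s13 (.tw (.c 0 (.s13 (.tw (.c 0 (.b 136) (.b 44)))) (.tw (.s13 (.tw (.c 0 (.s13 (.tw (.s12 (.c 0 (.b 63) (.b 381))))) (.s13 (.tw (.c 0 (.b 63) (.b 44)))))))))))))) (.b 1))))),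
  (.tw (.c 0 (.tw (.c 0 (.b 348) (.s13 (.tw (.s12 (.s13 (.c 0 (.b 13) (.c 0 (.b 63) (.b 159))))))))) (.s13 (.tw (.c 0 (.s12 (.s13 (.tw (.c 0 (.b 136) (.s13 (.tw (.s12 (.s13 (.c 0 (.b 13) (.b 546)))))))))) (.s12 (.s13 (.c 0 (.s12 (.s13 (.tw (.s12 (.c 0 (.b 666) (.s13 (.tw (.s12 (.s13 (.c 0 (.b 136) (.b 44))))))))))) (.s13 (.tw (.s13 (.c 0 (.b 70) (.b 45))))))))))))),
  (.c 0 (.tw (.c 0 (.b 348) (.s13 (.tw (.s12 (.s13 (.c 0 (.b 13) (.c 0 (.b 63) (.b 159))))))))) (.s13 (.tw (.c 0 (.s12 (.s13 (.tw (.c 0 (.b 13) (.s13 (.tw (.s12 (.s13 (.c 0 (.b 136) (.b 598)))))))))) (.tw (.s12 (.s13 (.tw (.c 0 (.s13 (.tw (.c 0 (.b 136) (.b 44)))) (.s13 (.tw (.c 0 (.tw (.c 0 (.b 63) (.b 136))) (.s13 (.tw (.c 0 (.b 5) (.b 124)))))))))))))))),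
  (.c 0 (.tw (.c 0 (.b 13) (.s13 (.tw (.s12 (.s13 (.c 0 (.b 284) (.c 0 (.b 136) (.b 29))))))))) (.s13 (.tw (.c 0 (.s12 (.s13 (.tw (.c 0 (.b 13) (.s13 (.tw (.s12 (.s13 (.c 0 (.b 136) (.b 598)))))))))) (.tw (.s12 (.s13 (.tw (.c 0 (.s13 (.tw (.c 0 (.b 136) (.b 44)))) (.s13 (.tw (.c 0 (.tw (.c 0 (.b 63) (.b 136))) (.s13 (.tw (.c 0 (.b 5) (.b 124)))))))))))))))),
  (.tw (.c 0 (.tw (.c 0 (.b 284) (.s13 (.tw (.s12 (.s13 (.c 0 (.b 63) (.b 93)))))))) (.s13 (.tw (.c 0 (.s12 (.s13 (.tw (.c 0 (.b 57) (.s13 (.tw (.s12 (.s13 (.c 0 (.b 14) (.c 0 (.b 136) (.b 136))))))))))) (.tw (.s12 (.s13 (.tw (.c 0 (.s13 (.tw (.c 0 (.tw (.c 0 (.b 63) (.b 136))) (.s13 (.tw (.c 0 (.b 124) (.b 200))))))) (.s13 (.tw (.c 0 (.b 136) (.b 44)))))))))))))),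
  (.c 0 (.tw (.c 0 (.b 13) (.s13 (.tw (.s12 (.s13 (.c 0 (.b 13) (.c 0 (.b 14) (.s13 (.tw (.s12 (.s13 (.c 0 (.b 381) (.b 381)))))))))))))) (.s13 (.tw (.c 0 (.s13 (.tw (.c 0 (.b 136) (.s13 (.tw (.s12 (.s13 (.c 0 (.b 13) (.b 139))))))))) (.tw (.s13 (.tw (.c 0 (.s13 (.tw (.c 0 (.b 5) (.s13 (.tw (.c 0 (.b 5) (.b 465))))))) (.s13 (.tw (.c 0 (.b 136) (.b 44)))))))))))),
  (.c 0 (.tw (.c 0 (.b 13) (.s13 (.tw (.s12 (.s13 (.c 0 (.b 13) (.c 0 (.b 14) (.s13 (.tw (.s12 (.s13 (.c 0 (.b 381) (.b 381)))))))))))))) (.s13 (.tw (.c 0 (.s13 (.tw (.c 0 (.b 136) (.s13 (.tw (.s12 (.s13 (.c 0 (.b 13) (.b 139))))))))) (.tw (.s13 (.tw (.c 0 (.s13 (.tw (.c 0 (.b 136) (.b 44)))) (.s13 (.tw (.c 0 (.b 5) (.s13 (.tw (.c 0 (.b 5) (.b 124))))))))))))))),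
  (.c 0 (.tw (.c 0 (.b 14) (.s13 (.tw (.s12 (.s13 (.c 0 (.b 13) (.s13 (.tw (.s12 (.s13 (.c 0 (.b 136) (.s13 (.tw (.s12 (.s13 (.c 0 (.b 63) (.b 369)))))))))))))))))) (.s13 (.tw (.c 0 (.s12 (.s13 (.tw (.c 0 (.b 530) (.b 29))))) (.s12 (.s13 (.tw (.c 0 (.s13 (.tw (.c 0 (.b 136) (.b 536)))) (.s13 (.tw (.s12 (.c 0 (.s13 (.tw (.c 0 (.b 44) (.b 1)))) (.s13 (.tw (.c 0 (.b 5) (.b 5)))))))))))))))),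
  (.c 0 (.tw (.c 0 (.b 14) (.s13 (.tw (.s12 (.s13 (.c 0 (.b 13) (.s13 (.tw (.s12 (.s13 (.c 0 (.b 136) (.s13 (.tw (.s12 (.s13 (.c 0 (.b 63) (.b 369)))))))))))))))))) (.s13 (.tw (.c 0 (.s12 (.s13 (.tw (.c 0 (.b 13) (.b 581))))) (.s12 (.s13 (.tw (.c 0 (.s13 (.tw (.c 0 (.b 136) (.b 536)))) (.s13 (.tw (.s12 (.c 0 (.s13 (.tw (.c 0 (.b 44) (.b 1)))) (.s13 (.tw (.c 0 (.b 5) (.b 5)))))))))))))))),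
  (.tw (.c 0 (.tw (.c 0 (.b 348) (.s13 (.tw (.s12 (.s13 (.c 0 (.b 13) (.c 0 (.b 63) (.b 159))))))))) (.s13 (.tw (.c 0 (.s13 (.tw (.c 0 (.b 666) (.tw (.s12 (.s13 (.tw (.c 0 (.b 63) (.b 430))))))))) (.tw (.s12 (.s13 (.tw (.c 0 (.tw (.s12 (.c 0 (.b 136) (.b 249)))) (.s13 (.tw (.c 0 (.b 709) (.s13 (.tw (.c 0 (.b 5) (.b 124))))))))))))))))),
  (.tw (.c 0 (.tw (.c 0 (.b 284) (.s13 (.tw (.s12 (.s13 (.c 0 (.b 63) (.b 93)))))))) (.s13 (.c 0 (.tw (.c 0 (.s13 (.tw (.c 0 (.b 136) (.b 462)))) (.tw (.s13 (.tw (.c 0 (.s13 (.tw (.c 0 (.b 136) (.b 44)))) (.tw (.s12 (.s13 (.tw (.c 0 (.s13 (.tw (.c 0 (.b 44) (.b 12)))) (.s13 (.tw (.s12 (.c 0 (.b 5) (.b 124)))))))))))))))) (.b 1))))),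
  (.tw (.c 0 (.tw (.c 0 (.b 348) (.s13 (.tw (.s12 (.s13 (.c 0 (.b 13) (.c 0 (.b 63) (.b 159))))))))) (.s13 (.tw (.c 0 (.s12 (.s13 (.tw (.c 0 (.s13 (.tw (.s12 (.s13 (.c 0 (.b 14) (.c 0 (.b 136) (.b 136))))))) (.b 16))))) (.tw (.s12 (.s13 (.tw (.c 0 (.s13 (.tw (.c 0 (.b 136) (.b 536)))) (.s13 (.tw (.c 0 (.tw (.c 0 (.b 57) (.b 136))) (.s13 (.tw (.c 0 (.b 5) (.b 124))))))))))))))))),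
  (.tw (.c 0 (.tw (.c 0 (.b 348) (.s13 (.tw (.s12 (.s13 (.c 0 (.b 13) (.c 0 (.b 63) (.b 159))))))))) (.s13 (.tw (.c 0 (.s12 (.s13 (.tw (.c 0 (.s13 (.tw (.s12 (.s13 (.c 0 (.b 14) (.c 0 (.b 136) (.b 136))))))) (.b 29))))) (.tw (.s12 (.s13 (.tw (.c 0 (.s13 (.tw (.s12 (.c 0 (.b 136) (.b 405))))) (.s13 (.tw (.c 0 (.b 73) (.s13 (.tw (.c 0 (.b 5) (.b 124))))))))))))))))),
  (.tw (.c 0 (.tw (.c 0 (.b 284) (.s13 (.tw (.s12 (.s13 (.c 0 (.b 63) (.b 93)))))))) (.s13 (.c 0 (.tw (.c 0 (.s13 (.tw (.c 0 (.b 14) (.s13 (.tw (.s12 (.s13 (.c 0 (.b 136) (.b 351))))))))) (.tw (.s13 (.tw (.c 0 (.s13 (.tw (.c 0 (.b 136) (.s13 (.tw (.s12 (.s13 (.c 0 (.b 44) (.b 1))))))))) (.s13 (.tw (.c 0 (.b 73) (.s13 (.tw (.c 0 (.b 5) (.b 124))))))))))))) (.b 1))))),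
  (.tw (.c 0 (.tw (.c 0 (.b 348) (.s13 (.tw (.s12 (.s13 (.c 0 (.b 13) (.c 0 (.b 63) (.b 159))))))))) (.s13 (.tw (.c 0 (.s12 (.s13 (.tw (.c 0 (.b 136) (.s13 (.tw (.s12 (.s13 (.c 0 (.b 13) (.b 337)))))))))) (.tw (.s12 (.s13 (.tw (.c 0 (.s13 (.tw (.c 0 (.b 136) (.s13 (.tw (.s12 (.s13 (.c 0 (.b 44) (.b 1))))))))) (.s13 (.tw (.c 0 (.tw (.c 0 (.b 57) (.b 136))) (.s13 (.tw (.c 0 (.b 5) (.b 124))))))))))))))))),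
  (.tw (.c 0 (.tw (.c 0 (.b 13) (.s13 (.tw (.s12 (.s13 (.c 0 (.b 136) (.c 0 (.b 1) (.s13 (.tw (.s13 (.c 0 (.b 1) (.b 21))))))))))))) (.tw (.s13 (.s12 (.c 0 (.s13 (.tw (.s12 (.c 0 (.b 136) (.s13 (.tw (.s12 (.s13 (.c 0 (.b 136) (.s13 (.tw (.s12 (.s13 (.c 0 (.b 44) (.b 1))))))))))))))) (.s13 (.tw (.s12 (.c 0 (.tw (.s12 (.s13 (.tw (.c 0 (.b 82) (.b 239)))))) (.tw (.s12 (.s13 (.tw (.c 0 (.b 5) (.b 247)))))))))))))))),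
  (.tw (.c 0 (.tw (.c 0 (.b 284) (.s13 (.tw (.s12 (.s13 (.c 0 (.b 63) (.b 93)))))))) (.s13 (.c 0 (.tw (.c 0 (.s13 (.tw (.c 0 (.b 14) (.s13 (.tw (.s12 (.s13 (.c 0 (.b 136) (.b 351))))))))) (.tw (.s13 (.tw (.c 0 (.s13 (.tw (.c 0 (.b 136) (.s13 (.tw (.s12 (.s13 (.c 0 (.b 44) (.b 1))))))))) (.tw (.s13 (.tw (.c 0 (.s13 (.tw (.s12 (.c 0 (.b 63) (.b 381))))) (.s13 (.tw (.c 0 (.b 63) (.b 44)))))))))))))) (.b 1))))),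
  (.tw (.c 0 (.tw (.c 0 (.b 348) (.s13 (.tw (.s12 (.s13 (.c 0 (.b 13) (.c 0 (.b 63) (.b 159))))))))) (.s13 (.tw (.c 0 (.s12 (.s13 (.tw (.c 0 (.b 136) (.s13 (.tw (.s12 (.s13 (.c 0 (.b 13) (.b 337)))))))))) (.tw (.s12 (.s13 (.tw (.c 0 (.s13 (.tw (.c 0 (.b 136) (.b 44)))) (.tw (.s12 (.s13 (.tw (.c 0 (.s13 (.tw (.c 0 (.b 320) (.b 5)))) (.b 210)))))))))))))))),
  (.c 0 (.tw (.c 0 (.b 348) (.s13 (.tw (.s12 (.s13 (.c 0 (.b 13) (.c 0 (.b 63) (.b 159))))))))) (.s13 (.tw (.c 0 (.s12 (.s13 (.tw (.c 0 (.b 136) (.s13 (.tw (.s12 (.s13 (.c 0 (.b 13) (.b 546)))))))))) (.tw (.s12 (.s13 (.tw (.c 0 (.s13 (.tw (.c 0 (.b 136) (.s13 (.tw (.s12 (.s13 (.c 0 (.b 44) (.b 1))))))))) (.s13 (.tw (.c 0 (.tw (.c 0 (.b 63) (.b 136))) (.s13 (.tw (.c 0 (.b 5) (.b 124)))))))))))))))),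
  (.c 0 (.tw (.c 0 (.b 13) (.s13 (.tw (.s12 (.s13 (.c 0 (.b 284) (.c 0 (.b 136) (.b 29))))))))) (.s13 (.tw (.c 0 (.s12 (.s13 (.tw (.c 0 (.b 136) (.s13 (.tw (.s12 (.s13 (.c 0 (.b 13) (.b 546)))))))))) (.tw (.s12 (.s13 (.tw (.c 0 (.s13 (.tw (.c 0 (.b 136) (.s13 (.tw (.s12 (.s13 (.c 0 (.b 44) (.b 1))))))))) (.s13 (.tw (.c 0 (.tw (.c 0 (.b 63) (.b 136))) (.s13 (.tw (.c 0 (.b 5) (.b 124)))))))))))))))),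
  (.tw (.c 0 (.tw (.c 0 (.b 284) (.s13 (.tw (.s12 (.s13 (.c 0 (.b 63) (.b 93)))))))) (.s13 (.tw (.c 0 (.s12 (.s13 (.tw (.c 0 (.b 13) (.s13 (.tw (.s12 (.s13 (.c 0 (.b 136) (.b 536)))))))))) (.tw (.s12 (.s13 (.tw (.c 0 (.tw (.s12 (.s13 (.tw (.c 0 (.tw (.s13 (.s12 (.c 0 (.b 58) (.b 247))))) (.s13 (.tw (.c 0 (.b 44) (.b 12))))))))) (.s13 (.tw (.c 0 (.b 136) (.b 44)))))))))))))),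
  (.c 0 (.tw (.c 0 (.b 13) (.s13 (.tw (.s12 (.s13 (.c 0 (.b 13) (.c 0 (.b 14) (.s13 (.tw (.s12 (.s13 (.c 0 (.b 381) (.b 381)))))))))))))) (.s13 (.tw (.c 0 (.s13 (.tw (.c 0 (.b 57) (.s13 (.tw (.s12 (.s13 (.c 0 (.b 57) (.b 44))))))))) (.tw (.s13 (.tw (.c 0 (.s13 (.tw (.c 0 (.b 5) (.s13 (.tw (.c 0 (.b 5) (.b 465))))))) (.s13 (.tw (.c 0 (.b 136) (.b 44)))))))))))),
  (.c 0 (.tw (.c 0 (.b 13) (.s13 (.tw (.s12 (.s13 (.c 0 (.b 13) (.c 0 (.b 14) (.s13 (.tw (.s12 (.s13 (.c 0 (.b 381) (.b 381)))))))))))))) (.s13 (.tw (.c 0 (.s13 (.tw (.c 0 (.b 57) (.s13 (.tw (.s12 (.s13 (.c 0 (.b 57) (.b 44))))))))) (.tw (.s13 (.tw (.c 0 (.s13 (.tw (.c 0 (.b 136) (.b 44)))) (.s13 (.tw (.c 0 (.b 5) (.s13 (.tw (.c 0 (.b 5) (.b 124))))))))))))))),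
  (.tw (.c 0 (.s12 (.s13 (.tw (.s12 (.c 0 (.b 284) (.s13 (.tw (.s12 (.s13 (.c 0 (.b 63) (.s13 (.tw (.s12 (.s13 (.c 0 (.b 284) (.b 27)))))))))))))))) (.s13 (.tw (.s12 (.c 0 (.s13 (.tw (.c 0 (.b 136) (.tw (.s12 (.s13 (.tw (.c 0 (.b 63) (.b 381))))))))) (.tw (.s12 (.s13 (.tw (.c 0 (.tw (.s12 (.s13 (.tw (.c 0 (.tw (.s13 (.s12 (.c 0 (.b 58) (.b 247))))) (.s13 (.tw (.c 0 (.b 44) (.b 12))))))))) (.s13 (.tw (.c 0 (.b 136) (.b 536))))))))))))))),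
  (.tw (.c 0 (.tw (.c 0 (.b 284) (.s13 (.tw (.s12 (.s13 (.c 0 (.b 63) (.b 93)))))))) (.s13 (.c 0 (.tw (.c 0 (.s13 (.tw (.c 0 (.b 14) (.s13 (.tw (.s12 (.s13 (.c 0 (.b 14) (.c 0 (.b 136) (.b 136)))))))))) (.tw (.s13 (.tw (.c 0 (.s13 (.tw (.c 0 (.b 136) (.b 536)))) (.tw (.s13 (.tw (.c 0 (.s13 (.tw (.s12 (.c 0 (.b 63) (.b 381))))) (.s13 (.tw (.c 0 (.b 63) (.b 44)))))))))))))) (.b 1))))),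
  (.tw (.c 0 (.tw (.c 0 (.b 348) (.s13 (.tw (.s12 (.s13 (.c 0 (.b 13) (.c 0 (.b 63) (.b 159))))))))) (.s13 (.tw (.c 0 (.s12 (.s13 (.tw (.c 0 (.b 136) (.s13 (.tw (.s12 (.s13 (.c 0 (.b 13) (.b 337)))))))))) (.s12 (.s13 (.c 0 (.s12 (.s13 (.tw (.s12 (.c 0 (.b 666) (.s13 (.tw (.s12 (.s13 (.c 0 (.b 136) (.b 44))))))))))) (.s13 (.tw (.s13 (.c 0 (.b 70) (.b 45))))))))))))),
  (.c 0 (.tw (.c 0 (.b 348) (.s13 (.tw (.s12 (.s13 (.c 0 (.b 13) (.c 0 (.b 63) (.b 159))))))))) (.s13 (.tw (.c 0 (.s12 (.s13 (.tw (.c 0 (.b 13) (.s13 (.tw (.s12 (.s13 (.c 0 (.b 58) (.c 0 (.b 136) (.b 136))))))))))) (.tw (.s12 (.s13 (.tw (.c 0 (.s13 (.tw (.c 0 (.b 136) (.b 44)))) (.s13 (.tw (.c 0 (.b 387) (.s13 (.tw (.c 0 (.b 384) (.b 5)))))))))))))))),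
  (.tw (.c 0 (.tw (.c 0 (.b 284) (.s13 (.tw (.s12 (.s13 (.c 0 (.b 63) (.b 93)))))))) (.s13 (.tw (.c 0 (.s13 (.tw (.c 0 (.tw (.s12 (.s13 (.tw (.c 0 (.b 176) (.b 63)))))) (.b 273)))) (.s12 (.s13 (.tw (.c 0 (.s13 (.tw (.c 0 (.b 63) (.c 0 (.b 136) (.b 136))))) (.s13 (.tw (.s13 (.s12 (.c 0 (.b 95) (.s13 (.tw (.c 0 (.b 44) (.b 12)))))))))))))))))),
  (.c 0 (.tw (.c 0 (.b 13) (.s13 (.tw (.s12 (.s13 (.c 0 (.b 284) (.c 0 (.b 136) (.b 29))))))))) (.s13 (.c 0 (.tw (.c 0 (.s13 (.tw (.c 0 (.b 14) (.s13 (.tw (.s12 (.s13 (.c 0 (.b 136) (.s13 (.tw (.s12 (.s13 (.c 0 (.b 13) (.b 200)))))))))))))) (.tw (.s13 (.tw (.c 0 (.s13 (.tw (.c 0 (.b 136) (.b 44)))) (.s13 (.tw (.c 0 (.b 5) (.s13 (.tw (.c 0 (.b 5) (.b 63))))))))))))) (.b 1)))),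
  (.c 0 (.tw (.c 0 (.b 13) (.s13 (.tw (.s12 (.s13 (.c 0 (.b 284) (.c 0 (.b 136) (.b 29))))))))) (.s13 (.tw (.c 0 (.s12 (.s13 (.tw (.c 0 (.b 13) (.s13 (.tw (.s12 (.s13 (.c 0 (.b 58) (.c 0 (.b 136) (.b 136))))))))))) (.tw (.s12 (.s13 (.tw (.c 0 (.s13 (.tw (.c 0 (.b 136) (.b 44)))) (.s13 (.tw (.c 0 (.b 387) (.s13 (.tw (.c 0 (.b 384) (.b 5)))))))))))))))),
  (.c 0 (.tw (.c 0 (.b 13) (.s13 (.tw (.s12 (.s13 (.c 0 (.b 13) (.c 0 (.b 14) (.s13 (.tw (.s12 (.s13 (.c 0 (.b 381) (.b 381)))))))))))))) (.s13 (.tw (.c 0 (.s13 (.tw (.c 0 (.b 58) (.s13 (.tw (.s12 (.s13 (.c 0 (.b 14) (.c 0 (.b 136) (.b 136)))))))))) (.tw (.s13 (.tw (.c 0 (.s13 (.tw (.c 0 (.b 5) (.s13 (.tw (.c 0 (.b 5) (.b 465))))))) (.s13 (.tw (.c 0 (.b 63) (.b 44)))))))))))),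
  (.c 0 (.tw (.c 0 (.b 13) (.s13 (.tw (.s12 (.s13 (.c 0 (.b 13) (.c 0 (.b 14) (.s13 (.tw (.s12 (.s13 (.c 0 (.b 381) (.b 381)))))))))))))) (.s13 (.tw (.c 0 (.s13 (.tw (.c 0 (.b 14) (.s13 (.tw (.s12 (.s13 (.c 0 (.b 136) (.s13 (.tw (.s12 (.s13 (.c 0 (.b 13) (.b 200)))))))))))))) (.tw (.s13 (.tw (.c 0 (.s13 (.tw (.c 0 (.b 136) (.b 44)))) (.s13 (.tw (.c 0 (.b 5) (.s13 (.tw (.c 0 (.b 5) (.b 63))))))))))))))),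
  (.c 0 (.tw (.c 0 (.b 14) (.s13 (.tw (.s12 (.s13 (.c 0 (.b 13) (.s13 (.tw (.s12 (.s13 (.c 0 (.b 136) (.s13 (.tw (.s12 (.s13 (.c 0 (.b 63) (.b 369)))))))))))))))))) (.s13 (.tw (.c 0 (.s12 (.s13 (.tw (.c 0 (.b 284) (.b 147))))) (.s12 (.s13 (.tw (.c 0 (.s13 (.tw (.c 0 (.b 136) (.b 536)))) (.s13 (.tw (.s12 (.c 0 (.s13 (.tw (.c 0 (.b 44) (.b 1)))) (.s13 (.tw (.c 0 (.b 5) (.b 5)))))))))))))))),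
  (.tw (.c 0 (.tw (.c 0 (.tw (.s12 (.s13 (.tw (.c 0 (.b 63) (.b 159)))))) (.s13 (.tw (.s12 (.s13 (.c 0 (.b 63) (.b 9)))))))) (.s13 (.tw (.c 0 (.tw (.s13 (.c 0 (.b 70) (.b 45)))) (.s13 (.c 0 (.tw (.s13 (.tw (.s13 (.c 0 (.b 67) (.s13 (.tw (.s13 (.c 0 (.b 14) (.b 44)))))))))) (.tw (.s12 (.s13 (.s12 (.c 0 (.b 67) (.s13 (.tw (.s13 (.c 0 (.b 14) (.b 44))))))))))))))))),
  (.tw (.c 0 (.s12 (.s13 (.tw (.s12 (.c 0 (.b 284) (.s13 (.tw (.s12 (.s13 (.c 0 (.b 63) (.s13 (.tw (.s12 (.s13 (.c 0 (.b 284) (.b 27)))))))))))))))) (.s13 (.tw (.s12 (.c 0 (.s13 (.tw (.c 0 (.b 14) (.s13 (.tw (.s12 (.s13 (.c 0 (.b 14) (.c 0 (.b 136) (.b 136)))))))))) (.s12 (.s13 (.c 0 (.s12 (.s13 (.tw (.s12 (.c 0 (.b 460) (.s13 (.tw (.s12 (.s13 (.c 0 (.b 63) (.b 44))))))))))) (.s13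 (.tw (.s13 (.c 0 (.b 70) (.b 45)))))))))))))),
  (.tw (.c 0 (.tw (.c 0 (.b 284) (.s13 (.tw (.s12 (.s13 (.c 0 (.b 63) (.b 93)))))))) (.s13 (.c 0 (.tw (.c 0 (.s13 (.tw (.c 0 (.b 14) (.s13 (.tw (.s12 (.s13 (.c 0 (.b 14) (.c 0 (.b 136) (.b 136)))))))))) (.s13 (.c 0 (.tw (.c 0 (.b 304) (.s13 (.tw (.s12 (.s13 (.c 0 (.b 63) (.b 44)))))))) (.s13 (.tw (.s13 (.c 0 (.b 70) (.b 45))))))))) (.b 1))))),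
  (.tw (.c 0 (.tw (.c 0 (.b 348) (.s13 (.tw (.s12 (.s13 (.c 0 (.b 13) (.c 0 (.b 63) (.b 159))))))))) (.s13 (.tw (.c 0 (.s13 (.tw (.c 0 (.b 14) (.tw (.s12 (.s13 (.tw (.c 0 (.b 136) (.b 536))))))))) (.s12 (.s13 (.tw (.c 0 (.s13 (.tw (.c 0 (.b 14) (.c 0 (.b 136) (.b 136))))) (.s13 (.tw (.s13 (.s12 (.c 0 (.b 208) (.s13 (.tw (.s13 (.c 0 (.b 5) (.b 143))))))))))))))))))),
  (.tw (.c 0 (.tw (.c 0 (.b 284) (.s13 (.tw (.s12 (.s13 (.c 0 (.b 63) (.b 93)))))))) (.s13 (.tw (.c 0 (.s13 (.tw (.c 0 (.tw (.s12 (.s13 (.tw (.c 0 (.b 136) (.b 200)))))) (.b 273)))) (.s13 (.c 0 (.tw (.c 0 (.b 14) (.s13 (.tw (.s12 (.s13 (.c 0 (.b 14) (.c 0 (.b 136) (.b 136))))))))) (.s13 (.tw (.s13 (.c 0 (.b 70) (.b 45)))))))))))),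
  (.c 0 (.tw (.c 0 (.b 348) (.s13 (.tw (.s12 (.s13 (.c 0 (.b 13) (.c 0 (.b 63) (.b 159))))))))) (.s13 (.tw (.c 0 (.s12 (.s13 (.tw (.c 0 (.b 462) (.s13 (.tw (.s13 (.c 0 (.b 13) (.b 225))))))))) (.s13 (.tw (.c 0 (.s13 (.tw (.c 0 (.b 136) (.b 44)))) (.s13 (.tw (.c 0 (.b 5) (.s13 (.tw (.c 0 (.b 5) (.b 63)))))))))))))),
  (.c 0 (.tw (.c 0 (.b 311) (.s13 (.tw (.s12 (.s13 (.c 0 (.b 23) (.b 21)))))))) (.tw (.c 0 (.s12 (.s13 (.tw (.c 0 (.b 345) (.tw (.s12 (.s13 (.tw (.c 0 (.b 63) (.b 381)))))))))) (.s12 (.s13 (.tw (.c 0 (.s13 (.tw (.s12 (.c 0 (.b 124) (.b 44))))) (.s13 (.tw (.s12 (.s13 (.c 0 (.b 5) (.c 0 (.b 5) (.b 63)))))))))))))),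
  (.c 0 (.tw (.c 0 (.b 13) (.s13 (.tw (.s12 (.s13 (.c 0 (.b 284) (.c 0 (.b 136) (.b 29))))))))) (.s13 (.tw (.c 0 (.s12 (.s13 (.tw (.c 0 (.b 164) (.s13 (.tw (.s12 (.s13 (.c 0 (.b 14) (.c 0 (.b 136) (.b 136))))))))))) (.s13 (.tw (.c 0 (.s13 (.tw (.c 0 (.s13 (.tw (.c 0 (.b 5) (.b 284)))) (.b 5)))) (.s13 (.tw (.c 0 (.b 63) (.b 44))))))))))),
  (.c 0 (.tw (.c 0 (.b 13) (.s13 (.tw (.s12 (.s13 (.c 0 (.b 284) (.c 0 (.b 136) (.b 29))))))))) (.s13 (.tw (.c 0 (.s12 (.s13 (.tw (.c 0 (.b 462) (.s13 (.tw (.s13 (.c 0 (.b 13) (.b 225))))))))) (.s13 (.tw (.c 0 (.s13 (.tw (.c 0 (.b 136) (.b 44)))) (.s13 (.tw (.c 0 (.b 5) (.s13 (.tw (.c 0 (.b 5) (.b 63)))))))))))))),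
  (.c 0 (.s12 (.s13 (.tw (.s12 (.c 0 (.b 14) (.s13 (.tw (.s12 (.s13 (.c 0 (.b 304) (.s13 (.tw (.s12 (.s13 (.c 0 (.b 13) (.b 546)))))))))))))))) (.tw (.s12 (.c 0 (.s13 (.tw (.c 0 (.b 136) (.s13 (.tw (.s12 (.s13 (.c 0 (.b 13) (.b 363))))))))) (.s13 (.tw (.c 0 (.s13 (.tw (.c 0 (.b 136) (.b 44)))) (.s13 (.tw (.s13 (.c 0 (.b 199) (.s13 (.tw (.c 0 (.b 384) (.b 5))))))))))))))),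
  (.c 0 (.tw (.c 0 (.b 14) (.s13 (.tw (.s12 (.s13 (.c 0 (.b 13) (.s13 (.tw (.s12 (.s13 (.c 0 (.b 136) (.s13 (.tw (.s12 (.s13 (.c 0 (.b 63) (.b 369)))))))))))))))))) (.s12 (.s13 (.tw (.c 0 (.s13 (.tw (.c 0 (.b 14) (.s13 (.tw (.s12 (.s13 (.c 0 (.b 284) (.b 713))))))))) (.s13 (.tw (.c 0 (.s13 (.tw (.c 0 (.b 136) (.b 44)))) (.s13 (.tw (.s13 (.c 0 (.b 5) (.c 0 (.b 5) (.b 26)))))))))))))),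
  (.tw (.c 0 (.tw (.c 0 (.b 13) (.s13 (.tw (.s12 (.s13 (.c 0 (.b 284) (.c 0 (.b 136) (.b 29))))))))) (.s13 (.c 0 (.s13 (.tw (.c 0 (.tw (.s13 (.tw (.c 0 (.b 13) (.b 137))))) (.tw (.s12 (.s13 (.tw (.c 0 (.b 666) (.s13 (.tw (.s12 (.s13 (.c 0 (.b 136) (.c 0 (.b 136) (.b 136))))))))))))))) (.tw (.c 0 (.b 136) (.c 0 (.b 136) (.b 351)))))))),
  (.tw (.c 0 (.tw (.c 0 (.b 13) (.s13 (.tw (.s12 (.s13 (.c 0 (.b 284) (.c 0 (.b 136) (.b 29))))))))) (.s13 (.c 0 (.tw (.c 0 (.s13 (.tw (.c 0 (.b 13) (.b 462)))) (.tw (.s13 (.tw (.c 0 (.s13 (.tw (.c 0 (.b 24) (.s13 (.tw (.s12 (.s13 (.c 0 (.b 44) (.b 1))))))))) (.s13 (.tw (.c 0 (.s13 (.tw (.c 0 (.b 44) (.b 1)))) (.s13 (.tw (.c 0 (.b 5) (.b 5))))))))))))) (.b 1))))),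
  (.tw (.c 0 (.tw (.c 0 (.b 13) (.s13 (.tw (.s12 (.s13 (.c 0 (.b 57) (.s13 (.tw (.s12 (.s13 (.c 0 (.b 381) (.b 478))))))))))))) (.s13 (.tw (.c 0 (.s13 (.tw (.c 0 (.b 13) (.b 462)))) (.tw (.s13 (.tw (.c 0 (.s13 (.tw (.c 0 (.b 304) (.b 44)))) (.s13 (.tw (.c 0 (.s13 (.tw (.c 0 (.b 44) (.b 1)))) (.s13 (.tw (.c 0 (.b 5) (.b 5)))))))))))))))),
  (.tw (.c 0 (.tw (.c 0 (.b 13) (.s13 (.tw (.s12 (.s13 (.c 0 (.b 284) (.c 0 (.b 136) (.b 29))))))))) (.s13 (.c 0 (.tw (.c 0 (.s13 (.tw (.c 0 (.b 13) (.b 462)))) (.tw (.s13 (.tw (.c 0 (.s13 (.tw (.c 0 (.b 249) (.b 44)))) (.s13 (.tw (.c 0 (.s13 (.tw (.c 0 (.b 44) (.b 1)))) (.s13 (.tw (.c 0 (.b 5) (.b 5))))))))))))) (.b 1))))),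
  (.tw (.c 0 (.tw (.c 0 (.b 13) (.s13 (.tw (.s12 (.s13 (.c 0 (.b 284) (.c 0 (.b 136) (.b 29))))))))) (.s13 (.c 0 (.tw (.c 0 (.b 718) (.tw (.s13 (.tw (.c 0 (.s13 (.tw (.c 0 (.b 12) (.b 172)))) (.s13 (.tw (.s12 (.s13 (.c 0 (.b 136) (.c 0 (.b 136) (.b 136))))))))))))) (.tw (.c 0 (.b 718) (.c 0 (.b 136) (.b 136)))))))),
  (.tw (.c 0 (.tw (.c 0 (.b 13) (.s13 (.tw (.s12 (.s13 (.c 0 (.b 57) (.s13 (.tw (.s12 (.s13 (.c 0 (.b 381) (.b 478))))))))))))) (.s13 (.tw (.c 0 (.s13 (.tw (.c 0 (.b 13) (.b 462)))) (.tw (.s13 (.tw (.c 0 (.s13 (.tw (.c 0 (.b 136) (.tw (.s12 (.s13 (.tw (.c 0 (.b 63) (.b 381))))))))) (.s13 (.tw (.c 0 (.s13 (.tw (.c 0 (.b 44) (.b 1)))) (.s13 (.tw (.c 0 (.b 5) (.b 5)))))))))))))))),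
  (.tw (.c 0 (.tw (.c 0 (.b 13) (.s13 (.tw (.s12 (.s13 (.c 0 (.b 284) (.c 0 (.b 136) (.b 29))))))))) (.s13 (.c 0 (.tw (.c 0 (.s13 (.tw (.c 0 (.b 26) (.b 137)))) (.tw (.s13 (.tw (.c 0 (.s13 (.tw (.c 0 (.b 12) (.b 172)))) (.s13 (.tw (.s12 (.s13 (.c 0 (.b 136) (.b 180)))))))))))) (.tw (.c 0 (.b 718) (.c 0 (.b 136) (.b 136)))))))),
  (.tw (.c 0 (.tw (.c 0 (.b 13) (.s13 (.tw (.s12 (.s13 (.c 0 (.b 284) (.c 0 (.b 136) (.b 29))))))))) (.s13 (.c 0 (.tw (.c 0 (.s13 (.tw (.c 0 (.b 12) (.b 137)))) (.tw (.s13 (.tw (.c 0 (.s13 (.tw (.c 0 (.b 12) (.b 172)))) (.s13 (.tw (.s12 (.s13 (.c 0 (.b 136) (.b 44)))))))))))) (.tw (.c 0 (.b 718) (.c 0 (.b 136) (.b 136)))))))),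
  (.tw (.c 0 (.tw (.c 0 (.b 13) (.s13 (.tw (.s12 (.s13 (.c 0 (.b 136) (.c 0 (.b 260) (.b 147))))))))) (.s13 (.tw (.c 0 (.s13 (.tw (.c 0 (.b 684) (.b 666)))) (.tw (.s13 (.tw (.c 0 (.s13 (.tw (.c 0 (.b 136) (.s13 (.tw (.s12 (.s13 (.c 0 (.b 44) (.b 1))))))))) (.s13 (.tw (.c 0 (.b 5) (.s13 (.tw (.c 0 (.b 124) (.b 124)))))))))))))))),
  (.tw (.c 0 (.tw (.c 0 (.b 13) (.s13 (.tw (.s12 (.s13 (.c 0 (.b 57) (.s13 (.tw (.s12 (.s13 (.c 0 (.b 381) (.b 478))))))))))))) (.s13 (.tw (.c 0 (.s13 (.tw (.c 0 (.b 14) (.s13 (.tw (.s12 (.s13 (.c 0 (.b 63) (.b 536))))))))) (.s13 (.tw (.c 0 (.tw (.s13 (.s12 (.c 0 (.s13 (.tw (.s12 (.c 0 (.b 63) (.b 381))))) (.s13 (.tw (.s12 (.c 0 (.b 124) (.b 44))))))))) (.s13 (.tw (.c 0 (.b 136) (.b 44)))))))))))),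
  (.tw (.c 0 (.tw (.c 0 (.b 13) (.s13 (.tw (.s12 (.s13 (.c 0 (.b 284) (.c 0 (.b 136) (.b 29))))))))) (.s13 (.c 0 (.tw (.c 0 (.s13 (.tw (.c 0 (.b 14) (.s13 (.tw (.s12 (.s13 (.c 0 (.b 381) (.b 351))))))))) (.tw (.s13 (.tw (.c 0 (.s13 (.tw (.c 0 (.b 136) (.b 44)))) (.s13 (.tw (.c 0 (.b 143) (.s13 (.tw (.c 0 (.b 82) (.b 5))))))))))))) (.b 1))))),
  (.c 0 (.tw (.c 0 (.b 348) (.s13 (.tw (.s12 (.s13 (.c 0 (.b 13) (.c 0 (.b 63) (.b 159))))))))) (.s13 (.tw (.c 0 (.s12 (.s13 (.tw (.c 0 (.s13 (.tw (.s12 (.s13 (.c 0 (.b 14) (.c 0 (.b 136) (.b 136))))))) (.b 29))))) (.tw (.s12 (.s13 (.tw (.c 0 (.s13 (.tw (.s12 (.c 0 (.b 136) (.b 405))))) (.s13 (.tw (.c 0 (.b 73) (.s13 (.tw (.c 0 (.b 5) (.b 124)))))))))))))))),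
  (.c 0 (.tw (.c 0 (.b 13) (.s13 (.tw (.s12 (.s13 (.c 0 (.b 284) (.c 0 (.b 136) (.b 29))))))))) (.s13 (.tw (.c 0 (.s12 (.s13 (.tw (.c 0 (.s13 (.tw (.s12 (.s13 (.c 0 (.b 14) (.c 0 (.b 136) (.b 136))))))) (.b 29))))) (.tw (.s12 (.s13 (.tw (.c 0 (.s13 (.tw (.s12 (.c 0 (.b 136) (.b 405))))) (.s13 (.tw (.c 0 (.b 73) (.s13 (.tw (.c 0 (.b 5) (.b 124)))))))))))))))),
  (.tw (.c 0 (.tw (.c 0 (.b 13) (.s13 (.tw (.s12 (.s13 (.c 0 (.b 284) (.c 0 (.b 136) (.b 29))))))))) (.s13 (.c 0 (.tw (.c 0 (.b 718) (.tw (.s13 (.tw (.c 0 (.s13 (.tw (.c 0 (.b 12) (.b 172)))) (.s13 (.tw (.s12 (.s13 (.c 0 (.b 136) (.c 0 (.b 136) (.b 136))))))))))))) (.tw (.c 0 (.b 460) (.s13 (.tw (.s12 (.s13 (.c 0 (.b 136) (.b 351)))))))))))),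
  (.tw (.c 0 (.tw (.c 0 (.b 13) (.s13 (.tw (.s12 (.s13 (.c 0 (.b 57) (.s13 (.tw (.s12 (.s13 (.c 0 (.b 381) (.b 478))))))))))))) (.s13 (.tw (.c 0 (.tw (.c 0 (.b 319) (.b 304))) (.tw (.s13 (.tw (.c 0 (.s13 (.tw (.c 0 (.b 136) (.b 44)))) (.tw (.s12 (.s13 (.tw (.c 0 (.s13 (.tw (.c 0 (.b 44) (.b 12)))) (.s13 (.tw (.s12 (.c 0 (.b 5) (.b 124))))))))))))))))))),
  (.tw (.c 0 (.tw (.c 0 (.b 13) (.s13 (.tw (.s12 (.s13 (.c 0 (.b 284) (.c 0 (.b 136) (.b 29))))))))) (.s13 (.c 0 (.tw (.c 0 (.s13 (.tw (.c 0 (.b 26) (.b 137)))) (.tw (.s13 (.tw (.c 0 (.s13 (.tw (.c 0 (.b 12) (.b 172)))) (.s13 (.tw (.s12 (.s13 (.c 0 (.b 136) (.b 180)))))))))))) (.tw (.c 0 (.b 460) (.s13 (.tw (.s12 (.s13 (.c 0 (.b 136) (.b 351)))))))))))),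
  (.c 0 (.tw (.c 0 (.b 13) (.s13 (.tw (.s12 (.s13 (.c 0 (.b 284) (.c 0 (.b 136) (.b 29))))))))) (.s13 (.c 0 (.tw (.c 0 (.s13 (.tw (.c 0 (.b 12) (.b 137)))) (.tw (.s13 (.tw (.c 0 (.s13 (.tw (.c 0 (.b 12) (.b 172)))) (.s13 (.tw (.s12 (.s13 (.c 0 (.b 136) (.b 44)))))))))))) (.tw (.c 0 (.b 718) (.c 0 (.b 136) (.b 136))))))),
  (.tw (.c 0 (.tw (.c 0 (.b 13) (.s13 (.tw (.s12 (.s13 (.c 0 (.b 57) (.s13 (.tw (.s12 (.s13 (.c 0 (.b 381) (.b 478))))))))))))) (.s13 (.tw (.c 0 (.s13 (.tw (.c 0 (.b 136) (.b 236)))) (.tw (.s13 (.tw (.c 0 (.s13 (.tw (.c 0 (.b 136) (.tw (.s12 (.s13 (.tw (.c 0 (.b 63) (.b 381))))))))) (.s13 (.tw (.c 0 (.s13 (.tw (.c 0 (.b 44) (.b 1)))) (.s13 (.tw (.c 0 (.b 5) (.b 124)))))))))))))))),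
  (.tw (.c 0 (.tw (.c 0 (.b 13) (.s13 (.tw (.s12 (.s13 (.c 0 (.b 284) (.c 0 (.b 136) (.b 29))))))))) (.s13 (.c 0 (.tw (.c 0 (.s13 (.tw (.c 0 (.b 136) (.b 236)))) (.tw (.s13 (.tw (.c 0 (.s13 (.tw (.c 0 (.b 136) (.s13 (.tw (.s12 (.s13 (.c 0 (.b 44) (.b 1))))))))) (.s13 (.tw (.c 0 (.s13 (.tw (.s12 (.c 0 (.b 63) (.b 124))))) (.s13 (.tw (.c 0 (.b 5) (.b 124))))))))))))) (.b 1))))),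
  (.tw (.c 0 (.tw (.c 0 (.b 13) (.s13 (.tw (.s12 (.s13 (.c 0 (.b 136) (.c 0 (.b 260) (.b 147))))))))) (.s13 (.tw (.c 0 (.s13 (.tw (.c 0 (.b 684) (.b 304)))) (.tw (.s13 (.tw (.c 0 (.s13 (.tw (.c 0 (.b 136) (.s13 (.tw (.s12 (.s13 (.c 0 (.b 44) (.b 1))))))))) (.s13 (.tw (.c 0 (.s13 (.tw (.c 0 (.b 44) (.b 1)))) (.s13 (.tw (.c 0 (.b 124) (.b 124)))))))))))))))),
  (.tw (.c 0 (.tw (.c 0 (.b 13) (.s13 (.tw (.s12 (.s13 (.c 0 (.b 57) (.s13 (.tw (.s12 (.s13 (.c 0 (.b 381) (.b 478))))))))))))) (.s13 (.tw (.c 0 (.s13 (.tw (.c 0 (.b 136) (.b 236)))) (.tw (.s13 (.tw (.c 0 (.tw (.s13 (.tw (.c 0 (.s13 (.tw (.s12 (.c 0 (.b 63) (.b 381))))) (.s13 (.tw (.s12 (.c 0 (.b 124) (.b 44))))))))) (.s13 (.tw (.c 0 (.b 136) (.s13 (.tw (.s12 (.s13 (.c 0 (.b 44) (.b 1)))))))))))))))))),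
  (.tw (.c 0 (.tw (.c 0 (.b 13) (.s13 (.tw (.s12 (.s13 (.c 0 (.b 284) (.c 0 (.b 136) (.b 29))))))))) (.s13 (.c 0 (.tw (.c 0 (.s13 (.tw (.c 0 (.b 136) (.b 236)))) (.tw (.s13 (.tw (.c 0 (.s13 (.tw (.c 0 (.b 136) (.b 44)))) (.tw (.s12 (.s13 (.tw (.c 0 (.b 210) (.s13 (.tw (.s12 (.s13 (.c 0 (.b 601) (.b 5))))))))))))))))) (.b 1))))),
  (.c 0 (.tw (.c 0 (.b 348) (.s13 (.tw (.s12 (.s13 (.c 0 (.b 13) (.c 0 (.b 63) (.b 159))))))))) (.s13 (.tw (.c 0 (.s12 (.s13 (.tw (.c 0 (.b 13) (.s13 (.tw (.s12 (.s13 (.c 0 (.b 13) (.b 337)))))))))) (.tw (.s12 (.s13 (.tw (.c 0 (.s13 (.tw (.c 0 (.b 136) (.s13 (.tw (.s12 (.s13 (.c 0 (.b 44) (.b 1))))))))) (.s13 (.tw (.c 0 (.tw (.c 0 (.b 63) (.b 136))) (.s13 (.tw (.c 0 (.b 5) (.b 5)))))))))))))))),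
  (.c 0 (.tw (.c 0 (.b 13) (.s13 (.tw (.s12 (.s13 (.c 0 (.b 284) (.c 0 (.b 136) (.b 29))))))))) (.s13 (.tw (.c 0 (.s12 (.s13 (.tw (.c 0 (.b 13) (.s13 (.tw (.s12 (.s13 (.c 0 (.b 13) (.b 337)))))))))) (.tw (.s12 (.s13 (.tw (.c 0 (.s13 (.tw (.c 0 (.b 136) (.s13 (.tw (.s12 (.s13 (.c 0 (.b 44) (.b 1))))))))) (.s13 (.tw (.c 0 (.tw (.c 0 (.b 63) (.b 136))) (.s13 (.tw (.c 0 (.b 5) (.b 5)))))))))))))))),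
  (.tw (.c 0 (.tw (.c 0 (.b 13) (.s13 (.tw (.s12 (.s13 (.c 0 (.b 57) (.s13 (.tw (.s12 (.s13 (.c 0 (.b 381) (.b 478))))))))))))) (.s13 (.tw (.c 0 (.s13 (.tw (.c 0 (.b 14) (.s13 (.tw (.s12 (.s13 (.c 0 (.b 136) (.b 536))))))))) (.tw (.s13 (.tw (.c 0 (.s13 (.tw (.c 0 (.b 5) (.s13 (.tw (.c 0 (.b 124) (.b 200))))))) (.s13 (.tw (.c 0 (.b 136) (.s13 (.tw (.s12 (.s13 (.c 0 (.b 44) (.b 1)))))))))))))))))),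
  (.c 0 (.tw (.c 0 (.b 13) (.s13 (.tw (.s12 (.s13 (.c 0 (.b 13) (.c 0 (.b 14) (.s13 (.tw (.s12 (.s13 (.c 0 (.b 381) (.b 381)))))))))))))) (.s13 (.tw (.c 0 (.s12 (.s13 (.tw (.c 0 (.b 13) (.b 546))))) (.tw (.s12 (.s13 (.tw (.c 0 (.s13 (.tw (.c 0 (.b 136) (.tw (.s12 (.s13 (.tw (.c 0 (.b 44) (.b 12))))))))) (.s13 (.tw (.c 0 (.s13 (.tw (.c 0 (.b 44) (.b 1)))) (.s13 (.tw (.c 0 (.b 5) (.b 5)))))))))))))))),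
  (.c 0 (.tw (.c 0 (.b 13) (.s13 (.tw (.s12 (.s13 (.c 0 (.b 13) (.c 0 (.b 14) (.s13 (.tw (.s12 (.s13 (.c 0 (.b 381) (.b 381)))))))))))))) (.s13 (.tw (.c 0 (.s13 (.tw (.c 0 (.b 13) (.b 236)))) (.tw (.s13 (.tw (.c 0 (.s13 (.tw (.c 0 (.b 136) (.s13 (.tw (.s12 (.s13 (.c 0 (.b 44) (.b 1))))))))) (.s13 (.tw (.c 0 (.s13 (.tw (.c 0 (.b 44) (.b 1)))) (.s13 (.tw (.c 0 (.b 5) (.b 5))))))))))))))),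
  (.tw (.c 0 (.tw (.c 0 (.b 13) (.s13 (.tw (.s12 (.s13 (.c 0 (.b 136) (.c 0 (.b 260) (.b 147))))))))) (.s13 (.tw (.c 0 (.s13 (.tw (.c 0 (.b 684) (.b 304)))) (.tw (.s13 (.tw (.c 0 (.s13 (.tw (.c 0 (.b 136) (.b 536)))) (.s12 (.s13 (.tw (.c 0 (.s13 (.tw (.s12 (.c 0 (.b 14) (.b 239))))) (.s13 (.tw (.c 0 (.b 44) (.b 12))))))))))))))))),
  (.tw (.c 0 (.tw (.c 0 (.b 13) (.s13 (.tw (.s12 (.s13 (.c 0 (.b 57) (.s13 (.tw (.s12 (.s13 (.c 0 (.b 381) (.b 478))))))))))))) (.s13 (.tw (.c 0 (.s13 (.tw (.c 0 (.b 684) (.b 304)))) (.tw (.s13 (.tw (.c 0 (.s13 (.tw (.c 0 (.b 136) (.b 351)))) (.tw (.s12 (.s13 (.tw (.c 0 (.s13 (.tw (.c 0 (.b 44) (.b 12)))) (.s13 (.tw (.s12 (.c 0 (.b 5) (.b 124))))))))))))))))))),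
  (.tw (.c 0 (.tw (.c 0 (.b 13) (.s13 (.tw (.s12 (.s13 (.c 0 (.b 284) (.c 0 (.b 136) (.b 29))))))))) (.s13 (.c 0 (.tw (.c 0 (.s13 (.tw (.c 0 (.b 136) (.b 236)))) (.tw (.s13 (.tw (.c 0 (.s13 (.tw (.c 0 (.b 14) (.c 0 (.b 136) (.b 136))))) (.tw (.s12 (.s13 (.tw (.c 0 (.s13 (.tw (.c 0 (.b 44) (.b 12)))) (.s13 (.tw (.s12 (.c 0 (.b 5) (.b 124)))))))))))))))) (.b 1))))),
  (.c 0 (.tw (.c 0 (.b 348) (.s13 (.tw (.s12 (.s13 (.c 0 (.b 13) (.c 0 (.b 63) (.b 159))))))))) (.s13 (.tw (.c 0 (.s12 (.s13 (.tw (.c 0 (.b 13) (.s13 (.tw (.s12 (.s13 (.c 0 (.b 13) (.b 546)))))))))) (.tw (.s12 (.s13 (.tw (.c 0 (.s13 (.tw (.c 0 (.b 136) (.s13 (.tw (.s12 (.s13 (.c 0 (.b 44) (.b 1))))))))) (.s13 (.tw (.c 0 (.tw (.c 0 (.b 63) (.b 136))) (.s13 (.tw (.c 0 (.b 5) (.b 5)))))))))))))))),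
  (.tw (.c 0 (.tw (.c 0 (.b 13) (.s13 (.tw (.s12 (.s13 (.c 0 (.b 57) (.s13 (.tw (.s12 (.s13 (.c 0 (.b 381) (.b 478))))))))))))) (.s13 (.tw (.c 0 (.tw (.s13 (.c 0 (.b 70) (.b 45)))) (.tw (.s13 (.tw (.c 0 (.s12 (.s13 (.tw (.c 0 (.s13 (.tw (.s12 (.c 0 (.b 239) (.b 1))))) (.s13 (.tw (.c 0 (.b 58) (.b 44)))))))) (.s13 (.tw (.c 0 (.b 136) (.b 44))))))))))))),
  (.c 0 (.tw (.c 0 (.b 13) (.s13 (.tw (.s12 (.s13 (.c 0 (.b 284) (.c 0 (.b 136) (.b 29))))))))) (.s13 (.c 0 (.tw (.c 0 (.s13 (.tw (.c 0 (.b 136) (.s13 (.tw (.s12 (.s13 (.c 0 (.b 13) (.b 139))))))))) (.tw (.s13 (.tw (.c 0 (.s13 (.tw (.c 0 (.b 136) (.b 44)))) (.s13 (.tw (.c 0 (.b 5) (.s13 (.tw (.c 0 (.b 384) (.b 5))))))))))))) (.b 1)))),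
  (.c 0 (.tw (.c 0 (.b 13) (.s13 (.tw (.s12 (.s13 (.c 0 (.b 284) (.c 0 (.b 136) (.b 29))))))))) (.s13 (.tw (.c 0 (.s12 (.s13 (.tw (.c 0 (.b 13) (.s13 (.tw (.s12 (.s13 (.c 0 (.b 13) (.b 546)))))))))) (.tw (.s12 (.s13 (.tw (.c 0 (.s13 (.tw (.c 0 (.b 136) (.s13 (.tw (.s12 (.s13 (.c 0 (.b 44) (.b 1))))))))) (.s13 (.tw (.c 0 (.tw (.c 0 (.b 63) (.b 136))) (.s13 (.tw (.c 0 (.b 5) (.b 5)))))))))))))))),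
  (.c 0 (.tw (.c 0 (.b 13) (.s13 (.tw (.s12 (.s13 (.c 0 (.b 13) (.c 0 (.b 14) (.s13 (.tw (.s12 (.s13 (.c 0 (.b 381) (.b 381)))))))))))))) (.s13 (.tw (.c 0 (.s13 (.tw (.c 0 (.b 279) (.b 29)))) (.tw (.s13 (.tw (.c 0 (.s13 (.tw (.c 0 (.b 136) (.s13 (.tw (.s12 (.s13 (.c 0 (.b 44) (.b 1))))))))) (.s13 (.tw (.c 0 (.s13 (.tw (.c 0 (.b 44) (.b 1)))) (.s13 (.tw (.c 0 (.b 5) (.b 5))))))))))))))),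
  (.c 0 (.tw (.c 0 (.b 13) (.s13 (.tw (.s12 (.s13 (.c 0 (.b 13) (.c 0 (.b 14) (.s13 (.tw (.s12 (.s13 (.c 0 (.b 381) (.b 381)))))))))))))) (.s13 (.tw (.c 0 (.s13 (.tw (.c 0 (.b 136) (.s13 (.tw (.s12 (.s13 (.c 0 (.b 13) (.b 139))))))))) (.tw (.s13 (.tw (.c 0 (.s13 (.tw (.c 0 (.b 136) (.b 44)))) (.s13 (.tw (.c 0 (.b 5) (.s13 (.tw (.c 0 (.b 384) (.b 5))))))))))))))),
  (.c 0 (.tw (.c 0 (.b 14) (.s13 (.tw (.s12 (.s13 (.c 0 (.b 13) (.s13 (.tw (.s12 (.s13 (.c 0 (.b 136) (.s13 (.tw (.s12 (.s13 (.c 0 (.b 63) (.b 369)))))))))))))))))) (.s13 (.tw (.c 0 (.s13 (.tw (.c 0 (.b 260) (.b 147)))) (.s12 (.s13 (.tw (.c 0 (.s13 (.tw (.c 0 (.b 136) (.b 536)))) (.s13 (.tw (.s12 (.c 0 (.b 73) (.s13 (.tw (.c 0 (.b 5) (.b 5)))))))))))))))),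
  (.tw (.c 0 (.tw (.c 0 (.b 13) (.s13 (.tw (.s12 (.s13 (.c 0 (.b 284) (.c 0 (.b 136) (.b 29))))))))) (.s13 (.c 0 (.tw (.c 0 (.s13 (.tw (.c 0 (.s13 (.tw (.s12 (.c 0 (.b 239) (.b 1))))) (.tw (.s12 (.s13 (.tw (.c 0 (.b 5) (.b 239))))))))) (.s12 (.s13 (.tw (.c 0 (.s13 (.tw (.s12 (.c 0 (.b 239) (.b 1))))) (.tw (.s12 (.s13 (.tw (.c 0 (.b 5) (.b 239)))))))))))) (.b 1))))),
  (.tw (.c 0 (.tw (.c 0 (.b 13) (.s13 (.tw (.s12 (.s13 (.c 0 (.b 57) (.s13 (.tw (.s12 (.s13 (.c 0 (.b 381) (.b 478))))))))))))) (.s13 (.tw (.c 0 (.s13 (.tw (.c 0 (.b 136) (.b 462)))) (.tw (.s13 (.tw (.c 0 (.s13 (.tw (.c 0 (.b 136) (.tw (.s12 (.s13 (.tw (.c 0 (.b 63) (.b 381))))))))) (.s13 (.tw (.c 0 (.s13 (.tw (.c 0 (.b 44) (.b 1)))) (.s13 (.tw (.c 0 (.b 5) (.b 124)))))))))))))))),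
  (.tw (.c 0 (.tw (.c 0 (.b 13) (.s13 (.tw (.s12 (.s13 (.c 0 (.b 284) (.c 0 (.b 136) (.b 29))))))))) (.s13 (.c 0 (.tw (.c 0 (.s13 (.tw (.c 0 (.b 136) (.b 462)))) (.tw (.s13 (.tw (.c 0 (.s13 (.tw (.c 0 (.b 136) (.s13 (.tw (.s12 (.s13 (.c 0 (.b 44) (.b 1))))))))) (.s13 (.tw (.c 0 (.s13 (.tw (.s12 (.c 0 (.b 63) (.b 124))))) (.s13 (.tw (.c 0 (.b 5) (.b 124))))))))))))) (.b 1))))),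
  (.tw (.c 0 (.tw (.c 0 (.b 13) (.s13 (.tw (.s12 (.s13 (.c 0 (.b 136) (.c 0 (.b 260) (.b 147))))))))) (.s13 (.tw (.c 0 (.s13 (.tw (.c 0 (.b 14) (.s13 (.tw (.s12 (.s13 (.c 0 (.b 136) (.b 536))))))))) (.tw (.s13 (.tw (.c 0 (.s12 (.s13 (.tw (.c 0 (.s13 (.tw (.c 0 (.b 334) (.b 26)))) (.s13 (.tw (.c 0 (.b 44) (.b 12)))))))) (.s13 (.tw (.c 0 (.b 136) (.b 536))))))))))))),
  (.tw (.c 0 (.tw (.c 0 (.b 13) (.s13 (.tw (.s12 (.s13 (.c 0 (.b 57) (.s13 (.tw (.s12 (.s13 (.c 0 (.b 381) (.b 478))))))))))))) (.s13 (.tw (.c 0 (.s13 (.tw (.c 0 (.b 136) (.b 462)))) (.tw (.s13 (.tw (.c 0 (.tw (.s13 (.tw (.c 0 (.s13 (.tw (.s12 (.c 0 (.b 63) (.b 381))))) (.s13 (.tw (.s12 (.c 0 (.b 124) (.b 44))))))))) (.s13 (.tw (.c 0 (.b 136) (.s13 (.tw (.s12 (.s13 (.c 0 (.b 44)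 (.b 1)))))))))))))))))),
  (.tw (.c 0 (.tw (.c 0 (.b 13) (.s13 (.tw (.s12 (.s13 (.c 0 (.b 284) (.c 0 (.b 136) (.b 29))))))))) (.s13 (.c 0 (.tw (.c 0 (.s13 (.tw (.c 0 (.b 136) (.b 462)))) (.tw (.s13 (.tw (.c 0 (.s13 (.tw (.c 0 (.b 136) (.b 44)))) (.tw (.s12 (.s13 (.tw (.c 0 (.b 210) (.s13 (.tw (.s12 (.s13 (.c 0 (.b 601) (.b 5))))))))))))))))) (.b 1))))),
  (.c 0 (.tw (.c 0 (.b 348) (.s13 (.tw (.s12 (.s13 (.c 0 (.b 13) (.c 0 (.b 63) (.b 159))))))))) (.s13 (.tw (.c 0 (.s12 (.s13 (.tw (.c 0 (.b 136) (.s13 (.tw (.s12 (.s13 (.c 0 (.b 13) (.b 546)))))))))) (.tw (.s12 (.s13 (.tw (.c 0 (.s13 (.tw (.c 0 (.b 136) (.b 44)))) (.tw (.s12 (.s13 (.tw (.c 0 (.tw (.c 0 (.b 63) (.b 136))) (.s13 (.tw (.c 0 (.b 176) (.b 5)))))))))))))))))),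
  (.c 0 (.tw (.c 0 (.b 13) (.s13 (.tw (.s12 (.s13 (.c 0 (.b 284) (.c 0 (.b 136) (.b 29))))))))) (.s13 (.tw (.c 0 (.s12 (.s13 (.tw (.c 0 (.b 136) (.s13 (.tw (.s12 (.s13 (.c 0 (.b 13) (.b 546)))))))))) (.tw (.s12 (.s13 (.tw (.c 0 (.s13 (.tw (.c 0 (.b 136) (.b 44)))) (.tw (.s12 (.s13 (.tw (.c 0 (.tw (.c 0 (.b 63) (.b 136))) (.s13 (.tw (.c 0 (.b 176) (.b 5)))))))))))))))))),
  (.tw (.c 0 (.tw (.c 0 (.b 13) (.s13 (.tw (.s12 (.s13 (.c 0 (.b 136) (.c 0 (.b 260) (.b 147))))))))) (.s13 (.tw (.c 0 (.s13 (.tw (.c 0 (.b 684) (.b 185)))) (.tw (.s13 (.tw (.c 0 (.s13 (.tw (.c 0 (.b 136) (.b 536)))) (.tw (.s13 (.tw (.c 0 (.s13 (.tw (.s12 (.c 0 (.b 63) (.b 381))))) (.s13 (.tw (.s12 (.c 0 (.b 44) (.b 12)))))))))))))))))),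
  (.tw (.c 0 (.tw (.c 0 (.b 13) (.s13 (.tw (.s12 (.s13 (.c 0 (.b 57) (.s13 (.tw (.s12 (.s13 (.c 0 (.b 381) (.b 478))))))))))))) (.s13 (.tw (.c 0 (.s13 (.tw (.c 0 (.b 14) (.s13 (.tw (.s12 (.s13 (.c 0 (.b 136) (.b 351))))))))) (.tw (.s13 (.tw (.c 0 (.s13 (.tw (.c 0 (.b 136) (.tw (.s12 (.s13 (.tw (.c 0 (.b 63) (.b 381))))))))) (.tw (.s13 (.tw (.c 0 (.s13 (.tw (.s12 (.c 0 (.b 63) (.b 381))))) (.s13 (.tw (.c 0 (.b 63) (.b 44))))))))))))))))),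
  (.tw (.c 0 (.tw (.c 0 (.b 13) (.s13 (.tw (.s12 (.s13 (.c 0 (.b 284) (.c 0 (.b 136) (.b 29))))))))) (.s13 (.c 0 (.tw (.c 0 (.s13 (.tw (.c 0 (.b 136) (.b 462)))) (.tw (.s13 (.tw (.c 0 (.s13 (.tw (.c 0 (.b 14) (.c 0 (.b 136) (.b 136))))) (.tw (.s12 (.s13 (.tw (.c 0 (.s13 (.tw (.c 0 (.b 44) (.b 12)))) (.s13 (.tw (.s12 (.c 0 (.b 5) (.b 124)))))))))))))))) (.b 1))))),
  (.c 0 (.tw (.c 0 (.b 348) (.s13 (.tw (.s12 (.s13 (.c 0 (.b 13) (.c 0 (.b 63) (.b 159))))))))) (.s13 (.tw (.c 0 (.s12 (.s13 (.tw (.s12 (.c 0 (.b 136) (.b 147)))))) (.tw (.s12 (.s13 (.tw (.c 0 (.tw (.s12 (.s13 (.tw (.c 0 (.b 67) (.s13 (.tw (.s13 (.c 0 (.b 14) (.b 44)))))))))) (.s13 (.tw (.c 0 (.tw (.c 0 (.b 63) (.b 136))) (.s13 (.tw (.c 0 (.b 5) (.b 5)))))))))))))))),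
  (.tw (.c 0 (.tw (.c 0 (.b 13) (.s13 (.tw (.s12 (.s13 (.c 0 (.b 57) (.s13 (.tw (.s12 (.s13 (.c 0 (.b 381) (.b 478))))))))))))) (.tw (.s13 (.s12 (.c 0 (.s13 (.tw (.s12 (.c 0 (.b 136) (.s13 (.tw (.s12 (.s13 (.c 0 (.b 136) (.s13 (.tw (.s12 (.s13 (.c 0 (.b 44) (.b 1))))))))))))))) (.s13 (.tw (.s12 (.c 0 (.tw (.s12 (.s13 (.tw (.c 0 (.b 82) (.b 239)))))) (.tw (.s12 (.s13 (.tw (.c 0 (.b 5) (.b 247)))))))))))))))),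
  (.c 0 (.tw (.c 0 (.b 13) (.s13 (.tw (.s12 (.s13 (.c 0 (.b 284) (.c 0 (.b 136) (.b 29))))))))) (.s13 (.c 0 (.tw (.c 0 (.s13 (.tw (.c 0 (.b 57) (.s13 (.tw (.s12 (.s13 (.c 0 (.b 57) (.b 44))))))))) (.tw (.s13 (.tw (.c 0 (.s13 (.tw (.c 0 (.b 136) (.b 44)))) (.s13 (.tw (.c 0 (.b 5) (.s13 (.tw (.c 0 (.b 384) (.b 5))))))))))))) (.b 1)))),
  (.c 0 (.tw (.c 0 (.b 13) (.s13 (.tw (.s12 (.s13 (.c 0 (.b 284) (.c 0 (.b 136) (.b 29))))))))) (.s13 (.tw (.c 0 (.s12 (.s13 (.tw (.s12 (.c 0 (.b 136) (.b 147)))))) (.tw (.s12 (.s13 (.tw (.c 0 (.tw (.s12 (.s13 (.tw (.c 0 (.b 67) (.s13 (.tw (.s13 (.c 0 (.b 14) (.b 44)))))))))) (.s13 (.tw (.c 0 (.tw (.c 0 (.b 63) (.b 136))) (.s13 (.tw (.c 0 (.b 5) (.b 5)))))))))))))))),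
  (.c 0 (.tw (.c 0 (.b 13) (.s13 (.tw (.s12 (.s13 (.c 0 (.b 13) (.c 0 (.b 14) (.s13 (.tw (.s12 (.s13 (.c 0 (.b 381) (.b 381)))))))))))))) (.s13 (.tw (.c 0 (.s12 (.s13 (.tw (.s12 (.c 0 (.b 13) (.b 546)))))) (.tw (.s12 (.s13 (.tw (.c 0 (.tw (.s12 (.s13 (.tw (.c 0 (.b 67) (.s13 (.tw (.s13 (.c 0 (.b 14) (.b 44)))))))))) (.s13 (.tw (.c 0 (.s13 (.tw (.c 0 (.b 44) (.b 1)))) (.s13 (.tw (.c 0 (.b 5) (.b 5)))))))))))))))),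
  (.c 0 (.tw (.c 0 (.b 13) (.s13 (.tw (.s12 (.s13 (.c 0 (.b 13) (.c 0 (.b 14) (.s13 (.tw (.s12 (.s13 (.c 0 (.b 381) (.b 381)))))))))))))) (.s13 (.tw (.c 0 (.s13 (.tw (.c 0 (.b 57) (.s13 (.tw (.s12 (.s13 (.c 0 (.b 57) (.b 44))))))))) (.tw (.s13 (.tw (.c 0 (.s13 (.tw (.c 0 (.b 136) (.b 44)))) (.s13 (.tw (.c 0 (.b 5) (.s13 (.tw (.c 0 (.b 384) (.b 5))))))))))))))),
  (.tw (.c 0 (.tw (.c 0 (.tw (.s12 (.s13 (.tw (.c 0 (.b 63) (.b 159)))))) (.s13 (.tw (.s12 (.s13 (.c 0 (.b 63) (.c 0 (.b 284) (.b 27))))))))) (.s13 (.tw (.c 0 (.s13 (.tw (.c 0 (.b 14) (.s13 (.tw (.s12 (.s13 (.c 0 (.b 63) (.b 44))))))))) (.s12 (.s13 (.c 0 (.tw (.c 0 (.b 14) (.s13 (.tw (.s12 (.s13 (.c 0 (.b 136) (.b 44)))))))) (.s13 (.tw (.s13 (.c 0 (.b 70) (.b 45))))))))))))),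
  (.tw (.c 0 (.tw (.c 0 (.b 13) (.s13 (.tw (.s12 (.s13 (.c 0 (.b 136) (.c 0 (.b 260) (.b 147))))))))) (.s13 (.tw (.c 0 (.s13 (.tw (.c 0 (.b 684) (.b 185)))) (.s13 (.c 0 (.tw (.c 0 (.b 304) (.tw (.s12 (.s13 (.tw (.c 0 (.b 44) (.b 12)))))))) (.s13 (.tw (.s13 (.c 0 (.b 70) (.b 45)))))))))))),
  (.tw (.c 0 (.tw (.c 0 (.b 13) (.s13 (.tw (.s12 (.s13 (.c 0 (.b 57) (.s13 (.tw (.s12 (.s13 (.c 0 (.b 381) (.b 478))))))))))))) (.s13 (.tw (.c 0 (.s13 (.tw (.c 0 (.b 14) (.s13 (.tw (.s12 (.s13 (.c 0 (.b 136) (.b 351))))))))) (.s13 (.c 0 (.s12 (.s13 (.tw (.s12 (.c 0 (.b 693) (.s13 (.tw (.s12 (.s13 (.c 0 (.b 63) (.b 44))))))))))) (.s13 (.tw (.s13 (.c 0 (.b 70) (.b 45)))))))))))),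
  (.tw (.c 0 (.tw (.c 0 (.b 13) (.s13 (.tw (.s12 (.s13 (.c 0 (.b 284) (.c 0 (.b 136) (.b 29))))))))) (.s13 (.c 0 (.tw (.c 0 (.s13 (.tw (.c 0 (.b 14) (.s13 (.tw (.s12 (.s13 (.c 0 (.b 136) (.b 351))))))))) (.s13 (.c 0 (.s12 (.s13 (.tw (.s12 (.c 0 (.b 666) (.s13 (.tw (.s12 (.s13 (.c 0 (.b 63) (.b 44))))))))))) (.s13 (.tw (.s13 (.c 0 (.b 70) (.b 45))))))))) (.b 1))))),
  (.tw (.c 0 (.s12 (.s13 (.tw (.s12 (.c 0 (.b 13) (.s13 (.tw (.s12 (.s13 (.c 0 (.b 136) (.s13 (.tw (.s12 (.s13 (.c 0 (.b 284) (.b 147)))))))))))))))) (.s13 (.tw (.s12 (.c 0 (.s13 (.tw (.c 0 (.b 136) (.tw (.s12 (.s13 (.tw (.c 0 (.b 63) (.b 381))))))))) (.tw (.s12 (.s13 (.tw (.c 0 (.tw (.s12 (.s13 (.tw (.c 0 (.tw (.s13 (.s12 (.c 0 (.b 58) (.b 247))))) (.s13 (.tw (.c 0 (.b 44) (.b 12)))))))))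 (.s13 (.tw (.c 0 (.b 136) (.b 536))))))))))))))),
  (.c 0 (.tw (.c 0 (.b 348) (.s13 (.tw (.s12 (.s13 (.c 0 (.b 13) (.c 0 (.b 63) (.b 159))))))))) (.s13 (.tw (.c 0 (.s13 (.tw (.c 0 (.b 13) (.s13 (.tw (.s12 (.s13 (.c 0 (.b 13) (.c 0 (.b 136) (.b 249)))))))))) (.tw (.s13 (.tw (.c 0 (.s13 (.tw (.c 0 (.b 136) (.b 44)))) (.s13 (.tw (.c 0 (.b 5) (.s13 (.tw (.c 0 (.b 384) (.b 5))))))))))))))),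
  (.c 0 (.tw (.c 0 (.b 311) (.s13 (.tw (.s12 (.s13 (.c 0 (.b 23) (.b 21)))))))) (.tw (.c 0 (.s12 (.s13 (.tw (.c 0 (.b 284) (.s13 (.tw (.s12 (.s13 (.c 0 (.b 44) (.b 12)))))))))) (.tw (.s12 (.s13 (.tw (.c 0 (.s13 (.tw (.s12 (.c 0 (.b 14) (.c 0 (.b 136) (.b 124)))))) (.s13 (.tw (.c 0 (.b 5) (.c 0 (.b 5) (.b 26))))))))))))),
  (.c 0 (.tw (.c 0 (.b 13) (.s13 (.tw (.s12 (.s13 (.c 0 (.b 284) (.c 0 (.b 136) (.b 29))))))))) (.s13 (.c 0 (.tw (.c 0 (.s13 (.tw (.c 0 (.b 58) (.s13 (.tw (.s12 (.s13 (.c 0 (.b 14) (.c 0 (.b 136) (.b 136)))))))))) (.tw (.s13 (.tw (.c 0 (.s13 (.tw (.c 0 (.b 136) (.b 44)))) (.tw (.s12 (.s13 (.tw (.c 0 (.b 5) (.s13 (.tw (.s12 (.s13 (.c 0 (.b 5) (.b 63))))))))))))))))) (.b 1)))),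
  (.c 0 (.tw (.c 0 (.b 13) (.s13 (.tw (.s12 (.s13 (.c 0 (.b 284) (.c 0 (.b 136) (.b 29))))))))) (.s13 (.tw (.c 0 (.s13 (.tw (.c 0 (.b 13) (.s13 (.tw (.s12 (.s13 (.c 0 (.b 13) (.c 0 (.b 136) (.b 249)))))))))) (.tw (.s13 (.tw (.c 0 (.s13 (.tw (.c 0 (.b 136) (.b 44)))) (.s13 (.tw (.c 0 (.b 5) (.s13 (.tw (.c 0 (.b 384) (.b 5))))))))))))))),
  (.c 0 (.tw (.c 0 (.b 13) (.s13 (.tw (.s12 (.s13 (.c 0 (.b 13) (.c 0 (.b 14) (.s13 (.tw (.s12 (.s13 (.c 0 (.b 381) (.b 381)))))))))))))) (.s13 (.tw (.c 0 (.s13 (.tw (.c 0 (.b 58) (.s13 (.tw (.s12 (.s13 (.c 0 (.b 14) (.c 0 (.b 136) (.b 136)))))))))) (.tw (.s13 (.tw (.c 0 (.s13 (.tw (.c 0 (.b 136) (.b 44)))) (.tw (.s12 (.s13 (.tw (.c 0 (.b 5) (.s13 (.tw (.s12 (.s13 (.c 0 (.b 5) (.b 63))))))))))))))))))),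
  (.c 0 (.tw (.c 0 (.b 14) (.s13 (.tw (.s12 (.s13 (.c 0 (.b 13) (.s13 (.tw (.s12 (.s13 (.c 0 (.b 136) (.s13 (.tw (.s12 (.s13 (.c 0 (.b 63) (.b 369)))))))))))))))))) (.s12 (.s13 (.tw (.c 0 (.s13 (.tw (.c 0 (.b 14) (.s13 (.tw (.s12 (.s13 (.c 0 (.b 63) (.s13 (.tw (.s12 (.s13 (.c 0 (.b 180) (.b 12)))))))))))))) (.s13 (.tw (.c 0 (.s13 (.tw (.c 0 (.b 136) (.b 44)))) (.s13 (.tw (.s13 (.c 0 (.b 5) (.c 0 (.b 5) (.b 26)))))))))))))),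
  (.tw (.c 0 (.tw (.c 0 (.tw (.s13 (.tw (.c 0 (.b 381) (.b 26))))) (.s13 (.tw (.s12 (.s13 (.c 0 (.b 63) (.b 9)))))))) (.s13 (.tw (.c 0 (.tw (.s13 (.c 0 (.b 70) (.b 45)))) (.s13 (.c 0 (.tw (.s13 (.tw (.s13 (.c 0 (.b 67) (.s13 (.tw (.s13 (.c 0 (.b 14) (.b 44)))))))))) (.tw (.s12 (.s13 (.s12 (.c 0 (.b 67) (.s13 (.tw (.s13 (.c 0 (.b 14) (.b 44))))))))))))))))),
  (.tw (.c 0 (.s12 (.s13 (.tw (.s12 (.c 0 (.b 13) (.s13 (.tw (.s12 (.s13 (.c 0 (.b 136) (.s13 (.tw (.s12 (.s13 (.c 0 (.b 284) (.b 147)))))))))))))))) (.s13 (.tw (.s12 (.c 0 (.s13 (.tw (.c 0 (.b 14) (.s13 (.tw (.s12 (.s13 (.c 0 (.b 14) (.c 0 (.b 136) (.b 136)))))))))) (.s12 (.s13 (.c 0 (.s12 (.s13 (.tw (.s12 (.c 0 (.b 460) (.s13 (.tw (.s12 (.s13 (.c 0 (.b 63) (.b 44))))))))))) (.s13 (.tw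 (.s13 (.c 0 (.b 70) (.b 45)))))))))))))),
  (.c 0 (.tw (.c 0 (.b 348) (.s13 (.tw (.s12 (.s13 (.c 0 (.b 23) (.b 21)))))))) (.s13 (.tw (.c 0 (.s12 (.s13 (.tw (.c 0 (.b 164) (.s13 (.tw (.s12 (.s13 (.c 0 (.b 14) (.c 0 (.b 136) (.b 136))))))))))) (.s13 (.tw (.c 0 (.s13 (.tw (.c 0 (.b 136) (.b 44)))) (.s13 (.tw (.s13 (.c 0 (.b 5) (.s13 (.tw (.c 0 (.b 5) (.b 63))))))))))))))),
  (.c 0 (.tw (.c 0 (.b 348) (.s13 (.tw (.s12 (.s13 (.c 0 (.b 13) (.c 0 (.b 63) (.b 159))))))))) (.s13 (.tw (.c 0 (.s12 (.s13 (.tw (.c 0 (.b 164) (.s13 (.tw (.s12 (.s13 (.c 0 (.b 14) (.c 0 (.b 136) (.b 136))))))))))) (.s13 (.tw (.c 0 (.s13 (.tw (.c 0 (.b 136) (.b 44)))) (.s13 (.tw (.s13 (.c 0 (.b 5) (.s13 (.tw (.c 0 (.b 5) (.b 63))))))))))))))),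
  (.c 0 (.s12 (.s13 (.tw (.s12 (.c 0 (.b 311) (.s13 (.tw (.s13 (.c 0 (.b 526) (.b 16)))))))))) (.s13 (.tw (.s13 (.s12 (.c 0 (.tw (.s12 (.c 0 (.b 14) (.s13 (.tw (.s12 (.s13 (.c 0 (.b 136) (.c 0 (.b 136) (.b 136)))))))))) (.tw (.s13 (.s12 (.c 0 (.s13 (.tw (.c 0 (.b 5) (.b 5)))) (.s13 (.tw (.c 0 (.b 272) (.b 44)))))))))))))),
  (.c 0 (.tw (.c 0 (.b 13) (.s13 (.tw (.s12 (.s13 (.c 0 (.b 284) (.c 0 (.b 136) (.b 29))))))))) (.s13 (.tw (.c 0 (.s12 (.s13 (.tw (.c 0 (.b 164) (.s13 (.tw (.s12 (.s13 (.c 0 (.b 14) (.c 0 (.b 136) (.b 136))))))))))) (.s13 (.tw (.c 0 (.s13 (.tw (.c 0 (.b 136) (.b 44)))) (.s13 (.tw (.s13 (.c 0 (.b 5) (.s13 (.tw (.c 0 (.b 5) (.b 63))))))))))))))),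
  (.c 0 (.s12 (.s13 (.tw (.s12 (.c 0 (.b 14) (.s13 (.tw (.s12 (.s13 (.c 0 (.b 304) (.s13 (.tw (.s12 (.s13 (.c 0 (.b 13) (.b 546)))))))))))))))) (.s13 (.tw (.s13 (.s12 (.c 0 (.tw (.s12 (.c 0 (.b 14) (.s13 (.tw (.s12 (.s13 (.c 0 (.b 136) (.c 0 (.b 136) (.b 136)))))))))) (.tw (.s13 (.s12 (.c 0 (.s13 (.tw (.c 0 (.b 5) (.b 5)))) (.s13 (.tw (.c 0 (.b 272) (.b 44)))))))))))))),
  (.tw (.c 0 (.tw (.c 0 (.b 13) (.s13 (.tw (.s12 (.s13 (.c 0 (.b 13) (.c 0 (.b 136) (.s13 (.tw (.s12 (.s13 (.c 0 (.b 13) (.b 138)))))))))))))) (.s13 (.tw (.c 0 (.s13 (.tw (.c 0 (.b 58) (.s13 (.tw (.s12 (.s13 (.c 0 (.b 136) (.b 536))))))))) (.tw (.s13 (.tw (.c 0 (.s12 (.s13 (.tw (.c 0 (.s13 (.tw (.c 0 (.b 334) (.b 26)))) (.s13 (.tw (.c 0 (.b 63) (.b 381)))))))) (.s13 (.tw (.c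 0 (.b 14) (.c 0 (.b 136) (.b 136)))))))))))))),
  (.tw (.c 0 (.tw (.c 0 (.b 13) (.s13 (.tw (.s12 (.s13 (.c 0 (.b 13) (.c 0 (.b 14) (.s13 (.tw (.s12 (.s13 (.c 0 (.b 381) (.b 381)))))))))))))) (.s13 (.tw (.c 0 (.s13 (.tw (.c 0 (.b 136) (.b 462)))) (.tw (.s13 (.tw (.c 0 (.s13 (.tw (.c 0 (.b 136) (.tw (.s12 (.s13 (.tw (.c 0 (.b 63) (.b 381))))))))) (.s13 (.tw (.c 0 (.s13 (.tw (.s12 (.c 0 (.b 63) (.b 124))))) (.s13 (.tw (.c 0 (.b 5) (.b 124)))))))))))))))),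
  (.tw (.c 0 (.tw (.c 0 (.tw (.s12 (.s13 (.tw (.c 0 (.b 63) (.b 159)))))) (.s13 (.tw (.s12 (.s13 (.c 0 (.b 63) (.c 0 (.b 63) (.b 381))))))))) (.s13 (.tw (.c 0 (.s12 (.s13 (.tw (.s12 (.c 0 (.b 136) (.b 536)))))) (.tw (.s12 (.s13 (.tw (.c 0 (.s12 (.s13 (.tw (.c 0 (.b 136) (.b 29))))) (.s12 (.s13 (.tw (.c 0 (.s13 (.tw (.s12 (.c 0 (.b 14) (.s13 (.tw (.s12 (.s13 (.c 0 (.b 44) (.b 1)))))))))) (.s13 (.tw (.c 0 (.b 63) (.b 44)))))))))))))))))),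
  (.tw (.c 0 (.tw (.c 0 (.b 13) (.s13 (.tw (.s12 (.s13 (.c 0 (.b 13) (.c 0 (.b 136) (.s13 (.tw (.s12 (.s13 (.c 0 (.b 13) (.b 138)))))))))))))) (.s13 (.tw (.c 0 (.s13 (.tw (.c 0 (.b 684) (.b 185)))) (.tw (.s13 (.tw (.c 0 (.s13 (.tw (.c 0 (.b 136) (.b 536)))) (.s13 (.tw (.c 0 (.b 73) (.s13 (.tw (.c 0 (.b 82) (.b 124)))))))))))))))),
  (.tw (.c 0 (.tw (.c 0 (.b 13) (.s13 (.tw (.s12 (.s13 (.c 0 (.b 13) (.c 0 (.b 14) (.s13 (.tw (.s12 (.s13 (.c 0 (.b 381) (.b 381)))))))))))))) (.s13 (.tw (.c 0 (.s13 (.tw (.c 0 (.b 136) (.b 462)))) (.tw (.s13 (.tw (.c 0 (.s13 (.tw (.c 0 (.b 14) (.s13 (.tw (.s12 (.s13 (.c 0 (.b 136) (.b 351))))))))) (.s13 (.tw (.c 0 (.s13 (.tw (.c 0 (.b 44) (.b 1)))) (.s13 (.tw (.c 0 (.b 5) (.b 124)))))))))))))))),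
  (.c 0 (.tw (.c 0 (.b 348) (.s13 (.tw (.s12 (.s13 (.c 0 (.b 13) (.c 0 (.b 63) (.b 159))))))))) (.s13 (.tw (.c 0 (.s12 (.s13 (.tw (.c 0 (.b 13) (.s13 (.tw (.s12 (.s13 (.c 0 (.b 136) (.b 581)))))))))) (.tw (.s12 (.s13 (.tw (.c 0 (.s13 (.tw (.c 0 (.b 136) (.b 44)))) (.s13 (.tw (.c 0 (.tw (.c 0 (.b 63) (.b 136))) (.s13 (.tw (.c 0 (.b 384) (.b 5)))))))))))))))),
  (.tw (.c 0 (.tw (.c 0 (.b 13) (.s13 (.tw (.s12 (.s13 (.c 0 (.b 13) (.c 0 (.b 136) (.s13 (.tw (.s12 (.s13 (.c 0 (.b 13) (.b 138)))))))))))))) (.s13 (.tw (.c 0 (.s13 (.tw (.c 0 (.b 14) (.s13 (.tw (.s12 (.s13 (.c 0 (.b 136) (.b 536))))))))) (.tw (.s13 (.tw (.c 0 (.s12 (.s13 (.tw (.c 0 (.s13 (.tw (.c 0 (.b 334) (.b 26)))) (.s13 (.tw (.c 0 (.b 44) (.b 12)))))))) (.s13 (.tw (.c 0 (.b 136) (.b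 536))))))))))))),
  (.c 0 (.tw (.c 0 (.b 13) (.s13 (.tw (.s12 (.s13 (.c 0 (.b 284) (.c 0 (.b 136) (.b 29))))))))) (.s13 (.c 0 (.tw (.c 0 (.s13 (.tw (.c 0 (.b 57) (.s13 (.tw (.s12 (.s13 (.c 0 (.b 63) (.b 663))))))))) (.tw (.s13 (.tw (.c 0 (.s13 (.tw (.c 0 (.b 136) (.b 44)))) (.s13 (.tw (.c 0 (.b 5) (.s13 (.tw (.c 0 (.b 384) (.b 5))))))))))))) (.b 1)))),
  (.c 0 (.tw (.c 0 (.b 13) (.s13 (.tw (.s12 (.s13 (.c 0 (.b 284) (.c 0 (.b 136) (.b 29))))))))) (.s13 (.tw (.c 0 (.s12 (.s13 (.tw (.c 0 (.b 13) (.s13 (.tw (.s12 (.s13 (.c 0 (.b 136) (.b 581)))))))))) (.tw (.s12 (.s13 (.tw (.c 0 (.s13 (.tw (.c 0 (.b 136) (.b 44)))) (.s13 (.tw (.c 0 (.tw (.c 0 (.b 63) (.b 136))) (.s13 (.tw (.c 0 (.b 384) (.b 5)))))))))))))))),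
  (.tw (.c 0 (.tw (.c 0 (.b 345) (.s13 (.tw (.s12 (.s13 (.c 0 (.b 381) (.c 0 (.b 136) (.b 478))))))))) (.s13 (.tw (.c 0 (.tw (.s13 (.tw (.c 0 (.b 67) (.s13 (.tw (.s13 (.c 0 (.b 14) (.b 44))))))))) (.s13 (.tw (.s12 (.s13 (.c 0 (.tw (.c 0 (.b 136) (.b 136))) (.s13 (.tw (.c 0 (.s13 (.tw (.c 0 (.b 14) (.b 44)))) (.b 247)))))))))))))),
  (.tw (.c 0 (.tw (.c 0 (.tw (.s12 (.s13 (.tw (.c 0 (.b 63) (.b 159)))))) (.s13 (.tw (.s12 (.s13 (.c 0 (.b 63) (.c 0 (.b 63) (.b 381))))))))) (.s13 (.tw (.c 0 (.s12 (.s13 (.tw (.s12 (.c 0 (.b 136) (.b 536)))))) (.tw (.s12 (.s13 (.tw (.c 0 (.s12 (.s13 (.tw (.s12 (.c 0 (.b 13) (.b 598)))))) (.s13 (.tw (.c 0 (.b 296) (.s13 (.tw (.c 0 (.b 5) (.b 5))))))))))))))))),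
  (.tw (.c 0 (.tw (.c 0 (.b 13) (.s13 (.tw (.s12 (.s13 (.c 0 (.b 13) (.c 0 (.b 136) (.s13 (.tw (.s12 (.s13 (.c 0 (.b 13) (.b 138)))))))))))))) (.s13 (.tw (.c 0 (.s13 (.tw (.c 0 (.b 684) (.b 185)))) (.s13 (.c 0 (.tw (.c 0 (.b 304) (.s13 (.tw (.s12 (.s13 (.c 0 (.b 63) (.b 180)))))))) (.s13 (.tw (.s13 (.c 0 (.b 70) (.b 45)))))))))))),
  (.tw (.c 0 (.tw (.c 0 (.b 13) (.s13 (.tw (.s12 (.s13 (.c 0 (.b 13) (.c 0 (.b 14) (.s13 (.tw (.s12 (.s13 (.c 0 (.b 381) (.b 381)))))))))))))) (.s13 (.tw (.c 0 (.s13 (.tw (.c 0 (.b 136) (.b 462)))) (.s13 (.c 0 (.tw (.c 0 (.b 693) (.s13 (.tw (.s12 (.s13 (.c 0 (.b 381) (.b 44)))))))) (.s13 (.tw (.s13 (.c 0 (.b 70) (.b 45)))))))))))),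
  (.tw (.c 0 (.tw (.c 0 (.b 13) (.s13 (.tw (.s12 (.s13 (.c 0 (.b 13) (.c 0 (.b 136) (.s13 (.tw (.s12 (.s13 (.c 0 (.b 13) (.b 138)))))))))))))) (.s13 (.tw (.c 0 (.s13 (.tw (.c 0 (.b 684) (.b 185)))) (.tw (.s13 (.tw (.c 0 (.s13 (.tw (.c 0 (.b 136) (.b 536)))) (.tw (.s13 (.tw (.c 0 (.s13 (.tw (.s12 (.c 0 (.b 63) (.b 381))))) (.s13 (.tw (.s12 (.c 0 (.b 44) (.b 12)))))))))))))))))),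
  (.c 0 (.tw (.c 0 (.b 348) (.s13 (.tw (.s12 (.s13 (.c 0 (.b 13) (.c 0 (.b 63) (.b 159))))))))) (.s13 (.tw (.c 0 (.s13 (.tw (.c 0 (.b 13) (.s13 (.tw (.s12 (.s13 (.c 0 (.b 13) (.c 0 (.b 136) (.b 478)))))))))) (.tw (.s13 (.tw (.c 0 (.s13 (.tw (.c 0 (.b 136) (.b 44)))) (.s13 (.tw (.c 0 (.b 5) (.s13 (.tw (.c 0 (.b 384) (.b 5))))))))))))))),
  (.c 0 (.tw (.c 0 (.b 13) (.s13 (.tw (.s12 (.s13 (.c 0 (.b 13) (.c 0 (.b 14) (.s13 (.tw (.s12 (.s13 (.c 0 (.b 381) (.b 381)))))))))))))) (.s13 (.tw (.c 0 (.s13 (.tw (.c 0 (.b 136) (.s13 (.tw (.s12 (.s13 (.c 0 (.b 13) (.b 138))))))))) (.tw (.s13 (.tw (.c 0 (.s13 (.tw (.c 0 (.b 136) (.b 44)))) (.s13 (.tw (.c 0 (.b 5) (.s13 (.tw (.c 0 (.b 82) (.b 5))))))))))))))),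
  (.c 0 (.tw (.c 0 (.b 13) (.s13 (.tw (.s12 (.s13 (.c 0 (.b 284) (.c 0 (.b 136) (.b 29))))))))) (.s13 (.c 0 (.tw (.c 0 (.s13 (.tw (.c 0 (.b 304) (.s13 (.tw (.s12 (.s13 (.c 0 (.b 63) (.b 400))))))))) (.tw (.s13 (.tw (.c 0 (.s13 (.tw (.c 0 (.b 136) (.b 44)))) (.tw (.s12 (.s13 (.tw (.c 0 (.b 5) (.s13 (.tw (.s12 (.s13 (.c 0 (.b 5) (.b 63))))))))))))))))) (.b 1)))),
  (.c 0 (.tw (.c 0 (.b 13) (.s13 (.tw (.s12 (.s13 (.c 0 (.b 284) (.c 0 (.b 136) (.b 29))))))))) (.s13 (.tw (.c 0 (.s13 (.tw (.c 0 (.b 13) (.s13 (.tw (.s12 (.s13 (.c 0 (.b 13) (.c 0 (.b 136) (.b 478)))))))))) (.tw (.s13 (.tw (.c 0 (.s13 (.tw (.c 0 (.b 136) (.b 44)))) (.s13 (.tw (.c 0 (.b 5) (.s13 (.tw (.c 0 (.b 384) (.b 5))))))))))))))),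
  (.c 0 (.tw (.c 0 (.b 13) (.s13 (.tw (.s12 (.s13 (.c 0 (.b 13) (.c 0 (.b 14) (.s13 (.tw (.s12 (.s13 (.c 0 (.b 381) (.b 381)))))))))))))) (.s13 (.tw (.c 0 (.s13 (.tw (.c 0 (.b 304) (.s13 (.tw (.s12 (.s13 (.c 0 (.b 63) (.b 400))))))))) (.tw (.s13 (.tw (.c 0 (.s13 (.tw (.c 0 (.b 136) (.b 44)))) (.tw (.s12 (.s13 (.tw (.c 0 (.b 5) (.s13 (.tw (.s12 (.s13 (.c 0 (.b 5) (.b 63))))))))))))))))))),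
  (.tw (.c 0 (.tw (.c 0 (.tw (.s12 (.s13 (.tw (.c 0 (.b 63) (.b 159)))))) (.s13 (.tw (.s12 (.s13 (.c 0 (.b 63) (.c 0 (.b 63) (.b 381))))))))) (.s13 (.tw (.c 0 (.s12 (.s13 (.tw (.c 0 (.b 136) (.s13 (.tw (.s12 (.s13 (.c 0 (.b 24) (.b 136)))))))))) (.tw (.s12 (.s13 (.tw (.c 0 (.tw (.c 0 (.b 136) (.b 136))) (.s12 (.s13 (.tw (.c 0 (.s13 (.tw (.c 0 (.b 24) (.b 136)))) (.s13 (.tw (.s12 (.c 0 (.b 13) (.b 400))))))))))))))))))),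
  (.tw (.c 0 (.tw (.c 0 (.b 13) (.s13 (.tw (.s12 (.s13 (.c 0 (.b 13) (.c 0 (.b 136) (.s13 (.tw (.s12 (.s13 (.c 0 (.b 13) (.b 138)))))))))))))) (.s13 (.tw (.c 0 (.s13 (.tw (.c 0 (.b 684) (.b 185)))) (.s13 (.c 0 (.tw (.c 0 (.b 304) (.tw (.s12 (.s13 (.tw (.c 0 (.b 44) (.b 12)))))))) (.s13 (.tw (.s13 (.c 0 (.b 70) (.b 45)))))))))))),
  (.c 0 (.tw (.c 0 (.b 348) (.s13 (.tw (.s12 (.s13 (.c 0 (.b 23) (.b 21)))))))) (.s13 (.c 0 (.tw (.c 0 (.s13 (.tw (.c 0 (.b 14) (.s13 (.tw (.s12 (.s13 (.c 0 (.b 136) (.s13 (.tw (.s12 (.s13 (.c 0 (.b 44) (.b 12)))))))))))))) (.s13 (.tw (.c 0 (.s13 (.tw (.c 0 (.b 63) (.b 44)))) (.s13 (.tw (.s12 (.c 0 (.b 5) (.c 0 (.b 5) (.b 26))))))))))) (.b 1)))),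
  (.c 0 (.tw (.c 0 (.b 348) (.s13 (.tw (.s12 (.s13 (.c 0 (.b 13) (.c 0 (.b 63) (.b 159))))))))) (.s13 (.c 0 (.tw (.c 0 (.s13 (.tw (.c 0 (.b 14) (.s13 (.tw (.s12 (.s13 (.c 0 (.b 136) (.s13 (.tw (.s12 (.s13 (.c 0 (.b 44) (.b 12)))))))))))))) (.s13 (.tw (.c 0 (.s13 (.tw (.c 0 (.b 63) (.b 44)))) (.s13 (.tw (.s12 (.c 0 (.b 5) (.c 0 (.b 5) (.b 26))))))))))) (.b 1)))),
  (.c 0 (.tw (.c 0 (.b 19) (.s13 (.tw (.s12 (.s13 (.c 0 (.b 538) (.s13 (.tw (.s12 (.s13 (.c 0 (.b 63) (.b 159))))))))))))) (.s13 (.tw (.c 0 (.s13 (.tw (.c 0 (.b 14) (.s13 (.tw (.s12 (.s13 (.c 0 (.b 136) (.s13 (.tw (.s12 (.s13 (.c 0 (.b 44) (.b 12)))))))))))))) (.s13 (.tw (.c 0 (.s13 (.tw (.c 0 (.b 63) (.b 44)))) (.s13 (.tw (.s12 (.c 0 (.b 5) (.c 0 (.b 5) (.b 26))))))))))))),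
  (.c 0 (.tw (.c 0 (.b 13) (.s13 (.tw (.s12 (.s13 (.c 0 (.b 284) (.c 0 (.b 136) (.b 29))))))))) (.s13 (.c 0 (.tw (.c 0 (.s13 (.tw (.c 0 (.b 14) (.s13 (.tw (.s12 (.s13 (.c 0 (.b 136) (.s13 (.tw (.s12 (.s13 (.c 0 (.b 44) (.b 12)))))))))))))) (.s13 (.tw (.c 0 (.s13 (.tw (.c 0 (.b 63) (.b 44)))) (.s13 (.tw (.s12 (.c 0 (.b 5) (.c 0 (.b 5) (.b 26))))))))))) (.b 1)))),
  (.c 0 (.tw (.c 0 (.b 13) (.s13 (.tw (.s12 (.s13 (.c 0 (.b 13) (.c 0 (.b 14) (.s13 (.tw (.s12 (.s13 (.c 0 (.b 381) (.b 381)))))))))))))) (.s13 (.tw (.c 0 (.s13 (.tw (.c 0 (.b 14) (.s13 (.tw (.s12 (.s13 (.c 0 (.b 136) (.s13 (.tw (.s12 (.s13 (.c 0 (.b 44) (.b 12)))))))))))))) (.s13 (.tw (.c 0 (.s13 (.tw (.c 0 (.b 63) (.b 44)))) (.s13 (.tw (.s12 (.c 0 (.b 5) (.c 0 (.b 5) (.b 26))))))))))))),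
  (.tw (.c 0 (.tw (.c 0 (.tw (.s12 (.s13 (.tw (.c 0 (.b 63) (.b 159)))))) (.s13 (.tw (.s12 (.s13 (.c 0 (.b 63) (.b 108)))))))) (.s13 (.tw (.c 0 (.tw (.s13 (.c 0 (.b 70) (.b 45)))) (.s13 (.c 0 (.tw (.s13 (.tw (.s13 (.c 0 (.b 67) (.s13 (.tw (.s13 (.c 0 (.b 14) (.b 44)))))))))) (.tw (.s12 (.s13 (.s12 (.c 0 (.b 67) (.s13 (.tw (.s13 (.c 0 (.b 14) (.b 44))))))))))))))))),
  (.c 0 (.tw (.c 0 (.tw (.s13 (.tw (.c 0 (.b 478) (.b 16))))) (.b 422))) (.tw (.c 0 (.s13 (.tw (.c 0 (.b 304) (.s13 (.tw (.s12 (.s13 (.c 0 (.b 63) (.b 44))))))))) (.tw (.s12 (.s13 (.tw (.c 0 (.s13 (.tw (.s12 (.c 0 (.b 14) (.c 0 (.b 136) (.b 124)))))) (.s13 (.tw (.c 0 (.b 5) (.c 0 (.b 5) (.b 26))))))))))))),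
  (.c 0 (.tw (.c 0 (.b 348) (.s13 (.tw (.s12 (.s13 (.c 0 (.b 23) (.b 21)))))))) (.tw (.c 0 (.s13 (.tw (.c 0 (.b 304) (.s13 (.tw (.s12 (.s13 (.c 0 (.b 63) (.b 44))))))))) (.tw (.s12 (.s13 (.tw (.c 0 (.s13 (.tw (.s12 (.c 0 (.b 14) (.c 0 (.b 136) (.b 124)))))) (.s13 (.tw (.c 0 (.b 5) (.c 0 (.b 5) (.b 26))))))))))))),
  (.c 0 (.tw (.c 0 (.b 348) (.s13 (.tw (.s12 (.s13 (.c 0 (.b 13) (.c 0 (.b 63) (.b 159))))))))) (.tw (.c 0 (.s13 (.tw (.c 0 (.b 304) (.s13 (.tw (.s12 (.s13 (.c 0 (.b 63) (.b 44))))))))) (.tw (.s12 (.s13 (.tw (.c 0 (.s13 (.tw (.s12 (.c 0 (.b 14) (.c 0 (.b 136) (.b 124)))))) (.s13 (.tw (.c 0 (.b 5) (.c 0 (.b 5) (.b 26))))))))))))),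
  (.c 0 (.tw (.c 0 (.b 13) (.s13 (.tw (.s12 (.s13 (.c 0 (.b 284) (.c 0 (.b 136) (.b 29))))))))) (.tw (.c 0 (.s13 (.tw (.c 0 (.b 304) (.s13 (.tw (.s12 (.s13 (.c 0 (.b 63) (.b 44))))))))) (.tw (.s12 (.s13 (.tw (.c 0 (.s13 (.tw (.s12 (.c 0 (.b 14) (.c 0 (.b 136) (.b 124)))))) (.s13 (.tw (.c 0 (.b 5) (.c 0 (.b 5) (.b 26))))))))))))),
  (.c 0 (.tw (.c 0 (.b 136) (.s13 (.tw (.s12 (.s13 (.c 0 (.b 136) (.c 0 (.b 136) (.b 249))))))))) (.s13 (.c 0 (.tw (.c 0 (.tw (.s13 (.tw (.c 0 (.b 152) (.tw (.s12 (.s13 (.tw (.c 0 (.b 24) (.b 536)))))))))) (.s13 (.tw (.c 0 (.s13 (.tw (.c 0 (.b 24) (.b 24)))) (.s13 (.tw (.c 0 (.b 24) (.b 24))))))))) (.b 53)))),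
  (.c 0 (.tw (.c 0 (.b 136) (.s13 (.tw (.s12 (.s13 (.c 0 (.b 136) (.c 0 (.b 136) (.b 249))))))))) (.s13 (.c 0 (.tw (.c 0 (.tw (.s13 (.tw (.c 0 (.b 152) (.tw (.s12 (.s13 (.tw (.c 0 (.b 24) (.b 536)))))))))) (.s13 (.tw (.c 0 (.s13 (.tw (.c 0 (.b 24) (.b 24)))) (.s13 (.tw (.c 0 (.b 24) (.b 24))))))))) (.b 57)))),
  (.c 0 (.tw (.c 0 (.b 136) (.s13 (.tw (.s12 (.s13 (.c 0 (.b 136) (.c 0 (.b 136) (.b 249))))))))) (.c 0 (.s13 (.tw (.c 0 (.tw (.s13 (.tw (.c 0 (.b 152) (.tw (.s12 (.s13 (.tw (.c 0 (.b 24) (.b 536)))))))))) (.s13 (.tw (.c 0 (.s13 (.tw (.c 0 (.b 24) (.b 24)))) (.s13 (.tw (.c 0 (.b 24) (.b 24)))))))))) (.b 19))),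
  (.tw (.c 0 (.tw (.c 0 (.b 348) (.s13 (.tw (.s12 (.s13 (.c 0 (.b 23) (.b 21)))))))) (.s13 (.tw (.c 0 (.s12 (.s13 (.tw (.c 0 (.tw (.s12 (.s13 (.tw (.c 0 (.b 13) (.s13 (.tw (.s12 (.s13 (.c 0 (.b 24) (.b 136))))))))))) (.b 29))))) (.tw (.s12 (.s13 (.tw (.c 0 (.s13 (.tw (.c 0 (.b 63) (.b 44)))) (.s13 (.tw (.s12 (.s13 (.c 0 (.b 5) (.tw (.s12 (.s13 (.tw (.c 0 (.b 345) (.b 5))))))))))))))))))))),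
  (.tw (.c 0 (.tw (.c 0 (.b 348) (.s13 (.tw (.s12 (.s13 (.c 0 (.b 23) (.b 21)))))))) (.s13 (.tw (.c 0 (.s12 (.s13 (.tw (.c 0 (.b 136) (.s13 (.tw (.s12 (.s13 (.c 0 (.b 284) (.b 147)))))))))) (.tw (.s12 (.s13 (.tw (.c 0 (.s13 (.tw (.c 0 (.b 136) (.b 44)))) (.s13 (.tw (.s12 (.s13 (.c 0 (.s12 (.s13 (.tw (.c 0 (.b 44) (.b 1))))) (.s13 (.tw (.s13 (.c 0 (.b 5) (.b 124)))))))))))))))))))),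
  (.tw (.c 0 (.tw (.c 0 (.b 348) (.s13 (.tw (.s12 (.s13 (.c 0 (.b 23) (.b 21)))))))) (.s13 (.tw (.c 0 (.s12 (.s13 (.tw (.c 0 (.b 136) (.s13 (.tw (.s12 (.s13 (.c 0 (.b 284) (.b 147)))))))))) (.tw (.s12 (.s13 (.tw (.c 0 (.s13 (.tw (.c 0 (.b 136) (.b 44)))) (.s13 (.tw (.s12 (.s13 (.c 0 (.s12 (.s13 (.tw (.c 0 (.b 44) (.b 1))))) (.s13 (.tw (.c 0 (.b 384) (.b 5))))))))))))))))))),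
  (.tw (.c 0 (.tw (.c 0 (.b 348) (.s13 (.tw (.s12 (.s13 (.c 0 (.b 23) (.b 21)))))))) (.s13 (.tw (.c 0 (.s12 (.s13 (.tw (.s12 (.c 0 (.b 460) (.s13 (.tw (.s12 (.s13 (.c 0 (.b 13) (.b 266))))))))))) (.s12 (.s13 (.tw (.c 0 (.s13 (.tw (.s12 (.c 0 (.b 272) (.b 44))))) (.s13 (.tw (.c 0 (.b 5) (.c 0 (.b 5) (.b 63)))))))))))))),
  (.tw (.c 0 (.tw (.c 0 (.b 348) (.s13 (.tw (.s12 (.s13 (.c 0 (.b 23) (.b 21)))))))) (.s13 (.tw (.c 0 (.s12 (.s13 (.tw (.c 0 (.b 136) (.s13 (.tw (.s12 (.s13 (.c 0 (.b 13) (.b 546)))))))))) (.tw (.s12 (.s13 (.tw (.c 0 (.s13 (.tw (.c 0 (.b 136) (.b 44)))) (.s13 (.tw (.s12 (.s13 (.c 0 (.tw (.s13 (.tw (.c 0 (.b 202) (.s13 (.tw (.c 0 (.b 44) (.b 1)))))))) (.b 5)))))))))))))))),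
  (.tw (.c 0 (.tw (.c 0 (.b 13) (.s13 (.tw (.s12 (.s13 (.c 0 (.b 57) (.s13 (.tw (.s12 (.s13 (.c 0 (.b 381) (.b 478))))))))))))) (.s13 (.tw (.c 0 (.s13 (.tw (.c 0 (.b 19) (.tw (.s12 (.s13 (.tw (.c 0 (.b 13) (.c 0 (.b 239) (.b 1)))))))))) (.tw (.s13 (.tw (.c 0 (.s13 (.tw (.c 0 (.b 136) (.b 44)))) (.s13 (.tw (.c 0 (.b 5) (.s13 (.tw (.c 0 (.b 384) (.b 5)))))))))))))))),
  (.tw (.c 0 (.tw (.c 0 (.b 348) (.s13 (.tw (.s12 (.s13 (.c 0 (.b 23) (.b 21)))))))) (.s13 (.tw (.c 0 (.s12 (.s13 (.tw (.c 0 (.b 13) (.s13 (.tw (.s12 (.s13 (.c 0 (.b 136) (.b 581)))))))))) (.tw (.s12 (.s13 (.tw (.c 0 (.s13 (.tw (.c 0 (.b 136) (.b 44)))) (.s13 (.tw (.s12 (.s13 (.c 0 (.s12 (.s13 (.tw (.c 0 (.b 44) (.b 1))))) (.s13 (.tw (.c 0 (.b 384) (.b 5))))))))))))))))))),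
  (.tw (.c 0 (.tw (.c 0 (.b 348) (.s13 (.tw (.s12 (.s13 (.c 0 (.b 23) (.b 21)))))))) (.s13 (.tw (.c 0 (.s12 (.s13 (.tw (.s12 (.c 0 (.tw (.s13 (.tw (.c 0 (.b 334) (.b 26))))) (.b 304)))))) (.s12 (.s13 (.tw (.c 0 (.s13 (.tw (.s12 (.c 0 (.b 272) (.b 44))))) (.s13 (.tw (.c 0 (.b 5) (.c 0 (.b 5) (.b 63)))))))))))))),
  (.tw (.c 0 (.tw (.c 0 (.b 348) (.s13 (.tw (.s12 (.s13 (.c 0 (.b 23) (.b 21)))))))) (.s13 (.tw (.c 0 (.s12 (.s13 (.tw (.c 0 (.b 13) (.b 93))))) (.tw (.s12 (.s13 (.tw (.c 0 (.s13 (.tw (.c 0 (.b 44) (.b 247)))) (.s13 (.tw (.c 0 (.tw (.c 0 (.b 63) (.b 136))) (.s13 (.tw (.c 0 (.b 5) (.b 5))))))))))))))))),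
  (.tw (.c 0 (.tw (.c 0 (.b 348) (.s13 (.tw (.s12 (.s13 (.c 0 (.b 23) (.b 21)))))))) (.s13 (.tw (.c 0 (.s12 (.s13 (.tw (.c 0 (.b 13) (.s13 (.tw (.s12 (.s13 (.c 0 (.b 14) (.s13 (.tw (.s12 (.s13 (.c 0 (.b 381) (.b 136))))))))))))))) (.tw (.s12 (.s13 (.tw (.c 0 (.s13 (.tw (.c 0 (.b 136) (.b 44)))) (.s13 (.tw (.s12 (.s13 (.c 0 (.s12 (.s13 (.tw (.c 0 (.b 44) (.b 1))))) (.s13 (.tw (.s13 (.c 0 (.b 5) (.b 124)))))))))))))))))))),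
  (.tw (.c 0 (.tw (.c 0 (.b 19) (.s13 (.tw (.s12 (.s13 (.c 0 (.b 567) (.b 21)))))))) (.s13 (.tw (.c 0 (.s13 (.tw (.c 0 (.b 57) (.s13 (.tw (.s12 (.s13 (.c 0 (.b 57) (.b 44))))))))) (.tw (.s13 (.tw (.c 0 (.s13 (.tw (.c 0 (.b 136) (.b 44)))) (.s13 (.tw (.c 0 (.b 5) (.s13 (.tw (.c 0 (.b 384) (.b 5)))))))))))))))),
  (.tw (.c 0 (.tw (.c 0 (.b 348) (.s13 (.tw (.s12 (.s13 (.c 0 (.b 23) (.b 21)))))))) (.s13 (.tw (.c 0 (.s12 (.s13 (.tw (.c 0 (.b 13) (.s13 (.tw (.s12 (.s13 (.c 0 (.b 14) (.s13 (.tw (.s12 (.s13 (.c 0 (.b 381) (.b 136))))))))))))))) (.tw (.s12 (.s13 (.tw (.c 0 (.s13 (.tw (.c 0 (.b 136) (.b 44)))) (.s13 (.tw (.s12 (.s13 (.c 0 (.s12 (.s13 (.tw (.c 0 (.b 44) (.b 1))))) (.s13 (.tw (.c 0 (.b 384) (.b 5))))))))))))))))))),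
  (.c 0 (.tw (.c 0 (.b 13) (.s13 (.tw (.s12 (.s13 (.c 0 (.b 13) (.c 0 (.b 14) (.s13 (.tw (.s12 (.s13 (.c 0 (.b 381) (.b 381)))))))))))))) (.s13 (.tw (.c 0 (.s13 (.tw (.c 0 (.b 136) (.b 462)))) (.s13 (.c 0 (.tw (.c 0 (.b 693) (.s13 (.tw (.s12 (.s13 (.c 0 (.b 381) (.b 44)))))))) (.s13 (.tw (.s13 (.c 0 (.b 70) (.b 45))))))))))),
  (.tw (.c 0 (.tw (.c 0 (.b 348) (.s13 (.tw (.s12 (.s13 (.c 0 (.b 23) (.b 21)))))))) (.s13 (.tw (.c 0 (.s12 (.s13 (.tw (.c 0 (.b 13) (.s13 (.tw (.s12 (.s13 (.c 0 (.b 136) (.b 598)))))))))) (.tw (.s12 (.s13 (.tw (.c 0 (.s13 (.tw (.c 0 (.b 136) (.b 44)))) (.s13 (.tw (.s12 (.s13 (.c 0 (.s12 (.s13 (.tw (.c 0 (.b 44) (.b 1))))) (.s13 (.tw (.s13 (.c 0 (.b 5) (.b 124)))))))))))))))))))),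
  (.tw (.c 0 (.tw (.c 0 (.b 19) (.s13 (.tw (.s12 (.s13 (.c 0 (.b 567) (.b 21)))))))) (.s13 (.tw (.c 0 (.s13 (.tw (.c 0 (.b 136) (.s13 (.tw (.s12 (.s13 (.c 0 (.b 13) (.b 139))))))))) (.tw (.s13 (.tw (.c 0 (.s13 (.tw (.c 0 (.b 136) (.b 44)))) (.s13 (.tw (.c 0 (.b 5) (.s13 (.tw (.c 0 (.b 384) (.b 5)))))))))))))))),
  (.tw (.c 0 (.tw (.c 0 (.b 348) (.s13 (.tw (.s12 (.s13 (.c 0 (.b 23) (.b 21)))))))) (.s13 (.tw (.c 0 (.s12 (.s13 (.tw (.c 0 (.b 13) (.s13 (.tw (.s12 (.s13 (.c 0 (.b 136) (.b 598)))))))))) (.tw (.s12 (.s13 (.tw (.c 0 (.s13 (.tw (.c 0 (.b 136) (.b 44)))) (.s13 (.tw (.s12 (.s13 (.c 0 (.s12 (.s13 (.tw (.c 0 (.b 44) (.b 1))))) (.s13 (.tw (.c 0 (.b 384) (.b 5))))))))))))))))))),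
  (.tw (.c 0 (.tw (.c 0 (.b 19) (.s13 (.tw (.s12 (.s13 (.c 0 (.b 567) (.b 21)))))))) (.s13 (.tw (.c 0 (.s13 (.tw (.c 0 (.b 14) (.s13 (.tw (.s12 (.s13 (.c 0 (.b 136) (.s13 (.tw (.s12 (.s13 (.c 0 (.b 13) (.b 200)))))))))))))) (.tw (.s13 (.tw (.c 0 (.s13 (.tw (.c 0 (.b 136) (.b 44)))) (.s13 (.tw (.c 0 (.b 5) (.s13 (.tw (.c 0 (.b 5) (.b 63)))))))))))))))),
  (.tw (.c 0 (.tw (.c 0 (.b 348) (.s13 (.tw (.s12 (.s13 (.c 0 (.b 23) (.b 21)))))))) (.s13 (.tw (.c 0 (.s12 (.s13 (.tw (.c 0 (.b 13) (.s13 (.tw (.s12 (.s13 (.c 0 (.b 58) (.c 0 (.b 136) (.b 136))))))))))) (.tw (.s12 (.s13 (.tw (.c 0 (.s13 (.tw (.s12 (.c 0 (.b 136) (.b 139))))) (.s13 (.tw (.c 0 (.b 5) (.s13 (.tw (.c 0 (.b 384) (.b 5))))))))))))))))),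
  (.c 0 (.tw (.c 0 (.b 13) (.s13 (.tw (.s12 (.s13 (.c 0 (.b 284) (.c 0 (.b 136) (.b 29))))))))) (.s13 (.c 0 (.tw (.c 0 (.s13 (.tw (.c 0 (.b 14) (.s13 (.tw (.s12 (.s13 (.c 0 (.b 136) (.b 351))))))))) (.s13 (.c 0 (.s12 (.s13 (.tw (.s12 (.c 0 (.b 666) (.s13 (.tw (.s12 (.s13 (.c 0 (.b 63) (.b 44))))))))))) (.s13 (.tw (.s13 (.c 0 (.b 70) (.b 45))))))))) (.b 1)))),
  (.c 0 (.tw (.c 0 (.b 13) (.s13 (.tw (.s12 (.s13 (.c 0 (.b 13) (.c 0 (.b 14) (.s13 (.tw (.s12 (.s13 (.c 0 (.b 381) (.b 381)))))))))))))) (.s13 (.tw (.c 0 (.s13 (.tw (.c 0 (.b 14) (.s13 (.tw (.s12 (.s13 (.c 0 (.b 136) (.b 351))))))))) (.s13 (.c 0 (.s12 (.s13 (.tw (.s12 (.c 0 (.b 666) (.s13 (.tw (.s12 (.s13 (.c 0 (.b 63) (.b 44))))))))))) (.s13 (.tw (.s13 (.c 0 (.b 70) (.b 45))))))))))),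
  (.tw (.c 0 (.tw (.c 0 (.s13 (.tw (.s12 (.s13 (.c 0 (.s12 (.s13 (.tw (.c 0 (.b 14) (.s13 (.tw (.s13 (.s12 (.c 0 (.b 381) (.b 381)))))))))) (.b 29)))))) (.b 12))) (.s13 (.tw (.c 0 (.tw (.s13 (.tw (.c 0 (.b 67) (.s13 (.tw (.s13 (.c 0 (.b 164) (.b 44))))))))) (.s12 (.s13 (.tw (.c 0 (.s13 (.tw (.c 0 (.b 136) (.b 44)))) (.s13 (.tw (.s12 (.c 0 (.b 264) (.s13 (.tw (.c 0 (.b 44) (.b 1))))))))))))))))),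
  (.tw (.c 0 (.s12 (.s13 (.tw (.s12 (.c 0 (.s13 (.tw (.s13 (.c 0 (.tw (.s12 (.c 0 (.b 14) (.s13 (.tw (.s13 (.s12 (.c 0 (.b 381) (.b 381))))))))) (.b 12))))) (.b 12)))))) (.tw (.s12 (.c 0 (.s13 (.tw (.c 0 (.b 567) (.tw (.s12 (.s13 (.tw (.c 0 (.b 63) (.b 381))))))))) (.s13 (.tw (.c 0 (.s13 (.tw (.c 0 (.b 136) (.b 44)))) (.s13 (.tw (.s13 (.c 0 (.b 5) (.s13 (.tw (.s13 (.c 0 (.b 5) (.b 465))))))))))))))))),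
  (.tw (.c 0 (.tw (.c 0 (.b 348) (.s13 (.tw (.s12 (.s13 (.c 0 (.b 23) (.b 21)))))))) (.s13 (.tw (.c 0 (.s13 (.tw (.c 0 (.b 14) (.s13 (.tw (.s12 (.s13 (.c 0 (.b 136) (.s13 (.tw (.s12 (.s13 (.c 0 (.b 24) (.b 136)))))))))))))) (.tw (.s12 (.s13 (.tw (.c 0 (.s13 (.tw (.s12 (.c 0 (.b 136) (.b 598))))) (.s13 (.tw (.c 0 (.b 5) (.c 0 (.b 5) (.b 26))))))))))))))),
  (.c 0 (.tw (.c 0 (.b 348) (.s13 (.tw (.s12 (.s13 (.c 0 (.b 13) (.c 0 (.b 63) (.b 159))))))))) (.s13 (.tw (.c 0 (.s13 (.tw (.c 0 (.b 14) (.tw (.s12 (.s13 (.tw (.c 0 (.b 136) (.b 536))))))))) (.s12 (.s13 (.tw (.c 0 (.s13 (.tw (.c 0 (.b 14) (.c 0 (.b 136) (.b 136))))) (.s13 (.tw (.s13 (.s12 (.c 0 (.b 208) (.s13 (.tw (.s13 (.c 0 (.b 5) (.b 143)))))))))))))))))),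
  (.c 0 (.tw (.c 0 (.b 13) (.s13 (.tw (.s12 (.s13 (.c 0 (.b 284) (.c 0 (.b 136) (.b 29))))))))) (.s13 (.tw (.c 0 (.s13 (.tw (.c 0 (.b 14) (.tw (.s12 (.s13 (.tw (.c 0 (.b 136) (.b 536))))))))) (.s12 (.s13 (.tw (.c 0 (.s13 (.tw (.c 0 (.b 14) (.c 0 (.b 136) (.b 136))))) (.s13 (.tw (.s13 (.s12 (.c 0 (.b 208) (.s13 (.tw (.s13 (.c 0 (.b 5) (.b 143)))))))))))))))))),
  (.tw (.c 0 (.tw (.c 0 (.b 348) (.s13 (.tw (.s12 (.s13 (.c 0 (.b 23) (.b 21)))))))) (.s13 (.tw (.c 0 (.s12 (.s13 (.tw (.c 0 (.b 136) (.s13 (.tw (.s12 (.s13 (.c 0 (.b 284) (.b 147)))))))))) (.tw (.s12 (.s13 (.tw (.c 0 (.s13 (.tw (.c 0 (.b 136) (.b 44)))) (.tw (.s12 (.s13 (.tw (.c 0 (.s12 (.s13 (.tw (.c 0 (.b 63) (.b 24))))) (.s13 (.tw (.s12 (.c 0 (.b 5) (.b 124)))))))))))))))))))),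
  (.tw (.c 0 (.tw (.c 0 (.b 348) (.s13 (.tw (.s12 (.s13 (.c 0 (.b 23) (.b 21)))))))) (.s13 (.tw (.c 0 (.s12 (.s13 (.tw (.c 0 (.b 136) (.s13 (.tw (.s12 (.s13 (.c 0 (.b 284) (.b 147)))))))))) (.tw (.s12 (.s13 (.tw (.c 0 (.s13 (.tw (.c 0 (.b 136) (.b 44)))) (.tw (.s12 (.s13 (.tw (.c 0 (.s12 (.s13 (.tw (.c 0 (.b 44) (.b 1))))) (.s13 (.tw (.s12 (.c 0 (.b 5) (.b 124)))))))))))))))))))),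
  (.tw (.c 0 (.tw (.c 0 (.b 284) (.s13 (.tw (.s12 (.s13 (.c 0 (.b 63) (.b 93)))))))) (.s13 (.tw (.c 0 (.tw (.c 0 (.b 13) (.b 172))) (.s12 (.s13 (.tw (.c 0 (.s13 (.tw (.s12 (.c 0 (.b 284) (.c 0 (.b 136) (.b 136)))))) (.s13 (.tw (.s12 (.c 0 (.s13 (.tw (.c 0 (.b 14) (.b 44)))) (.s13 (.tw (.c 0 (.b 5) (.b 5))))))))))))))))),
  (.tw (.c 0 (.tw (.c 0 (.b 348) (.s13 (.tw (.s12 (.s13 (.c 0 (.b 23) (.b 21)))))))) (.s13 (.tw (.c 0 (.s12 (.s13 (.tw (.c 0 (.b 136) (.s13 (.tw (.s12 (.s13 (.c 0 (.b 284) (.b 147)))))))))) (.tw (.s12 (.s13 (.tw (.c 0 (.s13 (.tw (.c 0 (.b 136) (.b 44)))) (.s13 (.tw (.c 0 (.tw (.c 0 (.b 63) (.b 136))) (.s13 (.tw (.c 0 (.b 384) (.b 5))))))))))))))))),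
  (.tw (.c 0 (.tw (.c 0 (.b 348) (.s13 (.tw (.s12 (.s13 (.c 0 (.b 23) (.b 21)))))))) (.s13 (.tw (.c 0 (.s12 (.s13 (.tw (.s12 (.c 0 (.b 136) (.b 147)))))) (.tw (.s12 (.s13 (.tw (.c 0 (.s13 (.tw (.c 0 (.tw (.c 0 (.b 63) (.b 136))) (.s13 (.tw (.c 0 (.b 5) (.b 5))))))) (.tw (.s12 (.s13 (.tw (.c 0 (.b 99) (.b 247)))))))))))))))),
  (.tw (.c 0 (.tw (.c 0 (.b 348) (.s13 (.tw (.s12 (.s13 (.c 0 (.b 23) (.b 21)))))))) (.s13 (.tw (.c 0 (.s12 (.s13 (.tw (.c 0 (.b 13) (.s13 (.tw (.s12 (.s13 (.c 0 (.b 13) (.b 546)))))))))) (.tw (.s12 (.s13 (.tw (.c 0 (.s13 (.tw (.c 0 (.tw (.c 0 (.b 63) (.b 136))) (.s13 (.tw (.c 0 (.b 5) (.b 5))))))) (.s13 (.tw (.c 0 (.b 200) (.b 44)))))))))))))),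
  (.tw (.c 0 (.tw (.c 0 (.b 13) (.s13 (.tw (.s12 (.s13 (.c 0 (.b 284) (.c 0 (.b 136) (.b 29))))))))) (.s13 (.tw (.c 0 (.tw (.c 0 (.b 13) (.b 172))) (.s12 (.s13 (.tw (.c 0 (.s13 (.tw (.s12 (.c 0 (.b 267) (.c 0 (.b 136) (.b 136)))))) (.s13 (.tw (.s12 (.c 0 (.s13 (.tw (.c 0 (.b 14) (.b 44)))) (.s13 (.tw (.c 0 (.b 5) (.b 5))))))))))))))))),
  (.tw (.c 0 (.tw (.c 0 (.b 284) (.s13 (.tw (.s12 (.s13 (.c 0 (.b 63) (.b 93)))))))) (.s13 (.tw (.c 0 (.s12 (.s13 (.tw (.s12 (.c 0 (.b 58) (.b 546)))))) (.tw (.s12 (.s13 (.tw (.c 0 (.tw (.s12 (.s13 (.tw (.c 0 (.b 67) (.s13 (.tw (.s13 (.c 0 (.b 14) (.b 44)))))))))) (.s13 (.tw (.c 0 (.tw (.c 0 (.b 63) (.b 136))) (.s13 (.tw (.c 0 (.b 5) (.b 5))))))))))))))))),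
  (.tw (.c 0 (.tw (.c 0 (.b 348) (.s13 (.tw (.s12 (.s13 (.c 0 (.b 23) (.b 21)))))))) (.s13 (.tw (.c 0 (.s12 (.s13 (.tw (.c 0 (.b 136) (.s13 (.tw (.s12 (.s13 (.c 0 (.b 13) (.b 546)))))))))) (.tw (.s12 (.s13 (.tw (.c 0 (.s13 (.tw (.c 0 (.b 136) (.b 44)))) (.tw (.s12 (.s13 (.tw (.c 0 (.s12 (.s13 (.tw (.c 0 (.b 44) (.b 1))))) (.s13 (.tw (.c 0 (.b 176) (.b 5))))))))))))))))))),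
  (.c 0 (.tw (.c 0 (.b 13) (.s13 (.tw (.s12 (.s13 (.c 0 (.b 13) (.c 0 (.b 14) (.s13 (.tw (.s12 (.s13 (.c 0 (.b 381) (.b 381)))))))))))))) (.s13 (.tw (.c 0 (.s13 (.tw (.c 0 (.b 136) (.b 462)))) (.tw (.s13 (.tw (.c 0 (.s13 (.tw (.c 0 (.b 14) (.s13 (.tw (.s12 (.s13 (.c 0 (.b 136) (.b 351))))))))) (.s13 (.tw (.c 0 (.s13 (.tw (.c 0 (.b 44) (.b 1)))) (.s13 (.tw (.c 0 (.b 5) (.b 124))))))))))))))),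
  (.tw (.c 0 (.tw (.c 0 (.b 348) (.s13 (.tw (.s12 (.s13 (.c 0 (.b 23) (.b 21)))))))) (.s13 (.tw (.c 0 (.s12 (.s13 (.tw (.s12 (.c 0 (.b 136) (.b 147)))))) (.s12 (.s13 (.tw (.c 0 (.s13 (.tw (.s12 (.c 0 (.s13 (.tw (.c 0 (.b 14) (.b 44)))) (.s13 (.tw (.c 0 (.b 5) (.b 5)))))))) (.s13 (.tw (.c 0 (.b 180) (.b 44))))))))))))),
  (.tw (.c 0 (.tw (.c 0 (.b 348) (.s13 (.tw (.s12 (.s13 (.c 0 (.b 23) (.b 21)))))))) (.s13 (.tw (.c 0 (.s12 (.s13 (.tw (.s12 (.c 0 (.b 136) (.b 147)))))) (.tw (.s12 (.s13 (.tw (.c 0 (.s13 (.tw (.c 0 (.b 24) (.s13 (.tw (.s12 (.s13 (.c 0 (.b 14) (.b 44))))))))) (.s13 (.tw (.c 0 (.tw (.c 0 (.b 63) (.b 136))) (.s13 (.tw (.c 0 (.b 5) (.b 5))))))))))))))))),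
  (.tw (.c 0 (.tw (.c 0 (.b 284) (.s13 (.tw (.s12 (.s13 (.c 0 (.b 63) (.b 93)))))))) (.s13 (.tw (.c 0 (.s12 (.s13 (.tw (.s12 (.c 0 (.b 279) (.b 529)))))) (.tw (.s12 (.s13 (.tw (.c 0 (.s13 (.tw (.c 0 (.b 136) (.s13 (.tw (.s12 (.s13 (.c 0 (.b 44) (.b 1))))))))) (.s13 (.tw (.c 0 (.tw (.c 0 (.b 63) (.b 136))) (.s13 (.tw (.c 0 (.b 5) (.b 5))))))))))))))))),
  (.tw (.c 0 (.tw (.c 0 (.b 348) (.s13 (.tw (.s12 (.s13 (.c 0 (.b 23) (.b 21)))))))) (.s13 (.tw (.c 0 (.s12 (.s13 (.tw (.s12 (.c 0 (.b 136) (.b 147)))))) (.tw (.s12 (.s13 (.tw (.c 0 (.tw (.s12 (.s13 (.tw (.c 0 (.b 67) (.s13 (.tw (.s13 (.c 0 (.b 14) (.b 44)))))))))) (.tw (.s12 (.s13 (.tw (.c 0 (.s12 (.s13 (.tw (.c 0 (.b 44) (.b 1))))) (.s13 (.tw (.c 0 (.b 5) (.b 5))))))))))))))))))),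
  (.tw (.c 0 (.tw (.c 0 (.b 284) (.s13 (.tw (.s12 (.s13 (.c 0 (.b 63) (.b 93)))))))) (.s13 (.tw (.c 0 (.s12 (.s13 (.tw (.s12 (.c 0 (.b 279) (.b 207)))))) (.tw (.s12 (.s13 (.tw (.c 0 (.s13 (.tw (.c 0 (.b 136) (.s13 (.tw (.s12 (.s13 (.c 0 (.b 44) (.b 1))))))))) (.s13 (.tw (.c 0 (.tw (.c 0 (.b 63) (.b 136))) (.s13 (.tw (.c 0 (.b 5) (.b 124))))))))))))))))),
  (.tw (.c 0 (.tw (.c 0 (.b 348) (.s13 (.tw (.s12 (.s13 (.c 0 (.b 23) (.b 21)))))))) (.s13 (.tw (.c 0 (.s12 (.s13 (.tw (.s12 (.c 0 (.b 136) (.b 147)))))) (.tw (.s12 (.s13 (.tw (.c 0 (.tw (.s12 (.s13 (.tw (.c 0 (.b 67) (.s13 (.tw (.s13 (.c 0 (.b 14) (.b 44)))))))))) (.tw (.s12 (.s13 (.tw (.c 0 (.s12 (.s13 (.tw (.c 0 (.b 57) (.b 136))))) (.s13 (.tw (.c 0 (.b 5) (.b 5))))))))))))))))))),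
  (.c 0 (.tw (.c 0 (.b 13) (.s13 (.tw (.s12 (.s13 (.c 0 (.b 284) (.c 0 (.b 136) (.b 29))))))))) (.s13 (.c 0 (.tw (.c 0 (.s13 (.tw (.c 0 (.b 136) (.b 462)))) (.tw (.s13 (.tw (.c 0 (.s13 (.tw (.c 0 (.b 14) (.c 0 (.b 136) (.b 136))))) (.tw (.s12 (.s13 (.tw (.c 0 (.s13 (.tw (.c 0 (.b 44) (.b 12)))) (.s13 (.tw (.s12 (.c 0 (.b 5) (.b 124)))))))))))))))) (.b 1)))),
  (.c 0 (.tw (.c 0 (.b 13) (.s13 (.tw (.s12 (.s13 (.c 0 (.b 13) (.c 0 (.b 14) (.s13 (.tw (.s12 (.s13 (.c 0 (.b 381) (.b 381)))))))))))))) (.s13 (.tw (.c 0 (.s13 (.tw (.c 0 (.b 136) (.b 462)))) (.tw (.s13 (.tw (.c 0 (.s13 (.tw (.c 0 (.b 14) (.c 0 (.b 136) (.b 136))))) (.tw (.s12 (.s13 (.tw (.c 0 (.s13 (.tw (.c 0 (.b 44) (.b 12)))) (.s13 (.tw (.s12 (.c 0 (.b 5) (.b 124)))))))))))))))))),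
  (.tw (.c 0 (.tw (.c 0 (.b 348) (.s13 (.tw (.s12 (.s13 (.c 0 (.b 23) (.b 21)))))))) (.s13 (.tw (.c 0 (.s12 (.s13 (.tw (.c 0 (.b 13) (.s13 (.tw (.s12 (.s13 (.c 0 (.b 136) (.b 598)))))))))) (.tw (.s12 (.s13 (.tw (.c 0 (.s13 (.tw (.c 0 (.b 136) (.b 44)))) (.tw (.s12 (.s13 (.tw (.c 0 (.s12 (.s13 (.tw (.c 0 (.b 63) (.b 24))))) (.s13 (.tw (.s12 (.c 0 (.b 5) (.b 124)))))))))))))))))))),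
  (.tw (.c 0 (.tw (.c 0 (.b 284) (.s13 (.tw (.s12 (.s13 (.c 0 (.b 63) (.b 93)))))))) (.s13 (.tw (.c 0 (.s12 (.s13 (.tw (.c 0 (.b 13) (.b 93))))) (.tw (.s12 (.s13 (.tw (.c 0 (.tw (.s13 (.c 0 (.b 70) (.b 45)))) (.s13 (.tw (.c 0 (.tw (.c 0 (.b 63) (.b 136))) (.s13 (.tw (.c 0 (.b 5) (.b 5))))))))))))))))),
  (.tw (.c 0 (.tw (.c 0 (.b 348) (.s13 (.tw (.s12 (.s13 (.c 0 (.b 23) (.b 21)))))))) (.s13 (.tw (.c 0 (.s12 (.s13 (.tw (.c 0 (.b 13) (.s13 (.tw (.s12 (.s13 (.c 0 (.b 13) (.b 546)))))))))) (.tw (.s12 (.s13 (.tw (.c 0 (.s13 (.tw (.c 0 (.b 136) (.s13 (.tw (.s12 (.s13 (.c 0 (.b 44) (.b 1))))))))) (.tw (.s12 (.s13 (.tw (.c 0 (.s12 (.s13 (.tw (.c 0 (.b 57) (.b 136))))) (.s13 (.tw (.c 0 (.b 5) (.b 5))))))))))))))))))),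
  (.c 0 (.tw (.c 0 (.b 13) (.s13 (.tw (.s12 (.s13 (.c 0 (.b 284) (.c 0 (.b 136) (.b 29))))))))) (.s13 (.c 0 (.tw (.c 0 (.s13 (.tw (.c 0 (.b 136) (.b 236)))) (.tw (.s13 (.tw (.c 0 (.s13 (.tw (.c 0 (.b 14) (.c 0 (.b 136) (.b 136))))) (.tw (.s12 (.s13 (.tw (.c 0 (.s13 (.tw (.c 0 (.b 44) (.b 12)))) (.s13 (.tw (.s12 (.c 0 (.b 5) (.b 124)))))))))))))))) (.b 1)))),
  (.tw (.c 0 (.tw (.c 0 (.b 13) (.s13 (.tw (.s12 (.s13 (.c 0 (.b 136) (.c 0 (.b 1) (.s13 (.tw (.s13 (.c 0 (.b 1) (.b 21))))))))))))) (.s13 (.tw (.c 0 (.s13 (.tw (.c 0 (.b 202) (.s13 (.tw (.s12 (.s13 (.c 0 (.b 220) (.b 44))))))))) (.s13 (.tw (.c 0 (.s13 (.tw (.c 0 (.b 136) (.b 44)))) (.s13 (.tw (.c 0 (.b 5) (.b 247)))))))))))),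
  (.tw (.c 0 (.tw (.c 0 (.b 284) (.s13 (.tw (.s12 (.s13 (.c 0 (.b 63) (.b 93)))))))) (.s13 (.tw (.c 0 (.s12 (.s13 (.tw (.c 0 (.b 57) (.s13 (.tw (.s12 (.s13 (.c 0 (.b 14) (.c 0 (.b 136) (.b 136))))))))))) (.s12 (.s13 (.tw (.c 0 (.s13 (.tw (.s12 (.c 0 (.b 304) (.b 44))))) (.s13 (.tw (.c 0 (.b 5) (.tw (.s13 (.tw (.c 0 (.b 82) (.b 284))))))))))))))))),
  (.tw (.c 0 (.tw (.c 0 (.b 348) (.s13 (.tw (.s12 (.s13 (.c 0 (.b 23) (.b 21)))))))) (.s13 (.tw (.c 0 (.s12 (.s13 (.tw (.c 0 (.b 13) (.s13 (.tw (.s12 (.s13 (.c 0 (.b 58) (.c 0 (.b 136) (.b 136))))))))))) (.tw (.s12 (.s13 (.tw (.c 0 (.s13 (.tw (.c 0 (.b 136) (.b 44)))) (.s13 (.tw (.c 0 (.s13 (.tw (.s12 (.c 0 (.b 334) (.b 73))))) (.b 5)))))))))))))),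
  (.c 0 (.tw (.c 0 (.b 348) (.s13 (.tw (.s12 (.s13 (.c 0 (.b 13) (.c 0 (.b 63) (.b 159))))))))) (.s13 (.tw (.c 0 (.s12 (.s13 (.tw (.c 0 (.b 136) (.s13 (.tw (.s12 (.s13 (.c 0 (.b 13) (.b 337)))))))))) (.s12 (.s13 (.c 0 (.s12 (.s13 (.tw (.s12 (.c 0 (.b 666) (.s13 (.tw (.s12 (.s13 (.c 0 (.b 136) (.b 44))))))))))) (.s13 (.tw (.s13 (.c 0 (.b 70) (.b 45)))))))))))),
  (.c 0 (.tw (.c 0 (.b 13) (.s13 (.tw (.s12 (.s13 (.c 0 (.b 284) (.c 0 (.b 136) (.b 29))))))))) (.s13 (.tw (.c 0 (.s12 (.s13 (.tw (.c 0 (.b 136) (.s13 (.tw (.s12 (.s13 (.c 0 (.b 13) (.b 337)))))))))) (.s12 (.s13 (.c 0 (.s12 (.s13 (.tw (.s12 (.c 0 (.b 666) (.s13 (.tw (.s12 (.s13 (.c 0 (.b 136) (.b 44))))))))))) (.s13 (.tw (.s13 (.c 0 (.b 70) (.b 45)))))))))))),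
  (.tw (.c 0 (.tw (.c 0 (.b 284) (.s13 (.tw (.s12 (.s13 (.c 0 (.b 63) (.b 93)))))))) (.s13 (.tw (.c 0 (.s12 (.s13 (.tw (.c 0 (.b 143) (.s13 (.tw (.s12 (.s13 (.c 0 (.b 136) (.b 44)))))))))) (.s13 (.tw (.c 0 (.s13 (.tw (.s13 (.s12 (.c 0 (.tw (.c 0 (.b 63) (.b 24))) (.s13 (.tw (.c 0 (.b 63) (.b 381))))))))) (.s13 (.tw (.c 0 (.b 63) (.b 44)))))))))))),
  (.c 0 (.tw (.c 0 (.b 14) (.s13 (.tw (.s12 (.s13 (.c 0 (.b 13) (.s13 (.tw (.s12 (.s13 (.c 0 (.b 136) (.s13 (.tw (.s12 (.s13 (.c 0 (.b 63) (.b 369)))))))))))))))))) (.s13 (.tw (.c 0 (.s12 (.s13 (.tw (.c 0 (.b 13) (.b 581))))) (.tw (.s12 (.s13 (.tw (.c 0 (.s13 (.tw (.c 0 (.b 558) (.b 304)))) (.s13 (.tw (.c 0 (.b 143) (.s13 (.tw (.c 0 (.b 5) (.b 5)))))))))))))))),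
  (.c 0 (.tw (.c 0 (.b 14) (.s13 (.tw (.s12 (.s13 (.c 0 (.b 13) (.s13 (.tw (.s12 (.s13 (.c 0 (.b 136) (.s13 (.tw (.s12 (.s13 (.c 0 (.b 63) (.b 369)))))))))))))))))) (.s13 (.tw (.c 0 (.s13 (.tw (.c 0 (.b 14) (.s13 (.tw (.s12 (.s13 (.c 0 (.b 63) (.b 369))))))))) (.tw (.s12 (.s13 (.tw (.c 0 (.s13 (.tw (.s12 (.c 0 (.b 136) (.b 598))))) (.s13 (.tw (.c 0 (.b 320) (.s13 (.tw (.c 0 (.b 5) (.b 5)))))))))))))))),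
  (.tw (.c 0 (.tw (.c 0 (.b 13) (.s13 (.tw (.s12 (.s13 (.c 0 (.b 284) (.c 0 (.b 136) (.b 29))))))))) (.s13 (.tw (.c 0 (.s12 (.s13 (.tw (.s12 (.c 0 (.b 58) (.b 546)))))) (.tw (.s12 (.s13 (.tw (.c 0 (.s13 (.tw (.c 0 (.tw (.c 0 (.b 63) (.b 136))) (.s13 (.tw (.c 0 (.b 5) (.b 5))))))) (.tw (.s12 (.s13 (.tw (.c 0 (.b 99) (.b 247)))))))))))))))),
  (.tw (.c 0 (.tw (.c 0 (.b 348) (.s13 (.tw (.s12 (.s13 (.c 0 (.b 23) (.b 21)))))))) (.s13 (.tw (.c 0 (.s12 (.s13 (.tw (.c 0 (.b 13) (.b 207))))) (.tw (.s12 (.s13 (.tw (.c 0 (.s13 (.tw (.c 0 (.b 44) (.b 247)))) (.s13 (.tw (.c 0 (.tw (.c 0 (.b 63) (.b 136))) (.s13 (.tw (.c 0 (.b 5) (.b 5))))))))))))))))),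
  (.tw (.c 0 (.tw (.c 0 (.b 13) (.s13 (.tw (.s12 (.s13 (.c 0 (.b 284) (.c 0 (.b 136) (.b 29))))))))) (.s13 (.tw (.c 0 (.s12 (.s13 (.tw (.s12 (.c 0 (.b 58) (.b 546)))))) (.tw (.s12 (.s13 (.tw (.c 0 (.s13 (.tw (.c 0 (.b 24) (.s13 (.tw (.s12 (.s13 (.c 0 (.b 14) (.b 44))))))))) (.s13 (.tw (.c 0 (.tw (.c 0 (.b 63) (.b 136))) (.s13 (.tw (.c 0 (.b 5) (.b 5))))))))))))))))),
  (.tw (.c 0 (.tw (.c 0 (.b 19) (.s13 (.tw (.s12 (.s13 (.c 0 (.b 567) (.b 21)))))))) (.s13 (.tw (.c 0 (.s13 (.tw (.c 0 (.b 13) (.b 462)))) (.tw (.s13 (.tw (.c 0 (.s13 (.tw (.c 0 (.b 136) (.s13 (.tw (.s12 (.s13 (.c 0 (.b 44) (.b 1))))))))) (.s13 (.tw (.c 0 (.s13 (.tw (.c 0 (.b 44) (.b 1)))) (.s13 (.tw (.c 0 (.b 5) (.b 5)))))))))))))))),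
  (.tw (.c 0 (.tw (.c 0 (.b 348) (.s13 (.tw (.s12 (.s13 (.c 0 (.b 23) (.b 21)))))))) (.s13 (.tw (.c 0 (.s12 (.s13 (.tw (.c 0 (.b 13) (.s13 (.tw (.s12 (.s13 (.c 0 (.b 136) (.b 581)))))))))) (.tw (.s12 (.s13 (.tw (.c 0 (.s13 (.tw (.c 0 (.b 136) (.b 44)))) (.s13 (.tw (.c 0 (.tw (.c 0 (.b 57) (.b 136))) (.s13 (.tw (.c 0 (.b 5) (.b 124))))))))))))))))),
  (.tw (.c 0 (.tw (.c 0 (.b 13) (.s13 (.tw (.s12 (.s13 (.c 0 (.b 57) (.s13 (.tw (.s12 (.s13 (.c 0 (.b 381) (.b 478))))))))))))) (.s13 (.tw (.c 0 (.s13 (.tw (.c 0 (.b 345) (.b 714)))) (.tw (.s13 (.tw (.c 0 (.s13 (.tw (.c 0 (.b 136) (.s13 (.tw (.s12 (.s13 (.c 0 (.b 44) (.b 1))))))))) (.s13 (.tw (.c 0 (.b 5) (.s13 (.tw (.c 0 (.b 5) (.b 124)))))))))))))))),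
  (.tw (.c 0 (.tw (.c 0 (.b 348) (.s13 (.tw (.s12 (.s13 (.c 0 (.b 23) (.b 21)))))))) (.s13 (.tw (.c 0 (.s12 (.s13 (.tw (.c 0 (.b 136) (.s13 (.tw (.s12 (.s13 (.c 0 (.b 13) (.b 546)))))))))) (.tw (.s12 (.s13 (.tw (.c 0 (.s13 (.tw (.c 0 (.b 136) (.b 44)))) (.tw (.s12 (.s13 (.tw (.c 0 (.b 347) (.tw (.s12 (.s13 (.tw (.c 0 (.b 320) (.b 5))))))))))))))))))))),
  (.c 0 (.tw (.c 0 (.b 13) (.s13 (.tw (.s12 (.s13 (.c 0 (.b 284) (.c 0 (.b 136) (.b 29))))))))) (.s13 (.c 0 (.tw (.c 0 (.s13 (.tw (.c 0 (.b 136) (.b 462)))) (.tw (.s13 (.tw (.c 0 (.s13 (.tw (.c 0 (.b 136) (.b 44)))) (.tw (.s12 (.s13 (.tw (.c 0 (.b 210) (.s13 (.tw (.s12 (.s13 (.c 0 (.b 601) (.b 5))))))))))))))))) (.b 1)))),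
  (.c 0 (.tw (.c 0 (.b 13) (.s13 (.tw (.s12 (.s13 (.c 0 (.b 13) (.c 0 (.b 14) (.s13 (.tw (.s12 (.s13 (.c 0 (.b 381) (.b 381)))))))))))))) (.s13 (.tw (.c 0 (.s13 (.tw (.c 0 (.b 136) (.b 462)))) (.tw (.s13 (.tw (.c 0 (.s13 (.tw (.c 0 (.b 136) (.b 44)))) (.tw (.s12 (.s13 (.tw (.c 0 (.b 210) (.s13 (.tw (.s12 (.s13 (.c 0 (.b 601) (.b 5))))))))))))))))))),
  (.tw (.c 0 (.tw (.c 0 (.b 13) (.s13 (.tw (.s12 (.s13 (.c 0 (.b 284) (.c 0 (.b 136) (.b 29))))))))) (.s13 (.tw (.c 0 (.s12 (.s13 (.tw (.s12 (.c 0 (.b 279) (.b 529)))))) (.tw (.s12 (.s13 (.tw (.c 0 (.s13 (.tw (.c 0 (.b 136) (.s13 (.tw (.s12 (.s13 (.c 0 (.b 44) (.b 1))))))))) (.tw (.s12 (.s13 (.tw (.c 0 (.s12 (.s13 (.tw (.c 0 (.b 63) (.b 24))))) (.s13 (.tw (.c 0 (.b 5) (.b 5))))))))))))))))))),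
  (.tw (.c 0 (.tw (.c 0 (.b 19) (.s13 (.tw (.s12 (.s13 (.c 0 (.b 567) (.b 21)))))))) (.s13 (.tw (.c 0 (.s13 (.tw (.c 0 (.b 136) (.b 462)))) (.tw (.s13 (.tw (.c 0 (.s13 (.tw (.c 0 (.b 136) (.b 44)))) (.tw (.s12 (.s13 (.tw (.c 0 (.b 5) (.s13 (.tw (.s12 (.s13 (.c 0 (.b 601) (.b 5)))))))))))))))))))),
  (.tw (.c 0 (.tw (.c 0 (.b 348) (.s13 (.tw (.s12 (.s13 (.c 0 (.b 23) (.b 21)))))))) (.s13 (.tw (.c 0 (.s12 (.s13 (.tw (.c 0 (.b 13) (.s13 (.tw (.s12 (.s13 (.c 0 (.b 13) (.b 337)))))))))) (.tw (.s12 (.s13 (.tw (.c 0 (.s13 (.tw (.c 0 (.b 249) (.b 44)))) (.s13 (.tw (.c 0 (.tw (.c 0 (.b 63) (.b 136))) (.s13 (.tw (.c 0 (.b 5) (.b 5))))))))))))))))),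
  (.tw (.c 0 (.tw (.c 0 (.b 348) (.s13 (.tw (.s12 (.s13 (.c 0 (.b 23) (.b 21)))))))) (.s13 (.tw (.c 0 (.s12 (.s13 (.tw (.c 0 (.b 136) (.s13 (.tw (.s12 (.s13 (.c 0 (.b 13) (.b 337)))))))))) (.tw (.s12 (.s13 (.tw (.c 0 (.s13 (.tw (.c 0 (.b 24) (.s13 (.tw (.s12 (.s13 (.c 0 (.b 44) (.b 1))))))))) (.s13 (.tw (.c 0 (.tw (.c 0 (.b 63) (.b 136))) (.s13 (.tw (.c 0 (.b 5) (.b 124))))))))))))))))),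
  (.tw (.c 0 (.tw (.c 0 (.b 13) (.s13 (.tw (.s12 (.s13 (.c 0 (.b 57) (.s13 (.tw (.s12 (.s13 (.c 0 (.b 381) (.b 478))))))))))))) (.s13 (.tw (.c 0 (.s12 (.s13 (.tw (.c 0 (.b 13) (.b 546))))) (.tw (.s12 (.s13 (.tw (.c 0 (.s13 (.tw (.c 0 (.b 136) (.tw (.s12 (.s13 (.tw (.c 0 (.b 44) (.b 12))))))))) (.s13 (.tw (.c 0 (.s13 (.tw (.c 0 (.b 63) (.b 381)))) (.s13 (.tw (.c 0 (.b 5) (.b 5))))))))))))))))),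
  (.tw (.c 0 (.tw (.c 0 (.b 348) (.s13 (.tw (.s12 (.s13 (.c 0 (.b 23) (.b 21)))))))) (.s13 (.tw (.c 0 (.s12 (.s13 (.tw (.c 0 (.b 13) (.s13 (.tw (.s12 (.s13 (.c 0 (.b 13) (.b 337)))))))))) (.tw (.s12 (.s13 (.tw (.c 0 (.s13 (.tw (.c 0 (.b 136) (.s13 (.tw (.s12 (.s13 (.c 0 (.b 44) (.b 1))))))))) (.tw (.s12 (.s13 (.tw (.c 0 (.s12 (.s13 (.tw (.c 0 (.b 57) (.b 136))))) (.s13 (.tw (.c 0 (.b 5) (.b 5))))))))))))))))))),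
  (.c 0 (.tw (.c 0 (.b 13) (.s13 (.tw (.s12 (.s13 (.c 0 (.b 284) (.c 0 (.b 136) (.b 29))))))))) (.s13 (.c 0 (.tw (.c 0 (.s13 (.tw (.c 0 (.b 136) (.b 236)))) (.tw (.s13 (.tw (.c 0 (.s13 (.tw (.c 0 (.b 136) (.b 44)))) (.tw (.s12 (.s13 (.tw (.c 0 (.b 210) (.s13 (.tw (.s12 (.s13 (.c 0 (.b 601) (.b 5))))))))))))))))) (.b 1)))),
  (.tw (.c 0 (.tw (.c 0 (.s13 (.tw (.s12 (.s13 (.c 0 (.s12 (.s13 (.tw (.c 0 (.b 14) (.s13 (.tw (.s13 (.s12 (.c 0 (.b 381) (.b 381)))))))))) (.b 29)))))) (.b 12))) (.s13 (.tw (.c 0 (.s12 (.s13 (.tw (.c 0 (.b 136) (.s13 (.tw (.s12 (.s13 (.c 0 (.b 63) (.b 369)))))))))) (.tw (.s12 (.s13 (.tw (.c 0 (.s13 (.tw (.c 0 (.b 136) (.b 44)))) (.s12 (.s13 (.tw (.c 0 (.s13 (.tw (.s12 (.c 0 (.b 13) (.b 598))))) (.s13 (.tw (.c 0 (.b 44) (.b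 12)))))))))))))))))),
  (.tw (.c 0 (.tw (.c 0 (.b 19) (.s13 (.tw (.s12 (.s13 (.c 0 (.b 567) (.b 21)))))))) (.s13 (.tw (.c 0 (.s13 (.tw (.c 0 (.b 136) (.s13 (.tw (.s12 (.s13 (.c 0 (.b 63) (.b 369))))))))) (.tw (.s13 (.tw (.c 0 (.s13 (.tw (.c 0 (.b 136) (.b 44)))) (.s12 (.s13 (.tw (.c 0 (.s13 (.tw (.s12 (.c 0 (.b 14) (.b 239))))) (.s13 (.tw (.c 0 (.b 63) (.b 44))))))))))))))))),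
  (.tw (.c 0 (.tw (.c 0 (.b 348) (.s13 (.tw (.s12 (.s13 (.c 0 (.b 23) (.b 21)))))))) (.s13 (.tw (.c 0 (.s12 (.s13 (.tw (.c 0 (.b 136) (.s13 (.tw (.s12 (.s13 (.c 0 (.b 13) (.b 546)))))))))) (.tw (.s12 (.s13 (.tw (.c 0 (.s13 (.tw (.c 0 (.b 136) (.b 44)))) (.tw (.s12 (.s13 (.tw (.c 0 (.s13 (.tw (.c 0 (.b 320) (.b 5)))) (.b 210)))))))))))))))),
  (.c 0 (.tw (.c 0 (.b 348) (.s13 (.tw (.s12 (.s13 (.c 0 (.b 13) (.c 0 (.b 63) (.b 159))))))))) (.s13 (.tw (.c 0 (.s12 (.s13 (.tw (.c 0 (.b 136) (.s13 (.tw (.s12 (.s13 (.c 0 (.b 13) (.b 337)))))))))) (.tw (.s12 (.s13 (.tw (.c 0 (.s13 (.tw (.c 0 (.b 136) (.b 44)))) (.tw (.s12 (.s13 (.tw (.c 0 (.s13 (.tw (.c 0 (.b 320) (.b 5)))) (.b 210))))))))))))))),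
  (.c 0 (.tw (.c 0 (.b 13) (.s13 (.tw (.s12 (.s13 (.c 0 (.b 284) (.c 0 (.b 136) (.b 29))))))))) (.s13 (.tw (.c 0 (.s12 (.s13 (.tw (.c 0 (.b 136) (.s13 (.tw (.s12 (.s13 (.c 0 (.b 13) (.b 337)))))))))) (.tw (.s12 (.s13 (.tw (.c 0 (.s13 (.tw (.c 0 (.b 136) (.b 44)))) (.tw (.s12 (.s13 (.tw (.c 0 (.s13 (.tw (.c 0 (.b 320) (.b 5)))) (.b 210))))))))))))))),
  (.tw (.c 0 (.tw (.c 0 (.b 19) (.s13 (.tw (.s12 (.s13 (.c 0 (.b 567) (.b 21)))))))) (.s13 (.tw (.c 0 (.s13 (.tw (.c 0 (.b 136) (.s13 (.tw (.s12 (.s13 (.c 0 (.b 14) (.b 239))))))))) (.tw (.s13 (.tw (.c 0 (.s13 (.tw (.c 0 (.b 136) (.b 44)))) (.s13 (.tw (.c 0 (.b 73) (.s13 (.tw (.c 0 (.b 5) (.b 124)))))))))))))))),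
  (.tw (.c 0 (.tw (.c 0 (.b 348) (.s13 (.tw (.s12 (.s13 (.c 0 (.b 23) (.b 21)))))))) (.s13 (.tw (.c 0 (.s12 (.s13 (.tw (.c 0 (.b 13) (.s13 (.tw (.s12 (.s13 (.c 0 (.b 136) (.b 598)))))))))) (.tw (.s12 (.s13 (.tw (.c 0 (.s13 (.tw (.c 0 (.b 136) (.b 44)))) (.s13 (.tw (.c 0 (.tw (.c 0 (.b 57) (.b 136))) (.s13 (.tw (.c 0 (.b 5) (.b 124))))))))))))))))),
  (.tw (.c 0 (.tw (.c 0 (.s13 (.tw (.s12 (.s13 (.c 0 (.s12 (.s13 (.tw (.c 0 (.b 14) (.s13 (.tw (.s13 (.s12 (.c 0 (.b 381) (.b 381)))))))))) (.b 29)))))) (.b 12))) (.s13 (.tw (.c 0 (.s12 (.s13 (.tw (.c 0 (.b 136) (.b 536))))) (.tw (.s12 (.s13 (.tw (.c 0 (.s13 (.tw (.c 0 (.b 136) (.s13 (.tw (.s12 (.s13 (.c 0 (.b 44) (.b 12))))))))) (.tw (.s12 (.s13 (.tw (.c 0 (.tw (.c 0 (.b 63) (.b 24))) (.s13 (.tw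 (.c 0 (.b 44) (.b 12))))))))))))))))))),
  (.tw (.c 0 (.tw (.c 0 (.b 19) (.s13 (.tw (.s12 (.s13 (.c 0 (.b 567) (.b 21)))))))) (.s13 (.tw (.c 0 (.s13 (.tw (.c 0 (.b 136) (.s13 (.tw (.s12 (.s13 (.c 0 (.b 14) (.b 239))))))))) (.tw (.s13 (.tw (.c 0 (.s13 (.tw (.c 0 (.b 136) (.b 44)))) (.tw (.s13 (.tw (.c 0 (.s13 (.tw (.s12 (.c 0 (.b 63) (.b 381))))) (.s13 (.tw (.c 0 (.b 63) (.b 44))))))))))))))))),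
  (.c 0 (.tw (.c 0 (.b 348) (.s13 (.tw (.s12 (.s13 (.c 0 (.b 23) (.b 21)))))))) (.s13 (.tw (.c 0 (.s12 (.s13 (.tw (.c 0 (.b 136) (.s13 (.tw (.s12 (.s13 (.c 0 (.b 13) (.b 546)))))))))) (.s12 (.s13 (.c 0 (.s12 (.s13 (.tw (.s12 (.c 0 (.b 666) (.s13 (.tw (.s12 (.s13 (.c 0 (.b 136) (.b 44))))))))))) (.s13 (.tw (.s13 (.c 0 (.b 70) (.b 45)))))))))))),
  (.c 0 (.tw (.c 0 (.b 348) (.s13 (.tw (.s12 (.s13 (.c 0 (.b 13) (.c 0 (.b 63) (.b 159))))))))) (.s13 (.tw (.c 0 (.s12 (.s13 (.tw (.c 0 (.b 136) (.s13 (.tw (.s12 (.s13 (.c 0 (.b 13) (.b 546)))))))))) (.s12 (.s13 (.c 0 (.s12 (.s13 (.tw (.s12 (.c 0 (.b 666) (.s13 (.tw (.s12 (.s13 (.c 0 (.b 136) (.b 44))))))))))) (.s13 (.tw (.s13 (.c 0 (.b 70) (.b 45)))))))))))),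
  (.c 0 (.tw (.c 0 (.b 13) (.s13 (.tw (.s12 (.s13 (.c 0 (.b 284) (.c 0 (.b 136) (.b 29))))))))) (.s13 (.tw (.c 0 (.s12 (.s13 (.tw (.c 0 (.b 136) (.s13 (.tw (.s12 (.s13 (.c 0 (.b 13) (.b 546)))))))))) (.s12 (.s13 (.c 0 (.s12 (.s13 (.tw (.s12 (.c 0 (.b 666) (.s13 (.tw (.s12 (.s13 (.c 0 (.b 136) (.b 44))))))))))) (.s13 (.tw (.s13 (.c 0 (.b 70) (.b 45)))))))))))),
  (.tw (.c 0 (.s12 (.s13 (.tw (.s12 (.c 0 (.s13 (.tw (.s13 (.c 0 (.tw (.s12 (.c 0 (.b 14) (.s13 (.tw (.s13 (.s12 (.c 0 (.b 381) (.b 381))))))))) (.b 12))))) (.b 12)))))) (.tw (.s12 (.c 0 (.s13 (.tw (.s12 (.c 0 (.b 13) (.c 0 (.b 136) (.b 462)))))) (.s13 (.tw (.c 0 (.s13 (.tw (.c 0 (.b 136) (.b 44)))) (.s13 (.tw (.s12 (.s13 (.c 0 (.b 320) (.s13 (.tw (.c 0 (.b 384) (.b 5))))))))))))))))),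
  (.c 0 (.tw (.c 0 (.b 13) (.s13 (.tw (.s12 (.s13 (.c 0 (.b 13) (.c 0 (.b 14) (.s13 (.tw (.s12 (.s13 (.c 0 (.b 381) (.b 381)))))))))))))) (.s13 (.tw (.c 0 (.s13 (.tw (.s12 (.c 0 (.b 13) (.s13 (.tw (.s12 (.s13 (.c 0 (.b 13) (.b 337)))))))))) (.tw (.s13 (.tw (.c 0 (.tw (.s12 (.s13 (.tw (.c 0 (.b 67) (.s13 (.tw (.s13 (.c 0 (.b 14) (.b 44)))))))))) (.s13 (.tw (.c 0 (.b 143) (.s13 (.tw (.c 0 (.b 82) (.b 5))))))))))))))),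
  (.c 0 (.tw (.c 0 (.b 13) (.s13 (.tw (.s12 (.s13 (.c 0 (.b 13) (.c 0 (.b 14) (.s13 (.tw (.s12 (.s13 (.c 0 (.b 381) (.b 381)))))))))))))) (.s13 (.tw (.c 0 (.s13 (.tw (.c 0 (.b 136) (.s13 (.tw (.s12 (.s13 (.c 0 (.b 13) (.b 139))))))))) (.tw (.s13 (.tw (.c 0 (.s13 (.tw (.c 0 (.b 136) (.b 44)))) (.s13 (.tw (.c 0 (.b 143) (.s13 (.tw (.c 0 (.b 384) (.b 5))))))))))))))),
  (.c 0 (.tw (.c 0 (.b 14) (.s13 (.tw (.s12 (.s13 (.c 0 (.b 13) (.s13 (.tw (.s12 (.s13 (.c 0 (.b 136) (.s13 (.tw (.s12 (.s13 (.c 0 (.b 63) (.b 369)))))))))))))))))) (.s13 (.tw (.c 0 (.s12 (.s13 (.tw (.c 0 (.b 530) (.b 29))))) (.tw (.s12 (.s13 (.tw (.c 0 (.s13 (.tw (.c 0 (.tw (.s12 (.s13 (.tw (.c 0 (.b 63) (.b 124)))))) (.b 136)))) (.s13 (.tw (.c 0 (.b 143) (.s13 (.tw (.c 0 (.b 5)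 (.b 5)))))))))))))))),
  (.c 0 (.tw (.c 0 (.b 14) (.s13 (.tw (.s12 (.s13 (.c 0 (.b 13) (.s13 (.tw (.s12 (.s13 (.c 0 (.b 136) (.s13 (.tw (.s12 (.s13 (.c 0 (.b 63) (.b 369)))))))))))))))))) (.s13 (.tw (.c 0 (.s12 (.s13 (.tw (.c 0 (.b 13) (.b 581))))) (.tw (.s12 (.s13 (.tw (.c 0 (.s13 (.tw (.c 0 (.tw (.s12 (.s13 (.tw (.c 0 (.b 63) (.b 124)))))) (.b 136)))) (.s13 (.tw (.c 0 (.b 143) (.s13 (.tw (.c 0 (.b 5) (.b 5)))))))))))))))),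
  (.tw (.c 0 (.tw (.c 0 (.b 348) (.s13 (.tw (.s12 (.s13 (.c 0 (.b 23) (.b 21)))))))) (.s13 (.tw (.c 0 (.s13 (.tw (.c 0 (.b 666) (.tw (.s12 (.s13 (.tw (.c 0 (.b 63) (.b 430))))))))) (.tw (.s12 (.s13 (.tw (.c 0 (.tw (.s12 (.c 0 (.b 136) (.b 249)))) (.s13 (.tw (.c 0 (.b 709) (.s13 (.tw (.c 0 (.b 5) (.b 124))))))))))))))))),
  (.tw (.c 0 (.tw (.c 0 (.b 19) (.s13 (.tw (.s12 (.s13 (.c 0 (.b 567) (.b 21)))))))) (.s13 (.tw (.c 0 (.s13 (.tw (.c 0 (.b 136) (.b 462)))) (.tw (.s13 (.tw (.c 0 (.s13 (.tw (.c 0 (.b 136) (.b 44)))) (.tw (.s12 (.s13 (.tw (.c 0 (.s13 (.tw (.c 0 (.b 44) (.b 12)))) (.s13 (.tw (.s12 (.c 0 (.b 5) (.b 124))))))))))))))))))),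
  (.tw (.c 0 (.tw (.c 0 (.b 348) (.s13 (.tw (.s12 (.s13 (.c 0 (.b 23) (.b 21)))))))) (.s13 (.tw (.c 0 (.s12 (.s13 (.tw (.c 0 (.s13 (.tw (.s12 (.s13 (.c 0 (.b 14) (.c 0 (.b 136) (.b 136))))))) (.b 16))))) (.tw (.s12 (.s13 (.tw (.c 0 (.s13 (.tw (.c 0 (.b 136) (.b 536)))) (.s13 (.tw (.c 0 (.tw (.c 0 (.b 57) (.b 136))) (.s13 (.tw (.c 0 (.b 5) (.b 124))))))))))))))))),
  (.c 0 (.tw (.c 0 (.b 13) (.s13 (.tw (.s12 (.s13 (.c 0 (.b 284) (.c 0 (.b 136) (.b 29))))))))) (.s13 (.c 0 (.tw (.c 0 (.s13 (.tw (.c 0 (.b 14) (.s13 (.tw (.s12 (.s13 (.c 0 (.b 381) (.b 351))))))))) (.tw (.s13 (.tw (.c 0 (.s13 (.tw (.c 0 (.b 136) (.b 44)))) (.s13 (.tw (.c 0 (.b 143) (.s13 (.tw (.c 0 (.b 82) (.b 5))))))))))))) (.b 1))))]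

theorem good2 : ∀ l ∈ box2, G (l, H, H) := by
  intro l hl
  have h := G_chkTbl tbl_good (ts := box2.map fun l => (l, H, H)) (ds := dv2) (by decide +kernel)
  exact h _ (List.mem_map.mpr ⟨l, hl, rfl⟩)

def box3 : List (List ℕ) := [
  [9,9,7,7,7,5,3,3,1,1],
  [9,9,7,7,7,5,3,3,2],
  [9,9,7,7,7,5,4,1,1,1,1],
  [9,9,7,7,7,5,4,2,1,1],
  [9,9,7,7,7,5,4,2,2],
  [9,9,7,7,7,5,4,3,1],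
  [9,9,7,7,7,5,4,4],
  [9,9,7,7,7,5,5,1,1,1],
  [9,9,7,7,7,5,5,2,1],
  [9,9,7,7,7,5,5,3],
  [9,9,7,7,7,6,3,1,1,1,1],
  [9,9,7,7,7,6,3,2,1,1],
  [9,9,7,7,7,6,3,2,2],
  [9,9,7,7,7,6,3,3,1],
  [9,9,7,7,7,6,4,1,1,1],
  [9,9,7,7,7,6,4,2,1],
  [9,9,7,7,7,6,4,3],
  [9,9,7,7,7,6,5,1,1],
  [9,9,7,7,7,6,5,2],
  [9,9,7,7,7,6,6,1],
  [9,9,7,7,7,7,1,1,1,1,1,1],
  [9,9,7,7,7,7,2,1,1,1,1],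
  [9,9,7,7,7,7,2,2,1,1],
  [9,9,7,7,7,7,2,2,2],
  [9,9,7,7,7,7,3,1,1,1],
  [9,9,7,7,7,7,3,2,1],
  [9,9,7,7,7,7,3,3],
  [9,9,7,7,7,7,4,1,1],
  [9,9,7,7,7,7,4,2],
  [9,9,7,7,7,7,5,1],
  [9,9,7,7,7,7,6],
  [9,9,8,5,5,4,4,4,4],
  [9,9,8,5,5,5,4,4,3],
  [9,9,8,5,5,5,5,3,3],
  [9,9,8,5,5,5,5,4,1,1],
  [9,9,8,5,5,5,5,4,2],
  [9,9,8,5,5,5,5,5,1],
  [9,9,8,6,4,4,4,4,4],
  [9,9,8,6,5,4,4,4,3],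
  [9,9,8,6,5,5,4,3,3],
  [9,9,8,6,5,5,4,4,1,1],
  [9,9,8,6,5,5,4,4,2],
  [9,9,8,6,5,5,5,3,1,1],
  [9,9,8,6,5,5,5,3,2],
  [9,9,8,6,5,5,5,4,1],
  [9,9,8,6,5,5,5,5],
  [9,9,8,6,6,4,4,3,3],
  [9,9,8,6,6,4,4,4,1,1],
  [9,9,8,6,6,4,4,4,2],
  [9,9,8,6,6,5,3,3,3],
  [9,9,8,6,6,5,4,3,1,1],
  [9,9,8,6,6,5,4,3,2],
  [9,9,8,6,6,5,4,4,1],
  [9,9,8,6,6,5,5,1,1,1,1],
  [9,9,8,6,6,5,5,2,1,1],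
  [9,9,8,6,6,5,5,2,2],
  [9,9,8,6,6,5,5,3,1],
  [9,9,8,6,6,5,5,4],
  [9,9,8,6,6,6,3,3,1,1],
  [9,9,8,6,6,6,3,3,2],
  [9,9,8,6,6,6,4,1,1,1,1],
  [9,9,8,6,6,6,4,2,1,1],
  [9,9,8,6,6,6,4,2,2],
  [9,9,8,6,6,6,4,3,1],
  [9,9,8,6,6,6,4,4],
  [9,9,8,6,6,6,5,1,1,1],
  [9,9,8,6,6,6,5,2,1],
  [9,9,8,6,6,6,5,3],
  [9,9,8,6,6,6,6,1,1],
  [9,9,8,6,6,6,6,2],
  [9,9,8,7,4,4,4,4,3],
  [9,9,8,7,5,4,4,3,3],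
  [9,9,8,7,5,4,4,4,1,1],
  [9,9,8,7,5,4,4,4,2],
  [9,9,8,7,5,5,3,3,3],
  [9,9,8,7,5,5,4,3,1,1],
  [9,9,8,7,5,5,4,3,2],
  [9,9,8,7,5,5,4,4,1],
  [9,9,8,7,5,5,5,1,1,1,1],
  [9,9,8,7,5,5,5,2,1,1],
  [9,9,8,7,5,5,5,2,2],
  [9,9,8,7,5,5,5,3,1],
  [9,9,8,7,5,5,5,4],
  [9,9,8,7,6,4,3,3,3],
  [9,9,8,7,6,4,4,3,1,1],
  [9,9,8,7,6,4,4,3,2],
  [9,9,8,7,6,4,4,4,1],
  [9,9,8,7,6,5,3,3,1,1],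
  [9,9,8,7,6,5,3,3,2],
  [9,9,8,7,6,5,4,1,1,1,1],
  [9,9,8,7,6,5,4,2,1,1],
  [9,9,8,7,6,5,4,2,2],
  [9,9,8,7,6,5,4,3,1],
  [9,9,8,7,6,5,4,4],
  [9,9,8,7,6,5,5,1,1,1],
  [9,9,8,7,6,5,5,2,1],
  [9,9,8,7,6,5,5,3],
  [9,9,8,7,6,6,3,1,1,1,1],
  [9,9,8,7,6,6,3,2,1,1],
  [9,9,8,7,6,6,3,2,2],
  [9,9,8,7,6,6,3,3,1],
  [9,9,8,7,6,6,4,1,1,1],
  [9,9,8,7,6,6,4,2,1],
  [9,9,8,7,6,6,4,3],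
  [9,9,8,7,6,6,5,1,1],
  [9,9,8,7,6,6,5,2],
  [9,9,8,7,6,6,6,1],
  [9,9,8,7,7,3,3,3,3],
  [9,9,8,7,7,4,3,3,1,1],
  [9,9,8,7,7,4,3,3,2],
  [9,9,8,7,7,4,4,1,1,1,1],
  [9,9,8,7,7,4,4,2,1,1],
  [9,9,8,7,7,4,4,2,2],
  [9,9,8,7,7,4,4,3,1],
  [9,9,8,7,7,4,4,4],
  [9,9,8,7,7,5,3,1,1,1,1],
  [9,9,8,7,7,5,3,2,1,1],
  [9,9,8,7,7,5,3,2,2],
  [9,9,8,7,7,5,3,3,1],
  [9,9,8,7,7,5,4,1,1,1],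
  [9,9,8,7,7,5,4,2,1],
  [9,9,8,7,7,5,4,3],
  [9,9,8,7,7,5,5,1,1],
  [9,9,8,7,7,5,5,2],
  [9,9,8,7,7,6,1,1,1,1,1,1],
  [9,9,8,7,7,6,2,1,1,1,1],
  [9,9,8,7,7,6,2,2,1,1],
  [9,9,8,7,7,6,2,2,2],
  [9,9,8,7,7,6,3,1,1,1],
  [9,9,8,7,7,6,3,2,1],
  [9,9,8,7,7,6,3,3],
  [9,9,8,7,7,6,4,1,1],
  [9,9,8,7,7,6,4,2],
  [9,9,8,7,7,6,5,1],
  [9,9,8,7,7,6,6],
  [9,9,8,7,7,7,1,1,1,1,1],
  [9,9,8,7,7,7,2,1,1,1],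
  [9,9,8,7,7,7,2,2,1],
  [9,9,8,7,7,7,3,1,1],
  [9,9,8,7,7,7,3,2],
  [9,9,8,7,7,7,4,1],
  [9,9,8,7,7,7,5],
  [9,9,8,8,4,4,4,3,3],
  [9,9,8,8,4,4,4,4,1,1],
  [9,9,8,8,4,4,4,4,2],
  [9,9,8,8,5,4,3,3,3],
  [9,9,8,8,5,4,4,3,1,1],
  [9,9,8,8,5,4,4,3,2],
  [9,9,8,8,5,4,4,4,1],
  [9,9,8,8,5,5,3,3,1,1],
  [9,9,8,8,5,5,3,3,2],
  [9,9,8,8,5,5,4,1,1,1,1],
  [9,9,8,8,5,5,4,2,1,1],
  [9,9,8,8,5,5,4,2,2],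
  [9,9,8,8,5,5,4,3,1],
  [9,9,8,8,5,5,4,4],
  [9,9,8,8,5,5,5,1,1,1],
  [9,9,8,8,5,5,5,2,1],
  [9,9,8,8,5,5,5,3],
  [9,9,8,8,6,3,3,3,3],
  [9,9,8,8,6,4,3,3,1,1],
  [9,9,8,8,6,4,3,3,2],
  [9,9,8,8,6,4,4,1,1,1,1],
  [9,9,8,8,6,4,4,2,1,1],
  [9,9,8,8,6,4,4,2,2],
  [9,9,8,8,6,4,4,3,1],
  [9,9,8,8,6,4,4,4],
  [9,9,8,8,6,5,3,1,1,1,1],
  [9,9,8,8,6,5,3,2,1,1],
  [9,9,8,8,6,5,3,2,2],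
  [9,9,8,8,6,5,3,3,1],
  [9,9,8,8,6,5,4,1,1,1],
  [9,9,8,8,6,5,4,2,1],
  [9,9,8,8,6,5,4,3],
  [9,9,8,8,6,5,5,1,1],
  [9,9,8,8,6,5,5,2],
  [9,9,8,8,6,6,1,1,1,1,1,1],
  [9,9,8,8,6,6,2,1,1,1,1],
  [9,9,8,8,6,6,2,2,1,1],
  [9,9,8,8,6,6,2,2,2],
  [9,9,8,8,6,6,3,1,1,1],
  [9,9,8,8,6,6,3,2,1],
  [9,9,8,8,6,6,3,3],
  [9,9,8,8,6,6,4,1,1],
  [9,9,8,8,6,6,4,2],
  [9,9,8,8,6,6,5,1],
  [9,9,8,8,6,6,6],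
  [9,9,8,8,7,3,3,3,1,1],
  [9,9,8,8,7,3,3,3,2],
  [9,9,8,8,7,4,3,1,1,1,1],
  [9,9,8,8,7,4,3,2,1,1],
  [9,9,8,8,7,4,3,2,2],
  [9,9,8,8,7,4,3,3,1],
  [9,9,8,8,7,4,4,1,1,1],
  [9,9,8,8,7,4,4,2,1],
  [9,9,8,8,7,4,4,3],
  [9,9,8,8,7,5,1,1,1,1,1,1],
  [9,9,8,8,7,5,2,1,1,1,1],
  [9,9,8,8,7,5,2,2,1,1],
  [9,9,8,8,7,5,2,2,2],
  [9,9,8,8,7,5,3,1,1,1],
  [9,9,8,8,7,5,3,2,1],
  [9,9,8,8,7,5,3,3],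
  [9,9,8,8,7,5,4,1,1],
  [9,9,8,8,7,5,4,2],
  [9,9,8,8,7,5,5,1],
  [9,9,8,8,7,6,1,1,1,1,1],
  [9,9,8,8,7,6,2,1,1,1],
  [9,9,8,8,7,6,2,2,1],
  [9,9,8,8,7,6,3,1,1],
  [9,9,8,8,7,6,3,2],
  [9,9,8,8,7,6,4,1],
  [9,9,8,8,7,6,5],
  [9,9,8,8,7,7,1,1,1,1],
  [9,9,8,8,7,7,2,1,1],
  [9,9,8,8,7,7,2,2],
  [9,9,8,8,7,7,3,1],
  [9,9,8,8,7,7,4],
  [9,9,8,8,8,3,3,1,1,1,1],
  [9,9,8,8,8,3,3,2,1,1],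
  [9,9,8,8,8,3,3,2,2],
  [9,9,8,8,8,3,3,3,1],
  [9,9,8,8,8,4,1,1,1,1,1,1],
  [9,9,8,8,8,4,2,1,1,1,1],
  [9,9,8,8,8,4,2,2,1,1],
  [9,9,8,8,8,4,2,2,2],
  [9,9,8,8,8,4,3,1,1,1],
  [9,9,8,8,8,4,3,2,1],
  [9,9,8,8,8,4,3,3],
  [9,9,8,8,8,4,4,1,1],
  [9,9,8,8,8,4,4,2],
  [9,9,8,8,8,5,1,1,1,1,1],
  [9,9,8,8,8,5,2,1,1,1],
  [9,9,8,8,8,5,2,2,1],
  [9,9,8,8,8,5,3,1,1],
  [9,9,8,8,8,5,3,2],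
  [9,9,8,8,8,5,4,1],
  [9,9,8,8,8,5,5],
  [9,9,8,8,8,6,1,1,1,1],
  [9,9,8,8,8,6,2,1,1],
  [9,9,8,8,8,6,2,2],
  [9,9,8,8,8,6,3,1],
  [9,9,8,8,8,6,4],
  [9,9,8,8,8,7,1,1,1],
  [9,9,8,8,8,7,2,1],
  [9,9,8,8,8,7,3],
  [9,9,8,8,8,8,1,1],
  [9,9,8,8,8,8,2],
  [9,9,9,5,4,4,4,4,4],
  [9,9,9,5,5,4,4,4,3],
  [9,9,9,5,5,5,4,3,3],
  [9,9,9,5,5,5,4,4,1,1],
  [9,9,9,5,5,5,4,4,2],
  [9,9,9,5,5,5,5,3,1,1],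
  [9,9,9,5,5,5,5,3,2],
  [9,9,9,5,5,5,5,4,1],
  [9,9,9,5,5,5,5,5],
  [9,9,9,6,4,4,4,4,3],
  [9,9,9,6,5,4,4,3,3],
  [9,9,9,6,5,4,4,4,1,1],
  [9,9,9,6,5,4,4,4,2],
  [9,9,9,6,5,5,3,3,3],
  [9,9,9,6,5,5,4,3,1,1],
  [9,9,9,6,5,5,4,3,2],
  [9,9,9,6,5,5,4,4,1],
  [9,9,9,6,5,5,5,1,1,1,1],
  [9,9,9,6,5,5,5,2,1,1],
  [9,9,9,6,5,5,5,2,2],
  [9,9,9,6,5,5,5,3,1],
  [9,9,9,6,5,5,5,4],
  [9,9,9,6,6,4,3,3,3],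
  [9,9,9,6,6,4,4,3,1,1],
  [9,9,9,6,6,4,4,3,2],
  [9,9,9,6,6,4,4,4,1],
  [9,9,9,6,6,5,3,3,1,1],
  [9,9,9,6,6,5,3,3,2],
  [9,9,9,6,6,5,4,1,1,1,1],
  [9,9,9,6,6,5,4,2,1,1],
  [9,9,9,6,6,5,4,2,2],
  [9,9,9,6,6,5,4,3,1],
  [9,9,9,6,6,5,4,4],
  [9,9,9,6,6,5,5,1,1,1],
  [9,9,9,6,6,5,5,2,1],
  [9,9,9,6,6,5,5,3],
  [9,9,9,6,6,6,3,1,1,1,1],
  [9,9,9,6,6,6,3,2,1,1],
  [9,9,9,6,6,6,3,2,2],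
  [9,9,9,6,6,6,3,3,1],
  [9,9,9,6,6,6,4,1,1,1],
  [9,9,9,6,6,6,4,2,1],
  [9,9,9,6,6,6,4,3],
  [9,9,9,6,6,6,5,1,1],
  [9,9,9,6,6,6,5,2],
  [9,9,9,6,6,6,6,1],
  [9,9,9,7,4,4,4,3,3],
  [9,9,9,7,4,4,4,4,1,1],
  [9,9,9,7,4,4,4,4,2],
  [9,9,9,7,5,4,3,3,3],
  [9,9,9,7,5,4,4,3,1,1],
  [9,9,9,7,5,4,4,3,2]]

def dv3 : List Dv := [
  (.tw (.c 0 (.tw (.c 0 (.b 19) (.s13 (.tw (.s12 (.s13 (.c 0 (.b 567) (.b 21)))))))) (.s13 (.tw (.c 0 (.s13 (.tw (.c 0 (.b 14) (.s13 (.tw (.s12 (.s13 (.c 0 (.b 136) (.b 351))))))))) (.tw (.s13 (.tw (.c 0 (.s13 (.tw (.c 0 (.b 136) (.s13 (.tw (.s12 (.s13 (.c 0 (.b 44) (.b 1))))))))) (.s13 (.tw (.c 0 (.b 73) (.s13 (.tw (.c 0 (.b 5) (.b 124)))))))))))))))),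
  (.tw (.c 0 (.tw (.c 0 (.b 348) (.s13 (.tw (.s12 (.s13 (.c 0 (.b 23) (.b 21)))))))) (.s13 (.tw (.c 0 (.s12 (.s13 (.tw (.c 0 (.b 136) (.s13 (.tw (.s12 (.s13 (.c 0 (.b 13) (.b 337)))))))))) (.tw (.s12 (.s13 (.tw (.c 0 (.s13 (.tw (.c 0 (.b 136) (.s13 (.tw (.s12 (.s13 (.c 0 (.b 44) (.b 1))))))))) (.s13 (.tw (.c 0 (.tw (.c 0 (.b 57) (.b 136))) (.s13 (.tw (.c 0 (.b 5) (.b 124))))))))))))))))),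
  (.tw (.c 0 (.tw (.c 0 (.s13 (.tw (.s12 (.s13 (.c 0 (.s12 (.s13 (.tw (.c 0 (.b 14) (.s13 (.tw (.s13 (.s12 (.c 0 (.b 381) (.b 381)))))))))) (.b 29)))))) (.b 12))) (.s13 (.tw (.c 0 (.s12 (.s13 (.tw (.c 0 (.b 14) (.s13 (.tw (.s12 (.s13 (.c 0 (.b 136) (.b 351)))))))))) (.tw (.s12 (.s13 (.tw (.c 0 (.s13 (.tw (.c 0 (.b 136) (.b 44)))) (.s12 (.s13 (.tw (.c 0 (.s13 (.tw (.s12 (.c 0 (.b 13) (.b 405))))) (.s13 (.tw (.c 0 (.b 44) (.b 12)))))))))))))))))),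
  (.tw (.c 0 (.tw (.c 0 (.b 19) (.s13 (.tw (.s12 (.s13 (.c 0 (.b 567) (.b 21)))))))) (.s13 (.tw (.c 0 (.s13 (.tw (.c 0 (.b 14) (.s13 (.tw (.s12 (.s13 (.c 0 (.b 136) (.b 351))))))))) (.tw (.s13 (.tw (.c 0 (.s13 (.tw (.c 0 (.b 136) (.s13 (.tw (.s12 (.s13 (.c 0 (.b 44) (.b 1))))))))) (.tw (.s13 (.tw (.c 0 (.s13 (.tw (.s12 (.c 0 (.b 63) (.b 381))))) (.s13 (.tw (.c 0 (.b 63) (.b 44))))))))))))))))),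
  (.c 0 (.tw (.c 0 (.b 348) (.s13 (.tw (.s12 (.s13 (.c 0 (.b 23) (.b 21)))))))) (.s13 (.tw (.c 0 (.s12 (.s13 (.tw (.c 0 (.b 136) (.s13 (.tw (.s12 (.s13 (.c 0 (.b 13) (.b 546)))))))))) (.tw (.s12 (.s13 (.tw (.c 0 (.s13 (.tw (.c 0 (.b 136) (.b 44)))) (.tw (.s12 (.s13 (.tw (.c 0 (.s13 (.tw (.c 0 (.b 320) (.b 5)))) (.b 210))))))))))))))),
  (.c 0 (.tw (.c 0 (.b 348) (.s13 (.tw (.s12 (.s13 (.c 0 (.b 13) (.c 0 (.b 63) (.b 159))))))))) (.s13 (.tw (.c 0 (.s12 (.s13 (.tw (.c 0 (.b 136) (.s13 (.tw (.s12 (.s13 (.c 0 (.b 13) (.b 546)))))))))) (.tw (.s12 (.s13 (.tw (.c 0 (.s13 (.tw (.c 0 (.b 136) (.b 44)))) (.tw (.s12 (.s13 (.tw (.c 0 (.s13 (.tw (.c 0 (.b 320) (.b 5)))) (.b 210))))))))))))))),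
  (.c 0 (.tw (.c 0 (.b 13) (.s13 (.tw (.s12 (.s13 (.c 0 (.b 284) (.c 0 (.b 136) (.b 29))))))))) (.s13 (.tw (.c 0 (.s12 (.s13 (.tw (.c 0 (.b 136) (.s13 (.tw (.s12 (.s13 (.c 0 (.b 13) (.b 546)))))))))) (.tw (.s12 (.s13 (.tw (.c 0 (.s13 (.tw (.c 0 (.b 136) (.b 44)))) (.tw (.s12 (.s13 (.tw (.c 0 (.s13 (.tw (.c 0 (.b 320) (.b 5)))) (.b 210))))))))))))))),
  (.tw (.c 0 (.s12 (.s13 (.tw (.s12 (.c 0 (.s13 (.tw (.s13 (.c 0 (.tw (.s12 (.c 0 (.b 14) (.s13 (.tw (.s13 (.s12 (.c 0 (.b 381) (.b 381))))))))) (.b 12))))) (.b 12)))))) (.tw (.s12 (.c 0 (.s13 (.tw (.s12 (.c 0 (.b 13) (.c 0 (.b 136) (.b 462)))))) (.s13 (.tw (.c 0 (.s13 (.tw (.c 0 (.b 136) (.b 44)))) (.s13 (.tw (.s12 (.s13 (.c 0 (.b 320) (.s13 (.tw (.c 0 (.b 5) (.b 124))))))))))))))))),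
  (.c 0 (.tw (.c 0 (.b 13) (.s13 (.tw (.s12 (.s13 (.c 0 (.b 13) (.c 0 (.b 14) (.s13 (.tw (.s12 (.s13 (.c 0 (.b 381) (.b 381)))))))))))))) (.s13 (.tw (.c 0 (.s13 (.tw (.c 0 (.b 57) (.s13 (.tw (.s12 (.s13 (.c 0 (.b 57) (.b 44))))))))) (.tw (.s13 (.tw (.c 0 (.s13 (.tw (.c 0 (.b 5) (.s13 (.tw (.s13 (.c 0 (.b 140) (.b 143)))))))) (.s13 (.tw (.c 0 (.b 136) (.b 44)))))))))))),
  (.c 0 (.tw (.c 0 (.b 13) (.s13 (.tw (.s12 (.s13 (.c 0 (.b 13) (.c 0 (.b 14) (.s13 (.tw (.s12 (.s13 (.c 0 (.b 381) (.b 381)))))))))))))) (.s13 (.tw (.c 0 (.s13 (.tw (.c 0 (.b 57) (.s13 (.tw (.s12 (.s13 (.c 0 (.b 57) (.b 44))))))))) (.tw (.s13 (.tw (.c 0 (.s13 (.tw (.c 0 (.b 136) (.b 44)))) (.s13 (.tw (.c 0 (.b 143) (.s13 (.tw (.c 0 (.b 384) (.b 5))))))))))))))),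
  (.tw (.c 0 (.tw (.c 0 (.s13 (.tw (.s12 (.s13 (.c 0 (.s12 (.s13 (.tw (.c 0 (.b 14) (.s13 (.tw (.s13 (.s12 (.c 0 (.b 381) (.b 381)))))))))) (.b 29)))))) (.b 12))) (.s13 (.tw (.c 0 (.s12 (.s13 (.tw (.c 0 (.b 14) (.s13 (.tw (.s12 (.s13 (.c 0 (.b 136) (.b 351)))))))))) (.s12 (.s13 (.c 0 (.s12 (.s13 (.tw (.s12 (.c 0 (.b 58) (.s13 (.tw (.s12 (.s13 (.c 0 (.b 136) (.b 44))))))))))) (.s12 (.s13 (.tw (.s12 (.c 0 (.b 304) (.tw (.s12 (.s13 (.tw (.c 0 (.b 381) (.b 136))))))))))))))))))),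
  (.tw (.c 0 (.tw (.c 0 (.b 19) (.s13 (.tw (.s12 (.s13 (.c 0 (.b 567) (.b 21)))))))) (.s13 (.tw (.c 0 (.s13 (.tw (.c 0 (.b 14) (.s13 (.tw (.s12 (.s13 (.c 0 (.b 14) (.c 0 (.b 136) (.b 136)))))))))) (.tw (.s13 (.tw (.c 0 (.s13 (.tw (.c 0 (.b 136) (.b 536)))) (.tw (.s13 (.tw (.c 0 (.s13 (.tw (.s12 (.c 0 (.b 63) (.b 381))))) (.s13 (.tw (.c 0 (.b 63) (.b 44))))))))))))))))),
  (.c 0 (.tw (.c 0 (.b 348) (.s13 (.tw (.s12 (.s13 (.c 0 (.b 23) (.b 21)))))))) (.s13 (.tw (.c 0 (.s12 (.s13 (.tw (.c 0 (.b 13) (.s13 (.tw (.s12 (.s13 (.c 0 (.b 58) (.c 0 (.b 136) (.b 136))))))))))) (.tw (.s12 (.s13 (.tw (.c 0 (.s13 (.tw (.c 0 (.b 136) (.b 44)))) (.s13 (.tw (.c 0 (.s13 (.tw (.s12 (.c 0 (.b 334) (.b 73))))) (.b 5))))))))))))),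
  (.c 0 (.tw (.c 0 (.b 348) (.s13 (.tw (.s12 (.s13 (.c 0 (.b 13) (.c 0 (.b 63) (.b 159))))))))) (.s13 (.tw (.c 0 (.s12 (.s13 (.tw (.c 0 (.b 13) (.s13 (.tw (.s12 (.s13 (.c 0 (.b 58) (.c 0 (.b 136) (.b 136))))))))))) (.tw (.s12 (.s13 (.tw (.c 0 (.s13 (.tw (.c 0 (.b 136) (.b 44)))) (.s13 (.tw (.c 0 (.s13 (.tw (.s12 (.c 0 (.b 334) (.b 73))))) (.b 5))))))))))))),
  (.tw (.c 0 (.s12 (.s13 (.tw (.s12 (.c 0 (.s13 (.tw (.s13 (.c 0 (.tw (.s12 (.c 0 (.b 14) (.s13 (.tw (.s13 (.s12 (.c 0 (.b 381) (.b 381))))))))) (.b 12))))) (.b 12)))))) (.tw (.s12 (.c 0 (.tw (.s13 (.tw (.c 0 (.s13 (.tw (.s13 (.s12 (.c 0 (.b 381) (.b 200)))))) (.b 80))))) (.s13 (.tw (.c 0 (.s13 (.tw (.c 0 (.b 220) (.b 247)))) (.s13 (.tw (.s12 (.s13 (.c 0 (.b 5) (.b 44)))))))))))))),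
  (.c 0 (.tw (.c 0 (.b 13) (.s13 (.tw (.s12 (.s13 (.c 0 (.b 284) (.c 0 (.b 136) (.b 29))))))))) (.s13 (.c 0 (.tw (.c 0 (.s13 (.tw (.c 0 (.b 58) (.s13 (.tw (.s12 (.s13 (.c 0 (.b 14) (.c 0 (.b 136) (.b 136)))))))))) (.tw (.s13 (.tw (.c 0 (.s13 (.tw (.c 0 (.b 14) (.c 0 (.b 63) (.b 136))))) (.s13 (.tw (.c 0 (.b 5) (.s13 (.tw (.c 0 (.b 384) (.b 5))))))))))))) (.b 1)))),
  (.c 0 (.tw (.c 0 (.b 13) (.s13 (.tw (.s12 (.s13 (.c 0 (.b 284) (.c 0 (.b 136) (.b 29))))))))) (.s13 (.tw (.c 0 (.s12 (.s13 (.tw (.c 0 (.b 13) (.s13 (.tw (.s12 (.s13 (.c 0 (.b 58) (.c 0 (.b 136) (.b 136))))))))))) (.tw (.s12 (.s13 (.tw (.c 0 (.s13 (.tw (.c 0 (.b 136) (.b 44)))) (.s13 (.tw (.c 0 (.s13 (.tw (.s12 (.c 0 (.b 334) (.b 73))))) (.b 5))))))))))))),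
  (.c 0 (.tw (.c 0 (.b 13) (.s13 (.tw (.s12 (.s13 (.c 0 (.b 13) (.c 0 (.b 14) (.s13 (.tw (.s12 (.s13 (.c 0 (.b 381) (.b 381)))))))))))))) (.s13 (.tw (.c 0 (.s13 (.tw (.c 0 (.b 58) (.s13 (.tw (.s12 (.s13 (.c 0 (.b 14) (.c 0 (.b 136) (.b 136)))))))))) (.tw (.s13 (.tw (.c 0 (.s13 (.tw (.c 0 (.b 304) (.b 44)))) (.s13 (.tw (.s13 (.c 0 (.b 5) (.c 0 (.b 5) (.b 12)))))))))))))),
  (.c 0 (.tw (.c 0 (.b 13) (.s13 (.tw (.s12 (.s13 (.c 0 (.b 13) (.c 0 (.b 14) (.s13 (.tw (.s12 (.s13 (.c 0 (.b 381) (.b 381)))))))))))))) (.s13 (.tw (.c 0 (.s13 (.tw (.c 0 (.b 58) (.s13 (.tw (.s12 (.s13 (.c 0 (.b 14) (.c 0 (.b 136) (.b 136)))))))))) (.tw (.s13 (.tw (.c 0 (.s13 (.tw (.c 0 (.b 14) (.c 0 (.b 63) (.b 136))))) (.s13 (.tw (.c 0 (.b 5) (.s13 (.tw (.c 0 (.b 384) (.b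 5))))))))))))))),
  (.c 0 (.tw (.c 0 (.b 14) (.s13 (.tw (.s12 (.s13 (.c 0 (.b 13) (.s13 (.tw (.s12 (.s13 (.c 0 (.b 136) (.s13 (.tw (.s12 (.s13 (.c 0 (.b 63) (.b 369)))))))))))))))))) (.s13 (.tw (.c 0 (.s12 (.s13 (.tw (.c 0 (.b 284) (.b 147))))) (.tw (.s12 (.s13 (.tw (.c 0 (.s13 (.tw (.c 0 (.tw (.s12 (.s13 (.tw (.c 0 (.b 63) (.b 124)))))) (.b 136)))) (.s13 (.tw (.c 0 (.b 143) (.s13 (.tw (.c 0 (.b 5) (.b 5)))))))))))))))),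
  (.tw (.c 0 (.tw (.c 0 (.b 14) (.s13 (.tw (.s12 (.s13 (.c 0 (.b 478) (.s13 (.tw (.s12 (.s13 (.c 0 (.b 136) (.s13 (.tw (.s12 (.s13 (.c 0 (.b 63) (.b 381)))))))))))))))))) (.s13 (.tw (.c 0 (.tw (.s13 (.tw (.c 0 (.b 67) (.s13 (.tw (.s13 (.c 0 (.b 14) (.b 44))))))))) (.s12 (.s13 (.tw (.s12 (.c 0 (.tw (.c 0 (.b 58) (.s13 (.tw (.s12 (.s13 (.c 0 (.b 24) (.b 136)))))))) (.s12 (.s13 (.tw (.s12 (.c 0 (.b 304) (.b 44)))))))))))))))),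
  (.tw (.c 0 (.tw (.c 0 (.s13 (.tw (.s12 (.s13 (.c 0 (.s12 (.s13 (.tw (.c 0 (.b 14) (.s13 (.tw (.s13 (.s12 (.c 0 (.b 381) (.b 381)))))))))) (.b 29)))))) (.b 12))) (.s13 (.tw (.c 0 (.tw (.s13 (.tw (.c 0 (.b 67) (.s13 (.tw (.s13 (.c 0 (.b 14) (.b 44))))))))) (.s12 (.s13 (.c 0 (.tw (.c 0 (.b 14) (.s13 (.tw (.s12 (.s13 (.c 0 (.b 63) (.c 0 (.b 136) (.b 136))))))))) (.s13 (.tw (.s13 (.c 0 (.b 70) (.b 45))))))))))))),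
  (.tw (.c 0 (.tw (.c 0 (.b 19) (.s13 (.tw (.s12 (.s13 (.c 0 (.b 567) (.b 21)))))))) (.s13 (.tw (.c 0 (.s13 (.tw (.c 0 (.b 14) (.s13 (.tw (.s12 (.s13 (.c 0 (.b 14) (.c 0 (.b 136) (.b 136)))))))))) (.s13 (.c 0 (.tw (.c 0 (.b 304) (.s13 (.tw (.s12 (.s13 (.c 0 (.b 63) (.b 44)))))))) (.s13 (.tw (.s13 (.c 0 (.b 70) (.b 45)))))))))))),
  (.c 0 (.tw (.c 0 (.b 348) (.s13 (.tw (.s12 (.s13 (.c 0 (.b 23) (.b 21)))))))) (.s13 (.tw (.c 0 (.s13 (.tw (.c 0 (.b 14) (.s13 (.tw (.s12 (.s13 (.c 0 (.b 136) (.s13 (.tw (.s12 (.s13 (.c 0 (.b 24) (.b 136)))))))))))))) (.tw (.s12 (.s13 (.tw (.c 0 (.s13 (.tw (.s12 (.c 0 (.b 136) (.b 598))))) (.s13 (.tw (.c 0 (.b 5) (.c 0 (.b 5) (.b 26)))))))))))))),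
  (.tw (.c 0 (.s12 (.s13 (.tw (.s12 (.c 0 (.s13 (.tw (.s13 (.c 0 (.tw (.s12 (.c 0 (.b 14) (.s13 (.tw (.s13 (.s12 (.c 0 (.b 381) (.b 381))))))))) (.b 12))))) (.b 12)))))) (.s13 (.tw (.s13 (.s12 (.c 0 (.tw (.s13 (.s12 (.c 0 (.s13 (.tw (.c 0 (.b 239) (.b 1)))) (.s13 (.tw (.s12 (.c 0 (.b 272) (.b 239))))))))) (.tw (.s12 (.c 0 (.s13 (.tw (.c 0 (.b 63) (.b 381)))) (.s13 (.tw (.c 0 (.b 5) (.b 5)))))))))))))),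
  (.c 0 (.tw (.c 0 (.b 348) (.s13 (.tw (.s12 (.s13 (.c 0 (.b 13) (.c 0 (.b 63) (.b 159))))))))) (.s13 (.tw (.c 0 (.s13 (.tw (.c 0 (.b 14) (.s13 (.tw (.s12 (.s13 (.c 0 (.b 136) (.s13 (.tw (.s12 (.s13 (.c 0 (.b 24) (.b 136)))))))))))))) (.tw (.s12 (.s13 (.tw (.c 0 (.s13 (.tw (.s12 (.c 0 (.b 136) (.b 598))))) (.s13 (.tw (.c 0 (.b 5) (.c 0 (.b 5) (.b 26)))))))))))))),
  (.c 0 (.tw (.c 0 (.b 311) (.s13 (.tw (.s12 (.s13 (.c 0 (.b 23) (.b 21)))))))) (.tw (.c 0 (.s12 (.s13 (.tw (.c 0 (.b 136) (.s13 (.tw (.s12 (.s13 (.c 0 (.b 63) (.b 465)))))))))) (.tw (.s12 (.s13 (.tw (.c 0 (.s13 (.tw (.c 0 (.b 136) (.b 663)))) (.s13 (.tw (.s13 (.c 0 (.b 5) (.s13 (.tw (.c 0 (.b 384) (.b 5)))))))))))))))),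
  (.c 0 (.tw (.c 0 (.b 13) (.s13 (.tw (.s12 (.s13 (.c 0 (.b 284) (.c 0 (.b 136) (.b 29))))))))) (.s13 (.c 0 (.tw (.c 0 (.s13 (.tw (.c 0 (.b 14) (.s13 (.tw (.s12 (.s13 (.c 0 (.b 14) (.c 0 (.b 136) (.b 247)))))))))) (.s13 (.tw (.c 0 (.s13 (.tw (.c 0 (.b 136) (.b 44)))) (.s13 (.tw (.s13 (.c 0 (.b 5) (.c 0 (.b 5) (.b 12))))))))))) (.b 1)))),
  (.c 0 (.tw (.c 0 (.b 13) (.s13 (.tw (.s12 (.s13 (.c 0 (.b 284) (.c 0 (.b 136) (.b 29))))))))) (.s13 (.tw (.c 0 (.s13 (.tw (.c 0 (.b 14) (.s13 (.tw (.s12 (.s13 (.c 0 (.b 136) (.s13 (.tw (.s12 (.s13 (.c 0 (.b 24) (.b 136)))))))))))))) (.tw (.s12 (.s13 (.tw (.c 0 (.s13 (.tw (.s12 (.c 0 (.b 136) (.b 598))))) (.s13 (.tw (.c 0 (.b 5) (.c 0 (.b 5) (.b 26)))))))))))))),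
  (.c 0 (.tw (.c 0 (.b 13) (.s13 (.tw (.s12 (.s13 (.c 0 (.b 13) (.c 0 (.b 14) (.s13 (.tw (.s12 (.s13 (.c 0 (.b 381) (.b 381)))))))))))))) (.s13 (.tw (.c 0 (.s13 (.tw (.c 0 (.b 14) (.s13 (.tw (.s12 (.s13 (.c 0 (.b 14) (.c 0 (.b 136) (.b 247)))))))))) (.s13 (.tw (.c 0 (.s13 (.tw (.c 0 (.b 136) (.b 44)))) (.s13 (.tw (.s13 (.c 0 (.b 5) (.c 0 (.b 5) (.b 12))))))))))))),
  (.c 0 (.tw (.c 0 (.b 14) (.s13 (.tw (.s12 (.s13 (.c 0 (.b 13) (.s13 (.tw (.s12 (.s13 (.c 0 (.b 136) (.s13 (.tw (.s12 (.s13 (.c 0 (.b 63) (.b 369)))))))))))))))))) (.s12 (.s13 (.tw (.c 0 (.s13 (.tw (.c 0 (.b 381) (.tw (.s12 (.s13 (.tw (.c 0 (.b 63) (.b 381))))))))) (.tw (.s13 (.tw (.c 0 (.s13 (.tw (.c 0 (.b 136) (.b 44)))) (.s13 (.tw (.s12 (.s13 (.c 0 (.b 5) (.c 0 (.b 5) (.b 284)))))))))))))))),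
  (.tw (.c 0 (.tw (.c 0 (.b 13) (.s13 (.tw (.s12 (.s13 (.c 0 (.b 13) (.c 0 (.b 14) (.s13 (.tw (.s12 (.s13 (.c 0 (.b 381) (.b 381)))))))))))))) (.s13 (.tw (.c 0 (.tw (.c 0 (.b 63) (.b 44))) (.tw (.s13 (.tw (.c 0 (.s13 (.tw (.c 0 (.b 136) (.b 44)))) (.tw (.s12 (.s13 (.tw (.c 0 (.b 5) (.s13 (.tw (.s12 (.s13 (.c 0 (.b 202) (.tw (.s13 (.tw (.c 0 (.b 13) (.b 247)))))))))))))))))))))))),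
  (.tw (.c 0 (.tw (.c 0 (.b 19) (.s13 (.tw (.s12 (.s13 (.c 0 (.b 538) (.s13 (.tw (.s12 (.s13 (.c 0 (.b 63) (.b 159))))))))))))) (.s13 (.tw (.c 0 (.s13 (.tw (.c 0 (.b 478) (.b 236)))) (.tw (.s13 (.tw (.c 0 (.s13 (.tw (.c 0 (.b 24) (.s13 (.tw (.s12 (.s13 (.c 0 (.b 44) (.b 1))))))))) (.s13 (.tw (.c 0 (.b 5) (.s13 (.tw (.c 0 (.b 5) (.b 124)))))))))))))))),
  (.tw (.c 0 (.tw (.c 0 (.b 19) (.s13 (.tw (.s12 (.s13 (.c 0 (.b 538) (.s13 (.tw (.s12 (.s13 (.c 0 (.b 63) (.b 159))))))))))))) (.s13 (.tw (.c 0 (.s13 (.tw (.c 0 (.b 57) (.s13 (.tw (.s12 (.s13 (.c 0 (.b 63) (.b 612))))))))) (.tw (.s13 (.tw (.c 0 (.s13 (.tw (.c 0 (.b 136) (.b 44)))) (.s13 (.tw (.c 0 (.b 143) (.s13 (.tw (.c 0 (.b 384) (.b 5)))))))))))))))),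
  (.tw (.c 0 (.tw (.c 0 (.b 284) (.s13 (.tw (.s12 (.s13 (.c 0 (.b 63) (.b 93)))))))) (.s13 (.tw (.c 0 (.tw (.s12 (.s13 (.s12 (.c 0 (.b 14) (.b 526)))))) (.tw (.s12 (.s13 (.tw (.c 0 (.tw (.s12 (.s13 (.tw (.c 0 (.b 67) (.s13 (.tw (.s13 (.c 0 (.b 14) (.b 44)))))))))) (.s13 (.tw (.c 0 (.tw (.c 0 (.b 63) (.b 136))) (.s13 (.tw (.c 0 (.b 5) (.b 5))))))))))))))))),
  (.tw (.c 0 (.tw (.c 0 (.b 19) (.s13 (.tw (.s12 (.s13 (.c 0 (.b 538) (.s13 (.tw (.s12 (.s13 (.c 0 (.b 63) (.b 159))))))))))))) (.s13 (.tw (.c 0 (.s13 (.tw (.c 0 (.b 478) (.b 236)))) (.tw (.s13 (.tw (.c 0 (.s13 (.tw (.c 0 (.b 249) (.b 44)))) (.s13 (.tw (.c 0 (.b 5) (.s13 (.tw (.c 0 (.b 5) (.b 124)))))))))))))))),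
  (.c 0 (.tw (.c 0 (.b 13) (.s13 (.tw (.s12 (.s13 (.c 0 (.b 13) (.c 0 (.b 14) (.s13 (.tw (.s12 (.s13 (.c 0 (.b 381) (.b 381)))))))))))))) (.s13 (.tw (.c 0 (.s13 (.tw (.c 0 (.b 136) (.b 462)))) (.tw (.s13 (.tw (.c 0 (.s13 (.tw (.c 0 (.b 136) (.tw (.s12 (.s13 (.tw (.c 0 (.b 63) (.b 381))))))))) (.s13 (.tw (.c 0 (.s13 (.tw (.s12 (.c 0 (.b 63) (.b 124))))) (.s13 (.tw (.c 0 (.b 5) (.b 124))))))))))))))),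
  (.tw (.c 0 (.tw (.c 0 (.b 13) (.s13 (.tw (.s12 (.s13 (.c 0 (.b 284) (.c 0 (.b 136) (.b 29))))))))) (.s13 (.tw (.c 0 (.tw (.s12 (.s13 (.s12 (.c 0 (.b 14) (.b 526)))))) (.tw (.s12 (.s13 (.tw (.c 0 (.s13 (.tw (.c 0 (.tw (.c 0 (.b 63) (.b 136))) (.s13 (.tw (.c 0 (.b 5) (.b 5))))))) (.tw (.s12 (.s13 (.tw (.c 0 (.b 99) (.b 247)))))))))))))))),
  (.tw (.c 0 (.tw (.c 0 (.b 13) (.s13 (.tw (.s12 (.s13 (.c 0 (.b 284) (.c 0 (.b 136) (.b 29))))))))) (.s13 (.tw (.c 0 (.tw (.s12 (.s13 (.s12 (.c 0 (.b 14) (.b 526)))))) (.s12 (.s13 (.tw (.c 0 (.s13 (.tw (.s12 (.c 0 (.s13 (.tw (.c 0 (.b 14) (.b 44)))) (.s13 (.tw (.c 0 (.b 5) (.b 5)))))))) (.s13 (.tw (.c 0 (.b 180) (.b 44))))))))))))),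
  (.tw (.c 0 (.tw (.c 0 (.b 13) (.s13 (.tw (.s12 (.s13 (.c 0 (.b 284) (.c 0 (.b 136) (.b 29))))))))) (.s13 (.tw (.c 0 (.tw (.s12 (.s13 (.s12 (.c 0 (.b 14) (.b 526)))))) (.tw (.s12 (.s13 (.tw (.c 0 (.s13 (.tw (.c 0 (.b 24) (.s13 (.tw (.s12 (.s13 (.c 0 (.b 14) (.b 44))))))))) (.s13 (.tw (.c 0 (.tw (.c 0 (.b 63) (.b 136))) (.s13 (.tw (.c 0 (.b 5) (.b 5))))))))))))))))),
  (.tw (.c 0 (.tw (.c 0 (.b 284) (.s13 (.tw (.s12 (.s13 (.c 0 (.b 63) (.b 93)))))))) (.s13 (.tw (.c 0 (.s12 (.s13 (.tw (.s12 (.c 0 (.b 714) (.b 58)))))) (.tw (.s12 (.s13 (.tw (.c 0 (.s13 (.tw (.c 0 (.b 136) (.s13 (.tw (.s12 (.s13 (.c 0 (.b 44) (.b 1))))))))) (.s13 (.tw (.c 0 (.tw (.c 0 (.b 63) (.b 136))) (.s13 (.tw (.c 0 (.b 5) (.b 5))))))))))))))))),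
  (.tw (.c 0 (.tw (.c 0 (.b 13) (.s13 (.tw (.s12 (.s13 (.c 0 (.b 284) (.c 0 (.b 136) (.b 29))))))))) (.s13 (.tw (.c 0 (.tw (.s12 (.s13 (.s12 (.c 0 (.b 14) (.b 526)))))) (.tw (.s12 (.s13 (.tw (.c 0 (.tw (.s12 (.s13 (.tw (.c 0 (.b 67) (.s13 (.tw (.s13 (.c 0 (.b 14) (.b 44)))))))))) (.tw (.s12 (.s13 (.tw (.c 0 (.s12 (.s13 (.tw (.c 0 (.b 44) (.b 1))))) (.s13 (.tw (.c 0 (.b 5) (.b 5))))))))))))))))))),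
  (.tw (.c 0 (.tw (.c 0 (.b 284) (.s13 (.tw (.s12 (.s13 (.c 0 (.b 63) (.b 93)))))))) (.s13 (.tw (.c 0 (.s12 (.s13 (.tw (.c 0 (.b 136) (.s13 (.tw (.s12 (.s13 (.c 0 (.b 13) (.b 546)))))))))) (.tw (.s12 (.s13 (.tw (.c 0 (.s13 (.tw (.c 0 (.b 304) (.b 44)))) (.s13 (.tw (.c 0 (.tw (.c 0 (.b 63) (.b 136))) (.s13 (.tw (.c 0 (.b 5) (.b 465))))))))))))))))),
  (.tw (.c 0 (.tw (.c 0 (.b 13) (.s13 (.tw (.s12 (.s13 (.c 0 (.b 284) (.c 0 (.b 136) (.b 29))))))))) (.s13 (.tw (.c 0 (.tw (.s12 (.s13 (.s12 (.c 0 (.b 14) (.b 526)))))) (.tw (.s12 (.s13 (.tw (.c 0 (.tw (.s12 (.s13 (.tw (.c 0 (.b 67) (.s13 (.tw (.s13 (.c 0 (.b 14) (.b 44)))))))))) (.tw (.s12 (.s13 (.tw (.c 0 (.s12 (.s13 (.tw (.c 0 (.b 57) (.b 136))))) (.s13 (.tw (.c 0 (.b 5) (.b 5))))))))))))))))))),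
  (.c 0 (.tw (.c 0 (.b 13) (.s13 (.tw (.s12 (.s13 (.c 0 (.b 284) (.c 0 (.b 136) (.b 29))))))))) (.s13 (.c 0 (.tw (.c 0 (.s13 (.tw (.c 0 (.b 136) (.b 462)))) (.tw (.s13 (.tw (.c 0 (.s13 (.tw (.c 0 (.b 136) (.s13 (.tw (.s12 (.s13 (.c 0 (.b 44) (.b 1))))))))) (.s13 (.tw (.c 0 (.s13 (.tw (.s12 (.c 0 (.b 63) (.b 124))))) (.s13 (.tw (.c 0 (.b 5) (.b 124))))))))))))) (.b 1)))),
  (.c 0 (.tw (.c 0 (.b 13) (.s13 (.tw (.s12 (.s13 (.c 0 (.b 13) (.c 0 (.b 14) (.s13 (.tw (.s12 (.s13 (.c 0 (.b 381) (.b 381)))))))))))))) (.s13 (.tw (.c 0 (.s13 (.tw (.c 0 (.b 136) (.b 462)))) (.tw (.s13 (.tw (.c 0 (.s13 (.tw (.c 0 (.b 136) (.s13 (.tw (.s12 (.s13 (.c 0 (.b 44) (.b 1))))))))) (.s13 (.tw (.c 0 (.s13 (.tw (.s12 (.c 0 (.b 63) (.b 124))))) (.s13 (.tw (.c 0 (.b 5)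 (.b 124))))))))))))))),
  (.tw (.c 0 (.tw (.c 0 (.b 19) (.s13 (.tw (.s12 (.s13 (.c 0 (.b 538) (.s13 (.tw (.s12 (.s13 (.c 0 (.b 63) (.b 159))))))))))))) (.s13 (.tw (.c 0 (.s13 (.tw (.c 0 (.b 13) (.b 236)))) (.tw (.s13 (.tw (.c 0 (.s13 (.tw (.c 0 (.b 24) (.s13 (.tw (.s12 (.s13 (.c 0 (.b 44) (.b 1))))))))) (.s13 (.tw (.c 0 (.s13 (.tw (.c 0 (.b 44) (.b 1)))) (.s13 (.tw (.c 0 (.b 5) (.b 5)))))))))))))))),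
  (.tw (.c 0 (.tw (.c 0 (.b 284) (.s13 (.tw (.s12 (.s13 (.c 0 (.b 63) (.b 93)))))))) (.s13 (.tw (.c 0 (.s13 (.tw (.s12 (.c 0 (.b 19) (.tw (.s12 (.s13 (.tw (.c 0 (.b 63) (.b 41)))))))))) (.tw (.s12 (.s13 (.tw (.c 0 (.s13 (.tw (.c 0 (.b 136) (.b 44)))) (.s13 (.tw (.c 0 (.s13 (.tw (.c 0 (.b 57) (.b 136)))) (.s13 (.tw (.c 0 (.b 5) (.b 5))))))))))))))))),
  (.tw (.c 0 (.tw (.c 0 (.b 19) (.s13 (.tw (.s12 (.s13 (.c 0 (.b 538) (.s13 (.tw (.s12 (.s13 (.c 0 (.b 63) (.b 159))))))))))))) (.s13 (.tw (.c 0 (.s13 (.tw (.c 0 (.b 13) (.b 236)))) (.tw (.s13 (.tw (.c 0 (.s13 (.tw (.c 0 (.b 249) (.b 44)))) (.s13 (.tw (.c 0 (.s13 (.tw (.c 0 (.b 44) (.b 1)))) (.s13 (.tw (.c 0 (.b 5) (.b 5)))))))))))))))),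
  (.tw (.c 0 (.tw (.c 0 (.b 19) (.s13 (.tw (.s12 (.s13 (.c 0 (.b 538) (.s13 (.tw (.s12 (.s13 (.c 0 (.b 63) (.b 159))))))))))))) (.s13 (.tw (.c 0 (.s13 (.tw (.c 0 (.b 13) (.b 236)))) (.s13 (.c 0 (.s12 (.s13 (.tw (.s12 (.c 0 (.b 666) (.s13 (.tw (.s12 (.s13 (.c 0 (.b 63) (.b 44))))))))))) (.tw (.c 0 (.b 666) (.s13 (.tw (.s12 (.s13 (.c 0 (.b 63) (.b 44))))))))))))))),
  (.tw (.c 0 (.tw (.c 0 (.b 284) (.s13 (.tw (.s12 (.s13 (.c 0 (.b 63) (.b 93)))))))) (.s13 (.tw (.c 0 (.s12 (.s13 (.tw (.c 0 (.b 13) (.b 442))))) (.tw (.s12 (.s13 (.tw (.c 0 (.tw (.s13 (.c 0 (.b 70) (.b 45)))) (.s13 (.tw (.c 0 (.tw (.c 0 (.b 63) (.b 136))) (.s13 (.tw (.c 0 (.b 5) (.b 5))))))))))))))))),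
  (.tw (.c 0 (.tw (.c 0 (.b 19) (.s13 (.tw (.s12 (.s13 (.c 0 (.b 538) (.s13 (.tw (.s12 (.s13 (.c 0 (.b 63) (.b 159))))))))))))) (.s13 (.tw (.c 0 (.s13 (.tw (.c 0 (.b 13) (.b 236)))) (.tw (.s13 (.tw (.c 0 (.s13 (.tw (.c 0 (.b 136) (.s13 (.tw (.s12 (.s13 (.c 0 (.b 44) (.b 1))))))))) (.tw (.s12 (.s13 (.tw (.c 0 (.s13 (.tw (.c 0 (.b 63) (.b 124)))) (.s13 (.tw (.c 0 (.b 5) (.b 5)))))))))))))))))),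
  (.c 0 (.tw (.c 0 (.b 13) (.s13 (.tw (.s12 (.s13 (.c 0 (.b 284) (.c 0 (.b 136) (.b 29))))))))) (.s13 (.c 0 (.tw (.c 0 (.s13 (.tw (.c 0 (.b 136) (.b 236)))) (.tw (.s13 (.tw (.c 0 (.s13 (.tw (.c 0 (.b 136) (.s13 (.tw (.s12 (.s13 (.c 0 (.b 44) (.b 1))))))))) (.s13 (.tw (.c 0 (.s13 (.tw (.s12 (.c 0 (.b 63) (.b 124))))) (.s13 (.tw (.c 0 (.b 5) (.b 124))))))))))))) (.b 1)))),
  (.tw (.c 0 (.tw (.c 0 (.b 13) (.s13 (.tw (.s12 (.s13 (.c 0 (.b 136) (.c 0 (.b 1) (.s13 (.tw (.s13 (.c 0 (.b 1) (.b 21))))))))))))) (.s13 (.tw (.c 0 (.s13 (.tw (.c 0 (.b 14) (.s13 (.tw (.s12 (.s13 (.c 0 (.b 136) (.b 536))))))))) (.tw (.s13 (.tw (.c 0 (.s13 (.tw (.c 0 (.b 304) (.b 44)))) (.s13 (.tw (.c 0 (.b 5) (.s13 (.tw (.c 0 (.b 124) (.b 200)))))))))))))))),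
  (.tw (.c 0 (.tw (.c 0 (.b 284) (.s13 (.tw (.s12 (.s13 (.c 0 (.b 63) (.b 93)))))))) (.s13 (.tw (.c 0 (.s12 (.s13 (.tw (.c 0 (.b 460) (.s13 (.tw (.s12 (.s13 (.c 0 (.b 344) (.b 16)))))))))) (.s12 (.s13 (.tw (.c 0 (.s13 (.tw (.c 0 (.b 63) (.c 0 (.b 136) (.b 136))))) (.tw (.s13 (.s12 (.c 0 (.s13 (.tw (.s12 (.c 0 (.b 63) (.b 381))))) (.s13 (.tw (.c 0 (.b 63) (.b 44))))))))))))))))),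
  (.c 0 (.tw (.c 0 (.b 348) (.s13 (.tw (.s12 (.s13 (.c 0 (.b 23) (.b 21)))))))) (.s13 (.tw (.c 0 (.s12 (.s13 (.tw (.c 0 (.b 136) (.s13 (.tw (.s12 (.s13 (.c 0 (.b 13) (.b 337)))))))))) (.tw (.s12 (.s13 (.tw (.c 0 (.s13 (.tw (.c 0 (.b 136) (.s13 (.tw (.s12 (.s13 (.c 0 (.b 44) (.b 1))))))))) (.s13 (.tw (.c 0 (.tw (.c 0 (.b 57) (.b 136))) (.s13 (.tw (.c 0 (.b 5) (.b 124)))))))))))))))),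
  (.c 0 (.tw (.c 0 (.b 348) (.s13 (.tw (.s12 (.s13 (.c 0 (.b 13) (.c 0 (.b 63) (.b 159))))))))) (.s13 (.tw (.c 0 (.s12 (.s13 (.tw (.c 0 (.b 136) (.s13 (.tw (.s12 (.s13 (.c 0 (.b 13) (.b 337)))))))))) (.tw (.s12 (.s13 (.tw (.c 0 (.s13 (.tw (.c 0 (.b 136) (.s13 (.tw (.s12 (.s13 (.c 0 (.b 44) (.b 1))))))))) (.s13 (.tw (.c 0 (.tw (.c 0 (.b 57) (.b 136))) (.s13 (.tw (.c 0 (.b 5) (.b 124)))))))))))))))),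
  (.c 0 (.tw (.c 0 (.b 13) (.s13 (.tw (.s12 (.s13 (.c 0 (.b 284) (.c 0 (.b 136) (.b 29))))))))) (.s13 (.tw (.c 0 (.s12 (.s13 (.tw (.c 0 (.b 136) (.s13 (.tw (.s12 (.s13 (.c 0 (.b 13) (.b 337)))))))))) (.tw (.s12 (.s13 (.tw (.c 0 (.s13 (.tw (.c 0 (.b 136) (.s13 (.tw (.s12 (.s13 (.c 0 (.b 44) (.b 1))))))))) (.s13 (.tw (.c 0 (.tw (.c 0 (.b 57) (.b 136))) (.s13 (.tw (.c 0 (.b 5) (.b 124)))))))))))))))),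
  (.tw (.c 0 (.tw (.c 0 (.b 284) (.s13 (.tw (.s12 (.s13 (.c 0 (.b 63) (.b 93)))))))) (.s13 (.tw (.c 0 (.tw (.c 0 (.tw (.s13 (.tw (.c 0 (.b 136) (.b 478))))) (.b 12))) (.tw (.s12 (.s13 (.tw (.c 0 (.s13 (.tw (.s12 (.c 0 (.b 136) (.b 405))))) (.tw (.s12 (.s13 (.tw (.c 0 (.s13 (.tw (.c 0 (.b 44) (.b 12)))) (.s13 (.tw (.s12 (.c 0 (.b 5) (.b 124)))))))))))))))))))),
  (.c 0 (.tw (.c 0 (.b 19) (.s13 (.tw (.s12 (.s13 (.c 0 (.b 538) (.s13 (.tw (.s12 (.s13 (.c 0 (.b 63) (.b 159))))))))))))) (.s13 (.tw (.c 0 (.s13 (.tw (.c 0 (.b 136) (.s13 (.tw (.s12 (.s13 (.c 0 (.b 14) (.b 239))))))))) (.tw (.s13 (.tw (.c 0 (.s13 (.tw (.c 0 (.b 136) (.b 44)))) (.tw (.s12 (.s13 (.tw (.c 0 (.b 269) (.s13 (.tw (.s12 (.c 0 (.b 5) (.b 124)))))))))))))))))),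
  (.tw (.c 0 (.tw (.c 0 (.b 13) (.s13 (.tw (.s12 (.s13 (.c 0 (.b 136) (.c 0 (.b 1) (.s13 (.tw (.s13 (.c 0 (.b 1) (.b 21))))))))))))) (.s13 (.tw (.c 0 (.tw (.s13 (.c 0 (.b 70) (.b 45)))) (.tw (.s13 (.tw (.c 0 (.tw (.s12 (.s13 (.tw (.c 0 (.b 5) (.s13 (.tw (.s12 (.c 0 (.b 124) (.b 139)))))))))) (.s13 (.tw (.c 0 (.b 136) (.b 44))))))))))))),
  (.tw (.c 0 (.tw (.c 0 (.b 284) (.s13 (.tw (.s12 (.s13 (.c 0 (.b 63) (.b 93)))))))) (.s13 (.tw (.c 0 (.tw (.c 0 (.tw (.s13 (.tw (.c 0 (.b 136) (.b 478))))) (.b 12))) (.s12 (.s13 (.tw (.c 0 (.s13 (.tw (.s12 (.c 0 (.b 136) (.s13 (.tw (.s12 (.s13 (.c 0 (.b 44) (.b 1)))))))))) (.tw (.s13 (.s12 (.c 0 (.s13 (.tw (.s12 (.c 0 (.b 381) (.b 381))))) (.s13 (.tw (.c 0 (.b 63) (.b 44))))))))))))))))),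
  (.c 0 (.tw (.c 0 (.b 348) (.s13 (.tw (.s12 (.s13 (.c 0 (.b 23) (.b 21)))))))) (.s13 (.tw (.c 0 (.s12 (.s13 (.tw (.c 0 (.b 13) (.s13 (.tw (.s12 (.s13 (.c 0 (.b 136) (.b 598)))))))))) (.tw (.s12 (.s13 (.tw (.c 0 (.s13 (.tw (.c 0 (.b 136) (.b 44)))) (.s13 (.tw (.c 0 (.tw (.c 0 (.b 57) (.b 136))) (.s13 (.tw (.c 0 (.b 5) (.b 124)))))))))))))))),
  (.c 0 (.tw (.c 0 (.b 348) (.s13 (.tw (.s12 (.s13 (.c 0 (.b 13) (.c 0 (.b 63) (.b 159))))))))) (.s13 (.tw (.c 0 (.s12 (.s13 (.tw (.c 0 (.b 13) (.s13 (.tw (.s12 (.s13 (.c 0 (.b 136) (.b 598)))))))))) (.tw (.s12 (.s13 (.tw (.c 0 (.s13 (.tw (.c 0 (.b 136) (.b 44)))) (.s13 (.tw (.c 0 (.tw (.c 0 (.b 57) (.b 136))) (.s13 (.tw (.c 0 (.b 5) (.b 124)))))))))))))))),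
  (.c 0 (.tw (.c 0 (.b 13) (.s13 (.tw (.s12 (.s13 (.c 0 (.b 284) (.c 0 (.b 136) (.b 29))))))))) (.s13 (.tw (.c 0 (.s12 (.s13 (.tw (.c 0 (.b 13) (.s13 (.tw (.s12 (.s13 (.c 0 (.b 136) (.b 598)))))))))) (.tw (.s12 (.s13 (.tw (.c 0 (.s13 (.tw (.c 0 (.b 136) (.b 44)))) (.s13 (.tw (.c 0 (.tw (.c 0 (.b 57) (.b 136))) (.s13 (.tw (.c 0 (.b 5) (.b 124)))))))))))))))),
  (.tw (.c 0 (.tw (.c 0 (.b 284) (.s13 (.tw (.s12 (.s13 (.c 0 (.b 63) (.b 93)))))))) (.s13 (.tw (.c 0 (.s12 (.s13 (.tw (.c 0 (.b 13) (.s13 (.tw (.s12 (.s13 (.c 0 (.b 58) (.c 0 (.b 136) (.b 136))))))))))) (.tw (.s12 (.s13 (.tw (.c 0 (.s13 (.tw (.c 0 (.s13 (.tw (.c 0 (.b 124) (.b 247)))) (.b 5)))) (.s13 (.tw (.c 0 (.b 136) (.b 44)))))))))))))),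
  (.c 0 (.tw (.c 0 (.b 13) (.s13 (.tw (.s12 (.s13 (.c 0 (.b 13) (.c 0 (.b 14) (.s13 (.tw (.s12 (.s13 (.c 0 (.b 381) (.b 381)))))))))))))) (.s13 (.tw (.c 0 (.s13 (.tw (.c 0 (.b 136) (.s13 (.tw (.s12 (.s13 (.c 0 (.b 13) (.b 139))))))))) (.tw (.s13 (.tw (.c 0 (.s13 (.tw (.c 0 (.b 5) (.s13 (.tw (.c 0 (.b 5) (.b 26))))))) (.s13 (.tw (.c 0 (.b 249) (.b 44)))))))))))),
  (.c 0 (.tw (.c 0 (.b 13) (.s13 (.tw (.s12 (.s13 (.c 0 (.b 13) (.c 0 (.b 14) (.s13 (.tw (.s12 (.s13 (.c 0 (.b 381) (.b 381)))))))))))))) (.s13 (.tw (.c 0 (.s13 (.tw (.c 0 (.b 136) (.s13 (.tw (.s12 (.s13 (.c 0 (.b 14) (.b 239))))))))) (.tw (.s13 (.tw (.c 0 (.s13 (.tw (.c 0 (.b 136) (.b 44)))) (.tw (.s12 (.s13 (.tw (.c 0 (.b 269) (.s13 (.tw (.s12 (.c 0 (.b 5) (.b 124)))))))))))))))))),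
  (.c 0 (.tw (.c 0 (.b 14) (.s13 (.tw (.s12 (.s13 (.c 0 (.b 13) (.s13 (.tw (.s12 (.s13 (.c 0 (.b 136) (.s13 (.tw (.s12 (.s13 (.c 0 (.b 63) (.b 369)))))))))))))))))) (.s13 (.tw (.c 0 (.s12 (.s13 (.tw (.c 0 (.b 530) (.b 29))))) (.s12 (.s13 (.tw (.c 0 (.s13 (.tw (.c 0 (.b 136) (.b 536)))) (.s13 (.tw (.s13 (.s12 (.c 0 (.s13 (.tw (.c 0 (.b 63) (.b 124)))) (.s13 (.tw (.c 0 (.b 5) (.b 5))))))))))))))))),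
  (.c 0 (.tw (.c 0 (.b 14) (.s13 (.tw (.s12 (.s13 (.c 0 (.b 13) (.s13 (.tw (.s12 (.s13 (.c 0 (.b 136) (.s13 (.tw (.s12 (.s13 (.c 0 (.b 63) (.b 369)))))))))))))))))) (.s13 (.tw (.c 0 (.s12 (.s13 (.tw (.c 0 (.b 13) (.b 581))))) (.s12 (.s13 (.tw (.c 0 (.s13 (.tw (.c 0 (.b 136) (.b 536)))) (.s13 (.tw (.s13 (.s12 (.c 0 (.s13 (.tw (.c 0 (.b 63) (.b 124)))) (.s13 (.tw (.c 0 (.b 5) (.b 5))))))))))))))))),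
  (.tw (.c 0 (.tw (.c 0 (.b 13) (.s13 (.tw (.s12 (.s13 (.c 0 (.b 284) (.c 0 (.b 136) (.b 29))))))))) (.s13 (.c 0 (.s13 (.tw (.c 0 (.tw (.s13 (.tw (.c 0 (.b 13) (.b 137))))) (.tw (.s12 (.s13 (.tw (.c 0 (.b 666) (.s13 (.tw (.s12 (.s13 (.c 0 (.b 136) (.c 0 (.b 136) (.b 136))))))))))))))) (.tw (.c 0 (.b 136) (.c 0 (.b 136) (.b 180)))))))),
  (.tw (.c 0 (.tw (.c 0 (.b 13) (.s13 (.tw (.s12 (.s13 (.c 0 (.b 284) (.c 0 (.b 136) (.b 29))))))))) (.s13 (.tw (.c 0 (.s12 (.s13 (.tw (.s12 (.c 0 (.b 136) (.b 147)))))) (.s12 (.s13 (.tw (.c 0 (.tw (.s13 (.s12 (.c 0 (.s13 (.tw (.s12 (.c 0 (.b 124) (.b 239))))) (.s13 (.tw (.c 0 (.b 381) (.b 44)))))))) (.s13 (.tw (.c 0 (.b 63) (.c 0 (.b 136) (.b 136)))))))))))))),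
  (.tw (.c 0 (.tw (.c 0 (.b 284) (.s13 (.tw (.s12 (.s13 (.c 0 (.b 63) (.b 93)))))))) (.s13 (.tw (.c 0 (.s13 (.tw (.s12 (.c 0 (.b 189) (.b 273))))) (.tw (.s12 (.s13 (.tw (.c 0 (.s13 (.tw (.c 0 (.b 136) (.b 44)))) (.s13 (.tw (.c 0 (.s13 (.tw (.c 0 (.b 57) (.b 136)))) (.s13 (.tw (.c 0 (.b 5) (.b 5))))))))))))))))),
  (.tw (.c 0 (.tw (.c 0 (.b 13) (.s13 (.tw (.s12 (.s13 (.c 0 (.b 284) (.c 0 (.b 136) (.b 29))))))))) (.s13 (.tw (.c 0 (.s12 (.s13 (.tw (.s12 (.c 0 (.b 136) (.b 147)))))) (.tw (.s12 (.s13 (.tw (.c 0 (.s12 (.s13 (.tw (.c 0 (.b 14) (.s13 (.tw (.s12 (.s13 (.c 0 (.b 136) (.b 44)))))))))) (.s13 (.tw (.c 0 (.tw (.c 0 (.b 63) (.b 136))) (.s13 (.tw (.s13 (.c 0 (.b 5) (.b 143)))))))))))))))))),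
  (.tw (.c 0 (.tw (.c 0 (.b 13) (.s13 (.tw (.s12 (.s13 (.c 0 (.b 284) (.c 0 (.b 136) (.b 29))))))))) (.s13 (.tw (.c 0 (.s12 (.s13 (.tw (.c 0 (.b 13) (.b 93))))) (.tw (.s12 (.s13 (.tw (.c 0 (.s13 (.tw (.c 0 (.b 136) (.tw (.s12 (.s13 (.tw (.c 0 (.b 44) (.b 12))))))))) (.tw (.s13 (.c 0 (.tw (.c 0 (.b 63) (.b 41))) (.s12 (.s13 (.tw (.c 0 (.b 136) (.c 0 (.b 136) (.b 136))))))))))))))))))),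
  (.tw (.c 0 (.tw (.c 0 (.b 284) (.s13 (.tw (.s12 (.s13 (.c 0 (.b 63) (.b 93)))))))) (.s13 (.c 0 (.tw (.c 0 (.tw (.s13 (.tw (.c 0 (.b 63) (.b 526))))) (.tw (.s13 (.tw (.c 0 (.b 273) (.s13 (.tw (.s12 (.s13 (.c 0 (.b 136) (.b 44)))))))))))) (.tw (.c 0 (.b 718) (.c 0 (.b 136) (.b 136)))))))),
  (.tw (.c 0 (.tw (.c 0 (.b 13) (.s13 (.tw (.s12 (.s13 (.c 0 (.b 284) (.c 0 (.b 136) (.b 29))))))))) (.s13 (.tw (.c 0 (.s12 (.s13 (.tw (.c 0 (.b 13) (.b 93))))) (.tw (.s12 (.s13 (.tw (.c 0 (.tw (.s13 (.c 0 (.b 70) (.b 45)))) (.s13 (.tw (.c 0 (.tw (.c 0 (.b 63) (.b 136))) (.s13 (.tw (.s13 (.c 0 (.b 5) (.b 143)))))))))))))))))),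
  (.c 0 (.tw (.c 0 (.b 13) (.s13 (.tw (.s12 (.s13 (.c 0 (.b 284) (.c 0 (.b 136) (.b 29))))))))) (.s13 (.c 0 (.tw (.c 0 (.s13 (.tw (.c 0 (.b 26) (.b 137)))) (.tw (.s13 (.tw (.c 0 (.s13 (.tw (.c 0 (.b 12) (.b 172)))) (.s13 (.tw (.s12 (.s13 (.c 0 (.b 136) (.b 180)))))))))))) (.tw (.c 0 (.b 460) (.s13 (.tw (.s12 (.s13 (.c 0 (.b 136) (.b 351))))))))))),
  (.tw (.c 0 (.tw (.c 0 (.b 13) (.s13 (.tw (.s12 (.s13 (.c 0 (.b 136) (.c 0 (.b 1) (.s13 (.tw (.s13 (.c 0 (.b 1) (.b 21))))))))))))) (.s13 (.tw (.c 0 (.s13 (.tw (.c 0 (.b 136) (.s13 (.tw (.s12 (.s13 (.c 0 (.b 63) (.b 369))))))))) (.tw (.s13 (.tw (.c 0 (.tw (.s12 (.s13 (.tw (.c 0 (.s13 (.tw (.s13 (.s12 (.c 0 (.b 13) (.b 272)))))) (.s13 (.tw (.c 0 (.b 63) (.b 44))))))))) (.s13 (.tw (.c 0 (.b 136) (.b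 44))))))))))))),
  (.tw (.c 0 (.tw (.c 0 (.b 284) (.s13 (.tw (.s12 (.s13 (.c 0 (.b 63) (.b 93)))))))) (.s13 (.tw (.c 0 (.tw (.c 0 (.b 136) (.b 536))) (.s12 (.s13 (.c 0 (.s12 (.s13 (.tw (.s12 (.c 0 (.b 304) (.s13 (.tw (.s12 (.s13 (.c 0 (.b 136) (.b 44))))))))))) (.tw (.c 0 (.b 14) (.s13 (.tw (.s12 (.s13 (.c 0 (.b 14) (.c 0 (.b 136) (.b 247))))))))))))))))),
  (.c 0 (.tw (.c 0 (.b 348) (.s13 (.tw (.s12 (.s13 (.c 0 (.b 23) (.b 21)))))))) (.s13 (.tw (.c 0 (.s12 (.s13 (.tw (.c 0 (.s13 (.tw (.s12 (.s13 (.c 0 (.b 14) (.c 0 (.b 136) (.b 136))))))) (.b 16))))) (.tw (.s12 (.s13 (.tw (.c 0 (.s13 (.tw (.c 0 (.b 136) (.b 536)))) (.s13 (.tw (.c 0 (.tw (.c 0 (.b 57) (.b 136))) (.s13 (.tw (.c 0 (.b 5) (.b 124)))))))))))))))),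
  (.c 0 (.tw (.c 0 (.b 348) (.s13 (.tw (.s12 (.s13 (.c 0 (.b 13) (.c 0 (.b 63) (.b 159))))))))) (.s13 (.tw (.c 0 (.s12 (.s13 (.tw (.c 0 (.s13 (.tw (.s12 (.s13 (.c 0 (.b 14) (.c 0 (.b 136) (.b 136))))))) (.b 16))))) (.tw (.s12 (.s13 (.tw (.c 0 (.s13 (.tw (.c 0 (.b 136) (.b 536)))) (.s13 (.tw (.c 0 (.tw (.c 0 (.b 57) (.b 136))) (.s13 (.tw (.c 0 (.b 5) (.b 124)))))))))))))))),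
  (.c 0 (.tw (.c 0 (.b 13) (.s13 (.tw (.s12 (.s13 (.c 0 (.b 284) (.c 0 (.b 136) (.b 29))))))))) (.s13 (.tw (.c 0 (.s12 (.s13 (.tw (.c 0 (.s13 (.tw (.s12 (.s13 (.c 0 (.b 14) (.c 0 (.b 136) (.b 136))))))) (.b 16))))) (.tw (.s12 (.s13 (.tw (.c 0 (.s13 (.tw (.c 0 (.b 136) (.b 536)))) (.s13 (.tw (.c 0 (.tw (.c 0 (.b 57) (.b 136))) (.s13 (.tw (.c 0 (.b 5) (.b 124)))))))))))))))),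
  (.tw (.c 0 (.tw (.c 0 (.b 13) (.s13 (.tw (.s12 (.s13 (.c 0 (.b 284) (.c 0 (.b 136) (.b 29))))))))) (.s13 (.tw (.c 0 (.s12 (.s13 (.tw (.s12 (.c 0 (.b 136) (.b 147)))))) (.tw (.s12 (.s13 (.tw (.c 0 (.tw (.s13 (.c 0 (.tw (.c 0 (.b 63) (.b 41))) (.s12 (.s13 (.tw (.c 0 (.b 136) (.c 0 (.b 136) (.b 136))))))))) (.tw (.s12 (.s13 (.tw (.c 0 (.b 67) (.s13 (.tw (.s13 (.c 0 (.b 14) (.b 44)))))))))))))))))))),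
  (.tw (.c 0 (.tw (.c 0 (.b 284) (.s13 (.tw (.s12 (.s13 (.c 0 (.b 63) (.b 93)))))))) (.s13 (.c 0 (.tw (.c 0 (.tw (.s13 (.tw (.c 0 (.b 63) (.b 526))))) (.tw (.s13 (.tw (.c 0 (.b 273) (.s13 (.tw (.s12 (.s13 (.c 0 (.b 136) (.b 44)))))))))))) (.tw (.c 0 (.b 460) (.s13 (.tw (.s12 (.s13 (.c 0 (.b 136) (.b 351)))))))))))),
  (.c 0 (.tw (.c 0 (.b 13) (.s13 (.tw (.s12 (.s13 (.c 0 (.b 284) (.c 0 (.b 136) (.b 29))))))))) (.s13 (.tw (.c 0 (.s12 (.s13 (.tw (.c 0 (.b 13) (.b 93))))) (.tw (.s12 (.s13 (.tw (.c 0 (.tw (.s13 (.c 0 (.b 70) (.b 45)))) (.s13 (.tw (.c 0 (.tw (.c 0 (.b 63) (.b 136))) (.s13 (.tw (.s13 (.c 0 (.b 5) (.b 143))))))))))))))))),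
  (.c 0 (.tw (.c 0 (.b 13) (.s13 (.tw (.s12 (.s13 (.c 0 (.b 284) (.c 0 (.b 136) (.b 29))))))))) (.s13 (.c 0 (.tw (.c 0 (.s13 (.tw (.c 0 (.b 26) (.b 137)))) (.tw (.s13 (.tw (.c 0 (.s13 (.tw (.c 0 (.b 12) (.b 172)))) (.s13 (.tw (.s12 (.s13 (.c 0 (.b 136) (.b 180)))))))))))) (.tw (.c 0 (.b 718) (.c 0 (.b 136) (.b 136))))))),
  (.tw (.c 0 (.tw (.c 0 (.b 284) (.s13 (.tw (.s12 (.s13 (.c 0 (.b 63) (.b 93)))))))) (.s13 (.tw (.c 0 (.s12 (.s13 (.tw (.c 0 (.b 136) (.s13 (.tw (.s12 (.s13 (.c 0 (.b 13) (.b 337)))))))))) (.tw (.s12 (.s13 (.tw (.c 0 (.s13 (.tw (.c 0 (.b 136) (.tw (.s12 (.s13 (.tw (.c 0 (.b 63) (.b 381))))))))) (.s13 (.tw (.c 0 (.tw (.c 0 (.b 63) (.b 136))) (.s13 (.tw (.c 0 (.b 5) (.b 465))))))))))))))))),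
  (.c 0 (.tw (.c 0 (.b 19) (.s13 (.tw (.s12 (.s13 (.c 0 (.b 538) (.s13 (.tw (.s12 (.s13 (.c 0 (.b 63) (.b 159))))))))))))) (.s13 (.tw (.c 0 (.s13 (.tw (.c 0 (.b 13) (.b 236)))) (.tw (.s13 (.tw (.c 0 (.s13 (.tw (.c 0 (.b 136) (.s13 (.tw (.s12 (.s13 (.c 0 (.b 44) (.b 1))))))))) (.tw (.s12 (.s13 (.tw (.c 0 (.s13 (.tw (.c 0 (.b 63) (.b 124)))) (.s13 (.tw (.c 0 (.b 5) (.b 5))))))))))))))))),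
  (.tw (.c 0 (.tw (.c 0 (.b 13) (.s13 (.tw (.s12 (.s13 (.c 0 (.b 136) (.c 0 (.b 1) (.s13 (.tw (.s13 (.c 0 (.b 1) (.b 21))))))))))))) (.s13 (.tw (.c 0 (.s13 (.tw (.c 0 (.b 136) (.tw (.s12 (.s13 (.tw (.c 0 (.b 63) (.b 381))))))))) (.tw (.s13 (.tw (.c 0 (.tw (.s12 (.s13 (.tw (.c 0 (.s13 (.tw (.s13 (.s12 (.c 0 (.b 13) (.b 272)))))) (.s13 (.tw (.c 0 (.b 63) (.b 44))))))))) (.s13 (.tw (.c 0 (.b 136) (.b 44))))))))))))),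
  (.tw (.c 0 (.tw (.c 0 (.b 284) (.s13 (.tw (.s12 (.s13 (.c 0 (.b 63) (.b 93)))))))) (.s13 (.tw (.c 0 (.s12 (.s13 (.tw (.c 0 (.b 136) (.s13 (.tw (.s12 (.s13 (.c 0 (.b 13) (.b 337)))))))))) (.s12 (.s13 (.tw (.c 0 (.s13 (.tw (.s12 (.c 0 (.b 693) (.tw (.s12 (.s13 (.tw (.c 0 (.b 320) (.b 5)))))))))) (.s13 (.tw (.c 0 (.b 136) (.b 44))))))))))))),
  (.c 0 (.tw (.c 0 (.b 348) (.s13 (.tw (.s12 (.s13 (.c 0 (.b 23) (.b 21)))))))) (.s13 (.tw (.c 0 (.s12 (.s13 (.tw (.c 0 (.b 13) (.s13 (.tw (.s12 (.s13 (.c 0 (.b 13) (.b 337)))))))))) (.tw (.s12 (.s13 (.tw (.c 0 (.s13 (.tw (.c 0 (.b 136) (.s13 (.tw (.s12 (.s13 (.c 0 (.b 44) (.b 1))))))))) (.tw (.s12 (.s13 (.tw (.c 0 (.s12 (.s13 (.tw (.c 0 (.b 57) (.b 136))))) (.s13 (.tw (.c 0 (.b 5) (.b 5)))))))))))))))))),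
  (.c 0 (.tw (.c 0 (.b 348) (.s13 (.tw (.s12 (.s13 (.c 0 (.b 13) (.c 0 (.b 63) (.b 159))))))))) (.s13 (.tw (.c 0 (.s12 (.s13 (.tw (.c 0 (.b 13) (.s13 (.tw (.s12 (.s13 (.c 0 (.b 13) (.b 337)))))))))) (.tw (.s12 (.s13 (.tw (.c 0 (.s13 (.tw (.c 0 (.b 136) (.s13 (.tw (.s12 (.s13 (.c 0 (.b 44) (.b 1))))))))) (.tw (.s12 (.s13 (.tw (.c 0 (.s12 (.s13 (.tw (.c 0 (.b 57) (.b 136))))) (.s13 (.tw (.c 0 (.b 5) (.b 5)))))))))))))))))),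
  (.c 0 (.tw (.c 0 (.b 13) (.s13 (.tw (.s12 (.s13 (.c 0 (.b 284) (.c 0 (.b 136) (.b 29))))))))) (.s13 (.tw (.c 0 (.s12 (.s13 (.tw (.c 0 (.b 13) (.s13 (.tw (.s12 (.s13 (.c 0 (.b 13) (.b 337)))))))))) (.tw (.s12 (.s13 (.tw (.c 0 (.s13 (.tw (.c 0 (.b 136) (.s13 (.tw (.s12 (.s13 (.c 0 (.b 44) (.b 1))))))))) (.tw (.s12 (.s13 (.tw (.c 0 (.s12 (.s13 (.tw (.c 0 (.b 57) (.b 136))))) (.s13 (.tw (.c 0 (.b 5) (.b 5)))))))))))))))))),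
  (.tw (.c 0 (.tw (.c 0 (.b 284) (.s13 (.tw (.s12 (.s13 (.c 0 (.b 63) (.b 93)))))))) (.s13 (.tw (.c 0 (.s12 (.s13 (.tw (.c 0 (.b 304) (.s13 (.tw (.s12 (.s13 (.c 0 (.b 13) (.b 337)))))))))) (.tw (.s12 (.s13 (.tw (.c 0 (.s13 (.tw (.c 0 (.s13 (.tw (.c 0 (.b 124) (.b 247)))) (.b 5)))) (.s13 (.tw (.c 0 (.b 136) (.s13 (.tw (.s12 (.s13 (.c 0 (.b 44) (.b 1))))))))))))))))))),
  (.c 0 (.tw (.c 0 (.b 13) (.s13 (.tw (.s12 (.s13 (.c 0 (.b 13) (.c 0 (.b 14) (.s13 (.tw (.s12 (.s13 (.c 0 (.b 381) (.b 381)))))))))))))) (.s13 (.tw (.c 0 (.s12 (.s13 (.tw (.c 0 (.b 13) (.b 546))))) (.tw (.s12 (.s13 (.tw (.c 0 (.s13 (.tw (.c 0 (.b 136) (.tw (.s12 (.s13 (.tw (.c 0 (.b 44) (.b 12))))))))) (.tw (.s12 (.s13 (.tw (.c 0 (.s13 (.tw (.c 0 (.b 63) (.b 124)))) (.s13 (.tw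 (.c 0 (.b 5) (.b 5)))))))))))))))))),
  (.c 0 (.tw (.c 0 (.b 13) (.s13 (.tw (.s12 (.s13 (.c 0 (.b 13) (.c 0 (.b 14) (.s13 (.tw (.s12 (.s13 (.c 0 (.b 381) (.b 381)))))))))))))) (.s13 (.tw (.c 0 (.s13 (.tw (.c 0 (.b 13) (.b 236)))) (.tw (.s13 (.tw (.c 0 (.s13 (.tw (.c 0 (.b 136) (.s13 (.tw (.s12 (.s13 (.c 0 (.b 44) (.b 1))))))))) (.tw (.s12 (.s13 (.tw (.c 0 (.s13 (.tw (.c 0 (.b 63) (.b 124)))) (.s13 (.tw (.c 0 (.b 5) (.b 5))))))))))))))))),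
  (.tw (.c 0 (.tw (.c 0 (.b 13) (.s13 (.tw (.s12 (.s13 (.c 0 (.b 136) (.c 0 (.b 1) (.s13 (.tw (.s13 (.c 0 (.b 1) (.b 21))))))))))))) (.s13 (.tw (.c 0 (.tw (.s13 (.c 0 (.b 70) (.b 45)))) (.tw (.s13 (.tw (.c 0 (.s12 (.s13 (.tw (.c 0 (.s13 (.tw (.s12 (.c 0 (.b 239) (.b 1))))) (.s13 (.tw (.c 0 (.b 124) (.b 200)))))))) (.s13 (.tw (.c 0 (.b 136) (.b 44))))))))))))),
  (.tw (.c 0 (.tw (.c 0 (.b 284) (.s13 (.tw (.s12 (.s13 (.c 0 (.b 63) (.b 93)))))))) (.s13 (.tw (.c 0 (.s12 (.s13 (.tw (.c 0 (.b 460) (.s13 (.c 0 (.b 169) (.b 1))))))) (.s12 (.s13 (.c 0 (.s12 (.s13 (.tw (.s12 (.c 0 (.b 304) (.s13 (.tw (.s12 (.s13 (.c 0 (.b 136) (.b 44))))))))))) (.s13 (.tw (.s13 (.c 0 (.b 70) (.b 45))))))))))))),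
  (.c 0 (.tw (.c 0 (.b 348) (.s13 (.tw (.s12 (.s13 (.c 0 (.b 23) (.b 21)))))))) (.s13 (.tw (.c 0 (.s12 (.s13 (.tw (.c 0 (.b 13) (.s13 (.tw (.s12 (.s13 (.c 0 (.b 13) (.b 546)))))))))) (.tw (.s12 (.s13 (.tw (.c 0 (.s13 (.tw (.c 0 (.b 136) (.s13 (.tw (.s12 (.s13 (.c 0 (.b 44) (.b 1))))))))) (.tw (.s12 (.s13 (.tw (.c 0 (.s12 (.s13 (.tw (.c 0 (.b 57) (.b 136))))) (.s13 (.tw (.c 0 (.b 5) (.b 5)))))))))))))))))),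
  (.c 0 (.tw (.c 0 (.b 348) (.s13 (.tw (.s12 (.s13 (.c 0 (.b 13) (.c 0 (.b 63) (.b 159))))))))) (.s13 (.tw (.c 0 (.s12 (.s13 (.tw (.c 0 (.b 13) (.s13 (.tw (.s12 (.s13 (.c 0 (.b 13) (.b 546)))))))))) (.tw (.s12 (.s13 (.tw (.c 0 (.s13 (.tw (.c 0 (.b 136) (.s13 (.tw (.s12 (.s13 (.c 0 (.b 44) (.b 1))))))))) (.tw (.s12 (.s13 (.tw (.c 0 (.s12 (.s13 (.tw (.c 0 (.b 57) (.b 136))))) (.s13 (.tw (.c 0 (.b 5) (.b 5)))))))))))))))))),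
  (.tw (.c 0 (.tw (.c 0 (.b 284) (.s13 (.tw (.s12 (.s13 (.c 0 (.b 63) (.b 93)))))))) (.s13 (.tw (.c 0 (.s13 (.tw (.c 0 (.b 14) (.tw (.s12 (.s13 (.tw (.c 0 (.b 136) (.b 536))))))))) (.tw (.s12 (.s13 (.tw (.c 0 (.s13 (.tw (.c 0 (.tw (.s13 (.tw (.c 0 (.b 58) (.b 247))))) (.s13 (.tw (.c 0 (.b 44) (.b 12))))))) (.s13 (.tw (.c 0 (.b 136) (.b 44)))))))))))))),
  (.c 0 (.tw (.c 0 (.b 13) (.s13 (.tw (.s12 (.s13 (.c 0 (.b 284) (.c 0 (.b 136) (.b 29))))))))) (.s13 (.c 0 (.tw (.c 0 (.s13 (.tw (.c 0 (.b 136) (.s13 (.tw (.s12 (.s13 (.c 0 (.b 14) (.b 239))))))))) (.tw (.s13 (.tw (.c 0 (.s13 (.tw (.c 0 (.b 136) (.b 44)))) (.tw (.s12 (.s13 (.tw (.c 0 (.b 269) (.s13 (.tw (.c 0 (.b 384) (.b 5))))))))))))))) (.b 1)))),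
  (.c 0 (.tw (.c 0 (.b 13) (.s13 (.tw (.s12 (.s13 (.c 0 (.b 284) (.c 0 (.b 136) (.b 29))))))))) (.s13 (.tw (.c 0 (.s12 (.s13 (.tw (.c 0 (.b 13) (.s13 (.tw (.s12 (.s13 (.c 0 (.b 13) (.b 546)))))))))) (.tw (.s12 (.s13 (.tw (.c 0 (.s13 (.tw (.c 0 (.b 136) (.s13 (.tw (.s12 (.s13 (.c 0 (.b 44) (.b 1))))))))) (.tw (.s12 (.s13 (.tw (.c 0 (.s12 (.s13 (.tw (.c 0 (.b 57) (.b 136))))) (.s13 (.tw (.c 0 (.b 5) (.b 5)))))))))))))))))),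
  (.c 0 (.tw (.c 0 (.b 13) (.s13 (.tw (.s12 (.s13 (.c 0 (.b 13) (.c 0 (.b 14) (.s13 (.tw (.s12 (.s13 (.c 0 (.b 381) (.b 381)))))))))))))) (.s13 (.tw (.c 0 (.s13 (.tw (.c 0 (.b 279) (.b 29)))) (.tw (.s13 (.tw (.c 0 (.s13 (.tw (.c 0 (.b 136) (.s13 (.tw (.s12 (.s13 (.c 0 (.b 44) (.b 1))))))))) (.tw (.s12 (.s13 (.tw (.c 0 (.s13 (.tw (.c 0 (.b 63) (.b 124)))) (.s13 (.tw (.c 0 (.b 5) (.b 5))))))))))))))))),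
  (.c 0 (.tw (.c 0 (.b 13) (.s13 (.tw (.s12 (.s13 (.c 0 (.b 13) (.c 0 (.b 14) (.s13 (.tw (.s12 (.s13 (.c 0 (.b 381) (.b 381)))))))))))))) (.s13 (.tw (.c 0 (.s13 (.tw (.c 0 (.b 136) (.s13 (.tw (.s12 (.s13 (.c 0 (.b 14) (.b 239))))))))) (.tw (.s13 (.tw (.c 0 (.s13 (.tw (.c 0 (.b 136) (.b 44)))) (.tw (.s12 (.s13 (.tw (.c 0 (.b 269) (.s13 (.tw (.c 0 (.b 384) (.b 5))))))))))))))))),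
  (.c 0 (.tw (.c 0 (.b 14) (.s13 (.tw (.s12 (.s13 (.c 0 (.b 13) (.s13 (.tw (.s12 (.s13 (.c 0 (.b 136) (.s13 (.tw (.s12 (.s13 (.c 0 (.b 63) (.b 369)))))))))))))))))) (.s13 (.tw (.c 0 (.s12 (.s13 (.tw (.c 0 (.b 284) (.b 147))))) (.s12 (.s13 (.tw (.c 0 (.s13 (.tw (.c 0 (.b 136) (.b 536)))) (.s13 (.tw (.s13 (.s12 (.c 0 (.s13 (.tw (.c 0 (.b 63) (.b 124)))) (.s13 (.tw (.c 0 (.b 5) (.b 5))))))))))))))))),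
  (.tw (.c 0 (.tw (.c 0 (.b 19) (.s13 (.tw (.s12 (.s13 (.c 0 (.b 538) (.s13 (.tw (.s12 (.s13 (.c 0 (.b 63) (.b 159))))))))))))) (.s13 (.tw (.c 0 (.s13 (.tw (.c 0 (.s13 (.tw (.s12 (.c 0 (.b 239) (.b 1))))) (.tw (.s12 (.s13 (.tw (.c 0 (.b 5) (.b 239))))))))) (.s12 (.s13 (.tw (.c 0 (.s13 (.tw (.s12 (.c 0 (.b 239) (.b 1))))) (.tw (.s12 (.s13 (.tw (.c 0 (.b 5) (.b 239))))))))))))))),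
  (.tw (.c 0 (.tw (.c 0 (.b 284) (.s13 (.tw (.s12 (.s13 (.c 0 (.b 63) (.b 93)))))))) (.s13 (.tw (.c 0 (.s12 (.s13 (.tw (.c 0 (.b 13) (.s13 (.tw (.s12 (.s13 (.c 0 (.b 136) (.b 351)))))))))) (.s12 (.s13 (.tw (.c 0 (.s13 (.tw (.s12 (.c 0 (.s13 (.tw (.c 0 (.b 63) (.b 381)))) (.s13 (.tw (.c 0 (.b 5) (.b 26)))))))) (.s13 (.tw (.s12 (.c 0 (.b 284) (.c 0 (.b 136) (.b 136))))))))))))))),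
  (.c 0 (.tw (.c 0 (.b 13) (.s13 (.tw (.s12 (.s13 (.c 0 (.b 284) (.c 0 (.b 136) (.b 29))))))))) (.s13 (.tw (.c 0 (.tw (.s12 (.s13 (.s12 (.c 0 (.b 14) (.b 526)))))) (.tw (.s12 (.s13 (.tw (.c 0 (.tw (.s12 (.s13 (.tw (.c 0 (.b 67) (.s13 (.tw (.s13 (.c 0 (.b 14) (.b 44)))))))))) (.tw (.s12 (.s13 (.tw (.c 0 (.s12 (.s13 (.tw (.c 0 (.b 57) (.b 136))))) (.s13 (.tw (.c 0 (.b 5) (.b 5)))))))))))))))))),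
  (.tw (.c 0 (.s12 (.s13 (.tw (.s12 (.c 0 (.b 284) (.s13 (.tw (.s12 (.s13 (.c 0 (.b 63) (.s13 (.tw (.s12 (.s13 (.c 0 (.b 284) (.b 27)))))))))))))))) (.s13 (.tw (.s12 (.c 0 (.s13 (.tw (.c 0 (.tw (.s13 (.tw (.c 0 (.b 136) (.b 247))))) (.b 14)))) (.s12 (.s13 (.tw (.c 0 (.s13 (.tw (.c 0 (.b 136) (.b 44)))) (.tw (.s12 (.c 0 (.s13 (.tw (.c 0 (.b 44) (.b 12)))) (.s13 (.tw (.s12 (.c 0 (.b 13) (.b 239)))))))))))))))))),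
  (.tw (.c 0 (.tw (.c 0 (.b 284) (.s13 (.tw (.s12 (.s13 (.c 0 (.b 63) (.b 93)))))))) (.s13 (.tw (.c 0 (.s12 (.s13 (.tw (.c 0 (.b 460) (.s13 (.tw (.c 0 (.b 355) (.b 26)))))))) (.s12 (.s13 (.tw (.c 0 (.s13 (.tw (.c 0 (.b 63) (.c 0 (.b 136) (.b 136))))) (.tw (.s13 (.s12 (.c 0 (.s13 (.tw (.s12 (.c 0 (.b 63) (.b 381))))) (.s13 (.tw (.c 0 (.b 63) (.b 44))))))))))))))))),
  (.c 0 (.tw (.c 0 (.b 348) (.s13 (.tw (.s12 (.s13 (.c 0 (.b 23) (.b 21)))))))) (.s13 (.tw (.c 0 (.s12 (.s13 (.tw (.c 0 (.b 136) (.s13 (.tw (.s12 (.s13 (.c 0 (.b 13) (.b 546)))))))))) (.tw (.s12 (.s13 (.tw (.c 0 (.s13 (.tw (.c 0 (.b 136) (.b 44)))) (.tw (.s12 (.s13 (.tw (.c 0 (.b 347) (.tw (.s12 (.s13 (.tw (.c 0 (.b 320) (.b 5)))))))))))))))))))),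
  (.c 0 (.tw (.c 0 (.b 348) (.s13 (.tw (.s12 (.s13 (.c 0 (.b 13) (.c 0 (.b 63) (.b 159))))))))) (.s13 (.tw (.c 0 (.s12 (.s13 (.tw (.c 0 (.b 136) (.s13 (.tw (.s12 (.s13 (.c 0 (.b 13) (.b 546)))))))))) (.tw (.s12 (.s13 (.tw (.c 0 (.s13 (.tw (.c 0 (.b 136) (.b 44)))) (.tw (.s12 (.s13 (.tw (.c 0 (.b 347) (.tw (.s12 (.s13 (.tw (.c 0 (.b 320) (.b 5)))))))))))))))))))),
  (.c 0 (.tw (.c 0 (.b 13) (.s13 (.tw (.s12 (.s13 (.c 0 (.b 284) (.c 0 (.b 136) (.b 29))))))))) (.s13 (.tw (.c 0 (.s12 (.s13 (.tw (.c 0 (.b 136) (.s13 (.tw (.s12 (.s13 (.c 0 (.b 13) (.b 546)))))))))) (.tw (.s12 (.s13 (.tw (.c 0 (.s13 (.tw (.c 0 (.b 136) (.b 44)))) (.tw (.s12 (.s13 (.tw (.c 0 (.b 347) (.tw (.s12 (.s13 (.tw (.c 0 (.b 320) (.b 5)))))))))))))))))))),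
  (.tw (.c 0 (.tw (.c 0 (.b 13) (.s13 (.tw (.s12 (.s13 (.c 0 (.b 136) (.c 0 (.b 1) (.s13 (.tw (.s13 (.c 0 (.b 1) (.b 21))))))))))))) (.tw (.s13 (.s12 (.c 0 (.s13 (.tw (.s12 (.c 0 (.b 136) (.s13 (.tw (.s12 (.s13 (.c 0 (.b 136) (.tw (.s12 (.s13 (.tw (.c 0 (.b 63) (.b 381))))))))))))))) (.s13 (.tw (.s12 (.c 0 (.tw (.s12 (.s13 (.tw (.c 0 (.b 82) (.b 239)))))) (.tw (.s12 (.s13 (.tw (.c 0 (.b 5) (.b 247)))))))))))))))),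
  (.tw (.c 0 (.tw (.c 0 (.b 284) (.s13 (.tw (.s12 (.s13 (.c 0 (.b 63) (.b 93)))))))) (.s13 (.tw (.c 0 (.s12 (.s13 (.tw (.c 0 (.b 460) (.s13 (.tw (.c 0 (.b 355) (.b 26)))))))) (.s12 (.s13 (.c 0 (.s12 (.s13 (.tw (.s12 (.c 0 (.b 304) (.s13 (.tw (.s12 (.s13 (.c 0 (.b 136) (.b 44))))))))))) (.s13 (.tw (.s13 (.c 0 (.b 70) (.b 45))))))))))))),
  (.c 0 (.tw (.c 0 (.b 348) (.s13 (.tw (.s12 (.s13 (.c 0 (.b 23) (.b 21)))))))) (.s13 (.tw (.c 0 (.s12 (.s13 (.tw (.s12 (.c 0 (.b 136) (.b 147)))))) (.tw (.s12 (.s13 (.tw (.c 0 (.tw (.s12 (.s13 (.tw (.c 0 (.b 67) (.s13 (.tw (.s13 (.c 0 (.b 14) (.b 44)))))))))) (.tw (.s12 (.s13 (.tw (.c 0 (.s12 (.s13 (.tw (.c 0 (.b 57) (.b 136))))) (.s13 (.tw (.c 0 (.b 5) (.b 5)))))))))))))))))),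
  (.c 0 (.tw (.c 0 (.b 348) (.s13 (.tw (.s12 (.s13 (.c 0 (.b 13) (.c 0 (.b 63) (.b 159))))))))) (.s13 (.tw (.c 0 (.s12 (.s13 (.tw (.s12 (.c 0 (.b 136) (.b 147)))))) (.tw (.s12 (.s13 (.tw (.c 0 (.tw (.s12 (.s13 (.tw (.c 0 (.b 67) (.s13 (.tw (.s13 (.c 0 (.b 14) (.b 44)))))))))) (.tw (.s12 (.s13 (.tw (.c 0 (.s12 (.s13 (.tw (.c 0 (.b 57) (.b 136))))) (.s13 (.tw (.c 0 (.b 5) (.b 5)))))))))))))))))),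
  (.tw (.c 0 (.tw (.c 0 (.b 284) (.s13 (.tw (.s12 (.s13 (.c 0 (.b 63) (.b 93)))))))) (.s13 (.tw (.c 0 (.s12 (.s13 (.tw (.c 0 (.b 13) (.s13 (.tw (.s12 (.s13 (.c 0 (.b 136) (.b 351)))))))))) (.tw (.s12 (.s13 (.tw (.c 0 (.tw (.s12 (.s13 (.tw (.c 0 (.tw (.s13 (.s12 (.c 0 (.b 58) (.b 247))))) (.s13 (.tw (.c 0 (.b 63) (.b 44))))))))) (.s13 (.tw (.c 0 (.b 136) (.b 44)))))))))))))),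
  (.c 0 (.tw (.c 0 (.b 13) (.s13 (.tw (.s12 (.s13 (.c 0 (.b 284) (.c 0 (.b 136) (.b 29))))))))) (.s13 (.c 0 (.tw (.c 0 (.s13 (.tw (.c 0 (.b 136) (.s13 (.tw (.s12 (.s13 (.c 0 (.b 63) (.b 400))))))))) (.tw (.s13 (.tw (.c 0 (.s13 (.tw (.c 0 (.b 136) (.b 44)))) (.tw (.s12 (.s13 (.tw (.c 0 (.b 269) (.s13 (.tw (.c 0 (.b 384) (.b 5))))))))))))))) (.b 1)))),
  (.c 0 (.tw (.c 0 (.b 13) (.s13 (.tw (.s12 (.s13 (.c 0 (.b 284) (.c 0 (.b 136) (.b 29))))))))) (.s13 (.tw (.c 0 (.s12 (.s13 (.tw (.s12 (.c 0 (.b 136) (.b 147)))))) (.tw (.s12 (.s13 (.tw (.c 0 (.tw (.s12 (.s13 (.tw (.c 0 (.b 67) (.s13 (.tw (.s13 (.c 0 (.b 14) (.b 44)))))))))) (.tw (.s12 (.s13 (.tw (.c 0 (.s12 (.s13 (.tw (.c 0 (.b 57) (.b 136))))) (.s13 (.tw (.c 0 (.b 5) (.b 5)))))))))))))))))),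
  (.c 0 (.tw (.c 0 (.b 13) (.s13 (.tw (.s12 (.s13 (.c 0 (.b 13) (.c 0 (.b 14) (.s13 (.tw (.s12 (.s13 (.c 0 (.b 381) (.b 381)))))))))))))) (.s13 (.tw (.c 0 (.s12 (.s13 (.tw (.s12 (.c 0 (.b 13) (.b 546)))))) (.tw (.s12 (.s13 (.tw (.c 0 (.tw (.s12 (.s13 (.tw (.c 0 (.b 67) (.s13 (.tw (.s13 (.c 0 (.b 14) (.b 44)))))))))) (.tw (.s12 (.s13 (.tw (.c 0 (.s13 (.tw (.c 0 (.b 63) (.b 124)))) (.s13 (.tw (.c 0 (.b 5) (.b 5)))))))))))))))))),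
  (.c 0 (.tw (.c 0 (.b 13) (.s13 (.tw (.s12 (.s13 (.c 0 (.b 13) (.c 0 (.b 14) (.s13 (.tw (.s12 (.s13 (.c 0 (.b 381) (.b 381)))))))))))))) (.s13 (.tw (.c 0 (.s13 (.tw (.c 0 (.b 136) (.s13 (.tw (.s12 (.s13 (.c 0 (.b 63) (.b 400))))))))) (.tw (.s13 (.tw (.c 0 (.s13 (.tw (.c 0 (.b 136) (.b 44)))) (.tw (.s12 (.s13 (.tw (.c 0 (.b 269) (.s13 (.tw (.c 0 (.b 384) (.b 5))))))))))))))))),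
  (.tw (.c 0 (.tw (.c 0 (.b 718) (.s13 (.tw (.s12 (.s13 (.c 0 (.b 348) (.c 0 (.b 1) (.b 18))))))))) (.s13 (.tw (.c 0 (.s13 (.tw (.c 0 (.b 14) (.s13 (.tw (.s12 (.s13 (.c 0 (.b 63) (.b 44))))))))) (.s12 (.s13 (.c 0 (.tw (.c 0 (.b 14) (.s13 (.tw (.s12 (.s13 (.c 0 (.b 136) (.b 44)))))))) (.s13 (.tw (.s13 (.c 0 (.b 70) (.b 45))))))))))))),
  (.tw (.c 0 (.s12 (.s13 (.tw (.s12 (.c 0 (.b 284) (.s13 (.tw (.s12 (.s13 (.c 0 (.b 63) (.s13 (.tw (.s12 (.s13 (.c 0 (.b 284) (.b 27)))))))))))))))) (.s13 (.tw (.s12 (.c 0 (.s13 (.tw (.c 0 (.b 14) (.s13 (.tw (.s12 (.s13 (.c 0 (.b 136) (.b 351))))))))) (.s12 (.s13 (.c 0 (.tw (.c 0 (.b 693) (.tw (.s12 (.s13 (.tw (.c 0 (.b 44) (.b 26)))))))) (.s13 (.tw (.s13 (.c 0 (.b 70) (.b 45)))))))))))))),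
  (.tw (.c 0 (.tw (.c 0 (.b 284) (.s13 (.tw (.s12 (.s13 (.c 0 (.b 63) (.b 93)))))))) (.s13 (.tw (.c 0 (.s12 (.s13 (.tw (.c 0 (.b 13) (.s13 (.tw (.s12 (.s13 (.c 0 (.b 136) (.b 351)))))))))) (.tw (.s12 (.s13 (.tw (.c 0 (.tw (.s12 (.s13 (.tw (.c 0 (.tw (.s13 (.s12 (.c 0 (.b 58) (.b 247))))) (.s13 (.tw (.c 0 (.b 63) (.b 44))))))))) (.s13 (.tw (.c 0 (.b 14) (.c 0 (.b 136) (.b 136))))))))))))))),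
  (.c 0 (.tw (.c 0 (.b 348) (.s13 (.tw (.s12 (.s13 (.c 0 (.b 23) (.b 21)))))))) (.s13 (.tw (.c 0 (.s12 (.s13 (.tw (.c 0 (.b 13) (.s13 (.tw (.s12 (.s13 (.c 0 (.b 58) (.c 0 (.b 136) (.b 136))))))))))) (.tw (.s12 (.s13 (.tw (.c 0 (.s13 (.tw (.s12 (.c 0 (.b 136) (.b 139))))) (.s13 (.tw (.c 0 (.b 5) (.s13 (.tw (.c 0 (.b 384) (.b 5)))))))))))))))),
  (.tw (.c 0 (.tw (.c 0 (.b 284) (.s13 (.tw (.s12 (.s13 (.c 0 (.b 63) (.b 93)))))))) (.s13 (.tw (.c 0 (.s13 (.tw (.c 0 (.s13 (.tw (.c 0 (.b 82) (.b 26)))) (.b 273)))) (.s12 (.s13 (.tw (.c 0 (.s13 (.tw (.c 0 (.b 63) (.c 0 (.b 136) (.b 136))))) (.s13 (.tw (.s13 (.s12 (.c 0 (.b 95) (.s13 (.tw (.c 0 (.b 44) (.b 12)))))))))))))))))),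
  (.c 0 (.tw (.c 0 (.b 348) (.s13 (.tw (.s12 (.s13 (.c 0 (.b 13) (.c 0 (.b 63) (.b 159))))))))) (.s13 (.tw (.c 0 (.s12 (.s13 (.tw (.c 0 (.b 13) (.s13 (.tw (.s12 (.s13 (.c 0 (.b 58) (.c 0 (.b 136) (.b 136))))))))))) (.tw (.s12 (.s13 (.tw (.c 0 (.s13 (.tw (.s12 (.c 0 (.b 136) (.b 139))))) (.s13 (.tw (.c 0 (.b 5) (.s13 (.tw (.c 0 (.b 384) (.b 5)))))))))))))))),
  (.c 0 (.tw (.c 0 (.b 311) (.s13 (.tw (.s12 (.s13 (.c 0 (.b 23) (.b 21)))))))) (.tw (.c 0 (.s12 (.s13 (.tw (.c 0 (.b 284) (.b 147))))) (.tw (.s12 (.s13 (.tw (.c 0 (.s13 (.tw (.c 0 (.b 136) (.b 663)))) (.tw (.s12 (.s13 (.tw (.c 0 (.s12 (.s13 (.tw (.c 0 (.b 44) (.b 1))))) (.s13 (.tw (.c 0 (.b 5) (.b 5))))))))))))))))),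
  (.c 0 (.tw (.c 0 (.b 13) (.s13 (.tw (.s12 (.s13 (.c 0 (.b 284) (.c 0 (.b 136) (.b 29))))))))) (.s13 (.c 0 (.tw (.c 0 (.s13 (.tw (.c 0 (.b 14) (.s13 (.tw (.s12 (.s13 (.c 0 (.b 136) (.s13 (.tw (.s12 (.s13 (.c 0 (.b 13) (.b 200)))))))))))))) (.tw (.s13 (.tw (.c 0 (.s13 (.tw (.c 0 (.b 136) (.b 44)))) (.s13 (.tw (.s12 (.s13 (.c 0 (.b 5) (.s13 (.tw (.s12 (.s13 (.c 0 (.b 5) (.b 63))))))))))))))))) (.b 1)))),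
  (.c 0 (.tw (.c 0 (.b 13) (.s13 (.tw (.s12 (.s13 (.c 0 (.b 284) (.c 0 (.b 136) (.b 29))))))))) (.s13 (.tw (.c 0 (.s12 (.s13 (.tw (.c 0 (.b 13) (.s13 (.tw (.s12 (.s13 (.c 0 (.b 58) (.c 0 (.b 136) (.b 136))))))))))) (.tw (.s12 (.s13 (.tw (.c 0 (.s13 (.tw (.s12 (.c 0 (.b 136) (.b 139))))) (.s13 (.tw (.c 0 (.b 5) (.s13 (.tw (.c 0 (.b 384) (.b 5)))))))))))))))),
  (.c 0 (.tw (.c 0 (.b 13) (.s13 (.tw (.s12 (.s13 (.c 0 (.b 13) (.c 0 (.b 14) (.s13 (.tw (.s12 (.s13 (.c 0 (.b 381) (.b 381)))))))))))))) (.s13 (.tw (.c 0 (.s13 (.tw (.c 0 (.b 14) (.s13 (.tw (.s12 (.s13 (.c 0 (.b 136) (.s13 (.tw (.s12 (.s13 (.c 0 (.b 13) (.b 200)))))))))))))) (.tw (.s13 (.tw (.c 0 (.s13 (.tw (.c 0 (.b 136) (.b 44)))) (.s13 (.tw (.s12 (.s13 (.c 0 (.b 5) (.s13 (.tw (.s12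 (.s13 (.c 0 (.b 5) (.b 63))))))))))))))))))),
  (.c 0 (.tw (.c 0 (.b 14) (.s13 (.tw (.s12 (.s13 (.c 0 (.b 13) (.s13 (.tw (.s12 (.s13 (.c 0 (.b 136) (.s13 (.tw (.s12 (.s13 (.c 0 (.b 63) (.b 369)))))))))))))))))) (.s12 (.s13 (.tw (.c 0 (.s13 (.tw (.c 0 (.b 57) (.s13 (.tw (.s12 (.s13 (.c 0 (.b 63) (.b 180))))))))) (.tw (.s13 (.tw (.c 0 (.s13 (.tw (.c 0 (.b 136) (.b 44)))) (.s13 (.tw (.s12 (.s13 (.c 0 (.b 5) (.c 0 (.b 5) (.b 284)))))))))))))))),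
  (.tw (.c 0 (.tw (.c 0 (.s13 (.tw (.c 0 (.b 381) (.b 27)))) (.s13 (.tw (.s12 (.s13 (.c 0 (.b 348) (.b 546)))))))) (.s13 (.tw (.c 0 (.tw (.s13 (.c 0 (.b 70) (.b 45)))) (.s13 (.c 0 (.tw (.s13 (.tw (.s13 (.c 0 (.b 67) (.s13 (.tw (.s13 (.c 0 (.b 14) (.b 44)))))))))) (.tw (.s12 (.s13 (.s12 (.c 0 (.b 67) (.s13 (.tw (.s13 (.c 0 (.b 14) (.b 44))))))))))))))))),
  (.tw (.c 0 (.tw (.c 0 (.b 284) (.s13 (.tw (.s12 (.s13 (.c 0 (.b 63) (.b 93)))))))) (.s13 (.tw (.c 0 (.s13 (.tw (.c 0 (.tw (.s13 (.tw (.c 0 (.b 63) (.b 247))))) (.b 273)))) (.s13 (.c 0 (.tw (.c 0 (.b 14) (.s13 (.tw (.s12 (.s13 (.c 0 (.b 14) (.c 0 (.b 136) (.b 136))))))))) (.s13 (.tw (.s13 (.c 0 (.b 70) (.b 45)))))))))))),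
  (.c 0 (.tw (.c 0 (.b 348) (.s13 (.tw (.s12 (.s13 (.c 0 (.b 23) (.b 21)))))))) (.s13 (.tw (.c 0 (.s12 (.s13 (.tw (.c 0 (.b 462) (.s13 (.tw (.s13 (.c 0 (.b 13) (.b 225))))))))) (.s13 (.tw (.c 0 (.s13 (.tw (.c 0 (.b 136) (.b 44)))) (.s13 (.tw (.s12 (.s13 (.c 0 (.b 5) (.s13 (.tw (.s12 (.s13 (.c 0 (.b 5) (.b 63)))))))))))))))))),
  (.c 0 (.tw (.c 0 (.b 348) (.s13 (.tw (.s12 (.s13 (.c 0 (.b 13) (.c 0 (.b 63) (.b 159))))))))) (.s13 (.tw (.c 0 (.s12 (.s13 (.tw (.c 0 (.b 462) (.s13 (.tw (.s13 (.c 0 (.b 13) (.b 225))))))))) (.s13 (.tw (.c 0 (.s13 (.tw (.c 0 (.b 136) (.b 44)))) (.s13 (.tw (.s12 (.s13 (.c 0 (.b 5) (.s13 (.tw (.s12 (.s13 (.c 0 (.b 5) (.b 63)))))))))))))))))),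
  (.c 0 (.s12 (.s13 (.tw (.s12 (.c 0 (.b 311) (.s13 (.tw (.s13 (.c 0 (.b 526) (.b 16)))))))))) (.tw (.s12 (.c 0 (.s13 (.tw (.c 0 (.b 136) (.s13 (.tw (.s12 (.s13 (.c 0 (.b 63) (.b 369))))))))) (.tw (.s12 (.s13 (.tw (.c 0 (.s13 (.tw (.c 0 (.b 136) (.b 44)))) (.tw (.s12 (.s13 (.tw (.c 0 (.b 5) (.s12 (.s13 (.tw (.c 0 (.b 382) (.s13 (.tw (.c 0 (.b 44) (.b 1)))))))))))))))))))))),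
  (.c 0 (.tw (.c 0 (.b 13) (.s13 (.tw (.s12 (.s13 (.c 0 (.b 284) (.c 0 (.b 136) (.b 29))))))))) (.s13 (.tw (.c 0 (.s12 (.s13 (.tw (.c 0 (.b 462) (.s13 (.tw (.s13 (.c 0 (.b 13) (.b 225))))))))) (.s13 (.tw (.c 0 (.s13 (.tw (.c 0 (.b 136) (.b 44)))) (.s13 (.tw (.s12 (.s13 (.c 0 (.b 5) (.s13 (.tw (.s12 (.s13 (.c 0 (.b 5) (.b 63)))))))))))))))))),
  (.c 0 (.s12 (.s13 (.tw (.s12 (.c 0 (.b 14) (.s13 (.tw (.s12 (.s13 (.c 0 (.b 304) (.s13 (.tw (.s12 (.s13 (.c 0 (.b 13) (.b 546)))))))))))))))) (.tw (.s12 (.c 0 (.s13 (.tw (.c 0 (.b 136) (.s13 (.tw (.s12 (.s13 (.c 0 (.b 63) (.b 369))))))))) (.tw (.s12 (.s13 (.tw (.c 0 (.s13 (.tw (.c 0 (.b 136) (.b 44)))) (.tw (.s12 (.s13 (.tw (.c 0 (.b 5) (.s12 (.s13 (.tw (.c 0 (.b 382) (.s13 (.tw (.c 0 (.b 44) (.b 1)))))))))))))))))))))),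
  (.tw (.c 0 (.tw (.c 0 (.b 13) (.s13 (.tw (.s12 (.s13 (.c 0 (.b 284) (.c 0 (.b 136) (.b 29))))))))) (.s13 (.c 0 (.s12 (.s13 (.tw (.c 0 (.s13 (.tw (.c 0 (.b 12) (.b 172)))) (.tw (.s12 (.s13 (.tw (.c 0 (.s13 (.tw (.s12 (.s13 (.c 0 (.b 348) (.s13 (.tw (.s12 (.s13 (.c 0 (.b 381) (.b 136))))))))))) (.b 273)))))))))) (.tw (.s12 (.c 0 (.b 136) (.c 0 (.b 136) (.b 536))))))))),
  (.tw (.c 0 (.tw (.c 0 (.b 13) (.s13 (.tw (.s12 (.s13 (.c 0 (.b 57) (.s13 (.tw (.s12 (.s13 (.c 0 (.b 381) (.b 478))))))))))))) (.s13 (.tw (.c 0 (.tw (.c 0 (.b 726) (.b 136))) (.tw (.s13 (.tw (.c 0 (.s13 (.tw (.c 0 (.b 136) (.b 44)))) (.tw (.s12 (.s13 (.tw (.c 0 (.b 5) (.s13 (.tw (.s12 (.s13 (.c 0 (.b 601) (.b 5)))))))))))))))))))),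
  (.c 0 (.tw (.c 0 (.b 13) (.s13 (.tw (.s12 (.s13 (.c 0 (.b 284) (.c 0 (.b 136) (.b 29))))))))) (.s13 (.c 0 (.s12 (.s13 (.tw (.c 0 (.s12 (.s13 (.tw (.c 0 (.b 12) (.b 172))))) (.tw (.s12 (.s13 (.tw (.c 0 (.tw (.s12 (.s13 (.tw (.c 0 (.b 284) (.c 0 (.b 136) (.b 136))))))) (.b 666)))))))))) (.tw (.s12 (.c 0 (.b 136) (.c 0 (.b 136) (.b 536)))))))),
  (.tw (.c 0 (.tw (.c 0 (.b 13) (.s13 (.tw (.s12 (.s13 (.c 0 (.b 284) (.c 0 (.b 136) (.b 29))))))))) (.s13 (.c 0 (.tw (.c 0 (.tw (.s13 (.tw (.c 0 (.b 13) (.b 478))))) (.tw (.s13 (.tw (.c 0 (.b 273) (.s13 (.tw (.s12 (.s13 (.c 0 (.b 136) (.c 0 (.b 136) (.b 136))))))))))))) (.tw (.c 0 (.b 718) (.c 0 (.b 136) (.b 136)))))))),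
  (.tw (.c 0 (.tw (.c 0 (.b 13) (.s13 (.tw (.s12 (.s13 (.c 0 (.b 57) (.s13 (.tw (.s12 (.s13 (.c 0 (.b 381) (.b 478))))))))))))) (.s13 (.tw (.c 0 (.s13 (.tw (.c 0 (.b 13) (.b 462)))) (.tw (.s13 (.tw (.c 0 (.s13 (.tw (.c 0 (.b 304) (.b 44)))) (.s13 (.tw (.c 0 (.s13 (.tw (.c 0 (.b 63) (.b 381)))) (.s13 (.tw (.c 0 (.b 5) (.b 5)))))))))))))))),
  (.c 0 (.tw (.c 0 (.b 13) (.s13 (.tw (.s12 (.s13 (.c 0 (.b 284) (.c 0 (.b 136) (.b 29))))))))) (.s13 (.tw (.c 0 (.s12 (.s13 (.tw (.s12 (.c 0 (.b 136) (.b 147)))))) (.tw (.s12 (.s13 (.tw (.c 0 (.s12 (.s13 (.tw (.c 0 (.b 14) (.s13 (.tw (.s12 (.s13 (.c 0 (.b 136) (.b 44)))))))))) (.s13 (.tw (.c 0 (.tw (.c 0 (.b 63) (.b 136))) (.s13 (.tw (.s13 (.c 0 (.b 5) (.b 143))))))))))))))))),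
  (.c 0 (.tw (.c 0 (.b 13) (.s13 (.tw (.s12 (.s13 (.c 0 (.b 284) (.c 0 (.b 136) (.b 29))))))))) (.s13 (.c 0 (.tw (.c 0 (.s13 (.tw (.c 0 (.b 13) (.b 462)))) (.tw (.s13 (.tw (.c 0 (.s13 (.tw (.c 0 (.b 249) (.b 44)))) (.s13 (.tw (.c 0 (.s13 (.tw (.c 0 (.b 44) (.b 1)))) (.s13 (.tw (.c 0 (.b 5) (.b 5))))))))))))) (.b 1)))),
  (.tw (.c 0 (.tw (.c 0 (.b 13) (.s13 (.tw (.s12 (.s13 (.c 0 (.b 57) (.s13 (.tw (.s12 (.s13 (.c 0 (.b 381) (.b 478))))))))))))) (.s13 (.tw (.c 0 (.s13 (.tw (.c 0 (.b 13) (.b 462)))) (.tw (.s13 (.tw (.c 0 (.s13 (.tw (.c 0 (.b 136) (.tw (.s12 (.s13 (.tw (.c 0 (.b 63) (.b 381))))))))) (.s13 (.tw (.c 0 (.s13 (.tw (.c 0 (.b 63) (.b 381)))) (.s13 (.tw (.c 0 (.b 5) (.b 5)))))))))))))))),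
  (.c 0 (.tw (.c 0 (.b 19) (.s13 (.tw (.s12 (.s13 (.c 0 (.b 538) (.s13 (.tw (.s12 (.s13 (.c 0 (.b 63) (.b 159))))))))))))) (.s13 (.tw (.c 0 (.s13 (.tw (.c 0 (.b 13) (.b 236)))) (.tw (.s13 (.tw (.c 0 (.s13 (.tw (.c 0 (.b 249) (.b 44)))) (.s13 (.tw (.c 0 (.s13 (.tw (.c 0 (.b 44) (.b 1)))) (.s13 (.tw (.c 0 (.b 5) (.b 5))))))))))))))),
  (.tw (.c 0 (.tw (.c 0 (.b 13) (.s13 (.tw (.s12 (.s13 (.c 0 (.b 136) (.c 0 (.b 260) (.b 147))))))))) (.s13 (.tw (.c 0 (.s13 (.tw (.c 0 (.b 381) (.tw (.s12 (.s13 (.tw (.c 0 (.b 63) (.b 381))))))))) (.tw (.s13 (.tw (.c 0 (.tw (.s12 (.s13 (.tw (.c 0 (.tw (.s12 (.c 0 (.b 24) (.b 26)))) (.s13 (.tw (.c 0 (.b 63) (.b 44))))))))) (.s13 (.tw (.c 0 (.b 136) (.b 44))))))))))))),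
  (.tw (.c 0 (.tw (.c 0 (.b 13) (.s13 (.tw (.s12 (.s13 (.c 0 (.b 57) (.s13 (.tw (.s12 (.s13 (.c 0 (.b 381) (.b 478))))))))))))) (.s13 (.tw (.c 0 (.s13 (.tw (.c 0 (.b 136) (.b 236)))) (.tw (.s13 (.tw (.c 0 (.s13 (.tw (.c 0 (.b 304) (.b 44)))) (.tw (.s13 (.tw (.c 0 (.s13 (.tw (.s12 (.c 0 (.b 63) (.b 381))))) (.s13 (.tw (.s12 (.c 0 (.b 124) (.b 44)))))))))))))))))),
  (.c 0 (.tw (.c 0 (.b 348) (.s13 (.tw (.s12 (.s13 (.c 0 (.b 23) (.b 21)))))))) (.s13 (.tw (.c 0 (.s12 (.s13 (.tw (.c 0 (.b 13) (.s13 (.tw (.s12 (.s13 (.c 0 (.b 13) (.b 337)))))))))) (.tw (.s12 (.s13 (.tw (.c 0 (.s13 (.tw (.c 0 (.b 249) (.b 44)))) (.s13 (.tw (.c 0 (.tw (.c 0 (.b 63) (.b 136))) (.s13 (.tw (.c 0 (.b 5) (.b 5)))))))))))))))),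
  (.c 0 (.tw (.c 0 (.b 348) (.s13 (.tw (.s12 (.s13 (.c 0 (.b 13) (.c 0 (.b 63) (.b 159))))))))) (.s13 (.tw (.c 0 (.s12 (.s13 (.tw (.c 0 (.b 13) (.s13 (.tw (.s12 (.s13 (.c 0 (.b 13) (.b 337)))))))))) (.tw (.s12 (.s13 (.tw (.c 0 (.s13 (.tw (.c 0 (.b 249) (.b 44)))) (.s13 (.tw (.c 0 (.tw (.c 0 (.b 63) (.b 136))) (.s13 (.tw (.c 0 (.b 5) (.b 5)))))))))))))))),
  (.c 0 (.tw (.c 0 (.b 13) (.s13 (.tw (.s12 (.s13 (.c 0 (.b 284) (.c 0 (.b 136) (.b 29))))))))) (.s13 (.tw (.c 0 (.s12 (.s13 (.tw (.c 0 (.b 13) (.s13 (.tw (.s12 (.s13 (.c 0 (.b 13) (.b 337)))))))))) (.tw (.s12 (.s13 (.tw (.c 0 (.s13 (.tw (.c 0 (.b 249) (.b 44)))) (.s13 (.tw (.c 0 (.tw (.c 0 (.b 63) (.b 136))) (.s13 (.tw (.c 0 (.b 5) (.b 5)))))))))))))))),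
  (.tw (.c 0 (.tw (.c 0 (.b 13) (.s13 (.tw (.s12 (.s13 (.c 0 (.b 57) (.s13 (.tw (.s12 (.s13 (.c 0 (.b 381) (.b 478))))))))))))) (.s13 (.tw (.c 0 (.s13 (.tw (.c 0 (.b 136) (.s13 (.tw (.s12 (.s13 (.c 0 (.b 63) (.b 369))))))))) (.tw (.s13 (.tw (.c 0 (.tw (.s12 (.s13 (.tw (.c 0 (.s13 (.tw (.s13 (.s12 (.c 0 (.b 13) (.b 272)))))) (.s13 (.tw (.c 0 (.b 63) (.b 44))))))))) (.s13 (.tw (.c 0 (.b 136) (.b 44))))))))))))),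
  (.c 0 (.tw (.c 0 (.b 13) (.s13 (.tw (.s12 (.s13 (.c 0 (.b 13) (.c 0 (.b 14) (.s13 (.tw (.s12 (.s13 (.c 0 (.b 381) (.b 381)))))))))))))) (.s13 (.tw (.c 0 (.s12 (.s13 (.tw (.c 0 (.b 13) (.b 546))))) (.s12 (.s13 (.tw (.c 0 (.s13 (.tw (.s12 (.c 0 (.s13 (.tw (.c 0 (.b 44) (.b 12)))) (.s13 (.tw (.c 0 (.b 5) (.b 5)))))))) (.s13 (.tw (.s12 (.c 0 (.b 249) (.b 44))))))))))))),
  (.c 0 (.tw (.c 0 (.b 13) (.s13 (.tw (.s12 (.s13 (.c 0 (.b 13) (.c 0 (.b 14) (.s13 (.tw (.s12 (.s13 (.c 0 (.b 381) (.b 381)))))))))))))) (.s13 (.tw (.c 0 (.s13 (.tw (.c 0 (.b 13) (.b 236)))) (.tw (.s13 (.tw (.c 0 (.s13 (.tw (.c 0 (.b 249) (.b 44)))) (.s13 (.tw (.c 0 (.s13 (.tw (.c 0 (.b 44) (.b 1)))) (.s13 (.tw (.c 0 (.b 5) (.b 5))))))))))))))),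
  (.tw (.c 0 (.tw (.c 0 (.b 13) (.s13 (.tw (.s12 (.s13 (.c 0 (.b 284) (.c 0 (.b 136) (.b 29))))))))) (.s13 (.c 0 (.tw (.c 0 (.tw (.s13 (.tw (.c 0 (.b 13) (.b 478))))) (.tw (.s13 (.tw (.c 0 (.b 273) (.s13 (.tw (.s12 (.s13 (.c 0 (.b 136) (.c 0 (.b 136) (.b 136))))))))))))) (.tw (.c 0 (.b 460) (.s13 (.tw (.s12 (.s13 (.c 0 (.b 136) (.b 351)))))))))))),
  (.tw (.c 0 (.tw (.c 0 (.b 13) (.s13 (.tw (.s12 (.s13 (.c 0 (.b 57) (.s13 (.tw (.s12 (.s13 (.c 0 (.b 381) (.b 478))))))))))))) (.s13 (.tw (.c 0 (.s13 (.tw (.c 0 (.b 136) (.b 462)))) (.tw (.s13 (.tw (.c 0 (.s13 (.tw (.c 0 (.b 304) (.b 44)))) (.s13 (.tw (.c 0 (.s13 (.tw (.c 0 (.b 63) (.b 381)))) (.s13 (.tw (.c 0 (.b 5) (.b 124)))))))))))))))),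
  (.c 0 (.tw (.c 0 (.b 13) (.s13 (.tw (.s12 (.s13 (.c 0 (.b 284) (.c 0 (.b 136) (.b 29))))))))) (.s13 (.tw (.c 0 (.tw (.s12 (.s13 (.s12 (.c 0 (.b 14) (.b 526)))))) (.tw (.s12 (.s13 (.tw (.c 0 (.tw (.s12 (.s13 (.tw (.c 0 (.b 67) (.s13 (.tw (.s13 (.c 0 (.b 14) (.b 44)))))))))) (.tw (.s12 (.s13 (.tw (.c 0 (.s12 (.s13 (.tw (.c 0 (.b 44) (.b 1))))) (.s13 (.tw (.c 0 (.b 5) (.b 5)))))))))))))))))),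
  (.tw (.c 0 (.tw (.c 0 (.b 13) (.s13 (.tw (.s12 (.s13 (.c 0 (.b 136) (.c 0 (.b 260) (.b 147))))))))) (.s13 (.tw (.c 0 (.s13 (.tw (.c 0 (.tw (.s13 (.tw (.c 0 (.b 136) (.b 247))))) (.b 14)))) (.tw (.s13 (.tw (.c 0 (.s13 (.tw (.c 0 (.b 136) (.s13 (.tw (.s12 (.s13 (.c 0 (.b 44) (.b 1))))))))) (.s13 (.tw (.c 0 (.b 5) (.s13 (.tw (.c 0 (.b 124) (.b 124)))))))))))))))),
  (.tw (.c 0 (.tw (.c 0 (.b 13) (.s13 (.tw (.s12 (.s13 (.c 0 (.b 57) (.s13 (.tw (.s12 (.s13 (.c 0 (.b 381) (.b 478))))))))))))) (.s13 (.tw (.c 0 (.s13 (.tw (.c 0 (.b 136) (.b 462)))) (.tw (.s13 (.tw (.c 0 (.s13 (.tw (.c 0 (.b 304) (.b 44)))) (.tw (.s13 (.tw (.c 0 (.s13 (.tw (.s12 (.c 0 (.b 63) (.b 381))))) (.s13 (.tw (.s12 (.c 0 (.b 124) (.b 44)))))))))))))))))),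
  (.c 0 (.tw (.c 0 (.b 348) (.s13 (.tw (.s12 (.s13 (.c 0 (.b 23) (.b 21)))))))) (.s13 (.tw (.c 0 (.s12 (.s13 (.tw (.c 0 (.b 13) (.s13 (.tw (.s12 (.s13 (.c 0 (.b 136) (.b 581)))))))))) (.tw (.s12 (.s13 (.tw (.c 0 (.s13 (.tw (.c 0 (.b 136) (.b 44)))) (.s13 (.tw (.c 0 (.tw (.c 0 (.b 57) (.b 136))) (.s13 (.tw (.c 0 (.b 5) (.b 124)))))))))))))))),
  (.c 0 (.tw (.c 0 (.b 348) (.s13 (.tw (.s12 (.s13 (.c 0 (.b 13) (.c 0 (.b 63) (.b 159))))))))) (.s13 (.tw (.c 0 (.s12 (.s13 (.tw (.c 0 (.b 13) (.s13 (.tw (.s12 (.s13 (.c 0 (.b 136) (.b 581)))))))))) (.tw (.s12 (.s13 (.tw (.c 0 (.s13 (.tw (.c 0 (.b 136) (.b 44)))) (.s13 (.tw (.c 0 (.tw (.c 0 (.b 57) (.b 136))) (.s13 (.tw (.c 0 (.b 5) (.b 124)))))))))))))))),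
  (.c 0 (.tw (.c 0 (.b 13) (.s13 (.tw (.s12 (.s13 (.c 0 (.b 284) (.c 0 (.b 136) (.b 29))))))))) (.s13 (.tw (.c 0 (.s12 (.s13 (.tw (.c 0 (.b 13) (.s13 (.tw (.s12 (.s13 (.c 0 (.b 136) (.b 581)))))))))) (.tw (.s12 (.s13 (.tw (.c 0 (.s13 (.tw (.c 0 (.b 136) (.b 44)))) (.s13 (.tw (.c 0 (.tw (.c 0 (.b 57) (.b 136))) (.s13 (.tw (.c 0 (.b 5) (.b 124)))))))))))))))),
  (.tw (.c 0 (.tw (.c 0 (.b 13) (.s13 (.tw (.s12 (.s13 (.c 0 (.b 136) (.c 0 (.b 260) (.b 147))))))))) (.s13 (.tw (.c 0 (.s13 (.tw (.c 0 (.b 684) (.b 356)))) (.tw (.s13 (.tw (.c 0 (.s13 (.tw (.c 0 (.b 136) (.b 536)))) (.tw (.s13 (.tw (.c 0 (.s13 (.tw (.s12 (.c 0 (.b 63) (.b 381))))) (.s13 (.tw (.s12 (.c 0 (.b 44) (.b 12)))))))))))))))))),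
  (.tw (.c 0 (.tw (.c 0 (.b 13) (.s13 (.tw (.s12 (.s13 (.c 0 (.b 57) (.s13 (.tw (.s12 (.s13 (.c 0 (.b 381) (.b 478))))))))))))) (.s13 (.tw (.c 0 (.s13 (.tw (.c 0 (.b 136) (.b 236)))) (.tw (.s13 (.tw (.c 0 (.s13 (.tw (.c 0 (.b 136) (.tw (.s12 (.s13 (.tw (.c 0 (.b 63) (.b 381))))))))) (.tw (.s13 (.tw (.c 0 (.s13 (.tw (.s12 (.c 0 (.b 63) (.b 381))))) (.s13 (.tw (.s12 (.c 0 (.b 124) (.b 44)))))))))))))))))),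
  (.c 0 (.tw (.c 0 (.b 348) (.s13 (.tw (.s12 (.s13 (.c 0 (.b 23) (.b 21)))))))) (.s13 (.tw (.c 0 (.s12 (.s13 (.tw (.s12 (.c 0 (.b 136) (.b 147)))))) (.tw (.s12 (.s13 (.tw (.c 0 (.tw (.s12 (.s13 (.tw (.c 0 (.b 67) (.s13 (.tw (.s13 (.c 0 (.b 14) (.b 44)))))))))) (.tw (.s12 (.s13 (.tw (.c 0 (.s12 (.s13 (.tw (.c 0 (.b 44) (.b 1))))) (.s13 (.tw (.c 0 (.b 5) (.b 5)))))))))))))))))),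
  (.c 0 (.tw (.c 0 (.b 348) (.s13 (.tw (.s12 (.s13 (.c 0 (.b 13) (.c 0 (.b 63) (.b 159))))))))) (.s13 (.tw (.c 0 (.s12 (.s13 (.tw (.s12 (.c 0 (.b 136) (.b 147)))))) (.tw (.s12 (.s13 (.tw (.c 0 (.tw (.s12 (.s13 (.tw (.c 0 (.b 67) (.s13 (.tw (.s13 (.c 0 (.b 14) (.b 44)))))))))) (.tw (.s12 (.s13 (.tw (.c 0 (.s12 (.s13 (.tw (.c 0 (.b 44) (.b 1))))) (.s13 (.tw (.c 0 (.b 5) (.b 5)))))))))))))))))),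
  (.tw (.c 0 (.tw (.c 0 (.b 13) (.s13 (.tw (.s12 (.s13 (.c 0 (.b 57) (.s13 (.tw (.s12 (.s13 (.c 0 (.b 381) (.b 478))))))))))))) (.s13 (.tw (.c 0 (.s13 (.tw (.c 0 (.b 136) (.tw (.s12 (.s13 (.tw (.c 0 (.b 63) (.b 381))))))))) (.tw (.s13 (.tw (.c 0 (.tw (.s12 (.s13 (.tw (.c 0 (.s13 (.tw (.s13 (.s12 (.c 0 (.b 13) (.b 272)))))) (.s13 (.tw (.c 0 (.b 63) (.b 44))))))))) (.s13 (.tw (.c 0 (.b 136) (.b 44))))))))))))),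
  (.c 0 (.tw (.c 0 (.b 13) (.s13 (.tw (.s12 (.s13 (.c 0 (.b 284) (.c 0 (.b 136) (.b 29))))))))) (.s13 (.c 0 (.tw (.c 0 (.s13 (.tw (.c 0 (.b 14) (.s13 (.tw (.s12 (.s13 (.c 0 (.b 14) (.c 0 (.b 63) (.b 136)))))))))) (.tw (.s13 (.tw (.c 0 (.s13 (.tw (.c 0 (.b 136) (.b 44)))) (.tw (.s12 (.s13 (.tw (.c 0 (.b 5) (.s13 (.tw (.s12 (.s13 (.c 0 (.b 202) (.b 5))))))))))))))))) (.b 1)))),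
  (.c 0 (.tw (.c 0 (.b 13) (.s13 (.tw (.s12 (.s13 (.c 0 (.b 284) (.c 0 (.b 136) (.b 29))))))))) (.s13 (.tw (.c 0 (.s12 (.s13 (.tw (.s12 (.c 0 (.b 136) (.b 147)))))) (.tw (.s12 (.s13 (.tw (.c 0 (.tw (.s12 (.s13 (.tw (.c 0 (.b 67) (.s13 (.tw (.s13 (.c 0 (.b 14) (.b 44)))))))))) (.tw (.s12 (.s13 (.tw (.c 0 (.s12 (.s13 (.tw (.c 0 (.b 44) (.b 1))))) (.s13 (.tw (.c 0 (.b 5) (.b 5)))))))))))))))))),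
  (.c 0 (.tw (.c 0 (.b 13) (.s13 (.tw (.s12 (.s13 (.c 0 (.b 13) (.c 0 (.b 14) (.s13 (.tw (.s12 (.s13 (.c 0 (.b 381) (.b 381)))))))))))))) (.s13 (.tw (.c 0 (.s12 (.s13 (.tw (.s12 (.c 0 (.b 13) (.b 546)))))) (.s12 (.s13 (.tw (.c 0 (.s13 (.tw (.s12 (.c 0 (.b 249) (.b 44))))) (.s13 (.tw (.s12 (.c 0 (.s13 (.tw (.c 0 (.b 14) (.b 44)))) (.s13 (.tw (.c 0 (.b 5) (.b 5)))))))))))))))),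
  (.c 0 (.tw (.c 0 (.b 13) (.s13 (.tw (.s12 (.s13 (.c 0 (.b 13) (.c 0 (.b 14) (.s13 (.tw (.s12 (.s13 (.c 0 (.b 381) (.b 381)))))))))))))) (.s13 (.tw (.c 0 (.s13 (.tw (.c 0 (.b 14) (.s13 (.tw (.s12 (.s13 (.c 0 (.b 14) (.c 0 (.b 63) (.b 136)))))))))) (.tw (.s13 (.tw (.c 0 (.s13 (.tw (.c 0 (.b 136) (.b 44)))) (.tw (.s12 (.s13 (.tw (.c 0 (.b 5) (.s13 (.tw (.s12 (.s13 (.c 0 (.b 202) (.b 5))))))))))))))))))),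
  (.tw (.c 0 (.tw (.c 0 (.b 345) (.s13 (.tw (.s12 (.s13 (.c 0 (.b 502) (.s13 (.tw (.s12 (.s13 (.c 0 (.b 63) (.b 381))))))))))))) (.s13 (.tw (.c 0 (.tw (.s13 (.tw (.c 0 (.b 67) (.s13 (.tw (.s13 (.c 0 (.b 14) (.b 44))))))))) (.tw (.s12 (.s13 (.tw (.c 0 (.tw (.c 0 (.b 136) (.b 136))) (.s13 (.tw (.c 0 (.s13 (.tw (.c 0 (.b 63) (.b 24)))) (.s13 (.tw (.c 0 (.b 14) (.b 180))))))))))))))))),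
  (.tw (.c 0 (.tw (.c 0 (.b 13) (.s13 (.tw (.s12 (.s13 (.c 0 (.b 136) (.c 0 (.b 260) (.b 147))))))))) (.s13 (.tw (.c 0 (.s13 (.tw (.c 0 (.b 684) (.b 356)))) (.s13 (.c 0 (.tw (.c 0 (.b 304) (.tw (.s12 (.s13 (.tw (.c 0 (.b 44) (.b 12)))))))) (.s13 (.tw (.s13 (.c 0 (.b 70) (.b 45)))))))))))),
  (.tw (.c 0 (.tw (.c 0 (.b 13) (.s13 (.tw (.s12 (.s13 (.c 0 (.b 57) (.s13 (.tw (.s12 (.s13 (.c 0 (.b 381) (.b 478))))))))))))) (.s13 (.tw (.c 0 (.s13 (.tw (.c 0 (.b 136) (.b 236)))) (.s13 (.c 0 (.tw (.c 0 (.b 693) (.tw (.s12 (.s13 (.tw (.c 0 (.b 124) (.b 44)))))))) (.s13 (.tw (.s13 (.c 0 (.b 70) (.b 45)))))))))))),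
  (.c 0 (.tw (.c 0 (.b 348) (.s13 (.tw (.s12 (.s13 (.c 0 (.b 23) (.b 21)))))))) (.s13 (.tw (.c 0 (.s12 (.s13 (.tw (.c 0 (.b 13) (.s13 (.tw (.s12 (.s13 (.c 0 (.b 136) (.b 598)))))))))) (.tw (.s12 (.s13 (.tw (.c 0 (.s13 (.tw (.c 0 (.b 136) (.b 44)))) (.s13 (.tw (.s12 (.s13 (.c 0 (.s12 (.s13 (.tw (.c 0 (.b 44) (.b 1))))) (.s13 (.tw (.c 0 (.b 384) (.b 5)))))))))))))))))),
  (.tw (.c 0 (.tw (.c 0 (.b 13) (.s13 (.tw (.s12 (.s13 (.c 0 (.b 57) (.s13 (.tw (.s12 (.s13 (.c 0 (.b 381) (.b 478))))))))))))) (.s13 (.tw (.c 0 (.tw (.s13 (.c 0 (.b 70) (.b 45)))) (.tw (.s13 (.tw (.c 0 (.s12 (.s13 (.tw (.c 0 (.s13 (.tw (.s12 (.c 0 (.b 239) (.b 1))))) (.s13 (.tw (.c 0 (.b 124) (.b 200)))))))) (.s13 (.tw (.c 0 (.b 136) (.b 44))))))))))))),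
  (.c 0 (.tw (.c 0 (.b 348) (.s13 (.tw (.s12 (.s13 (.c 0 (.b 13) (.c 0 (.b 63) (.b 159))))))))) (.s13 (.tw (.c 0 (.s12 (.s13 (.tw (.c 0 (.b 13) (.s13 (.tw (.s12 (.s13 (.c 0 (.b 136) (.b 598)))))))))) (.tw (.s12 (.s13 (.tw (.c 0 (.s13 (.tw (.c 0 (.b 136) (.b 44)))) (.s13 (.tw (.s12 (.s13 (.c 0 (.s12 (.s13 (.tw (.c 0 (.b 44) (.b 1))))) (.s13 (.tw (.c 0 (.b 384) (.b 5)))))))))))))))))),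
  (.c 0 (.tw (.c 0 (.b 311) (.s13 (.tw (.s12 (.s13 (.c 0 (.b 23) (.b 21)))))))) (.tw (.c 0 (.s12 (.s13 (.tw (.c 0 (.b 13) (.s13 (.tw (.s12 (.s13 (.c 0 (.b 44) (.b 26)))))))))) (.tw (.s12 (.s13 (.tw (.c 0 (.s13 (.tw (.c 0 (.b 136) (.b 663)))) (.s13 (.tw (.s13 (.c 0 (.b 5) (.s13 (.tw (.c 0 (.b 384) (.b 5)))))))))))))))),
  (.c 0 (.tw (.c 0 (.b 13) (.s13 (.tw (.s12 (.s13 (.c 0 (.b 284) (.c 0 (.b 136) (.b 29))))))))) (.s13 (.c 0 (.tw (.c 0 (.s13 (.tw (.c 0 (.b 136) (.s13 (.tw (.s12 (.s13 (.c 0 (.b 14) (.b 239))))))))) (.s13 (.tw (.c 0 (.s13 (.tw (.s12 (.c 0 (.b 5) (.s13 (.tw (.c 0 (.b 384) (.b 5)))))))) (.s13 (.tw (.s12 (.c 0 (.b 381) (.b 44)))))))))) (.b 1)))),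
  (.c 0 (.tw (.c 0 (.b 13) (.s13 (.tw (.s12 (.s13 (.c 0 (.b 284) (.c 0 (.b 136) (.b 29))))))))) (.s13 (.tw (.c 0 (.s12 (.s13 (.tw (.c 0 (.b 13) (.s13 (.tw (.s12 (.s13 (.c 0 (.b 136) (.b 598)))))))))) (.tw (.s12 (.s13 (.tw (.c 0 (.s13 (.tw (.c 0 (.b 136) (.b 44)))) (.s13 (.tw (.s12 (.s13 (.c 0 (.s12 (.s13 (.tw (.c 0 (.b 44) (.b 1))))) (.s13 (.tw (.c 0 (.b 384) (.b 5)))))))))))))))))),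
  (.c 0 (.tw (.c 0 (.b 13) (.s13 (.tw (.s12 (.s13 (.c 0 (.b 13) (.c 0 (.b 14) (.s13 (.tw (.s12 (.s13 (.c 0 (.b 381) (.b 381)))))))))))))) (.s13 (.tw (.c 0 (.s13 (.tw (.c 0 (.b 136) (.s13 (.tw (.s12 (.s13 (.c 0 (.b 14) (.b 239))))))))) (.s13 (.tw (.c 0 (.s13 (.tw (.s12 (.c 0 (.b 5) (.s13 (.tw (.c 0 (.b 384) (.b 5)))))))) (.s13 (.tw (.s12 (.c 0 (.b 381) (.b 44)))))))))))),
  (.c 0 (.tw (.c 0 (.b 14) (.s13 (.tw (.s12 (.s13 (.c 0 (.b 13) (.s13 (.tw (.s12 (.s13 (.c 0 (.b 136) (.s13 (.tw (.s12 (.s13 (.c 0 (.b 63) (.b 369)))))))))))))))))) (.s12 (.s13 (.tw (.c 0 (.s13 (.tw (.c 0 (.b 13) (.s13 (.tw (.s12 (.s13 (.c 0 (.b 63) (.b 603))))))))) (.tw (.s13 (.tw (.c 0 (.s13 (.tw (.c 0 (.b 136) (.b 44)))) (.s13 (.tw (.s12 (.s13 (.c 0 (.b 5) (.c 0 (.b 5) (.b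 284)))))))))))))))),
  (.tw (.c 0 (.tw (.c 0 (.b 13) (.s13 (.tw (.s12 (.s13 (.c 0 (.b 57) (.s13 (.tw (.s12 (.s13 (.c 0 (.b 381) (.b 478))))))))))))) (.s13 (.tw (.c 0 (.s13 (.tw (.c 0 (.b 136) (.b 462)))) (.tw (.s13 (.tw (.c 0 (.s13 (.tw (.c 0 (.b 136) (.tw (.s12 (.s13 (.tw (.c 0 (.b 63) (.b 381))))))))) (.s13 (.tw (.c 0 (.s13 (.tw (.c 0 (.b 63) (.b 381)))) (.s13 (.tw (.c 0 (.b 5) (.b 124)))))))))))))))),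
  (.c 0 (.tw (.c 0 (.b 19) (.s13 (.tw (.s12 (.s13 (.c 0 (.b 538) (.s13 (.tw (.s12 (.s13 (.c 0 (.b 63) (.b 159))))))))))))) (.s13 (.tw (.c 0 (.s13 (.tw (.c 0 (.b 478) (.b 236)))) (.tw (.s13 (.tw (.c 0 (.s13 (.tw (.c 0 (.b 249) (.b 44)))) (.s13 (.tw (.c 0 (.b 5) (.s13 (.tw (.c 0 (.b 5) (.b 124))))))))))))))),
  (.tw (.c 0 (.tw (.c 0 (.b 13) (.s13 (.tw (.s12 (.s13 (.c 0 (.b 136) (.c 0 (.b 260) (.b 147))))))))) (.s13 (.tw (.c 0 (.s13 (.tw (.c 0 (.tw (.s13 (.tw (.c 0 (.b 136) (.b 247))))) (.b 14)))) (.tw (.s13 (.tw (.c 0 (.s13 (.tw (.c 0 (.b 136) (.b 536)))) (.s12 (.s13 (.tw (.c 0 (.s13 (.tw (.s12 (.c 0 (.b 239) (.b 1))))) (.s13 (.tw (.c 0 (.b 44) (.b 12))))))))))))))))),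
  (.tw (.c 0 (.tw (.c 0 (.b 13) (.s13 (.tw (.s12 (.s13 (.c 0 (.b 57) (.s13 (.tw (.s12 (.s13 (.c 0 (.b 381) (.b 478))))))))))))) (.s13 (.tw (.c 0 (.s13 (.tw (.c 0 (.b 136) (.b 462)))) (.tw (.s13 (.tw (.c 0 (.s13 (.tw (.c 0 (.b 136) (.tw (.s12 (.s13 (.tw (.c 0 (.b 63) (.b 381))))))))) (.tw (.s13 (.tw (.c 0 (.s13 (.tw (.s12 (.c 0 (.b 63) (.b 381))))) (.s13 (.tw (.s12 (.c 0 (.b 124) (.b 44)))))))))))))))))),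
  (.c 0 (.tw (.c 0 (.b 348) (.s13 (.tw (.s12 (.s13 (.c 0 (.b 23) (.b 21)))))))) (.s13 (.tw (.c 0 (.s12 (.s13 (.tw (.c 0 (.b 136) (.s13 (.tw (.s12 (.s13 (.c 0 (.b 13) (.b 546)))))))))) (.tw (.s12 (.s13 (.tw (.c 0 (.s13 (.tw (.c 0 (.b 136) (.b 44)))) (.tw (.s12 (.s13 (.tw (.c 0 (.s12 (.s13 (.tw (.c 0 (.b 44) (.b 1))))) (.s13 (.tw (.c 0 (.b 176) (.b 5)))))))))))))))))),
  (.c 0 (.tw (.c 0 (.b 348) (.s13 (.tw (.s12 (.s13 (.c 0 (.b 13) (.c 0 (.b 63) (.b 159))))))))) (.s13 (.tw (.c 0 (.s12 (.s13 (.tw (.c 0 (.b 136) (.s13 (.tw (.s12 (.s13 (.c 0 (.b 13) (.b 546)))))))))) (.tw (.s12 (.s13 (.tw (.c 0 (.s13 (.tw (.c 0 (.b 136) (.b 44)))) (.tw (.s12 (.s13 (.tw (.c 0 (.s12 (.s13 (.tw (.c 0 (.b 44) (.b 1))))) (.s13 (.tw (.c 0 (.b 176) (.b 5)))))))))))))))))),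
  (.tw (.c 0 (.s12 (.s13 (.tw (.s12 (.c 0 (.b 13) (.s13 (.tw (.s12 (.s13 (.c 0 (.b 136) (.s13 (.tw (.s12 (.s13 (.c 0 (.b 284) (.b 147)))))))))))))))) (.s13 (.tw (.s12 (.c 0 (.s13 (.tw (.c 0 (.tw (.s13 (.tw (.c 0 (.b 136) (.b 247))))) (.b 14)))) (.s12 (.s13 (.tw (.c 0 (.s13 (.tw (.c 0 (.b 136) (.b 44)))) (.tw (.s12 (.c 0 (.s13 (.tw (.c 0 (.b 44) (.b 12)))) (.s13 (.tw (.s12 (.c 0 (.b 13) (.b 239)))))))))))))))))),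
  (.c 0 (.tw (.c 0 (.b 13) (.s13 (.tw (.s12 (.s13 (.c 0 (.b 284) (.c 0 (.b 136) (.b 29))))))))) (.s13 (.c 0 (.tw (.c 0 (.s13 (.tw (.c 0 (.b 14) (.s13 (.tw (.s12 (.s13 (.c 0 (.b 381) (.b 351))))))))) (.tw (.s13 (.tw (.c 0 (.s13 (.tw (.c 0 (.b 136) (.b 44)))) (.tw (.s12 (.s13 (.tw (.c 0 (.b 5) (.s13 (.tw (.s12 (.s13 (.c 0 (.b 202) (.b 5))))))))))))))))) (.b 1)))),
  (.c 0 (.tw (.c 0 (.b 13) (.s13 (.tw (.s12 (.s13 (.c 0 (.b 284) (.c 0 (.b 136) (.b 29))))))))) (.s13 (.tw (.c 0 (.s12 (.s13 (.tw (.c 0 (.b 136) (.s13 (.tw (.s12 (.s13 (.c 0 (.b 13) (.b 546)))))))))) (.tw (.s12 (.s13 (.tw (.c 0 (.s13 (.tw (.c 0 (.b 136) (.b 44)))) (.tw (.s12 (.s13 (.tw (.c 0 (.s12 (.s13 (.tw (.c 0 (.b 44) (.b 1))))) (.s13 (.tw (.c 0 (.b 176) (.b 5)))))))))))))))))),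
  (.tw (.c 0 (.tw (.c 0 (.b 345) (.s13 (.tw (.s12 (.s13 (.c 0 (.b 502) (.s13 (.tw (.s12 (.s13 (.c 0 (.b 63) (.b 381))))))))))))) (.s13 (.tw (.c 0 (.tw (.s13 (.tw (.c 0 (.b 67) (.s13 (.tw (.s13 (.c 0 (.b 14) (.b 44))))))))) (.s13 (.tw (.s12 (.s13 (.c 0 (.tw (.c 0 (.b 136) (.b 136))) (.s13 (.tw (.c 0 (.s13 (.tw (.c 0 (.b 14) (.b 44)))) (.b 247)))))))))))))),
  (.tw (.c 0 (.tw (.c 0 (.tw (.s12 (.s13 (.tw (.c 0 (.b 63) (.b 159)))))) (.tw (.s12 (.s13 (.tw (.c 0 (.b 63) (.c 0 (.b 239) (.b 1))))))))) (.s13 (.tw (.c 0 (.s12 (.s13 (.tw (.s12 (.c 0 (.b 136) (.b 536)))))) (.tw (.s12 (.s13 (.tw (.c 0 (.s12 (.s13 (.tw (.s12 (.c 0 (.b 13) (.b 598)))))) (.s13 (.tw (.c 0 (.b 296) (.s13 (.tw (.c 0 (.b 5) (.b 5))))))))))))))))),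
  (.tw (.c 0 (.tw (.c 0 (.b 13) (.s13 (.tw (.s12 (.s13 (.c 0 (.b 57) (.s13 (.tw (.s12 (.s13 (.c 0 (.b 381) (.b 478))))))))))))) (.s13 (.tw (.c 0 (.s13 (.tw (.c 0 (.b 136) (.b 462)))) (.s13 (.c 0 (.tw (.c 0 (.b 693) (.tw (.s12 (.s13 (.tw (.c 0 (.b 124) (.b 44)))))))) (.s13 (.tw (.s13 (.c 0 (.b 70) (.b 45)))))))))))),
  (.c 0 (.tw (.c 0 (.b 348) (.s13 (.tw (.s12 (.s13 (.c 0 (.b 23) (.b 21)))))))) (.s13 (.tw (.c 0 (.s12 (.s13 (.tw (.c 0 (.b 13) (.s13 (.tw (.s12 (.s13 (.c 0 (.b 14) (.s13 (.tw (.s12 (.s13 (.c 0 (.b 381) (.b 136))))))))))))))) (.tw (.s12 (.s13 (.tw (.c 0 (.s13 (.tw (.c 0 (.b 136) (.b 44)))) (.s13 (.tw (.s12 (.s13 (.c 0 (.s12 (.s13 (.tw (.c 0 (.b 44) (.b 1))))) (.s13 (.tw (.c 0 (.b 384) (.b 5)))))))))))))))))),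
  (.tw (.c 0 (.tw (.c 0 (.b 13) (.s13 (.tw (.s12 (.s13 (.c 0 (.b 57) (.s13 (.tw (.s12 (.s13 (.c 0 (.b 381) (.b 478))))))))))))) (.tw (.s13 (.s12 (.c 0 (.s13 (.tw (.s12 (.c 0 (.b 136) (.s13 (.tw (.s12 (.s13 (.c 0 (.b 136) (.tw (.s12 (.s13 (.tw (.c 0 (.b 63) (.b 381))))))))))))))) (.s13 (.tw (.s12 (.c 0 (.tw (.s12 (.s13 (.tw (.c 0 (.b 82) (.b 239)))))) (.tw (.s12 (.s13 (.tw (.c 0 (.b 5) (.b 247)))))))))))))))),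
  (.c 0 (.tw (.c 0 (.b 348) (.s13 (.tw (.s12 (.s13 (.c 0 (.b 13) (.c 0 (.b 63) (.b 159))))))))) (.s13 (.tw (.c 0 (.s12 (.s13 (.tw (.c 0 (.b 13) (.s13 (.tw (.s12 (.s13 (.c 0 (.b 14) (.s13 (.tw (.s12 (.s13 (.c 0 (.b 381) (.b 136))))))))))))))) (.tw (.s12 (.s13 (.tw (.c 0 (.s13 (.tw (.c 0 (.b 136) (.b 44)))) (.s13 (.tw (.s12 (.s13 (.c 0 (.s12 (.s13 (.tw (.c 0 (.b 44) (.b 1))))) (.s13 (.tw (.c 0 (.b 384) (.b 5)))))))))))))))))),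
  (.c 0 (.tw (.c 0 (.b 13) (.s13 (.tw (.s12 (.s13 (.c 0 (.b 13) (.c 0 (.b 14) (.s13 (.tw (.s12 (.s13 (.c 0 (.b 381) (.b 381)))))))))))))) (.s13 (.tw (.c 0 (.s13 (.tw (.c 0 (.b 478) (.b 236)))) (.tw (.s13 (.tw (.c 0 (.s13 (.tw (.c 0 (.b 249) (.b 44)))) (.s13 (.tw (.c 0 (.b 5) (.s13 (.tw (.c 0 (.b 5) (.b 124))))))))))))))),
  (.c 0 (.tw (.c 0 (.b 13) (.s13 (.tw (.s12 (.s13 (.c 0 (.b 284) (.c 0 (.b 136) (.b 29))))))))) (.s13 (.c 0 (.tw (.c 0 (.s13 (.tw (.c 0 (.b 136) (.s13 (.tw (.s12 (.s13 (.c 0 (.b 63) (.b 400))))))))) (.s13 (.tw (.c 0 (.s13 (.tw (.s12 (.c 0 (.b 5) (.s13 (.tw (.c 0 (.b 384) (.b 5)))))))) (.s13 (.tw (.s12 (.c 0 (.b 381) (.b 44)))))))))) (.b 1)))),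
  (.c 0 (.tw (.c 0 (.b 13) (.s13 (.tw (.s12 (.s13 (.c 0 (.b 284) (.c 0 (.b 136) (.b 29))))))))) (.s13 (.tw (.c 0 (.s12 (.s13 (.tw (.c 0 (.b 13) (.s13 (.tw (.s12 (.s13 (.c 0 (.b 14) (.s13 (.tw (.s12 (.s13 (.c 0 (.b 381) (.b 136))))))))))))))) (.tw (.s12 (.s13 (.tw (.c 0 (.s13 (.tw (.c 0 (.b 136) (.b 44)))) (.s13 (.tw (.s12 (.s13 (.c 0 (.s12 (.s13 (.tw (.c 0 (.b 44) (.b 1))))) (.s13 (.tw (.c 0 (.b 384) (.b 5)))))))))))))))))),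
  (.c 0 (.tw (.c 0 (.b 13) (.s13 (.tw (.s12 (.s13 (.c 0 (.b 13) (.c 0 (.b 14) (.s13 (.tw (.s12 (.s13 (.c 0 (.b 381) (.b 381)))))))))))))) (.s13 (.tw (.c 0 (.s13 (.tw (.c 0 (.b 136) (.s13 (.tw (.s12 (.s13 (.c 0 (.b 63) (.b 400))))))))) (.s13 (.tw (.c 0 (.s13 (.tw (.s12 (.c 0 (.b 5) (.s13 (.tw (.c 0 (.b 384) (.b 5)))))))) (.s13 (.tw (.s12 (.c 0 (.b 381) (.b 44)))))))))))),
  (.tw (.c 0 (.tw (.c 0 (.tw (.s12 (.s13 (.tw (.c 0 (.b 63) (.b 159)))))) (.tw (.s12 (.s13 (.tw (.c 0 (.b 63) (.c 0 (.b 239) (.b 1))))))))) (.s13 (.tw (.c 0 (.s12 (.s13 (.tw (.c 0 (.b 136) (.s13 (.tw (.s12 (.s13 (.c 0 (.b 24) (.b 136)))))))))) (.tw (.s12 (.s13 (.tw (.c 0 (.tw (.c 0 (.b 136) (.b 136))) (.s12 (.s13 (.tw (.c 0 (.s13 (.tw (.c 0 (.b 24) (.b 136)))) (.s13 (.tw (.s12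 (.c 0 (.b 13) (.b 400))))))))))))))))))),
  (.tw (.c 0 (.s12 (.s13 (.tw (.s12 (.c 0 (.b 13) (.s13 (.tw (.s12 (.s13 (.c 0 (.b 136) (.s13 (.tw (.s12 (.s13 (.c 0 (.b 284) (.b 147)))))))))))))))) (.s13 (.tw (.s12 (.c 0 (.s13 (.tw (.c 0 (.b 14) (.s13 (.tw (.s12 (.s13 (.c 0 (.b 136) (.b 351))))))))) (.s12 (.s13 (.c 0 (.tw (.c 0 (.b 693) (.tw (.s12 (.s13 (.tw (.c 0 (.b 44) (.b 26)))))))) (.s13 (.tw (.s13 (.c 0 (.b 70) (.b 45)))))))))))))),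
  (.c 0 (.tw (.c 0 (.b 348) (.s13 (.tw (.s12 (.s13 (.c 0 (.b 23) (.b 21)))))))) (.s13 (.c 0 (.tw (.c 0 (.s13 (.tw (.c 0 (.b 14) (.s13 (.tw (.s12 (.s13 (.c 0 (.b 136) (.s13 (.tw (.s12 (.s13 (.c 0 (.b 44) (.b 12)))))))))))))) (.s13 (.tw (.c 0 (.s13 (.tw (.c 0 (.b 57) (.b 44)))) (.s13 (.tw (.s12 (.c 0 (.b 5) (.c 0 (.b 5) (.b 26))))))))))) (.b 1)))),
  (.c 0 (.tw (.c 0 (.b 348) (.s13 (.tw (.s12 (.s13 (.c 0 (.b 13) (.c 0 (.b 63) (.b 159))))))))) (.s13 (.c 0 (.tw (.c 0 (.s13 (.tw (.c 0 (.b 14) (.s13 (.tw (.s12 (.s13 (.c 0 (.b 136) (.s13 (.tw (.s12 (.s13 (.c 0 (.b 44) (.b 12)))))))))))))) (.s13 (.tw (.c 0 (.s13 (.tw (.c 0 (.b 57) (.b 44)))) (.s13 (.tw (.s12 (.c 0 (.b 5) (.c 0 (.b 5) (.b 26))))))))))) (.b 1)))),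
  (.c 0 (.tw (.c 0 (.b 19) (.s13 (.tw (.s12 (.s13 (.c 0 (.b 538) (.s13 (.tw (.s12 (.s13 (.c 0 (.b 63) (.b 159))))))))))))) (.s13 (.tw (.c 0 (.s13 (.tw (.c 0 (.b 14) (.s13 (.tw (.s12 (.s13 (.c 0 (.b 136) (.s13 (.tw (.s12 (.s13 (.c 0 (.b 44) (.b 12)))))))))))))) (.s13 (.tw (.c 0 (.s13 (.tw (.c 0 (.b 57) (.b 44)))) (.s13 (.tw (.s12 (.c 0 (.b 5) (.c 0 (.b 5) (.b 26))))))))))))),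
  (.c 0 (.tw (.c 0 (.b 13) (.s13 (.tw (.s12 (.s13 (.c 0 (.b 284) (.c 0 (.b 136) (.b 29))))))))) (.s13 (.c 0 (.tw (.c 0 (.s13 (.tw (.c 0 (.b 14) (.s13 (.tw (.s12 (.s13 (.c 0 (.b 136) (.s13 (.tw (.s12 (.s13 (.c 0 (.b 44) (.b 12)))))))))))))) (.s13 (.tw (.c 0 (.s13 (.tw (.c 0 (.b 57) (.b 44)))) (.s13 (.tw (.s12 (.c 0 (.b 5) (.c 0 (.b 5) (.b 26))))))))))) (.b 1)))),
  (.c 0 (.tw (.c 0 (.b 13) (.s13 (.tw (.s12 (.s13 (.c 0 (.b 13) (.c 0 (.b 14) (.s13 (.tw (.s12 (.s13 (.c 0 (.b 381) (.b 381)))))))))))))) (.s13 (.tw (.c 0 (.s13 (.tw (.c 0 (.b 14) (.s13 (.tw (.s12 (.s13 (.c 0 (.b 136) (.s13 (.tw (.s12 (.s13 (.c 0 (.b 44) (.b 12)))))))))))))) (.s13 (.tw (.c 0 (.s13 (.tw (.c 0 (.b 57) (.b 44)))) (.s13 (.tw (.s12 (.c 0 (.b 5) (.c 0 (.b 5) (.b 26))))))))))))),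
  (.tw (.c 0 (.tw (.c 0 (.b 189) (.tw (.s12 (.s13 (.tw (.c 0 (.b 13) (.c 0 (.b 136) (.b 207))))))))) (.s13 (.tw (.c 0 (.tw (.s13 (.c 0 (.b 70) (.b 45)))) (.s13 (.c 0 (.tw (.s13 (.tw (.s13 (.c 0 (.b 67) (.s13 (.tw (.s13 (.c 0 (.b 14) (.b 44)))))))))) (.tw (.s12 (.s13 (.s12 (.c 0 (.b 67) (.s13 (.tw (.s13 (.c 0 (.b 14) (.b 44))))))))))))))))),
  (.c 0 (.tw (.c 0 (.tw (.s13 (.tw (.c 0 (.b 478) (.b 16))))) (.b 422))) (.tw (.c 0 (.s12 (.s13 (.tw (.c 0 (.b 14) (.s13 (.tw (.s12 (.s13 (.c 0 (.b 136) (.s13 (.tw (.s12 (.s13 (.c 0 (.b 63) (.b 24))))))))))))))) (.s13 (.tw (.c 0 (.s13 (.tw (.c 0 (.b 136) (.b 44)))) (.s13 (.tw (.s13 (.c 0 (.b 5) (.s13 (.tw (.s13 (.c 0 (.b 5) (.b 465))))))))))))))),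
  (.c 0 (.tw (.c 0 (.b 348) (.s13 (.tw (.s12 (.s13 (.c 0 (.b 23) (.b 21)))))))) (.tw (.c 0 (.s12 (.s13 (.tw (.c 0 (.b 14) (.s13 (.tw (.s12 (.s13 (.c 0 (.b 136) (.s13 (.tw (.s12 (.s13 (.c 0 (.b 63) (.b 24))))))))))))))) (.s13 (.tw (.c 0 (.s13 (.tw (.c 0 (.b 136) (.b 44)))) (.s13 (.tw (.s13 (.c 0 (.b 5) (.s13 (.tw (.s13 (.c 0 (.b 5) (.b 465))))))))))))))),
  (.c 0 (.tw (.c 0 (.b 348) (.s13 (.tw (.s12 (.s13 (.c 0 (.b 13) (.c 0 (.b 63) (.b 159))))))))) (.tw (.c 0 (.s12 (.s13 (.tw (.c 0 (.b 14) (.s13 (.tw (.s12 (.s13 (.c 0 (.b 136) (.s13 (.tw (.s12 (.s13 (.c 0 (.b 63) (.b 24))))))))))))))) (.s13 (.tw (.c 0 (.s13 (.tw (.c 0 (.b 136) (.b 44)))) (.s13 (.tw (.s13 (.c 0 (.b 5) (.s13 (.tw (.s13 (.c 0 (.b 5) (.b 465))))))))))))))),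
  (.c 0 (.tw (.c 0 (.b 13) (.s13 (.tw (.s12 (.s13 (.c 0 (.b 284) (.c 0 (.b 136) (.b 29))))))))) (.tw (.c 0 (.s12 (.s13 (.tw (.c 0 (.b 14) (.s13 (.tw (.s12 (.s13 (.c 0 (.b 136) (.s13 (.tw (.s12 (.s13 (.c 0 (.b 63) (.b 24))))))))))))))) (.s13 (.tw (.c 0 (.s13 (.tw (.c 0 (.b 136) (.b 44)))) (.s13 (.tw (.s13 (.c 0 (.b 5) (.s13 (.tw (.s13 (.c 0 (.b 5) (.b 465))))))))))))))),
  (.tw (.c 0 (.tw (.c 0 (.b 345) (.s13 (.tw (.s12 (.s13 (.c 0 (.b 334) (.c 0 (.b 136) (.b 478))))))))) (.s13 (.tw (.c 0 (.s12 (.s13 (.tw (.c 0 (.b 14) (.c 0 (.b 136) (.b 136)))))) (.s13 (.tw (.s12 (.s13 (.c 0 (.s12 (.s13 (.tw (.c 0 (.b 136) (.b 41))))) (.tw (.s12 (.s13 (.tw (.c 0 (.b 348) (.s13 (.tw (.c 0 (.b 5) (.b 5))))))))))))))))))),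
  (.tw (.c 0 (.tw (.c 0 (.b 13) (.s13 (.tw (.s12 (.s13 (.c 0 (.b 13) (.c 0 (.b 136) (.s13 (.tw (.s12 (.s13 (.c 0 (.b 13) (.b 138)))))))))))))) (.s13 (.tw (.c 0 (.s13 (.tw (.c 0 (.tw (.s13 (.tw (.c 0 (.b 136) (.b 247))))) (.b 14)))) (.tw (.s13 (.tw (.c 0 (.s13 (.tw (.c 0 (.b 136) (.b 536)))) (.tw (.s12 (.s13 (.tw (.c 0 (.b 208) (.s13 (.tw (.c 0 (.b 5) (.b 381)))))))))))))))))),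
  (.c 0 (.tw (.c 0 (.b 348) (.s13 (.tw (.s12 (.s13 (.c 0 (.b 23) (.b 21)))))))) (.s13 (.tw (.c 0 (.s12 (.s13 (.tw (.c 0 (.b 136) (.s13 (.tw (.s12 (.s13 (.c 0 (.b 284) (.b 147)))))))))) (.tw (.s12 (.s13 (.tw (.c 0 (.s13 (.tw (.c 0 (.b 136) (.b 44)))) (.s13 (.tw (.c 0 (.tw (.c 0 (.b 63) (.b 136))) (.s13 (.tw (.c 0 (.b 384) (.b 5)))))))))))))))),
  (.c 0 (.tw (.c 0 (.b 348) (.s13 (.tw (.s12 (.s13 (.c 0 (.b 13) (.c 0 (.b 63) (.b 159))))))))) (.s13 (.tw (.c 0 (.s12 (.s13 (.tw (.c 0 (.b 136) (.s13 (.tw (.s12 (.s13 (.c 0 (.b 284) (.b 147)))))))))) (.tw (.s12 (.s13 (.tw (.c 0 (.s13 (.tw (.c 0 (.b 136) (.b 44)))) (.s13 (.tw (.c 0 (.tw (.c 0 (.b 63) (.b 136))) (.s13 (.tw (.c 0 (.b 384) (.b 5)))))))))))))))),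
  (.tw (.c 0 (.tw (.c 0 (.b 14) (.s13 (.tw (.s12 (.s13 (.c 0 (.b 478) (.s13 (.tw (.s12 (.s13 (.c 0 (.b 136) (.s13 (.tw (.s12 (.s13 (.c 0 (.b 63) (.b 381)))))))))))))))))) (.s13 (.tw (.c 0 (.s12 (.s13 (.tw (.c 0 (.b 14) (.c 0 (.b 136) (.b 136)))))) (.s12 (.s13 (.tw (.s12 (.c 0 (.tw (.c 0 (.b 284) (.s13 (.tw (.s12 (.s13 (.c 0 (.b 63) (.b 44)))))))) (.tw (.c 0 (.b 136) (.tw (.s12 (.s13 (.tw (.c 0 (.b 180) (.b 12)))))))))))))))))),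
  (.tw (.c 0 (.tw (.c 0 (.b 478) (.s13 (.tw (.s12 (.s13 (.c 0 (.b 381) (.c 0 (.b 136) (.b 136))))))))) (.s13 (.tw (.c 0 (.tw (.s12 (.s13 (.tw (.c 0 (.b 13) (.s13 (.tw (.s13 (.s12 (.c 0 (.b 381) (.b 381))))))))))) (.s12 (.s13 (.tw (.s12 (.c 0 (.s12 (.s13 (.tw (.s12 (.c 0 (.b 136) (.s13 (.tw (.s12 (.s13 (.c 0 (.b 24) (.b 136))))))))))) (.tw (.s12 (.s13 (.s12 (.c 0 (.s13 (.tw (.s13 (.s12 (.c 0 (.b 58) (.b 44)))))) (.b 67)))))))))))))))),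
  (.tw (.c 0 (.tw (.c 0 (.b 13) (.s13 (.tw (.s12 (.s13 (.c 0 (.b 13) (.c 0 (.b 136) (.s13 (.tw (.s12 (.s13 (.c 0 (.b 13) (.b 138)))))))))))))) (.s13 (.tw (.c 0 (.s13 (.tw (.c 0 (.tw (.s13 (.tw (.c 0 (.b 136) (.b 247))))) (.b 14)))) (.tw (.s13 (.tw (.c 0 (.s13 (.tw (.c 0 (.b 136) (.s13 (.tw (.s12 (.s13 (.c 0 (.b 44) (.b 1))))))))) (.s13 (.tw (.c 0 (.b 143) (.s13 (.tw (.c 0 (.b 124) (.b 124)))))))))))))))),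
  (.c 0 (.tw (.c 0 (.b 348) (.s13 (.tw (.s12 (.s13 (.c 0 (.b 23) (.b 21)))))))) (.s13 (.tw (.c 0 (.s12 (.s13 (.tw (.c 0 (.b 13) (.s13 (.tw (.s12 (.s13 (.c 0 (.b 136) (.b 581)))))))))) (.tw (.s12 (.s13 (.tw (.c 0 (.s13 (.tw (.c 0 (.b 136) (.b 44)))) (.s13 (.tw (.s12 (.s13 (.c 0 (.s12 (.s13 (.tw (.c 0 (.b 44) (.b 1))))) (.s13 (.tw (.c 0 (.b 384) (.b 5)))))))))))))))))),
  (.tw (.c 0 (.tw (.c 0 (.b 13) (.s13 (.tw (.s12 (.s13 (.c 0 (.b 13) (.c 0 (.b 136) (.s13 (.tw (.s12 (.s13 (.c 0 (.b 13) (.b 138)))))))))))))) (.s13 (.tw (.c 0 (.s13 (.tw (.c 0 (.tw (.s13 (.tw (.c 0 (.b 136) (.b 247))))) (.b 14)))) (.tw (.s13 (.tw (.c 0 (.s13 (.tw (.c 0 (.b 136) (.b 536)))) (.s12 (.s13 (.tw (.c 0 (.s13 (.tw (.s12 (.c 0 (.b 239) (.b 1))))) (.s13 (.tw (.c 0 (.b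 44) (.b 12))))))))))))))))),
  (.c 0 (.tw (.c 0 (.b 13) (.s13 (.tw (.s12 (.s13 (.c 0 (.b 284) (.c 0 (.b 136) (.b 29))))))))) (.s13 (.c 0 (.tw (.c 0 (.s13 (.tw (.c 0 (.b 136) (.s13 (.tw (.s12 (.s13 (.c 0 (.b 13) (.b 138))))))))) (.tw (.s13 (.tw (.c 0 (.s13 (.tw (.c 0 (.b 136) (.b 44)))) (.tw (.s12 (.s13 (.tw (.c 0 (.b 5) (.s13 (.tw (.s12 (.s13 (.c 0 (.b 202) (.b 5))))))))))))))))) (.b 1)))),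
  (.c 0 (.tw (.c 0 (.b 13) (.s13 (.tw (.s12 (.s13 (.c 0 (.b 284) (.c 0 (.b 136) (.b 29))))))))) (.s13 (.tw (.c 0 (.s12 (.s13 (.tw (.c 0 (.b 136) (.s13 (.tw (.s12 (.s13 (.c 0 (.b 284) (.b 147)))))))))) (.tw (.s12 (.s13 (.tw (.c 0 (.s13 (.tw (.c 0 (.b 136) (.b 44)))) (.s13 (.tw (.c 0 (.tw (.c 0 (.b 63) (.b 136))) (.s13 (.tw (.c 0 (.b 384) (.b 5)))))))))))))))),
  (.c 0 (.tw (.c 0 (.b 13) (.s13 (.tw (.s12 (.s13 (.c 0 (.b 284) (.c 0 (.b 136) (.b 29))))))))) (.s13 (.c 0 (.tw (.c 0 (.s13 (.tw (.c 0 (.b 136) (.s13 (.tw (.s12 (.s13 (.c 0 (.b 63) (.b 501))))))))) (.s13 (.tw (.c 0 (.s13 (.tw (.s12 (.c 0 (.b 5) (.s13 (.tw (.c 0 (.b 384) (.b 5)))))))) (.s13 (.tw (.s12 (.c 0 (.b 381) (.b 44)))))))))) (.b 1)))),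
  (.c 0 (.tw (.c 0 (.b 13) (.s13 (.tw (.s12 (.s13 (.c 0 (.b 284) (.c 0 (.b 136) (.b 29))))))))) (.s13 (.tw (.c 0 (.s12 (.s13 (.tw (.c 0 (.b 13) (.s13 (.tw (.s12 (.s13 (.c 0 (.b 136) (.b 581)))))))))) (.tw (.s12 (.s13 (.tw (.c 0 (.s13 (.tw (.c 0 (.b 136) (.b 44)))) (.s13 (.tw (.s12 (.s13 (.c 0 (.s12 (.s13 (.tw (.c 0 (.b 44) (.b 1))))) (.s13 (.tw (.c 0 (.b 384) (.b 5)))))))))))))))))),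
  (.tw (.c 0 (.tw (.c 0 (.b 478) (.s13 (.tw (.s12 (.s13 (.c 0 (.b 381) (.c 0 (.b 136) (.b 136))))))))) (.s13 (.tw (.c 0 (.s12 (.s13 (.tw (.s12 (.c 0 (.b 136) (.b 536)))))) (.s13 (.tw (.s12 (.s13 (.c 0 (.tw (.s12 (.c 0 (.b 13) (.b 462)))) (.s13 (.tw (.c 0 (.b 345) (.s13 (.tw (.c 0 (.b 5) (.b 5))))))))))))))))),
  (.tw (.c 0 (.tw (.c 0 (.b 14) (.s13 (.tw (.s12 (.s13 (.c 0 (.b 14) (.c 0 (.b 304) (.s13 (.tw (.s12 (.s13 (.c 0 (.b 63) (.b 369)))))))))))))) (.s13 (.tw (.c 0 (.s12 (.s13 (.tw (.c 0 (.b 14) (.c 0 (.b 136) (.b 136)))))) (.s13 (.tw (.s12 (.s13 (.c 0 (.s13 (.tw (.c 0 (.b 136) (.b 462)))) (.tw (.s13 (.tw (.c 0 (.s13 (.tw (.c 0 (.b 44) (.b 12)))) (.s13 (.tw (.s12 (.c 0 (.b 63) (.b 200))))))))))))))))))),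
  (.c 0 (.tw (.c 0 (.b 348) (.s13 (.tw (.s12 (.s13 (.c 0 (.b 23) (.b 21)))))))) (.c 0 (.tw (.c 0 (.s12 (.s13 (.tw (.c 0 (.b 58) (.s13 (.tw (.s12 (.s13 (.c 0 (.b 136) (.b 44)))))))))) (.tw (.s13 (.tw (.c 0 (.s13 (.tw (.c 0 (.b 63) (.b 44)))) (.s13 (.tw (.s12 (.s13 (.c 0 (.b 5) (.c 0 (.b 5) (.b 284))))))))))))) (.b 1))),
  (.c 0 (.tw (.c 0 (.b 348) (.s13 (.tw (.s12 (.s13 (.c 0 (.b 13) (.c 0 (.b 63) (.b 159))))))))) (.c 0 (.tw (.c 0 (.s12 (.s13 (.tw (.c 0 (.b 58) (.s13 (.tw (.s12 (.s13 (.c 0 (.b 136) (.b 44)))))))))) (.tw (.s13 (.tw (.c 0 (.s13 (.tw (.c 0 (.b 63) (.b 44)))) (.s13 (.tw (.s12 (.s13 (.c 0 (.b 5) (.c 0 (.b 5) (.b 284))))))))))))) (.b 1))),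
  (.c 0 (.tw (.c 0 (.b 19) (.s13 (.tw (.s12 (.s13 (.c 0 (.b 538) (.s13 (.tw (.s12 (.s13 (.c 0 (.b 63) (.b 159))))))))))))) (.tw (.c 0 (.s12 (.s13 (.tw (.c 0 (.b 58) (.s13 (.tw (.s12 (.s13 (.c 0 (.b 136) (.b 44)))))))))) (.tw (.s13 (.tw (.c 0 (.s13 (.tw (.c 0 (.b 63) (.b 44)))) (.s13 (.tw (.s12 (.s13 (.c 0 (.b 5) (.c 0 (.b 5) (.b 284)))))))))))))),
  (.c 0 (.tw (.c 0 (.b 13) (.s13 (.tw (.s12 (.s13 (.c 0 (.b 284) (.c 0 (.b 136) (.b 29))))))))) (.c 0 (.tw (.c 0 (.s12 (.s13 (.tw (.c 0 (.b 58) (.s13 (.tw (.s12 (.s13 (.c 0 (.b 136) (.b 44)))))))))) (.tw (.s13 (.tw (.c 0 (.s13 (.tw (.c 0 (.b 63) (.b 44)))) (.s13 (.tw (.s12 (.s13 (.c 0 (.b 5) (.c 0 (.b 5) (.b 284))))))))))))) (.b 1))),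
  (.c 0 (.tw (.c 0 (.b 13) (.s13 (.tw (.s12 (.s13 (.c 0 (.b 13) (.c 0 (.b 14) (.s13 (.tw (.s12 (.s13 (.c 0 (.b 381) (.b 381)))))))))))))) (.tw (.c 0 (.s12 (.s13 (.tw (.c 0 (.b 58) (.s13 (.tw (.s12 (.s13 (.c 0 (.b 136) (.b 44)))))))))) (.tw (.s13 (.tw (.c 0 (.s13 (.tw (.c 0 (.b 63) (.b 44)))) (.s13 (.tw (.s12 (.s13 (.c 0 (.b 5) (.c 0 (.b 5) (.b 284)))))))))))))),
  (.tw (.c 0 (.tw (.c 0 (.b 14) (.s13 (.tw (.s12 (.s13 (.c 0 (.b 14) (.c 0 (.b 304) (.s13 (.tw (.s12 (.s13 (.c 0 (.b 63) (.b 369)))))))))))))) (.s13 (.tw (.c 0 (.s13 (.tw (.c 0 (.b 136) (.tw (.s12 (.s13 (.tw (.c 0 (.b 63) (.b 381))))))))) (.s13 (.s12 (.c 0 (.s13 (.tw (.s12 (.c 0 (.b 693) (.s13 (.tw (.c 0 (.b 24) (.b 26)))))))) (.s13 (.tw (.s13 (.s12 (.c 0 (.b 67) (.s13 (.tw (.s13 (.c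 0 (.b 14) (.b 44)))))))))))))))))),
  (.c 0 (.tw (.c 0 (.tw (.s13 (.tw (.c 0 (.b 478) (.b 16))))) (.b 422))) (.tw (.c 0 (.s12 (.s13 (.tw (.c 0 (.b 164) (.s13 (.tw (.s12 (.s13 (.c 0 (.b 63) (.b 44)))))))))) (.s13 (.tw (.c 0 (.s13 (.tw (.c 0 (.b 136) (.b 44)))) (.s13 (.tw (.s13 (.c 0 (.b 5) (.s13 (.tw (.s13 (.c 0 (.b 5) (.b 465))))))))))))))),
  (.c 0 (.tw (.c 0 (.b 348) (.s13 (.tw (.s12 (.s13 (.c 0 (.b 23) (.b 21)))))))) (.tw (.c 0 (.s12 (.s13 (.tw (.c 0 (.b 164) (.s13 (.tw (.s12 (.s13 (.c 0 (.b 63) (.b 44)))))))))) (.s13 (.tw (.c 0 (.s13 (.tw (.c 0 (.b 136) (.b 44)))) (.s13 (.tw (.s13 (.c 0 (.b 5) (.s13 (.tw (.s13 (.c 0 (.b 5) (.b 465))))))))))))))),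
  (.c 0 (.tw (.c 0 (.b 348) (.s13 (.tw (.s12 (.s13 (.c 0 (.b 13) (.c 0 (.b 63) (.b 159))))))))) (.tw (.c 0 (.s12 (.s13 (.tw (.c 0 (.b 164) (.s13 (.tw (.s12 (.s13 (.c 0 (.b 63) (.b 44)))))))))) (.s13 (.tw (.c 0 (.s13 (.tw (.c 0 (.b 136) (.b 44)))) (.s13 (.tw (.s13 (.c 0 (.b 5) (.s13 (.tw (.s13 (.c 0 (.b 5) (.b 465))))))))))))))),
  (.c 0 (.tw (.c 0 (.b 13) (.s13 (.tw (.s12 (.s13 (.c 0 (.b 284) (.c 0 (.b 136) (.b 29))))))))) (.tw (.c 0 (.s12 (.s13 (.tw (.c 0 (.b 164) (.s13 (.tw (.s12 (.s13 (.c 0 (.b 63) (.b 44)))))))))) (.s13 (.tw (.c 0 (.s13 (.tw (.c 0 (.b 136) (.b 44)))) (.s13 (.tw (.s13 (.c 0 (.b 5) (.s13 (.tw (.s13 (.c 0 (.b 5) (.b 465))))))))))))))),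
  (.c 0 (.tw (.c 0 (.b 14) (.s13 (.tw (.s12 (.s13 (.c 0 (.b 14) (.c 0 (.b 304) (.tw (.s12 (.s13 (.tw (.c 0 (.b 63) (.b 381)))))))))))))) (.s13 (.tw (.c 0 (.s12 (.s13 (.tw (.c 0 (.b 567) (.b 111))))) (.tw (.s12 (.s13 (.tw (.c 0 (.tw (.s12 (.s13 (.tw (.c 0 (.b 5) (.s13 (.tw (.c 0 (.b 5) (.b 124))))))))) (.s13 (.tw (.c 0 (.b 63) (.b 44))))))))))))),
  (.c 0 (.tw (.c 0 (.b 14) (.s13 (.tw (.s12 (.s13 (.c 0 (.b 14) (.c 0 (.b 304) (.tw (.s12 (.s13 (.tw (.c 0 (.b 63) (.b 381)))))))))))))) (.s13 (.tw (.c 0 (.s12 (.s13 (.tw (.c 0 (.b 136) (.s13 (.tw (.s13 (.c 0 (.b 1) (.b 21))))))))) (.tw (.s12 (.s13 (.tw (.c 0 (.tw (.s12 (.s13 (.tw (.c 0 (.b 5) (.s13 (.tw (.c 0 (.b 5) (.b 124))))))))) (.s13 (.tw (.c 0 (.b 63) (.b 44))))))))))))),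
  (.c 0 (.tw (.c 0 (.b 14) (.s13 (.tw (.s12 (.s13 (.c 0 (.b 14) (.c 0 (.b 304) (.tw (.s12 (.s13 (.tw (.c 0 (.b 63) (.b 381)))))))))))))) (.tw (.c 0 (.s12 (.s13 (.tw (.c 0 (.b 444) (.s13 (.tw (.s12 (.s13 (.c 0 (.b 44) (.b 26)))))))))) (.s13 (.tw (.c 0 (.s13 (.tw (.c 0 (.b 63) (.b 44)))) (.s13 (.tw (.c 0 (.b 5) (.c 0 (.b 5) (.b 1))))))))))),
  (.c 0 (.tw (.c 0 (.b 136) (.s13 (.tw (.s12 (.s13 (.c 0 (.b 136) (.c 0 (.b 136) (.b 249))))))))) (.c 0 (.tw (.c 0 (.tw (.s13 (.tw (.c 0 (.tw (.s12 (.s13 (.tw (.c 0 (.b 14) (.b 405)))))) (.s13 (.tw (.c 0 (.b 24) (.b 24)))))))) (.s13 (.tw (.c 0 (.s13 (.tw (.c 0 (.b 24) (.b 24)))) (.s13 (.tw (.s13 (.c 0 (.b 24) (.b 195)))))))))) (.b 12))),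
  (.c 0 (.tw (.c 0 (.b 136) (.s13 (.tw (.s12 (.s13 (.c 0 (.b 136) (.c 0 (.b 136) (.b 249))))))))) (.tw (.c 0 (.s12 (.s13 (.tw (.c 0 (.s13 (.tw (.s12 (.s13 (.c 0 (.b 346) (.b 26)))))) (.b 284))))) (.tw (.s12 (.s13 (.tw (.c 0 (.s13 (.tw (.c 0 (.b 63) (.b 44)))) (.s13 (.tw (.s12 (.s13 (.c 0 (.b 264) (.s13 (.tw (.c 0 (.b 44) (.b 1))))))))))))))))),
  (.tw (.c 0 (.tw (.c 0 (.b 13) (.s13 (.tw (.s12 (.s13 (.c 0 (.b 284) (.c 0 (.b 136) (.b 29))))))))) (.s13 (.tw (.c 0 (.tw (.s12 (.c 0 (.b 63) (.b 239)))) (.tw (.s12 (.s13 (.tw (.c 0 (.s13 (.tw (.c 0 (.b 136) (.b 44)))) (.tw (.s12 (.s13 (.tw (.c 0 (.tw (.s13 (.tw (.c 0 (.b 58) (.b 247))))) (.s13 (.tw (.c 0 (.b 82) (.b 5))))))))))))))))))),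
  (.tw (.c 0 (.tw (.c 0 (.b 13) (.s13 (.tw (.s12 (.s13 (.c 0 (.b 13) (.c 0 (.b 14) (.s13 (.tw (.s12 (.s13 (.c 0 (.b 381) (.b 381)))))))))))))) (.s13 (.tw (.c 0 (.tw (.c 0 (.b 63) (.b 44))) (.tw (.s13 (.tw (.c 0 (.s13 (.tw (.c 0 (.b 136) (.b 44)))) (.tw (.s12 (.s13 (.tw (.c 0 (.b 5) (.s13 (.tw (.s12 (.s13 (.c 0 (.b 348) (.s13 (.tw (.s12 (.s13 (.c 0 (.b 5) (.b 63))))))))))))))))))))))))),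
  (.tw (.c 0 (.tw (.c 0 (.b 311) (.s13 (.tw (.s12 (.s13 (.c 0 (.b 23) (.b 21)))))))) (.s13 (.tw (.c 0 (.s12 (.s13 (.tw (.c 0 (.b 13) (.s13 (.tw (.s12 (.s13 (.c 0 (.b 13) (.b 546)))))))))) (.tw (.s12 (.s13 (.tw (.c 0 (.tw (.s12 (.s13 (.tw (.c 0 (.s12 (.s13 (.tw (.c 0 (.b 63) (.b 24))))) (.s13 (.tw (.c 0 (.b 5) (.b 5))))))))) (.s13 (.tw (.c 0 (.b 44) (.b 26)))))))))))))),
  (.tw (.c 0 (.tw (.c 0 (.b 284) (.s13 (.tw (.s12 (.s13 (.c 0 (.b 63) (.b 93)))))))) (.s13 (.tw (.c 0 (.tw (.s12 (.s13 (.s12 (.c 0 (.b 15) (.b 526)))))) (.tw (.s12 (.s13 (.tw (.c 0 (.s13 (.tw (.c 0 (.b 136) (.s13 (.tw (.s12 (.s13 (.c 0 (.b 44) (.b 1))))))))) (.s13 (.tw (.c 0 (.tw (.c 0 (.b 63) (.b 136))) (.s13 (.tw (.c 0 (.b 5) (.b 5))))))))))))))))),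
  (.c 0 (.tw (.c 0 (.b 13) (.s13 (.tw (.s12 (.s13 (.c 0 (.b 284) (.c 0 (.b 136) (.b 29))))))))) (.s13 (.c 0 (.tw (.c 0 (.tw (.s13 (.tw (.c 0 (.b 13) (.b 478))))) (.tw (.s13 (.tw (.c 0 (.b 273) (.s13 (.tw (.s12 (.s13 (.c 0 (.b 136) (.c 0 (.b 136) (.b 136))))))))))))) (.tw (.c 0 (.b 460) (.s13 (.tw (.s12 (.s13 (.c 0 (.b 136) (.b 351))))))))))),
  (.tw (.c 0 (.tw (.c 0 (.b 284) (.s13 (.tw (.s12 (.s13 (.c 0 (.b 63) (.b 93)))))))) (.s13 (.tw (.c 0 (.s12 (.s13 (.tw (.c 0 (.b 279) (.s13 (.tw (.c 0 (.b 384) (.b 465)))))))) (.tw (.s12 (.s13 (.tw (.c 0 (.s13 (.tw (.c 0 (.b 136) (.b 44)))) (.s13 (.tw (.c 0 (.b 387) (.s13 (.tw (.c 0 (.b 384) (.b 5))))))))))))))))),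
  (.c 0 (.tw (.c 0 (.b 19) (.s13 (.tw (.s12 (.s13 (.c 0 (.b 538) (.s13 (.tw (.s12 (.s13 (.c 0 (.b 63) (.b 159))))))))))))) (.s13 (.tw (.c 0 (.s13 (.tw (.c 0 (.s13 (.tw (.s12 (.c 0 (.b 239) (.b 1))))) (.tw (.s12 (.s13 (.tw (.c 0 (.b 5) (.b 239))))))))) (.s12 (.s13 (.tw (.c 0 (.s13 (.tw (.s12 (.c 0 (.b 239) (.b 1))))) (.tw (.s12 (.s13 (.tw (.c 0 (.b 5) (.b 239)))))))))))))),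
  (.c 0 (.tw (.c 0 (.b 13) (.s13 (.tw (.s12 (.s13 (.c 0 (.b 284) (.c 0 (.b 136) (.b 29))))))))) (.s13 (.c 0 (.tw (.c 0 (.s13 (.tw (.c 0 (.s13 (.tw (.s12 (.c 0 (.b 239) (.b 1))))) (.tw (.s12 (.s13 (.tw (.c 0 (.b 5) (.b 239))))))))) (.s12 (.s13 (.tw (.c 0 (.s13 (.tw (.s12 (.c 0 (.b 239) (.b 1))))) (.tw (.s12 (.s13 (.tw (.c 0 (.b 5) (.b 239)))))))))))) (.b 1)))),
  (.c 0 (.tw (.c 0 (.b 13) (.s13 (.tw (.s12 (.s13 (.c 0 (.b 13) (.c 0 (.b 14) (.s13 (.tw (.s12 (.s13 (.c 0 (.b 381) (.b 381)))))))))))))) (.s13 (.tw (.c 0 (.s13 (.tw (.c 0 (.s13 (.tw (.s12 (.c 0 (.b 239) (.b 1))))) (.tw (.s12 (.s13 (.tw (.c 0 (.b 5) (.b 239))))))))) (.s12 (.s13 (.tw (.c 0 (.s13 (.tw (.s12 (.c 0 (.b 239) (.b 1))))) (.tw (.s12 (.s13 (.tw (.c 0 (.b 5) (.b 239)))))))))))))),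
  (.tw (.c 0 (.tw (.c 0 (.b 13) (.s13 (.tw (.s12 (.s13 (.c 0 (.b 284) (.c 0 (.b 136) (.b 29))))))))) (.s13 (.c 0 (.s13 (.tw (.c 0 (.tw (.s13 (.tw (.c 0 (.b 13) (.b 137))))) (.tw (.s12 (.s13 (.tw (.c 0 (.b 666) (.s13 (.tw (.s12 (.s13 (.c 0 (.b 136) (.c 0 (.b 136) (.b 136))))))))))))))) (.tw (.c 0 (.b 63) (.c 0 (.b 136) (.b 44)))))))),
  (.tw (.c 0 (.tw (.c 0 (.b 13) (.s13 (.tw (.s12 (.s13 (.c 0 (.b 284) (.c 0 (.b 136) (.b 29))))))))) (.s13 (.tw (.c 0 (.s12 (.s13 (.tw (.s12 (.c 0 (.b 136) (.b 147)))))) (.s12 (.s13 (.c 0 (.s13 (.tw (.s13 (.c 0 (.tw (.c 0 (.b 26) (.b 137))) (.b 5))))) (.s12 (.s13 (.tw (.s12 (.c 0 (.b 284) (.s13 (.tw (.s13 (.c 0 (.b 67) (.s13 (.tw (.s13 (.c 0 (.b 14) (.b 44)))))))))))))))))))))),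
  (.tw (.c 0 (.tw (.c 0 (.b 284) (.s13 (.tw (.s12 (.s13 (.c 0 (.b 63) (.b 93)))))))) (.s13 (.tw (.c 0 (.s13 (.tw (.s12 (.c 0 (.b 615) (.b 273))))) (.tw (.s12 (.s13 (.tw (.c 0 (.s13 (.tw (.c 0 (.b 136) (.b 44)))) (.s13 (.tw (.c 0 (.s13 (.tw (.c 0 (.b 57) (.b 136)))) (.s13 (.tw (.c 0 (.b 5) (.b 5))))))))))))))))),
  (.c 0 (.tw (.c 0 (.b 13) (.s13 (.tw (.s12 (.s13 (.c 0 (.b 284) (.c 0 (.b 136) (.b 29))))))))) (.s13 (.c 0 (.tw (.c 0 (.tw (.s13 (.tw (.c 0 (.b 13) (.b 478))))) (.tw (.s13 (.tw (.c 0 (.b 273) (.s13 (.tw (.s12 (.s13 (.c 0 (.b 136) (.c 0 (.b 136) (.b 136))))))))))))) (.tw (.c 0 (.b 718) (.c 0 (.b 136) (.b 136))))))),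
  (.tw (.c 0 (.tw (.c 0 (.b 13) (.s13 (.tw (.s12 (.s13 (.c 0 (.b 284) (.c 0 (.b 136) (.b 29))))))))) (.s13 (.tw (.c 0 (.s12 (.s13 (.tw (.c 0 (.b 13) (.s13 (.tw (.s12 (.s13 (.c 0 (.b 13) (.b 546)))))))))) (.tw (.s12 (.s13 (.tw (.c 0 (.s13 (.tw (.c 0 (.b 304) (.b 44)))) (.tw (.s13 (.c 0 (.tw (.c 0 (.b 63) (.b 41))) (.s12 (.s13 (.tw (.c 0 (.b 136) (.c 0 (.b 136) (.b 136))))))))))))))))))),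
  (.tw (.c 0 (.tw (.c 0 (.b 284) (.s13 (.tw (.s12 (.s13 (.c 0 (.b 63) (.b 93)))))))) (.s13 (.tw (.c 0 (.s13 (.tw (.s12 (.c 0 (.b 164) (.b 273))))) (.tw (.s12 (.s13 (.tw (.c 0 (.s13 (.tw (.s12 (.c 0 (.b 136) (.b 405))))) (.s13 (.tw (.c 0 (.s13 (.tw (.c 0 (.b 14) (.b 180)))) (.s13 (.tw (.c 0 (.b 5) (.b 5))))))))))))))))),
  (.c 0 (.tw (.c 0 (.b 13) (.s13 (.tw (.s12 (.s13 (.c 0 (.b 284) (.c 0 (.b 136) (.b 29))))))))) (.s13 (.tw (.c 0 (.s12 (.s13 (.tw (.s12 (.c 0 (.b 136) (.b 147)))))) (.tw (.s12 (.s13 (.tw (.c 0 (.tw (.s13 (.c 0 (.tw (.c 0 (.b 63) (.b 41))) (.s12 (.s13 (.tw (.c 0 (.b 136) (.c 0 (.b 136) (.b 136))))))))) (.tw (.s12 (.s13 (.tw (.c 0 (.b 67) (.s13 (.tw (.s13 (.c 0 (.b 14) (.b 44))))))))))))))))))),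
  (.c 0 (.tw (.c 0 (.b 13) (.s13 (.tw (.s12 (.s13 (.c 0 (.b 284) (.c 0 (.b 136) (.b 29))))))))) (.s13 (.c 0 (.tw (.c 0 (.b 718) (.tw (.s13 (.tw (.c 0 (.s13 (.tw (.c 0 (.b 12) (.b 172)))) (.s13 (.tw (.s12 (.s13 (.c 0 (.b 136) (.c 0 (.b 136) (.b 136))))))))))))) (.tw (.c 0 (.b 460) (.s13 (.tw (.s12 (.s13 (.c 0 (.b 136) (.b 351))))))))))),
  (.tw (.c 0 (.tw (.c 0 (.b 13) (.s13 (.tw (.s12 (.s13 (.c 0 (.b 136) (.c 0 (.b 1) (.s13 (.tw (.s13 (.c 0 (.b 1) (.b 21))))))))))))) (.tw (.s13 (.s12 (.c 0 (.s13 (.tw (.s12 (.c 0 (.b 337) (.s13 (.tw (.s12 (.s13 (.c 0 (.b 136) (.b 44)))))))))) (.s13 (.tw (.s12 (.c 0 (.tw (.s12 (.s13 (.tw (.c 0 (.b 202) (.b 247)))))) (.tw (.s12 (.s13 (.tw (.c 0 (.b 5) (.b 239)))))))))))))))),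
  (.tw (.c 0 (.tw (.c 0 (.b 284) (.s13 (.tw (.s12 (.s13 (.c 0 (.b 63) (.b 93)))))))) (.s13 (.tw (.c 0 (.s12 (.s13 (.tw (.c 0 (.b 304) (.s13 (.tw (.s12 (.s13 (.c 0 (.b 13) (.b 546)))))))))) (.tw (.s12 (.s13 (.tw (.c 0 (.s13 (.tw (.c 0 (.b 304) (.b 44)))) (.s13 (.tw (.c 0 (.s13 (.tw (.c 0 (.b 124) (.b 247)))) (.b 5)))))))))))))),
  (.c 0 (.tw (.c 0 (.b 348) (.s13 (.tw (.s12 (.s13 (.c 0 (.b 23) (.b 21)))))))) (.s13 (.tw (.c 0 (.s13 (.tw (.c 0 (.b 666) (.tw (.s12 (.s13 (.tw (.c 0 (.b 63) (.b 430))))))))) (.tw (.s12 (.s13 (.tw (.c 0 (.tw (.s12 (.c 0 (.b 136) (.b 249)))) (.s13 (.tw (.c 0 (.b 709) (.s13 (.tw (.c 0 (.b 5) (.b 124)))))))))))))))),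
  (.c 0 (.tw (.c 0 (.b 348) (.s13 (.tw (.s12 (.s13 (.c 0 (.b 13) (.c 0 (.b 63) (.b 159))))))))) (.s13 (.tw (.c 0 (.s13 (.tw (.c 0 (.b 666) (.tw (.s12 (.s13 (.tw (.c 0 (.b 63) (.b 430))))))))) (.tw (.s12 (.s13 (.tw (.c 0 (.tw (.s12 (.c 0 (.b 136) (.b 249)))) (.s13 (.tw (.c 0 (.b 709) (.s13 (.tw (.c 0 (.b 5) (.b 124)))))))))))))))),
  (.c 0 (.tw (.c 0 (.b 13) (.s13 (.tw (.s12 (.s13 (.c 0 (.b 284) (.c 0 (.b 136) (.b 29))))))))) (.s13 (.tw (.c 0 (.s13 (.tw (.c 0 (.b 666) (.tw (.s12 (.s13 (.tw (.c 0 (.b 63) (.b 430))))))))) (.tw (.s12 (.s13 (.tw (.c 0 (.tw (.s12 (.c 0 (.b 136) (.b 249)))) (.s13 (.tw (.c 0 (.b 709) (.s13 (.tw (.c 0 (.b 5) (.b 124)))))))))))))))),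
  (.c 0 (.tw (.c 0 (.b 13) (.s13 (.tw (.s12 (.s13 (.c 0 (.b 284) (.c 0 (.b 136) (.b 29))))))))) (.s13 (.tw (.c 0 (.s12 (.s13 (.tw (.c 0 (.b 13) (.s13 (.tw (.s12 (.s13 (.c 0 (.b 13) (.b 546)))))))))) (.tw (.s12 (.s13 (.tw (.c 0 (.s13 (.tw (.c 0 (.b 304) (.b 44)))) (.tw (.s13 (.c 0 (.tw (.c 0 (.b 63) (.b 41))) (.s12 (.s13 (.tw (.c 0 (.b 136) (.c 0 (.b 136) (.b 136)))))))))))))))))),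
  (.tw (.c 0 (.tw (.c 0 (.b 284) (.s13 (.tw (.s12 (.s13 (.c 0 (.b 63) (.b 93)))))))) (.s13 (.tw (.c 0 (.s12 (.s13 (.tw (.s12 (.c 0 (.b 377) (.b 666)))))) (.tw (.s12 (.s13 (.tw (.c 0 (.s13 (.tw (.c 0 (.b 136) (.s13 (.tw (.s12 (.s13 (.c 0 (.b 44) (.b 1))))))))) (.s13 (.tw (.c 0 (.tw (.c 0 (.b 63) (.b 136))) (.s13 (.tw (.c 0 (.b 5) (.b 124))))))))))))))))),
  (.c 0 (.tw (.c 0 (.b 13) (.s13 (.tw (.s12 (.s13 (.c 0 (.b 284) (.c 0 (.b 136) (.b 29))))))))) (.s13 (.tw (.c 0 (.s12 (.s13 (.tw (.c 0 (.b 13) (.b 93))))) (.tw (.s12 (.s13 (.tw (.c 0 (.s13 (.tw (.c 0 (.b 136) (.tw (.s12 (.s13 (.tw (.c 0 (.b 44) (.b 12))))))))) (.tw (.s13 (.c 0 (.tw (.c 0 (.b 63) (.b 41))) (.s12 (.s13 (.tw (.c 0 (.b 136) (.c 0 (.b 136) (.b 136)))))))))))))))))),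
  (.c 0 (.tw (.c 0 (.b 13) (.s13 (.tw (.s12 (.s13 (.c 0 (.b 284) (.c 0 (.b 136) (.b 29))))))))) (.s13 (.c 0 (.tw (.c 0 (.b 718) (.tw (.s13 (.tw (.c 0 (.s13 (.tw (.c 0 (.b 12) (.b 172)))) (.s13 (.tw (.s12 (.s13 (.c 0 (.b 136) (.c 0 (.b 136) (.b 136))))))))))))) (.tw (.c 0 (.b 718) (.c 0 (.b 136) (.b 136))))))),
  (.tw (.c 0 (.tw (.c 0 (.b 284) (.s13 (.tw (.s12 (.s13 (.c 0 (.b 63) (.b 93)))))))) (.s13 (.tw (.c 0 (.s12 (.s13 (.tw (.c 0 (.b 136) (.s13 (.tw (.s12 (.s13 (.c 0 (.b 13) (.b 337)))))))))) (.tw (.s12 (.s13 (.tw (.c 0 (.s13 (.tw (.c 0 (.b 304) (.b 44)))) (.s13 (.tw (.c 0 (.s13 (.tw (.c 0 (.b 381) (.b 136)))) (.s13 (.tw (.c 0 (.b 5) (.b 26))))))))))))))))),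
  (.c 0 (.tw (.c 0 (.b 19) (.s13 (.tw (.s12 (.s13 (.c 0 (.b 538) (.s13 (.tw (.s12 (.s13 (.c 0 (.b 63) (.b 159))))))))))))) (.s13 (.tw (.c 0 (.s13 (.tw (.c 0 (.b 13) (.b 236)))) (.s13 (.c 0 (.s12 (.s13 (.tw (.s12 (.c 0 (.b 666) (.s13 (.tw (.s12 (.s13 (.c 0 (.b 63) (.b 44))))))))))) (.tw (.c 0 (.b 666) (.s13 (.tw (.s12 (.s13 (.c 0 (.b 63) (.b 44)))))))))))))),
  (.tw (.c 0 (.tw (.c 0 (.b 13) (.s13 (.tw (.s12 (.s13 (.c 0 (.b 136) (.c 0 (.b 1) (.s13 (.tw (.s13 (.c 0 (.b 1) (.b 21))))))))))))) (.s13 (.tw (.c 0 (.s13 (.tw (.c 0 (.b 693) (.s13 (.tw (.c 0 (.b 124) (.b 200))))))) (.tw (.s13 (.tw (.c 0 (.s13 (.tw (.c 0 (.b 136) (.s13 (.tw (.s12 (.s13 (.c 0 (.b 44) (.b 1))))))))) (.s13 (.tw (.s12 (.c 0 (.b 5) (.b 247)))))))))))))),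
  (.tw (.c 0 (.tw (.c 0 (.b 284) (.s13 (.tw (.s12 (.s13 (.c 0 (.b 63) (.b 93)))))))) (.s13 (.tw (.c 0 (.s13 (.tw (.s13 (.c 0 (.b 70) (.b 354))))) (.s12 (.s13 (.tw (.c 0 (.s13 (.tw (.s12 (.c 0 (.b 136) (.s13 (.tw (.s12 (.s13 (.c 0 (.b 44) (.b 1)))))))))) (.tw (.s13 (.s12 (.c 0 (.s13 (.tw (.s12 (.c 0 (.b 381) (.b 381))))) (.s13 (.tw (.c 0 (.b 63) (.b 44))))))))))))))))),
  (.c 0 (.tw (.c 0 (.b 348) (.s13 (.tw (.s12 (.s13 (.c 0 (.b 23) (.b 21)))))))) (.s13 (.tw (.c 0 (.s12 (.s13 (.tw (.c 0 (.b 136) (.s13 (.tw (.s12 (.s13 (.c 0 (.b 13) (.b 337)))))))))) (.tw (.s12 (.s13 (.tw (.c 0 (.s13 (.tw (.c 0 (.b 24) (.s13 (.tw (.s12 (.s13 (.c 0 (.b 44) (.b 1))))))))) (.s13 (.tw (.c 0 (.tw (.c 0 (.b 63) (.b 136))) (.s13 (.tw (.c 0 (.b 5) (.b 124)))))))))))))))),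
  (.c 0 (.tw (.c 0 (.b 348) (.s13 (.tw (.s12 (.s13 (.c 0 (.b 13) (.c 0 (.b 63) (.b 159))))))))) (.s13 (.tw (.c 0 (.s12 (.s13 (.tw (.c 0 (.b 136) (.s13 (.tw (.s12 (.s13 (.c 0 (.b 13) (.b 337)))))))))) (.tw (.s12 (.s13 (.tw (.c 0 (.s13 (.tw (.c 0 (.b 24) (.s13 (.tw (.s12 (.s13 (.c 0 (.b 44) (.b 1))))))))) (.s13 (.tw (.c 0 (.tw (.c 0 (.b 63) (.b 136))) (.s13 (.tw (.c 0 (.b 5) (.b 124)))))))))))))))),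
  (.c 0 (.tw (.c 0 (.b 13) (.s13 (.tw (.s12 (.s13 (.c 0 (.b 284) (.c 0 (.b 136) (.b 29))))))))) (.s13 (.tw (.c 0 (.s12 (.s13 (.tw (.c 0 (.b 136) (.s13 (.tw (.s12 (.s13 (.c 0 (.b 13) (.b 337)))))))))) (.tw (.s12 (.s13 (.tw (.c 0 (.s13 (.tw (.c 0 (.b 24) (.s13 (.tw (.s12 (.s13 (.c 0 (.b 44) (.b 1))))))))) (.s13 (.tw (.c 0 (.tw (.c 0 (.b 63) (.b 136))) (.s13 (.tw (.c 0 (.b 5) (.b 124)))))))))))))))),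
  (.tw (.c 0 (.tw (.c 0 (.b 284) (.s13 (.tw (.s12 (.s13 (.c 0 (.b 63) (.b 93)))))))) (.s13 (.tw (.c 0 (.s12 (.s13 (.tw (.c 0 (.b 304) (.s13 (.tw (.s12 (.s13 (.c 0 (.b 13) (.b 337)))))))))) (.tw (.s12 (.s13 (.tw (.c 0 (.s13 (.tw (.c 0 (.b 304) (.b 44)))) (.s13 (.tw (.c 0 (.s13 (.tw (.c 0 (.b 124) (.b 247)))) (.b 5)))))))))))))),
  (.c 0 (.tw (.c 0 (.b 13) (.s13 (.tw (.s12 (.s13 (.c 0 (.b 13) (.c 0 (.b 14) (.s13 (.tw (.s12 (.s13 (.c 0 (.b 381) (.b 381)))))))))))))) (.s13 (.tw (.c 0 (.tw (.c 0 (.b 279) (.b 57))) (.s13 (.c 0 (.s12 (.s13 (.tw (.s12 (.c 0 (.b 666) (.s13 (.tw (.s12 (.s13 (.c 0 (.b 63) (.b 44))))))))))) (.tw (.c 0 (.b 666) (.s13 (.tw (.s12 (.s13 (.c 0 (.b 63) (.b 44)))))))))))))),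
  (.c 0 (.tw (.c 0 (.b 13) (.s13 (.tw (.s12 (.s13 (.c 0 (.b 13) (.c 0 (.b 14) (.s13 (.tw (.s12 (.s13 (.c 0 (.b 381) (.b 381)))))))))))))) (.s13 (.tw (.c 0 (.s13 (.tw (.c 0 (.b 13) (.b 236)))) (.s13 (.c 0 (.s12 (.s13 (.tw (.s12 (.c 0 (.b 666) (.s13 (.tw (.s12 (.s13 (.c 0 (.b 63) (.b 44))))))))))) (.tw (.c 0 (.b 666) (.s13 (.tw (.s12 (.s13 (.c 0 (.b 63) (.b 44)))))))))))))),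
  (.tw (.c 0 (.s12 (.s13 (.tw (.s12 (.c 0 (.b 284) (.s13 (.tw (.s12 (.s13 (.c 0 (.b 63) (.s13 (.tw (.s12 (.s13 (.c 0 (.b 284) (.b 27)))))))))))))))) (.s13 (.tw (.s12 (.c 0 (.s13 (.tw (.c 0 (.b 14) (.s13 (.tw (.s12 (.s13 (.c 0 (.b 14) (.c 0 (.b 136) (.b 136)))))))))) (.tw (.s12 (.s13 (.tw (.c 0 (.tw (.s13 (.c 0 (.b 70) (.b 45)))) (.s13 (.tw (.s12 (.c 0 (.b 5) (.s13 (.tw (.c 0 (.b 63) (.b 200))))))))))))))))))),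
  (.tw (.c 0 (.tw (.c 0 (.b 284) (.s13 (.tw (.s12 (.s13 (.c 0 (.b 63) (.b 93)))))))) (.s13 (.tw (.c 0 (.s12 (.s13 (.tw (.c 0 (.b 541) (.b 333))))) (.s12 (.s13 (.c 0 (.s12 (.s13 (.tw (.s12 (.c 0 (.b 304) (.s13 (.tw (.s12 (.s13 (.c 0 (.b 136) (.b 44))))))))))) (.s13 (.tw (.s13 (.c 0 (.b 70) (.b 45))))))))))))),
  (.c 0 (.tw (.c 0 (.b 348) (.s13 (.tw (.s12 (.s13 (.c 0 (.b 23) (.b 21)))))))) (.s13 (.tw (.c 0 (.s12 (.s13 (.tw (.c 0 (.b 13) (.s13 (.tw (.s12 (.s13 (.c 0 (.b 136) (.b 598)))))))))) (.tw (.s12 (.s13 (.tw (.c 0 (.s13 (.tw (.c 0 (.b 136) (.b 44)))) (.tw (.s12 (.s13 (.tw (.c 0 (.s12 (.s13 (.tw (.c 0 (.b 63) (.b 24))))) (.s13 (.tw (.s12 (.c 0 (.b 5) (.b 124))))))))))))))))))),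
  (.c 0 (.tw (.c 0 (.b 348) (.s13 (.tw (.s12 (.s13 (.c 0 (.b 13) (.c 0 (.b 63) (.b 159))))))))) (.s13 (.tw (.c 0 (.s12 (.s13 (.tw (.c 0 (.b 13) (.s13 (.tw (.s12 (.s13 (.c 0 (.b 136) (.b 598)))))))))) (.tw (.s12 (.s13 (.tw (.c 0 (.s13 (.tw (.c 0 (.b 136) (.b 44)))) (.tw (.s12 (.s13 (.tw (.c 0 (.s12 (.s13 (.tw (.c 0 (.b 63) (.b 24))))) (.s13 (.tw (.s12 (.c 0 (.b 5) (.b 124))))))))))))))))))),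
  (.tw (.c 0 (.tw (.c 0 (.b 284) (.s13 (.tw (.s12 (.s13 (.c 0 (.b 63) (.b 93)))))))) (.s13 (.tw (.c 0 (.s13 (.tw (.c 0 (.b 14) (.tw (.s12 (.s13 (.tw (.c 0 (.b 136) (.b 536))))))))) (.s12 (.s13 (.tw (.c 0 (.s13 (.tw (.s12 (.c 0 (.b 304) (.b 44))))) (.s13 (.tw (.s12 (.c 0 (.b 5) (.tw (.s12 (.s13 (.tw (.c 0 (.b 124) (.b 247))))))))))))))))))),
  (.c 0 (.tw (.c 0 (.b 13) (.s13 (.tw (.s12 (.s13 (.c 0 (.b 284) (.c 0 (.b 136) (.b 29))))))))) (.s13 (.c 0 (.tw (.c 0 (.s13 (.tw (.c 0 (.b 136) (.s13 (.tw (.s12 (.s13 (.c 0 (.b 13) (.b 139))))))))) (.tw (.s13 (.tw (.c 0 (.s13 (.tw (.c 0 (.b 5) (.s13 (.tw (.c 0 (.b 5) (.b 124))))))) (.s13 (.tw (.c 0 (.b 24) (.b 44)))))))))) (.b 1)))),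
  (.c 0 (.tw (.c 0 (.b 13) (.s13 (.tw (.s12 (.s13 (.c 0 (.b 284) (.c 0 (.b 136) (.b 29))))))))) (.s13 (.tw (.c 0 (.s12 (.s13 (.tw (.c 0 (.b 13) (.s13 (.tw (.s12 (.s13 (.c 0 (.b 136) (.b 598)))))))))) (.tw (.s12 (.s13 (.tw (.c 0 (.s13 (.tw (.c 0 (.b 136) (.b 44)))) (.tw (.s12 (.s13 (.tw (.c 0 (.s12 (.s13 (.tw (.c 0 (.b 63) (.b 24))))) (.s13 (.tw (.s12 (.c 0 (.b 5) (.b 124))))))))))))))))))),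
  (.c 0 (.tw (.c 0 (.b 13) (.s13 (.tw (.s12 (.s13 (.c 0 (.b 13) (.c 0 (.b 14) (.s13 (.tw (.s12 (.s13 (.c 0 (.b 381) (.b 381)))))))))))))) (.s13 (.tw (.c 0 (.s13 (.tw (.c 0 (.b 279) (.b 29)))) (.s13 (.c 0 (.s12 (.s13 (.tw (.s12 (.c 0 (.b 666) (.s13 (.tw (.s12 (.s13 (.c 0 (.b 63) (.b 44))))))))))) (.tw (.c 0 (.b 666) (.s13 (.tw (.s12 (.s13 (.c 0 (.b 63) (.b 44)))))))))))))),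
  (.c 0 (.tw (.c 0 (.b 13) (.s13 (.tw (.s12 (.s13 (.c 0 (.b 13) (.c 0 (.b 14) (.s13 (.tw (.s12 (.s13 (.c 0 (.b 381) (.b 381)))))))))))))) (.s13 (.tw (.c 0 (.s13 (.tw (.c 0 (.b 136) (.s13 (.tw (.s12 (.s13 (.c 0 (.b 13) (.b 139))))))))) (.tw (.s13 (.tw (.c 0 (.s13 (.tw (.c 0 (.b 5) (.s13 (.tw (.c 0 (.b 5) (.b 124))))))) (.s13 (.tw (.c 0 (.b 24) (.b 44)))))))))))),
  (.c 0 (.tw (.c 0 (.b 14) (.s13 (.tw (.s12 (.s13 (.c 0 (.b 13) (.s13 (.tw (.s12 (.s13 (.c 0 (.b 136) (.s13 (.tw (.s12 (.s13 (.c 0 (.b 63) (.b 369)))))))))))))))))) (.s13 (.tw (.c 0 (.tw (.s13 (.tw (.c 0 (.b 587) (.b 185))))) (.s13 (.tw (.c 0 (.s13 (.tw (.c 0 (.b 5) (.s13 (.tw (.c 0 (.b 5) (.b 63))))))) (.s13 (.tw (.c 0 (.b 24) (.b 44))))))))))),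
  (.c 0 (.tw (.c 0 (.b 13) (.s13 (.tw (.s12 (.s13 (.c 0 (.b 284) (.c 0 (.b 136) (.b 29))))))))) (.s13 (.c 0 (.s13 (.tw (.c 0 (.tw (.s13 (.tw (.c 0 (.b 63) (.b 159))))) (.tw (.s12 (.s13 (.tw (.c 0 (.b 666) (.s13 (.tw (.s12 (.s13 (.c 0 (.b 136) (.c 0 (.b 136) (.b 136))))))))))))))) (.tw (.c 0 (.b 136) (.c 0 (.b 136) (.b 44))))))),
  (.tw (.c 0 (.tw (.c 0 (.b 284) (.s13 (.tw (.s12 (.s13 (.c 0 (.b 63) (.b 93)))))))) (.s13 (.c 0 (.tw (.s13 (.c 0 (.tw (.c 0 (.b 12) (.b 137))) (.tw (.s12 (.s13 (.s12 (.c 0 (.s13 (.tw (.s12 (.s13 (.c 0 (.b 24) (.b 136)))))) (.tw (.s12 (.s13 (.tw (.c 0 (.b 381) (.b 41)))))))))))))) (.tw (.c 0 (.b 63) (.c 0 (.b 136) (.c 0 (.b 136) (.b 136))))))))),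
  (.c 0 (.tw (.c 0 (.b 13) (.s13 (.tw (.s12 (.s13 (.c 0 (.b 284) (.c 0 (.b 136) (.b 29))))))))) (.s13 (.c 0 (.s12 (.s13 (.tw (.c 0 (.s13 (.tw (.c 0 (.b 12) (.b 172)))) (.tw (.s12 (.s13 (.tw (.c 0 (.s13 (.tw (.s12 (.s13 (.c 0 (.b 348) (.s13 (.tw (.s12 (.s13 (.c 0 (.b 381) (.b 136))))))))))) (.b 273)))))))))) (.tw (.s12 (.c 0 (.b 136) (.c 0 (.b 136) (.b 536)))))))),
  (.c 0 (.tw (.c 0 (.b 13) (.s13 (.tw (.s12 (.s13 (.c 0 (.b 284) (.c 0 (.b 136) (.b 29))))))))) (.s13 (.tw (.c 0 (.s12 (.s13 (.tw (.s12 (.c 0 (.b 136) (.b 147)))))) (.s12 (.s13 (.c 0 (.s13 (.tw (.s13 (.c 0 (.tw (.c 0 (.b 26) (.b 137))) (.b 5))))) (.s12 (.s13 (.tw (.s12 (.c 0 (.b 284) (.s13 (.tw (.s13 (.c 0 (.b 67) (.s13 (.tw (.s13 (.c 0 (.b 14) (.b 44))))))))))))))))))))),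
  (.tw (.c 0 (.tw (.c 0 (.b 284) (.s13 (.tw (.s12 (.s13 (.c 0 (.b 63) (.b 93)))))))) (.s13 (.tw (.c 0 (.s12 (.s13 (.tw (.s12 (.c 0 (.b 202) (.b 666)))))) (.tw (.s12 (.s13 (.tw (.c 0 (.s13 (.tw (.c 0 (.b 136) (.s13 (.tw (.s12 (.s13 (.c 0 (.b 44) (.b 1))))))))) (.s13 (.tw (.c 0 (.tw (.c 0 (.b 63) (.b 136))) (.s13 (.tw (.c 0 (.b 5) (.b 124))))))))))))))))),
  (.c 0 (.tw (.c 0 (.b 13) (.s13 (.tw (.s12 (.s13 (.c 0 (.b 284) (.c 0 (.b 136) (.b 29))))))))) (.s13 (.tw (.c 0 (.s12 (.s13 (.tw (.s12 (.c 0 (.b 136) (.b 147)))))) (.s12 (.s13 (.tw (.c 0 (.tw (.s13 (.s12 (.c 0 (.s13 (.tw (.s12 (.c 0 (.b 124) (.b 239))))) (.s13 (.tw (.c 0 (.b 381) (.b 44)))))))) (.s13 (.tw (.c 0 (.b 63) (.c 0 (.b 136) (.b 136)))))))))))))]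

theorem good3 : ∀ l ∈ box3, G (l, H, H) := by
  intro l hl
  have h := G_chkTbl tbl_good (ts := box3.map fun l => (l, H, H)) (ds := dv3) (by decide +kernel)
  exact h _ (List.mem_map.mpr ⟨l, hl, rfl⟩)

def box4 : List (List ℕ) := [
  [9,9,9,7,5,4,4,4,1],
  [9,9,9,7,5,5,3,3,1,1],
  [9,9,9,7,5,5,3,3,2],
  [9,9,9,7,5,5,4,1,1,1,1],
  [9,9,9,7,5,5,4,2,1,1],
  [9,9,9,7,5,5,4,2,2],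
  [9,9,9,7,5,5,4,3,1],
  [9,9,9,7,5,5,4,4],
  [9,9,9,7,5,5,5,1,1,1],
  [9,9,9,7,5,5,5,2,1],
  [9,9,9,7,5,5,5,3],
  [9,9,9,7,6,3,3,3,3],
  [9,9,9,7,6,4,3,3,1,1],
  [9,9,9,7,6,4,3,3,2],
  [9,9,9,7,6,4,4,1,1,1,1],
  [9,9,9,7,6,4,4,2,1,1],
  [9,9,9,7,6,4,4,2,2],
  [9,9,9,7,6,4,4,3,1],
  [9,9,9,7,6,4,4,4],
  [9,9,9,7,6,5,3,1,1,1,1],
  [9,9,9,7,6,5,3,2,1,1],
  [9,9,9,7,6,5,3,2,2],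
  [9,9,9,7,6,5,3,3,1],
  [9,9,9,7,6,5,4,1,1,1],
  [9,9,9,7,6,5,4,2,1],
  [9,9,9,7,6,5,4,3],
  [9,9,9,7,6,5,5,1,1],
  [9,9,9,7,6,5,5,2],
  [9,9,9,7,6,6,1,1,1,1,1,1],
  [9,9,9,7,6,6,2,1,1,1,1],
  [9,9,9,7,6,6,2,2,1,1],
  [9,9,9,7,6,6,2,2,2],
  [9,9,9,7,6,6,3,1,1,1],
  [9,9,9,7,6,6,3,2,1],
  [9,9,9,7,6,6,3,3],
  [9,9,9,7,6,6,4,1,1],
  [9,9,9,7,6,6,4,2],
  [9,9,9,7,6,6,5,1],
  [9,9,9,7,6,6,6],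
  [9,9,9,7,7,3,3,3,1,1],
  [9,9,9,7,7,3,3,3,2],
  [9,9,9,7,7,4,3,1,1,1,1],
  [9,9,9,7,7,4,3,2,1,1],
  [9,9,9,7,7,4,3,2,2],
  [9,9,9,7,7,4,3,3,1],
  [9,9,9,7,7,4,4,1,1,1],
  [9,9,9,7,7,4,4,2,1],
  [9,9,9,7,7,4,4,3],
  [9,9,9,7,7,5,1,1,1,1,1,1],
  [9,9,9,7,7,5,2,1,1,1,1],
  [9,9,9,7,7,5,2,2,1,1],
  [9,9,9,7,7,5,2,2,2],
  [9,9,9,7,7,5,3,1,1,1],
  [9,9,9,7,7,5,3,2,1],
  [9,9,9,7,7,5,3,3],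
  [9,9,9,7,7,5,4,1,1],
  [9,9,9,7,7,5,4,2],
  [9,9,9,7,7,5,5,1],
  [9,9,9,7,7,6,1,1,1,1,1],
  [9,9,9,7,7,6,2,1,1,1],
  [9,9,9,7,7,6,2,2,1],
  [9,9,9,7,7,6,3,1,1],
  [9,9,9,7,7,6,3,2],
  [9,9,9,7,7,6,4,1],
  [9,9,9,7,7,6,5],
  [9,9,9,7,7,7,1,1,1,1],
  [9,9,9,7,7,7,2,1,1],
  [9,9,9,7,7,7,2,2],
  [9,9,9,7,7,7,3,1],
  [9,9,9,7,7,7,4],
  [9,9,9,8,4,4,3,3,3],
  [9,9,9,8,4,4,4,3,1,1],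
  [9,9,9,8,4,4,4,3,2],
  [9,9,9,8,4,4,4,4,1],
  [9,9,9,8,5,3,3,3,3],
  [9,9,9,8,5,4,3,3,1,1],
  [9,9,9,8,5,4,3,3,2],
  [9,9,9,8,5,4,4,1,1,1,1],
  [9,9,9,8,5,4,4,2,1,1],
  [9,9,9,8,5,4,4,2,2],
  [9,9,9,8,5,4,4,3,1],
  [9,9,9,8,5,4,4,4],
  [9,9,9,8,5,5,3,1,1,1,1],
  [9,9,9,8,5,5,3,2,1,1],
  [9,9,9,8,5,5,3,2,2],
  [9,9,9,8,5,5,3,3,1],
  [9,9,9,8,5,5,4,1,1,1],
  [9,9,9,8,5,5,4,2,1],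
  [9,9,9,8,5,5,4,3],
  [9,9,9,8,5,5,5,1,1],
  [9,9,9,8,5,5,5,2],
  [9,9,9,8,6,3,3,3,1,1],
  [9,9,9,8,6,3,3,3,2],
  [9,9,9,8,6,4,3,1,1,1,1],
  [9,9,9,8,6,4,3,2,1,1],
  [9,9,9,8,6,4,3,2,2],
  [9,9,9,8,6,4,3,3,1],
  [9,9,9,8,6,4,4,1,1,1],
  [9,9,9,8,6,4,4,2,1],
  [9,9,9,8,6,4,4,3],
  [9,9,9,8,6,5,1,1,1,1,1,1],
  [9,9,9,8,6,5,2,1,1,1,1],
  [9,9,9,8,6,5,2,2,1,1],
  [9,9,9,8,6,5,2,2,2],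
  [9,9,9,8,6,5,3,1,1,1],
  [9,9,9,8,6,5,3,2,1],
  [9,9,9,8,6,5,3,3],
  [9,9,9,8,6,5,4,1,1],
  [9,9,9,8,6,5,4,2],
  [9,9,9,8,6,5,5,1],
  [9,9,9,8,6,6,1,1,1,1,1],
  [9,9,9,8,6,6,2,1,1,1],
  [9,9,9,8,6,6,2,2,1],
  [9,9,9,8,6,6,3,1,1],
  [9,9,9,8,6,6,3,2],
  [9,9,9,8,6,6,4,1],
  [9,9,9,8,6,6,5],
  [9,9,9,8,7,3,3,1,1,1,1],
  [9,9,9,8,7,3,3,2,1,1],
  [9,9,9,8,7,3,3,2,2],
  [9,9,9,8,7,3,3,3,1],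
  [9,9,9,8,7,4,1,1,1,1,1,1],
  [9,9,9,8,7,4,2,1,1,1,1],
  [9,9,9,8,7,4,2,2,1,1],
  [9,9,9,8,7,4,2,2,2],
  [9,9,9,8,7,4,3,1,1,1],
  [9,9,9,8,7,4,3,2,1],
  [9,9,9,8,7,4,3,3],
  [9,9,9,8,7,4,4,1,1],
  [9,9,9,8,7,4,4,2],
  [9,9,9,8,7,5,1,1,1,1,1],
  [9,9,9,8,7,5,2,1,1,1],
  [9,9,9,8,7,5,2,2,1],
  [9,9,9,8,7,5,3,1,1],
  [9,9,9,8,7,5,3,2],
  [9,9,9,8,7,5,4,1],
  [9,9,9,8,7,5,5],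
  [9,9,9,8,7,6,1,1,1,1],
  [9,9,9,8,7,6,2,1,1],
  [9,9,9,8,7,6,2,2],
  [9,9,9,8,7,6,3,1],
  [9,9,9,8,7,6,4],
  [9,9,9,8,7,7,1,1,1],
  [9,9,9,8,7,7,2,1],
  [9,9,9,8,7,7,3],
  [9,9,9,8,8,3,1,1,1,1,1,1],
  [9,9,9,8,8,3,2,1,1,1,1],
  [9,9,9,8,8,3,2,2,1,1],
  [9,9,9,8,8,3,2,2,2],
  [9,9,9,8,8,3,3,1,1,1],
  [9,9,9,8,8,3,3,2,1],
  [9,9,9,8,8,3,3,3],
  [9,9,9,8,8,4,1,1,1,1,1],
  [9,9,9,8,8,4,2,1,1,1],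
  [9,9,9,8,8,4,2,2,1],
  [9,9,9,8,8,4,3,1,1],
  [9,9,9,8,8,4,3,2],
  [9,9,9,8,8,4,4,1],
  [9,9,9,8,8,5,1,1,1,1],
  [9,9,9,8,8,5,2,1,1],
  [9,9,9,8,8,5,2,2],
  [9,9,9,8,8,5,3,1],
  [9,9,9,8,8,5,4],
  [9,9,9,8,8,6,1,1,1],
  [9,9,9,8,8,6,2,1],
  [9,9,9,8,8,6,3],
  [9,9,9,8,8,7,1,1],
  [9,9,9,8,8,7,2],
  [9,9,9,8,8,8,1],
  [9,9,9,9,4,3,3,3,3],
  [9,9,9,9,4,4,3,3,1,1],
  [9,9,9,9,4,4,3,3,2],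
  [9,9,9,9,4,4,4,1,1,1,1],
  [9,9,9,9,4,4,4,2,1,1],
  [9,9,9,9,4,4,4,2,2],
  [9,9,9,9,4,4,4,3,1],
  [9,9,9,9,4,4,4,4],
  [9,9,9,9,5,3,3,3,1,1],
  [9,9,9,9,5,3,3,3,2],
  [9,9,9,9,5,4,3,1,1,1,1],
  [9,9,9,9,5,4,3,2,1,1],
  [9,9,9,9,5,4,3,2,2],
  [9,9,9,9,5,4,3,3,1],
  [9,9,9,9,5,4,4,1,1,1],
  [9,9,9,9,5,4,4,2,1],
  [9,9,9,9,5,4,4,3],
  [9,9,9,9,5,5,1,1,1,1,1,1],
  [9,9,9,9,5,5,2,1,1,1,1],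
  [9,9,9,9,5,5,2,2,1,1],
  [9,9,9,9,5,5,2,2,2],
  [9,9,9,9,5,5,3,1,1,1],
  [9,9,9,9,5,5,3,2,1],
  [9,9,9,9,5,5,3,3],
  [9,9,9,9,5,5,4,1,1],
  [9,9,9,9,5,5,4,2],
  [9,9,9,9,5,5,5,1],
  [9,9,9,9,6,3,3,1,1,1,1],
  [9,9,9,9,6,3,3,2,1,1],
  [9,9,9,9,6,3,3,2,2],
  [9,9,9,9,6,3,3,3,1],
  [9,9,9,9,6,4,1,1,1,1,1,1],
  [9,9,9,9,6,4,2,1,1,1,1],
  [9,9,9,9,6,4,2,2,1,1],
  [9,9,9,9,6,4,2,2,2],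
  [9,9,9,9,6,4,3,1,1,1],
  [9,9,9,9,6,4,3,2,1],
  [9,9,9,9,6,4,3,3],
  [9,9,9,9,6,4,4,1,1],
  [9,9,9,9,6,4,4,2],
  [9,9,9,9,6,5,1,1,1,1,1],
  [9,9,9,9,6,5,2,1,1,1],
  [9,9,9,9,6,5,2,2,1],
  [9,9,9,9,6,5,3,1,1],
  [9,9,9,9,6,5,3,2],
  [9,9,9,9,6,5,4,1],
  [9,9,9,9,6,5,5],
  [9,9,9,9,6,6,1,1,1,1],
  [9,9,9,9,6,6,2,1,1],
  [9,9,9,9,6,6,2,2],
  [9,9,9,9,6,6,3,1],
  [9,9,9,9,6,6,4],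
  [9,9,9,9,7,3,1,1,1,1,1,1],
  [9,9,9,9,7,3,2,1,1,1,1],
  [9,9,9,9,7,3,2,2,1,1],
  [9,9,9,9,7,3,2,2,2],
  [9,9,9,9,7,3,3,1,1,1],
  [9,9,9,9,7,3,3,2,1],
  [9,9,9,9,7,3,3,3],
  [9,9,9,9,7,4,1,1,1,1,1],
  [9,9,9,9,7,4,2,1,1,1],
  [9,9,9,9,7,4,2,2,1],
  [9,9,9,9,7,4,3,1,1],
  [9,9,9,9,7,4,3,2],
  [9,9,9,9,7,4,4,1],
  [9,9,9,9,7,5,1,1,1,1],
  [9,9,9,9,7,5,2,1,1],
  [9,9,9,9,7,5,2,2],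
  [9,9,9,9,7,5,3,1],
  [9,9,9,9,7,5,4],
  [9,9,9,9,7,6,1,1,1],
  [9,9,9,9,7,6,2,1],
  [9,9,9,9,7,6,3],
  [9,9,9,9,7,7,1,1],
  [9,9,9,9,7,7,2],
  [9,9,9,9,8,1,1,1,1,1,1,1,1],
  [9,9,9,9,8,2,1,1,1,1,1,1],
  [9,9,9,9,8,2,2,1,1,1,1],
  [9,9,9,9,8,2,2,2,1,1],
  [9,9,9,9,8,2,2,2,2],
  [9,9,9,9,8,3,1,1,1,1,1],
  [9,9,9,9,8,3,2,1,1,1],
  [9,9,9,9,8,3,2,2,1],
  [9,9,9,9,8,3,3,1,1],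
  [9,9,9,9,8,3,3,2],
  [9,9,9,9,8,4,1,1,1,1],
  [9,9,9,9,8,4,2,1,1],
  [9,9,9,9,8,4,2,2],
  [9,9,9,9,8,4,3,1],
  [9,9,9,9,8,4,4],
  [9,9,9,9,8,5,1,1,1],
  [9,9,9,9,8,5,2,1],
  [9,9,9,9,8,5,3],
  [9,9,9,9,8,6,1,1],
  [9,9,9,9,8,6,2],
  [9,9,9,9,8,7,1],
  [9,9,9,9,8,8],
  [9,9,9,9,9,1,1,1,1,1,1,1],
  [9,9,9,9,9,2,1,1,1,1,1],
  [9,9,9,9,9,2,2,1,1,1],
  [9,9,9,9,9,2,2,2,1],
  [9,9,9,9,9,3,1,1,1,1],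
  [9,9,9,9,9,3,2,1,1],
  [9,9,9,9,9,3,2,2],
  [9,9,9,9,9,3,3,1],
  [9,9,9,9,9,4,1,1,1],
  [9,9,9,9,9,4,2,1],
  [9,9,9,9,9,4,3],
  [9,9,9,9,9,5,1,1],
  [9,9,9,9,9,5,2],
  [9,9,9,9,9,6,1],
  [9,9,9,9,9,7],
  [10,6,6,5,5,5,5,5,5],
  [10,6,6,6,5,5,5,5,4],
  [10,6,6,6,6,5,5,4,4],
  [10,6,6,6,6,5,5,5,3],
  [10,6,6,6,6,6,4,4,4],
  [10,6,6,6,6,6,5,4,3],
  [10,6,6,6,6,6,5,5,1,1],
  [10,6,6,6,6,6,5,5,2],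
  [10,6,6,6,6,6,6,3,3],
  [10,6,6,6,6,6,6,4,1,1],
  [10,6,6,6,6,6,6,4,2],
  [10,6,6,6,6,6,6,5,1],
  [10,6,6,6,6,6,6,6],
  [10,7,5,5,5,5,5,5,5],
  [10,7,6,5,5,5,5,5,4],
  [10,7,6,6,5,5,5,4,4],
  [10,7,6,6,5,5,5,5,3],
  [10,7,6,6,6,5,4,4,4],
  [10,7,6,6,6,5,5,4,3]]

def dv4 : List Dv := [
  (.c 0 (.tw (.c 0 (.b 13) (.s13 (.tw (.s12 (.s13 (.c 0 (.b 284) (.c 0 (.b 136) (.b 29))))))))) (.s13 (.c 0 (.tw (.c 0 (.s13 (.tw (.c 0 (.b 13) (.b 462)))) (.tw (.s13 (.tw (.c 0 (.s13 (.tw (.c 0 (.b 24) (.s13 (.tw (.s12 (.s13 (.c 0 (.b 44) (.b 1))))))))) (.s13 (.tw (.c 0 (.s13 (.tw (.c 0 (.b 44) (.b 1)))) (.s13 (.tw (.c 0 (.b 5) (.b 5))))))))))))) (.b 1)))),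
  (.tw (.c 0 (.tw (.c 0 (.b 284) (.s13 (.tw (.s12 (.s13 (.c 0 (.b 63) (.b 93)))))))) (.s13 (.c 0 (.tw (.c 0 (.b 718) (.tw (.s13 (.tw (.c 0 (.tw (.s12 (.s13 (.tw (.c 0 (.b 136) (.s13 (.tw (.s12 (.s13 (.c 0 (.b 63) (.b 44))))))))))) (.b 273))))))) (.tw (.c 0 (.b 718) (.c 0 (.b 136) (.b 136)))))))),
  (.c 0 (.tw (.c 0 (.b 19) (.s13 (.tw (.s12 (.s13 (.c 0 (.b 538) (.s13 (.tw (.s12 (.s13 (.c 0 (.b 63) (.b 159))))))))))))) (.s13 (.tw (.c 0 (.s13 (.tw (.c 0 (.b 13) (.b 236)))) (.tw (.s13 (.tw (.c 0 (.s13 (.tw (.c 0 (.b 24) (.s13 (.tw (.s12 (.s13 (.c 0 (.b 44) (.b 1))))))))) (.s13 (.tw (.c 0 (.s13 (.tw (.c 0 (.b 44) (.b 1)))) (.s13 (.tw (.c 0 (.b 5) (.b 5))))))))))))))),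
  (.tw (.c 0 (.tw (.c 0 (.b 13) (.s13 (.tw (.s12 (.s13 (.c 0 (.b 136) (.c 0 (.b 1) (.s13 (.tw (.s13 (.c 0 (.b 1) (.b 21))))))))))))) (.s13 (.tw (.c 0 (.s13 (.tw (.c 0 (.b 693) (.tw (.s12 (.s13 (.tw (.c 0 (.b 227) (.b 26))))))))) (.tw (.s13 (.tw (.c 0 (.s13 (.tw (.c 0 (.b 136) (.b 44)))) (.tw (.s12 (.s13 (.tw (.c 0 (.b 95) (.s13 (.tw (.c 0 (.b 44) (.b 12)))))))))))))))))),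
  (.tw (.c 0 (.tw (.c 0 (.b 284) (.s13 (.tw (.s12 (.s13 (.c 0 (.b 63) (.b 93)))))))) (.s13 (.c 0 (.tw (.c 0 (.tw (.s12 (.s13 (.tw (.c 0 (.b 63) (.s13 (.tw (.s12 (.s13 (.c 0 (.b 180) (.b 12))))))))))) (.tw (.s13 (.tw (.c 0 (.b 304) (.s13 (.tw (.s12 (.s13 (.c 0 (.b 136) (.b 44)))))))))))) (.tw (.c 0 (.b 718) (.c 0 (.b 136) (.b 136)))))))),
  (.c 0 (.tw (.c 0 (.b 13) (.s13 (.tw (.s12 (.s13 (.c 0 (.b 284) (.c 0 (.b 136) (.b 29))))))))) (.s13 (.tw (.c 0 (.s12 (.s13 (.tw (.s12 (.c 0 (.b 279) (.b 529)))))) (.tw (.s12 (.s13 (.tw (.c 0 (.s13 (.tw (.c 0 (.b 136) (.s13 (.tw (.s12 (.s13 (.c 0 (.b 44) (.b 1))))))))) (.tw (.s12 (.s13 (.tw (.c 0 (.s12 (.s13 (.tw (.c 0 (.b 63) (.b 24))))) (.s13 (.tw (.c 0 (.b 5) (.b 5)))))))))))))))))),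
  (.c 0 (.tw (.c 0 (.b 348) (.s13 (.tw (.s12 (.s13 (.c 0 (.b 13) (.c 0 (.b 63) (.b 159))))))))) (.s13 (.tw (.c 0 (.s12 (.s13 (.tw (.c 0 (.b 13) (.s13 (.tw (.s12 (.s13 (.c 0 (.b 13) (.b 337)))))))))) (.tw (.s12 (.s13 (.tw (.c 0 (.s13 (.tw (.c 0 (.b 136) (.s13 (.tw (.s12 (.s13 (.c 0 (.b 44) (.b 1))))))))) (.tw (.s12 (.s13 (.tw (.c 0 (.s12 (.s13 (.tw (.c 0 (.b 63) (.b 24))))) (.s13 (.tw (.c 0 (.b 5) (.b 5)))))))))))))))))),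
  (.c 0 (.tw (.c 0 (.b 13) (.s13 (.tw (.s12 (.s13 (.c 0 (.b 284) (.c 0 (.b 136) (.b 29))))))))) (.s13 (.tw (.c 0 (.s12 (.s13 (.tw (.c 0 (.b 13) (.s13 (.tw (.s12 (.s13 (.c 0 (.b 13) (.b 337)))))))))) (.tw (.s12 (.s13 (.tw (.c 0 (.s13 (.tw (.c 0 (.b 136) (.s13 (.tw (.s12 (.s13 (.c 0 (.b 44) (.b 1))))))))) (.tw (.s12 (.s13 (.tw (.c 0 (.s12 (.s13 (.tw (.c 0 (.b 63) (.b 24))))) (.s13 (.tw (.c 0 (.b 5) (.b 5)))))))))))))))))),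
  (.tw (.c 0 (.tw (.c 0 (.b 284) (.s13 (.tw (.s12 (.s13 (.c 0 (.b 63) (.b 93)))))))) (.s13 (.tw (.c 0 (.s13 (.tw (.c 0 (.b 693) (.tw (.s12 (.s13 (.tw (.c 0 (.b 266) (.b 26))))))))) (.s12 (.s13 (.tw (.c 0 (.s13 (.tw (.c 0 (.b 136) (.b 44)))) (.tw (.s12 (.c 0 (.s13 (.tw (.c 0 (.b 63) (.b 381)))) (.s13 (.tw (.s12 (.c 0 (.b 13) (.b 239))))))))))))))))),
  (.c 0 (.tw (.c 0 (.b 13) (.s13 (.tw (.s12 (.s13 (.c 0 (.b 13) (.c 0 (.b 14) (.s13 (.tw (.s12 (.s13 (.c 0 (.b 381) (.b 381)))))))))))))) (.s13 (.tw (.c 0 (.s12 (.s13 (.tw (.c 0 (.b 13) (.b 546))))) (.tw (.s12 (.s13 (.tw (.c 0 (.s13 (.tw (.c 0 (.b 24) (.tw (.s12 (.s13 (.tw (.c 0 (.b 44) (.b 12))))))))) (.s13 (.tw (.c 0 (.s13 (.tw (.c 0 (.b 44) (.b 1)))) (.s13 (.tw (.c 0 (.b 5) (.b 5)))))))))))))))),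
  (.c 0 (.tw (.c 0 (.b 13) (.s13 (.tw (.s12 (.s13 (.c 0 (.b 13) (.c 0 (.b 14) (.s13 (.tw (.s12 (.s13 (.c 0 (.b 381) (.b 381)))))))))))))) (.s13 (.tw (.c 0 (.s13 (.tw (.c 0 (.b 13) (.b 236)))) (.tw (.s13 (.tw (.c 0 (.s13 (.tw (.c 0 (.b 24) (.s13 (.tw (.s12 (.s13 (.c 0 (.b 44) (.b 1))))))))) (.s13 (.tw (.c 0 (.s13 (.tw (.c 0 (.b 44) (.b 1)))) (.s13 (.tw (.c 0 (.b 5) (.b 5))))))))))))))),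
  (.c 0 (.tw (.c 0 (.b 311) (.s13 (.tw (.s12 (.s13 (.c 0 (.b 23) (.b 21)))))))) (.s13 (.tw (.c 0 (.s12 (.s13 (.tw (.c 0 (.b 13) (.s13 (.tw (.s12 (.s13 (.c 0 (.b 13) (.b 546)))))))))) (.tw (.s12 (.s13 (.tw (.c 0 (.tw (.s12 (.s13 (.tw (.c 0 (.s12 (.s13 (.tw (.c 0 (.b 63) (.b 24))))) (.s13 (.tw (.c 0 (.b 5) (.b 5))))))))) (.s13 (.tw (.c 0 (.b 44) (.b 26))))))))))))),
  (.tw (.c 0 (.tw (.c 0 (.b 284) (.s13 (.tw (.s12 (.s13 (.c 0 (.b 63) (.b 93)))))))) (.s13 (.c 0 (.tw (.c 0 (.b 718) (.tw (.s13 (.tw (.c 0 (.tw (.s12 (.s13 (.tw (.c 0 (.b 136) (.s13 (.tw (.s12 (.s13 (.c 0 (.b 63) (.b 44))))))))))) (.b 273))))))) (.tw (.c 0 (.b 460) (.s13 (.tw (.s12 (.s13 (.c 0 (.b 136) (.b 351)))))))))))),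
  (.c 0 (.tw (.c 0 (.b 13) (.s13 (.tw (.s12 (.s13 (.c 0 (.b 284) (.c 0 (.b 136) (.b 29))))))))) (.s13 (.tw (.c 0 (.tw (.s12 (.s13 (.s12 (.c 0 (.b 14) (.b 526)))))) (.tw (.s12 (.s13 (.tw (.c 0 (.s13 (.tw (.c 0 (.b 24) (.s13 (.tw (.s12 (.s13 (.c 0 (.b 14) (.b 44))))))))) (.s13 (.tw (.c 0 (.tw (.c 0 (.b 63) (.b 136))) (.s13 (.tw (.c 0 (.b 5) (.b 5)))))))))))))))),
  (.tw (.c 0 (.tw (.c 0 (.b 13) (.s13 (.tw (.s12 (.s13 (.c 0 (.b 136) (.c 0 (.b 1) (.s13 (.tw (.s13 (.c 0 (.b 1) (.b 21))))))))))))) (.s13 (.tw (.c 0 (.s13 (.tw (.c 0 (.b 693) (.s13 (.tw (.c 0 (.b 124) (.b 200))))))) (.tw (.s13 (.tw (.c 0 (.s13 (.tw (.c 0 (.b 136) (.b 536)))) (.s13 (.tw (.c 0 (.b 313) (.s13 (.tw (.c 0 (.b 44) (.b 1)))))))))))))))),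
  (.tw (.c 0 (.tw (.c 0 (.b 284) (.s13 (.tw (.s12 (.s13 (.c 0 (.b 63) (.b 93)))))))) (.s13 (.c 0 (.tw (.c 0 (.tw (.s12 (.s13 (.tw (.c 0 (.b 63) (.s13 (.tw (.s12 (.s13 (.c 0 (.b 180) (.b 12))))))))))) (.tw (.s13 (.tw (.c 0 (.b 304) (.s13 (.tw (.s12 (.s13 (.c 0 (.b 136) (.b 44)))))))))))) (.tw (.c 0 (.b 460) (.s13 (.tw (.s12 (.s13 (.c 0 (.b 136) (.b 351)))))))))))),
  (.c 0 (.tw (.c 0 (.b 13) (.s13 (.tw (.s12 (.s13 (.c 0 (.b 284) (.c 0 (.b 136) (.b 29))))))))) (.s13 (.tw (.c 0 (.s12 (.s13 (.tw (.s12 (.c 0 (.b 58) (.b 546)))))) (.tw (.s12 (.s13 (.tw (.c 0 (.s13 (.tw (.c 0 (.b 24) (.s13 (.tw (.s12 (.s13 (.c 0 (.b 14) (.b 44))))))))) (.s13 (.tw (.c 0 (.tw (.c 0 (.b 63) (.b 136))) (.s13 (.tw (.c 0 (.b 5) (.b 5)))))))))))))))),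
  (.c 0 (.tw (.c 0 (.b 348) (.s13 (.tw (.s12 (.s13 (.c 0 (.b 13) (.c 0 (.b 63) (.b 159))))))))) (.s13 (.tw (.c 0 (.s12 (.s13 (.tw (.c 0 (.b 136) (.s13 (.tw (.s12 (.s13 (.c 0 (.b 13) (.b 546)))))))))) (.tw (.s12 (.s13 (.tw (.c 0 (.s13 (.tw (.c 0 (.b 24) (.s13 (.tw (.s12 (.s13 (.c 0 (.b 44) (.b 1))))))))) (.s13 (.tw (.c 0 (.tw (.c 0 (.b 63) (.b 136))) (.s13 (.tw (.c 0 (.b 5) (.b 124)))))))))))))))),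
  (.c 0 (.tw (.c 0 (.b 13) (.s13 (.tw (.s12 (.s13 (.c 0 (.b 284) (.c 0 (.b 136) (.b 29))))))))) (.s13 (.tw (.c 0 (.s12 (.s13 (.tw (.c 0 (.b 136) (.s13 (.tw (.s12 (.s13 (.c 0 (.b 13) (.b 546)))))))))) (.tw (.s12 (.s13 (.tw (.c 0 (.s13 (.tw (.c 0 (.b 24) (.s13 (.tw (.s12 (.s13 (.c 0 (.b 44) (.b 1))))))))) (.s13 (.tw (.c 0 (.tw (.c 0 (.b 63) (.b 136))) (.s13 (.tw (.c 0 (.b 5) (.b 124)))))))))))))))),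
  (.tw (.c 0 (.tw (.c 0 (.b 13) (.s13 (.tw (.s12 (.s13 (.c 0 (.b 136) (.c 0 (.b 1) (.s13 (.tw (.s13 (.c 0 (.b 1) (.b 21))))))))))))) (.s13 (.tw (.c 0 (.s13 (.tw (.c 0 (.b 693) (.s13 (.tw (.c 0 (.b 82) (.b 26))))))) (.tw (.s13 (.tw (.c 0 (.s13 (.tw (.c 0 (.b 136) (.b 44)))) (.tw (.s12 (.s13 (.tw (.c 0 (.b 95) (.s13 (.tw (.c 0 (.b 44) (.b 12)))))))))))))))))),
  (.tw (.c 0 (.tw (.c 0 (.b 284) (.s13 (.tw (.s12 (.s13 (.c 0 (.b 63) (.b 93)))))))) (.s13 (.tw (.c 0 (.s12 (.s13 (.tw (.c 0 (.b 136) (.s13 (.tw (.s12 (.s13 (.c 0 (.b 13) (.b 337)))))))))) (.s12 (.s13 (.tw (.c 0 (.s13 (.tw (.s12 (.c 0 (.b 693) (.tw (.s12 (.s13 (.tw (.c 0 (.b 5) (.b 247)))))))))) (.s13 (.tw (.c 0 (.b 136) (.b 44))))))))))))),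
  (.c 0 (.tw (.c 0 (.b 348) (.s13 (.tw (.s12 (.s13 (.c 0 (.b 23) (.b 21)))))))) (.s13 (.tw (.c 0 (.s12 (.s13 (.tw (.s12 (.c 0 (.b 136) (.b 147)))))) (.tw (.s12 (.s13 (.tw (.c 0 (.s13 (.tw (.c 0 (.b 24) (.s13 (.tw (.s12 (.s13 (.c 0 (.b 14) (.b 44))))))))) (.s13 (.tw (.c 0 (.tw (.c 0 (.b 63) (.b 136))) (.s13 (.tw (.c 0 (.b 5) (.b 5)))))))))))))))),
  (.c 0 (.tw (.c 0 (.b 348) (.s13 (.tw (.s12 (.s13 (.c 0 (.b 13) (.c 0 (.b 63) (.b 159))))))))) (.s13 (.tw (.c 0 (.s12 (.s13 (.tw (.s12 (.c 0 (.b 136) (.b 147)))))) (.tw (.s12 (.s13 (.tw (.c 0 (.s13 (.tw (.c 0 (.b 24) (.s13 (.tw (.s12 (.s13 (.c 0 (.b 14) (.b 44))))))))) (.s13 (.tw (.c 0 (.tw (.c 0 (.b 63) (.b 136))) (.s13 (.tw (.c 0 (.b 5) (.b 5)))))))))))))))),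
  (.tw (.c 0 (.tw (.c 0 (.b 284) (.s13 (.tw (.s12 (.s13 (.c 0 (.b 63) (.b 93)))))))) (.s13 (.tw (.c 0 (.s12 (.s13 (.tw (.c 0 (.b 304) (.s13 (.tw (.s12 (.s13 (.c 0 (.b 13) (.b 337)))))))))) (.tw (.s12 (.s13 (.tw (.c 0 (.s13 (.tw (.c 0 (.b 136) (.tw (.s12 (.s13 (.tw (.c 0 (.b 63) (.b 381))))))))) (.s13 (.tw (.c 0 (.s13 (.tw (.c 0 (.b 124) (.b 247)))) (.b 5)))))))))))))),
  (.c 0 (.tw (.c 0 (.b 13) (.s13 (.tw (.s12 (.s13 (.c 0 (.b 284) (.c 0 (.b 136) (.b 29))))))))) (.s13 (.c 0 (.tw (.c 0 (.s13 (.tw (.c 0 (.b 14) (.s13 (.tw (.s12 (.s13 (.c 0 (.b 14) (.c 0 (.b 63) (.b 136)))))))))) (.tw (.s13 (.tw (.c 0 (.s13 (.tw (.c 0 (.b 5) (.s13 (.tw (.c 0 (.b 82) (.b 5))))))) (.s13 (.tw (.c 0 (.b 24) (.b 44)))))))))) (.b 1)))),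
  (.c 0 (.tw (.c 0 (.b 13) (.s13 (.tw (.s12 (.s13 (.c 0 (.b 284) (.c 0 (.b 136) (.b 29))))))))) (.s13 (.tw (.c 0 (.s12 (.s13 (.tw (.s12 (.c 0 (.b 136) (.b 147)))))) (.tw (.s12 (.s13 (.tw (.c 0 (.s13 (.tw (.c 0 (.b 24) (.s13 (.tw (.s12 (.s13 (.c 0 (.b 14) (.b 44))))))))) (.s13 (.tw (.c 0 (.tw (.c 0 (.b 63) (.b 136))) (.s13 (.tw (.c 0 (.b 5) (.b 5)))))))))))))))),
  (.c 0 (.tw (.c 0 (.b 13) (.s13 (.tw (.s12 (.s13 (.c 0 (.b 13) (.c 0 (.b 14) (.s13 (.tw (.s12 (.s13 (.c 0 (.b 381) (.b 381)))))))))))))) (.s13 (.tw (.c 0 (.s12 (.s13 (.tw (.s12 (.c 0 (.b 13) (.b 546)))))) (.tw (.s12 (.s13 (.tw (.c 0 (.s13 (.tw (.c 0 (.b 24) (.s13 (.tw (.s12 (.s13 (.c 0 (.b 14) (.b 44))))))))) (.s13 (.tw (.c 0 (.s13 (.tw (.c 0 (.b 44) (.b 1)))) (.s13 (.tw (.c 0 (.b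 5) (.b 5)))))))))))))))),
  (.c 0 (.tw (.c 0 (.b 13) (.s13 (.tw (.s12 (.s13 (.c 0 (.b 13) (.c 0 (.b 14) (.s13 (.tw (.s12 (.s13 (.c 0 (.b 381) (.b 381)))))))))))))) (.s13 (.tw (.c 0 (.s13 (.tw (.c 0 (.b 14) (.s13 (.tw (.s12 (.s13 (.c 0 (.b 14) (.c 0 (.b 63) (.b 136)))))))))) (.tw (.s13 (.tw (.c 0 (.s13 (.tw (.c 0 (.b 5) (.s13 (.tw (.c 0 (.b 82) (.b 5))))))) (.s13 (.tw (.c 0 (.b 24) (.b 44)))))))))))),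
  (.tw (.c 0 (.tw (.c 0 (.b 345) (.tw (.s12 (.s13 (.tw (.c 0 (.tw (.s13 (.tw (.c 0 (.b 239) (.b 1))))) (.b 207)))))))) (.s13 (.tw (.c 0 (.tw (.s13 (.tw (.c 0 (.b 67) (.s13 (.tw (.s13 (.c 0 (.b 14) (.b 44))))))))) (.tw (.s12 (.s13 (.tw (.c 0 (.tw (.c 0 (.b 136) (.b 136))) (.s13 (.tw (.c 0 (.s13 (.tw (.c 0 (.b 63) (.b 24)))) (.s13 (.tw (.c 0 (.b 14) (.b 180))))))))))))))))),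
  (.tw (.c 0 (.s12 (.s13 (.tw (.s12 (.c 0 (.b 284) (.s13 (.tw (.s12 (.s13 (.c 0 (.b 63) (.s13 (.tw (.s12 (.s13 (.c 0 (.b 284) (.b 27)))))))))))))))) (.s13 (.tw (.s12 (.c 0 (.s13 (.tw (.c 0 (.b 14) (.s13 (.tw (.s12 (.s13 (.c 0 (.b 14) (.c 0 (.b 136) (.b 136)))))))))) (.tw (.s12 (.s13 (.tw (.c 0 (.s12 (.s13 (.tw (.c 0 (.b 136) (.tw (.s12 (.s13 (.tw (.c 0 (.b 63) (.b 381)))))))))) (.s13 (.tw (.s12 (.c 0 (.b 5) (.tw (.s12 (.s13 (.tw (.c 0 (.b 58) (.b 247))))))))))))))))))))),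
  (.tw (.c 0 (.tw (.c 0 (.b 284) (.s13 (.tw (.s12 (.s13 (.c 0 (.b 63) (.b 93)))))))) (.s13 (.tw (.c 0 (.s13 (.tw (.c 0 (.b 14) (.tw (.s12 (.s13 (.tw (.c 0 (.b 136) (.b 536))))))))) (.tw (.s12 (.s13 (.tw (.c 0 (.s13 (.tw (.c 0 (.s13 (.tw (.c 0 (.b 124) (.b 247)))) (.s13 (.tw (.s12 (.c 0 (.b 239) (.b 1)))))))) (.s13 (.tw (.c 0 (.b 136) (.b 44)))))))))))))),
  (.c 0 (.tw (.c 0 (.b 348) (.s13 (.tw (.s12 (.s13 (.c 0 (.b 23) (.b 21)))))))) (.s13 (.tw (.c 0 (.s12 (.s13 (.tw (.c 0 (.b 13) (.s13 (.tw (.s12 (.s13 (.c 0 (.b 136) (.b 598)))))))))) (.tw (.s12 (.s13 (.tw (.c 0 (.s13 (.tw (.c 0 (.b 136) (.b 44)))) (.s13 (.tw (.s12 (.s13 (.c 0 (.s12 (.s13 (.tw (.c 0 (.b 44) (.b 1))))) (.s13 (.tw (.s13 (.c 0 (.b 5) (.b 124))))))))))))))))))),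
  (.tw (.c 0 (.tw (.c 0 (.b 284) (.s13 (.tw (.s12 (.s13 (.c 0 (.b 63) (.b 93)))))))) (.s13 (.tw (.c 0 (.s13 (.tw (.c 0 (.b 14) (.tw (.s12 (.s13 (.tw (.c 0 (.b 136) (.b 536))))))))) (.tw (.s12 (.s13 (.tw (.c 0 (.s13 (.tw (.c 0 (.s13 (.tw (.c 0 (.b 124) (.b 247)))) (.s13 (.tw (.c 0 (.b 63) (.b 381))))))) (.s13 (.tw (.c 0 (.b 136) (.b 44)))))))))))))),
  (.c 0 (.tw (.c 0 (.b 348) (.s13 (.tw (.s12 (.s13 (.c 0 (.b 13) (.c 0 (.b 63) (.b 159))))))))) (.s13 (.tw (.c 0 (.s12 (.s13 (.tw (.c 0 (.b 13) (.s13 (.tw (.s12 (.s13 (.c 0 (.b 136) (.b 598)))))))))) (.tw (.s12 (.s13 (.tw (.c 0 (.s13 (.tw (.c 0 (.b 136) (.b 44)))) (.s13 (.tw (.s12 (.s13 (.c 0 (.s12 (.s13 (.tw (.c 0 (.b 44) (.b 1))))) (.s13 (.tw (.s13 (.c 0 (.b 5) (.b 124))))))))))))))))))),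
  (.c 0 (.tw (.c 0 (.b 311) (.s13 (.tw (.s12 (.s13 (.c 0 (.b 23) (.b 21)))))))) (.tw (.c 0 (.s13 (.tw (.c 0 (.b 140) (.s13 (.tw (.s12 (.s13 (.c 0 (.b 14) (.b 591))))))))) (.s12 (.s13 (.tw (.c 0 (.s13 (.tw (.s12 (.c 0 (.b 124) (.b 44))))) (.s13 (.tw (.s12 (.s13 (.c 0 (.b 5) (.c 0 (.b 5) (.b 63)))))))))))))),
  (.c 0 (.tw (.c 0 (.b 13) (.s13 (.tw (.s12 (.s13 (.c 0 (.b 284) (.c 0 (.b 136) (.b 29))))))))) (.s13 (.c 0 (.tw (.c 0 (.s13 (.tw (.c 0 (.b 136) (.s13 (.tw (.s12 (.s13 (.c 0 (.b 13) (.b 139))))))))) (.tw (.s13 (.tw (.c 0 (.s13 (.tw (.c 0 (.b 5) (.s13 (.tw (.c 0 (.b 384) (.b 5))))))) (.s13 (.tw (.c 0 (.b 24) (.b 44)))))))))) (.b 1)))),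
  (.c 0 (.tw (.c 0 (.b 13) (.s13 (.tw (.s12 (.s13 (.c 0 (.b 284) (.c 0 (.b 136) (.b 29))))))))) (.s13 (.tw (.c 0 (.s12 (.s13 (.tw (.c 0 (.b 13) (.s13 (.tw (.s12 (.s13 (.c 0 (.b 136) (.b 598)))))))))) (.tw (.s12 (.s13 (.tw (.c 0 (.s13 (.tw (.c 0 (.b 136) (.b 44)))) (.s13 (.tw (.s12 (.s13 (.c 0 (.s12 (.s13 (.tw (.c 0 (.b 44) (.b 1))))) (.s13 (.tw (.s13 (.c 0 (.b 5) (.b 124))))))))))))))))))),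
  (.c 0 (.tw (.c 0 (.b 13) (.s13 (.tw (.s12 (.s13 (.c 0 (.b 13) (.c 0 (.b 14) (.s13 (.tw (.s12 (.s13 (.c 0 (.b 381) (.b 381)))))))))))))) (.s13 (.tw (.c 0 (.s13 (.tw (.c 0 (.b 136) (.s13 (.tw (.s12 (.s13 (.c 0 (.b 13) (.b 139))))))))) (.tw (.s13 (.tw (.c 0 (.s13 (.tw (.c 0 (.b 5) (.s13 (.tw (.c 0 (.b 384) (.b 5))))))) (.s13 (.tw (.c 0 (.b 24) (.b 44)))))))))))),
  (.c 0 (.tw (.c 0 (.b 14) (.s13 (.tw (.s12 (.s13 (.c 0 (.b 13) (.s13 (.tw (.s12 (.s13 (.c 0 (.b 136) (.s13 (.tw (.s12 (.s13 (.c 0 (.b 63) (.b 369)))))))))))))))))) (.s12 (.s13 (.tw (.c 0 (.s13 (.tw (.c 0 (.b 13) (.s13 (.tw (.s13 (.c 0 (.b 14) (.s13 (.tw (.s12 (.s13 (.c 0 (.b 266) (.b 26))))))))))))) (.s13 (.tw (.c 0 (.s13 (.tw (.c 0 (.b 136) (.b 44)))) (.s13 (.tw (.s13 (.c 0 (.b 5)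 (.c 0 (.b 5) (.b 26)))))))))))))),
  (.tw (.c 0 (.tw (.c 0 (.b 284) (.s13 (.tw (.s12 (.s13 (.c 0 (.b 63) (.b 93)))))))) (.s13 (.tw (.c 0 (.s12 (.s13 (.tw (.c 0 (.b 460) (.s13 (.tw (.c 0 (.b 227) (.b 26)))))))) (.tw (.s12 (.s13 (.tw (.c 0 (.s13 (.tw (.s12 (.c 0 (.b 136) (.b 405))))) (.s13 (.tw (.c 0 (.b 73) (.s13 (.tw (.c 0 (.b 5) (.b 124))))))))))))))))),
  (.c 0 (.tw (.c 0 (.b 19) (.s13 (.tw (.s12 (.s13 (.c 0 (.b 538) (.s13 (.tw (.s12 (.s13 (.c 0 (.b 63) (.b 159))))))))))))) (.s13 (.tw (.c 0 (.s13 (.tw (.c 0 (.b 57) (.s13 (.tw (.s12 (.s13 (.c 0 (.b 63) (.b 612))))))))) (.tw (.s13 (.tw (.c 0 (.s13 (.tw (.c 0 (.b 136) (.b 44)))) (.s13 (.tw (.c 0 (.b 143) (.s13 (.tw (.c 0 (.b 384) (.b 5))))))))))))))),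
  (.tw (.c 0 (.s12 (.s13 (.tw (.s12 (.c 0 (.b 284) (.s13 (.tw (.s12 (.s13 (.c 0 (.b 63) (.s13 (.tw (.s12 (.s13 (.c 0 (.b 284) (.b 27)))))))))))))))) (.s13 (.tw (.s12 (.c 0 (.s13 (.tw (.c 0 (.b 14) (.s13 (.tw (.s12 (.s13 (.c 0 (.b 136) (.b 351))))))))) (.tw (.s12 (.s13 (.tw (.c 0 (.s13 (.tw (.c 0 (.s13 (.tw (.c 0 (.b 124) (.b 247)))) (.s13 (.tw (.c 0 (.b 63) (.b 381))))))) (.s13 (.tw (.c 0 (.b 136) (.b 536))))))))))))))),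
  (.tw (.c 0 (.tw (.c 0 (.b 284) (.s13 (.tw (.s12 (.s13 (.c 0 (.b 63) (.b 93)))))))) (.s13 (.tw (.c 0 (.s12 (.s13 (.tw (.c 0 (.b 304) (.s13 (.tw (.s12 (.s13 (.c 0 (.b 13) (.b 337)))))))))) (.tw (.s12 (.s13 (.tw (.c 0 (.s13 (.tw (.c 0 (.b 136) (.tw (.s12 (.s13 (.tw (.c 0 (.b 63) (.b 381))))))))) (.s13 (.tw (.c 0 (.s13 (.tw (.c 0 (.b 124) (.b 247)))) (.b 143)))))))))))))),
  (.c 0 (.tw (.c 0 (.b 13) (.s13 (.tw (.s12 (.s13 (.c 0 (.b 284) (.c 0 (.b 136) (.b 29))))))))) (.s13 (.tw (.c 0 (.tw (.c 0 (.b 13) (.b 172))) (.s12 (.s13 (.tw (.c 0 (.s13 (.tw (.s12 (.c 0 (.b 267) (.c 0 (.b 136) (.b 136)))))) (.s13 (.tw (.s12 (.c 0 (.s13 (.tw (.c 0 (.b 14) (.b 44)))) (.s13 (.tw (.c 0 (.b 5) (.b 5)))))))))))))))),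
  (.c 0 (.tw (.c 0 (.b 348) (.s13 (.tw (.s12 (.s13 (.c 0 (.b 13) (.c 0 (.b 63) (.b 159))))))))) (.s13 (.tw (.c 0 (.s12 (.s13 (.tw (.c 0 (.b 136) (.s13 (.tw (.s12 (.s13 (.c 0 (.b 13) (.b 546)))))))))) (.tw (.s12 (.s13 (.tw (.c 0 (.s13 (.tw (.c 0 (.b 136) (.b 44)))) (.tw (.s12 (.s13 (.tw (.c 0 (.s12 (.s13 (.tw (.c 0 (.b 63) (.b 24))))) (.s13 (.tw (.c 0 (.b 176) (.b 5)))))))))))))))))),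
  (.tw (.c 0 (.tw (.c 0 (.b 284) (.s13 (.tw (.s12 (.s13 (.c 0 (.b 63) (.b 93)))))))) (.s13 (.tw (.c 0 (.s13 (.tw (.c 0 (.b 693) (.tw (.s12 (.s13 (.tw (.c 0 (.b 601) (.b 26))))))))) (.s12 (.s13 (.tw (.c 0 (.s13 (.tw (.c 0 (.b 136) (.b 536)))) (.s13 (.tw (.s13 (.s12 (.c 0 (.b 95) (.s13 (.tw (.c 0 (.b 44) (.b 12)))))))))))))))))),
  (.c 0 (.tw (.c 0 (.b 13) (.s13 (.tw (.s12 (.s13 (.c 0 (.b 284) (.c 0 (.b 136) (.b 29))))))))) (.s13 (.c 0 (.tw (.c 0 (.s13 (.tw (.c 0 (.b 14) (.s13 (.tw (.s12 (.s13 (.c 0 (.b 381) (.b 351))))))))) (.tw (.s13 (.tw (.c 0 (.s13 (.tw (.c 0 (.b 5) (.s13 (.tw (.c 0 (.b 82) (.b 5))))))) (.s13 (.tw (.c 0 (.b 24) (.b 44)))))))))) (.b 1)))),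
  (.c 0 (.tw (.c 0 (.b 13) (.s13 (.tw (.s12 (.s13 (.c 0 (.b 284) (.c 0 (.b 136) (.b 29))))))))) (.s13 (.tw (.c 0 (.s12 (.s13 (.tw (.c 0 (.b 136) (.s13 (.tw (.s12 (.s13 (.c 0 (.b 13) (.b 546)))))))))) (.tw (.s12 (.s13 (.tw (.c 0 (.s13 (.tw (.c 0 (.b 136) (.b 44)))) (.tw (.s12 (.s13 (.tw (.c 0 (.s12 (.s13 (.tw (.c 0 (.b 63) (.b 24))))) (.s13 (.tw (.c 0 (.b 176) (.b 5)))))))))))))))))),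
  (.tw (.c 0 (.tw (.c 0 (.b 345) (.tw (.s12 (.s13 (.tw (.c 0 (.tw (.s13 (.tw (.c 0 (.b 239) (.b 1))))) (.b 207)))))))) (.s13 (.tw (.c 0 (.tw (.s13 (.tw (.c 0 (.b 67) (.s13 (.tw (.s13 (.c 0 (.b 14) (.b 44))))))))) (.s13 (.tw (.s12 (.s13 (.c 0 (.tw (.c 0 (.b 136) (.b 136))) (.s13 (.tw (.c 0 (.s13 (.tw (.c 0 (.b 14) (.b 44)))) (.b 247)))))))))))))),
  (.tw (.c 0 (.s12 (.s13 (.tw (.s12 (.c 0 (.b 284) (.s13 (.tw (.s12 (.s13 (.c 0 (.b 63) (.s13 (.tw (.s12 (.s13 (.c 0 (.b 284) (.b 27)))))))))))))))) (.s13 (.tw (.s12 (.c 0 (.s13 (.tw (.c 0 (.b 14) (.s13 (.tw (.s12 (.s13 (.c 0 (.b 136) (.b 351))))))))) (.s12 (.s13 (.c 0 (.tw (.c 0 (.b 693) (.tw (.s12 (.s13 (.tw (.c 0 (.b 63) (.b 272)))))))) (.s13 (.tw (.s13 (.c 0 (.b 70) (.b 45)))))))))))))),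
  (.tw (.c 0 (.tw (.c 0 (.b 284) (.s13 (.tw (.s12 (.s13 (.c 0 (.b 63) (.b 93)))))))) (.s13 (.tw (.c 0 (.s13 (.tw (.c 0 (.b 14) (.tw (.s12 (.s13 (.tw (.c 0 (.b 136) (.b 536))))))))) (.tw (.s12 (.s13 (.tw (.c 0 (.s13 (.tw (.c 0 (.s13 (.tw (.c 0 (.b 124) (.b 247)))) (.s13 (.tw (.c 0 (.b 63) (.b 381))))))) (.s13 (.tw (.c 0 (.b 14) (.c 0 (.b 136) (.b 136))))))))))))))),
  (.c 0 (.tw (.c 0 (.b 348) (.s13 (.tw (.s12 (.s13 (.c 0 (.b 23) (.b 21)))))))) (.s13 (.tw (.c 0 (.s12 (.s13 (.tw (.c 0 (.b 13) (.s13 (.tw (.s12 (.s13 (.c 0 (.b 14) (.s13 (.tw (.s12 (.s13 (.c 0 (.b 381) (.b 136))))))))))))))) (.tw (.s12 (.s13 (.tw (.c 0 (.s13 (.tw (.c 0 (.b 136) (.b 44)))) (.s13 (.tw (.s12 (.s13 (.c 0 (.s12 (.s13 (.tw (.c 0 (.b 44) (.b 1))))) (.s13 (.tw (.s13 (.c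 0 (.b 5) (.b 124))))))))))))))))))),
  (.tw (.c 0 (.tw (.c 0 (.b 284) (.s13 (.tw (.s12 (.s13 (.c 0 (.b 63) (.b 93)))))))) (.s13 (.tw (.c 0 (.s13 (.tw (.c 0 (.b 693) (.s13 (.tw (.c 0 (.b 200) (.b 26))))))) (.s12 (.s13 (.tw (.c 0 (.s13 (.tw (.c 0 (.b 63) (.c 0 (.b 136) (.b 136))))) (.s13 (.tw (.s13 (.s12 (.c 0 (.b 95) (.s13 (.tw (.c 0 (.b 44) (.b 12)))))))))))))))))),
  (.c 0 (.tw (.c 0 (.b 348) (.s13 (.tw (.s12 (.s13 (.c 0 (.b 13) (.c 0 (.b 63) (.b 159))))))))) (.s13 (.tw (.c 0 (.s12 (.s13 (.tw (.c 0 (.b 13) (.s13 (.tw (.s12 (.s13 (.c 0 (.b 14) (.s13 (.tw (.s12 (.s13 (.c 0 (.b 381) (.b 136))))))))))))))) (.tw (.s12 (.s13 (.tw (.c 0 (.s13 (.tw (.c 0 (.b 136) (.b 44)))) (.s13 (.tw (.s12 (.s13 (.c 0 (.s12 (.s13 (.tw (.c 0 (.b 44) (.b 1))))) (.s13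 (.tw (.s13 (.c 0 (.b 5) (.b 124))))))))))))))))))),
  (.c 0 (.tw (.c 0 (.b 13) (.s13 (.tw (.s12 (.s13 (.c 0 (.b 13) (.c 0 (.b 14) (.s13 (.tw (.s12 (.s13 (.c 0 (.b 381) (.b 381)))))))))))))) (.s13 (.tw (.c 0 (.s13 (.tw (.c 0 (.b 57) (.s13 (.tw (.s12 (.s13 (.c 0 (.b 63) (.b 612))))))))) (.tw (.s13 (.tw (.c 0 (.s13 (.tw (.c 0 (.b 136) (.b 44)))) (.s13 (.tw (.c 0 (.b 143) (.s13 (.tw (.c 0 (.b 384) (.b 5))))))))))))))),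
  (.c 0 (.tw (.c 0 (.b 13) (.s13 (.tw (.s12 (.s13 (.c 0 (.b 284) (.c 0 (.b 136) (.b 29))))))))) (.s13 (.c 0 (.tw (.c 0 (.s13 (.tw (.c 0 (.b 57) (.s13 (.tw (.s12 (.s13 (.c 0 (.b 57) (.b 44))))))))) (.tw (.s13 (.tw (.c 0 (.s13 (.tw (.c 0 (.b 5) (.s13 (.tw (.c 0 (.b 384) (.b 5))))))) (.s13 (.tw (.c 0 (.b 24) (.b 44)))))))))) (.b 1)))),
  (.c 0 (.tw (.c 0 (.b 13) (.s13 (.tw (.s12 (.s13 (.c 0 (.b 284) (.c 0 (.b 136) (.b 29))))))))) (.s13 (.tw (.c 0 (.s12 (.s13 (.tw (.c 0 (.b 13) (.s13 (.tw (.s12 (.s13 (.c 0 (.b 14) (.s13 (.tw (.s12 (.s13 (.c 0 (.b 381) (.b 136))))))))))))))) (.tw (.s12 (.s13 (.tw (.c 0 (.s13 (.tw (.c 0 (.b 136) (.b 44)))) (.s13 (.tw (.s12 (.s13 (.c 0 (.s12 (.s13 (.tw (.c 0 (.b 44) (.b 1))))) (.s13 (.tw (.s13 (.c 0 (.b 5) (.b 124))))))))))))))))))),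
  (.c 0 (.tw (.c 0 (.b 13) (.s13 (.tw (.s12 (.s13 (.c 0 (.b 13) (.c 0 (.b 14) (.s13 (.tw (.s12 (.s13 (.c 0 (.b 381) (.b 381)))))))))))))) (.s13 (.tw (.c 0 (.s13 (.tw (.c 0 (.b 57) (.s13 (.tw (.s12 (.s13 (.c 0 (.b 57) (.b 44))))))))) (.tw (.s13 (.tw (.c 0 (.s13 (.tw (.c 0 (.b 5) (.s13 (.tw (.c 0 (.b 384) (.b 5))))))) (.s13 (.tw (.c 0 (.b 24) (.b 44)))))))))))),
  (.tw (.c 0 (.tw (.c 0 (.tw (.s12 (.s13 (.tw (.c 0 (.b 23) (.s13 (.tw (.s12 (.s13 (.c 0 (.b 136) (.b 44))))))))))) (.b 55))) (.s13 (.tw (.c 0 (.s12 (.s13 (.tw (.c 0 (.b 136) (.s13 (.tw (.s12 (.s13 (.c 0 (.b 24) (.b 136)))))))))) (.tw (.s12 (.s13 (.tw (.c 0 (.tw (.c 0 (.b 136) (.b 136))) (.s12 (.s13 (.tw (.c 0 (.s13 (.tw (.c 0 (.b 24) (.b 136)))) (.s13 (.tw (.s12 (.c 0 (.b 13) (.b 400))))))))))))))))))),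
  (.tw (.c 0 (.tw (.c 0 (.b 284) (.s13 (.tw (.s12 (.s13 (.c 0 (.b 63) (.b 93)))))))) (.s13 (.tw (.c 0 (.s13 (.tw (.c 0 (.b 693) (.tw (.s12 (.s13 (.tw (.c 0 (.b 136) (.b 272))))))))) (.s13 (.c 0 (.s12 (.s13 (.tw (.s12 (.c 0 (.b 14) (.s13 (.tw (.s12 (.s13 (.c 0 (.b 136) (.b 351))))))))))) (.s13 (.tw (.s13 (.c 0 (.b 70) (.b 45)))))))))))),
  (.c 0 (.tw (.c 0 (.b 348) (.s13 (.tw (.s12 (.s13 (.c 0 (.b 23) (.b 21)))))))) (.s13 (.c 0 (.tw (.c 0 (.s13 (.tw (.c 0 (.b 58) (.s13 (.tw (.s12 (.s13 (.c 0 (.b 14) (.c 0 (.b 136) (.b 136)))))))))) (.tw (.s13 (.tw (.c 0 (.s13 (.tw (.c 0 (.b 24) (.b 44)))) (.tw (.s12 (.s13 (.tw (.c 0 (.b 5) (.s13 (.tw (.s12 (.s13 (.c 0 (.b 5) (.b 63))))))))))))))))) (.b 1)))),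
  (.c 0 (.tw (.c 0 (.b 348) (.s13 (.tw (.s12 (.s13 (.c 0 (.b 13) (.c 0 (.b 63) (.b 159))))))))) (.s13 (.c 0 (.tw (.c 0 (.s13 (.tw (.c 0 (.b 58) (.s13 (.tw (.s12 (.s13 (.c 0 (.b 14) (.c 0 (.b 136) (.b 136)))))))))) (.tw (.s13 (.tw (.c 0 (.s13 (.tw (.c 0 (.b 24) (.b 44)))) (.tw (.s12 (.s13 (.tw (.c 0 (.b 5) (.s13 (.tw (.s12 (.s13 (.c 0 (.b 5) (.b 63))))))))))))))))) (.b 1)))),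
  (.c 0 (.tw (.c 0 (.b 19) (.s13 (.tw (.s12 (.s13 (.c 0 (.b 538) (.s13 (.tw (.s12 (.s13 (.c 0 (.b 63) (.b 159))))))))))))) (.s13 (.tw (.c 0 (.s13 (.tw (.c 0 (.b 58) (.s13 (.tw (.s12 (.s13 (.c 0 (.b 14) (.c 0 (.b 136) (.b 136)))))))))) (.tw (.s13 (.tw (.c 0 (.s13 (.tw (.c 0 (.b 24) (.b 44)))) (.tw (.s12 (.s13 (.tw (.c 0 (.b 5) (.s13 (.tw (.s12 (.s13 (.c 0 (.b 5) (.b 63))))))))))))))))))),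
  (.c 0 (.tw (.c 0 (.b 13) (.s13 (.tw (.s12 (.s13 (.c 0 (.b 284) (.c 0 (.b 136) (.b 29))))))))) (.s13 (.c 0 (.tw (.c 0 (.s13 (.tw (.c 0 (.b 58) (.s13 (.tw (.s12 (.s13 (.c 0 (.b 14) (.c 0 (.b 136) (.b 136)))))))))) (.tw (.s13 (.tw (.c 0 (.s13 (.tw (.c 0 (.b 24) (.b 44)))) (.tw (.s12 (.s13 (.tw (.c 0 (.b 5) (.s13 (.tw (.s12 (.s13 (.c 0 (.b 5) (.b 63))))))))))))))))) (.b 1)))),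
  (.c 0 (.tw (.c 0 (.b 13) (.s13 (.tw (.s12 (.s13 (.c 0 (.b 13) (.c 0 (.b 14) (.s13 (.tw (.s12 (.s13 (.c 0 (.b 381) (.b 381)))))))))))))) (.s13 (.tw (.c 0 (.s13 (.tw (.c 0 (.b 58) (.s13 (.tw (.s12 (.s13 (.c 0 (.b 14) (.c 0 (.b 136) (.b 136)))))))))) (.tw (.s13 (.tw (.c 0 (.s13 (.tw (.c 0 (.b 24) (.b 44)))) (.tw (.s12 (.s13 (.tw (.c 0 (.b 5) (.s13 (.tw (.s12 (.s13 (.c 0 (.b 5) (.b 63))))))))))))))))))),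
  (.tw (.c 0 (.tw (.c 0 (.b 311) (.s13 (.tw (.s13 (.c 0 (.b 443) (.b 147))))))) (.s13 (.tw (.c 0 (.tw (.s13 (.c 0 (.b 70) (.b 45)))) (.s13 (.c 0 (.tw (.s13 (.tw (.s13 (.c 0 (.b 67) (.s13 (.tw (.s13 (.c 0 (.b 14) (.b 44)))))))))) (.tw (.s12 (.s13 (.s12 (.c 0 (.b 67) (.s13 (.tw (.s13 (.c 0 (.b 14) (.b 44))))))))))))))))),
  (.c 0 (.tw (.c 0 (.tw (.s13 (.tw (.c 0 (.b 478) (.b 16))))) (.b 422))) (.tw (.c 0 (.tw (.s13 (.tw (.c 0 (.b 67) (.s13 (.tw (.s13 (.c 0 (.b 24) (.b 44))))))))) (.tw (.s12 (.s13 (.tw (.c 0 (.s13 (.tw (.s12 (.c 0 (.b 24) (.b 598))))) (.s13 (.tw (.c 0 (.b 5) (.c 0 (.b 5) (.b 26))))))))))))),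
  (.c 0 (.tw (.c 0 (.b 348) (.s13 (.tw (.s12 (.s13 (.c 0 (.b 23) (.b 21)))))))) (.tw (.c 0 (.tw (.s13 (.tw (.c 0 (.b 67) (.s13 (.tw (.s13 (.c 0 (.b 24) (.b 44))))))))) (.tw (.s12 (.s13 (.tw (.c 0 (.s13 (.tw (.s12 (.c 0 (.b 24) (.b 598))))) (.s13 (.tw (.c 0 (.b 5) (.c 0 (.b 5) (.b 26))))))))))))),
  (.c 0 (.tw (.c 0 (.b 348) (.s13 (.tw (.s12 (.s13 (.c 0 (.b 13) (.c 0 (.b 63) (.b 159))))))))) (.tw (.c 0 (.tw (.s13 (.tw (.c 0 (.b 67) (.s13 (.tw (.s13 (.c 0 (.b 24) (.b 44))))))))) (.tw (.s12 (.s13 (.tw (.c 0 (.s13 (.tw (.s12 (.c 0 (.b 24) (.b 598))))) (.s13 (.tw (.c 0 (.b 5) (.c 0 (.b 5) (.b 26))))))))))))),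
  (.c 0 (.tw (.c 0 (.b 13) (.s13 (.tw (.s12 (.s13 (.c 0 (.b 284) (.c 0 (.b 136) (.b 29))))))))) (.tw (.c 0 (.tw (.s13 (.tw (.c 0 (.b 67) (.s13 (.tw (.s13 (.c 0 (.b 24) (.b 44))))))))) (.tw (.s12 (.s13 (.tw (.c 0 (.s13 (.tw (.s12 (.c 0 (.b 24) (.b 598))))) (.s13 (.tw (.c 0 (.b 5) (.c 0 (.b 5) (.b 26))))))))))))),
  (.c 0 (.tw (.c 0 (.b 13) (.s13 (.tw (.s12 (.s13 (.c 0 (.b 284) (.c 0 (.b 136) (.b 29))))))))) (.s13 (.c 0 (.s13 (.tw (.c 0 (.tw (.s13 (.tw (.c 0 (.b 13) (.b 137))))) (.tw (.s12 (.s13 (.tw (.c 0 (.b 666) (.s13 (.tw (.s12 (.s13 (.c 0 (.b 136) (.c 0 (.b 136) (.b 136))))))))))))))) (.tw (.c 0 (.b 63) (.c 0 (.b 136) (.b 44))))))),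
  (.tw (.c 0 (.tw (.c 0 (.b 284) (.s13 (.tw (.s12 (.s13 (.c 0 (.b 63) (.b 93)))))))) (.s13 (.tw (.c 0 (.s12 (.s13 (.tw (.c 0 (.b 136) (.s13 (.tw (.s12 (.s13 (.c 0 (.b 13) (.b 546)))))))))) (.tw (.s12 (.s13 (.c 0 (.tw (.c 0 (.b 273) (.s13 (.tw (.s12 (.s13 (.c 0 (.b 136) (.b 44)))))))) (.s13 (.tw (.s12 (.c 0 (.b 284) (.c 0 (.b 136) (.b 136))))))))))))))),
  (.c 0 (.tw (.c 0 (.b 13) (.s13 (.tw (.s12 (.s13 (.c 0 (.b 284) (.c 0 (.b 136) (.b 29))))))))) (.s13 (.c 0 (.s13 (.tw (.c 0 (.tw (.s13 (.tw (.c 0 (.b 13) (.b 137))))) (.tw (.s12 (.s13 (.tw (.c 0 (.b 666) (.s13 (.tw (.s12 (.s13 (.c 0 (.b 136) (.c 0 (.b 136) (.b 136))))))))))))))) (.tw (.c 0 (.b 136) (.c 0 (.b 136) (.b 180))))))),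
  (.c 0 (.tw (.c 0 (.b 13) (.s13 (.tw (.s12 (.s13 (.c 0 (.b 284) (.c 0 (.b 136) (.b 29))))))))) (.s13 (.c 0 (.s13 (.tw (.c 0 (.tw (.s13 (.tw (.c 0 (.b 13) (.b 137))))) (.tw (.s12 (.s13 (.tw (.c 0 (.b 666) (.s13 (.tw (.s12 (.s13 (.c 0 (.b 136) (.c 0 (.b 136) (.b 136))))))))))))))) (.tw (.c 0 (.b 136) (.c 0 (.b 136) (.b 351))))))),
  (.c 0 (.tw (.c 0 (.b 13) (.s13 (.tw (.s12 (.s13 (.c 0 (.b 13) (.c 0 (.b 14) (.s13 (.tw (.s12 (.s13 (.c 0 (.b 381) (.b 381)))))))))))))) (.s13 (.tw (.c 0 (.tw (.c 0 (.b 63) (.b 44))) (.tw (.s13 (.tw (.c 0 (.s13 (.tw (.c 0 (.b 136) (.b 44)))) (.tw (.s12 (.s13 (.tw (.c 0 (.b 5) (.s13 (.tw (.s12 (.s13 (.c 0 (.b 348) (.s13 (.tw (.s12 (.s13 (.c 0 (.b 5) (.b 63)))))))))))))))))))))))),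
  (.tw (.c 0 (.tw (.c 0 (.b 284) (.s13 (.tw (.s12 (.s13 (.c 0 (.b 63) (.b 93)))))))) (.s13 (.c 0 (.tw (.c 0 (.tw (.s13 (.tw (.c 0 (.b 63) (.b 247))))) (.tw (.s13 (.tw (.c 0 (.b 273) (.s13 (.tw (.s12 (.s13 (.c 0 (.b 136) (.b 44)))))))))))) (.tw (.c 0 (.b 718) (.c 0 (.b 136) (.b 136)))))))),
  (.c 0 (.tw (.c 0 (.b 13) (.s13 (.tw (.s12 (.s13 (.c 0 (.b 284) (.c 0 (.b 136) (.b 29))))))))) (.s13 (.tw (.c 0 (.tw (.s12 (.s13 (.s12 (.c 0 (.b 14) (.b 526)))))) (.s12 (.s13 (.tw (.c 0 (.s13 (.tw (.s12 (.c 0 (.s13 (.tw (.c 0 (.b 14) (.b 44)))) (.s13 (.tw (.c 0 (.b 5) (.b 5)))))))) (.s13 (.tw (.c 0 (.b 180) (.b 44)))))))))))),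
  (.tw (.c 0 (.tw (.c 0 (.b 13) (.s13 (.tw (.s12 (.s13 (.c 0 (.b 136) (.c 0 (.b 1) (.s13 (.tw (.s13 (.c 0 (.b 1) (.b 21))))))))))))) (.s13 (.tw (.c 0 (.s13 (.tw (.c 0 (.s13 (.tw (.c 0 (.b 63) (.b 381)))) (.s13 (.tw (.c 0 (.b 124) (.b 200))))))) (.tw (.s13 (.c 0 (.tw (.c 0 (.b 273) (.s13 (.tw (.s12 (.s13 (.c 0 (.b 24) (.b 136)))))))) (.tw (.c 0 (.b 136) (.b 136))))))))))),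
  (.tw (.c 0 (.tw (.c 0 (.b 284) (.s13 (.tw (.s12 (.s13 (.c 0 (.b 63) (.b 93)))))))) (.s13 (.tw (.c 0 (.s12 (.s13 (.tw (.c 0 (.s13 (.tw (.s12 (.s13 (.c 0 (.b 14) (.c 0 (.b 136) (.b 136))))))) (.b 16))))) (.s12 (.s13 (.tw (.c 0 (.tw (.s13 (.tw (.s12 (.c 0 (.b 70) (.b 45)))))) (.s13 (.tw (.c 0 (.b 693) (.s13 (.tw (.c 0 (.b 5) (.b 26)))))))))))))))),
  (.c 0 (.tw (.c 0 (.b 348) (.s13 (.tw (.s12 (.s13 (.c 0 (.b 23) (.b 21)))))))) (.s13 (.tw (.c 0 (.s12 (.s13 (.tw (.c 0 (.b 13) (.b 207))))) (.tw (.s12 (.s13 (.tw (.c 0 (.s13 (.tw (.c 0 (.b 44) (.b 247)))) (.s13 (.tw (.c 0 (.tw (.c 0 (.b 63) (.b 136))) (.s13 (.tw (.c 0 (.b 5) (.b 5)))))))))))))))),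
  (.c 0 (.tw (.c 0 (.b 348) (.s13 (.tw (.s12 (.s13 (.c 0 (.b 13) (.c 0 (.b 63) (.b 159))))))))) (.s13 (.tw (.c 0 (.s12 (.s13 (.tw (.c 0 (.b 13) (.b 207))))) (.tw (.s12 (.s13 (.tw (.c 0 (.s13 (.tw (.c 0 (.b 44) (.b 247)))) (.s13 (.tw (.c 0 (.tw (.c 0 (.b 63) (.b 136))) (.s13 (.tw (.c 0 (.b 5) (.b 5)))))))))))))))),
  (.c 0 (.tw (.c 0 (.b 13) (.s13 (.tw (.s12 (.s13 (.c 0 (.b 284) (.c 0 (.b 136) (.b 29))))))))) (.s13 (.tw (.c 0 (.s12 (.s13 (.tw (.c 0 (.b 13) (.b 207))))) (.tw (.s12 (.s13 (.tw (.c 0 (.s13 (.tw (.c 0 (.b 44) (.b 247)))) (.s13 (.tw (.c 0 (.tw (.c 0 (.b 63) (.b 136))) (.s13 (.tw (.c 0 (.b 5) (.b 5)))))))))))))))),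
  (.tw (.c 0 (.tw (.c 0 (.b 13) (.s13 (.tw (.s12 (.s13 (.c 0 (.b 136) (.c 0 (.b 1) (.s13 (.tw (.s13 (.c 0 (.b 1) (.b 21))))))))))))) (.s13 (.tw (.c 0 (.tw (.s13 (.c 0 (.b 45) (.s12 (.s13 (.tw (.c 0 (.b 44) (.b 12)))))))) (.tw (.s13 (.tw (.c 0 (.s13 (.tw (.c 0 (.b 136) (.b 44)))) (.tw (.s12 (.s13 (.tw (.c 0 (.b 95) (.s13 (.tw (.c 0 (.b 44) (.b 12)))))))))))))))))),
  (.tw (.c 0 (.tw (.c 0 (.b 284) (.s13 (.tw (.s12 (.s13 (.c 0 (.b 63) (.b 93)))))))) (.s13 (.c 0 (.tw (.c 0 (.tw (.s12 (.s13 (.tw (.c 0 (.b 63) (.s13 (.tw (.s12 (.s13 (.c 0 (.b 63) (.b 24))))))))))) (.tw (.s13 (.tw (.c 0 (.b 304) (.s13 (.tw (.s12 (.s13 (.c 0 (.b 136) (.b 44)))))))))))) (.tw (.c 0 (.b 718) (.c 0 (.b 136) (.b 136)))))))),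
  (.c 0 (.tw (.c 0 (.b 348) (.s13 (.tw (.s12 (.s13 (.c 0 (.b 23) (.b 21)))))))) (.s13 (.tw (.c 0 (.s12 (.s13 (.tw (.s12 (.c 0 (.b 136) (.b 147)))))) (.s12 (.s13 (.tw (.c 0 (.s13 (.tw (.s12 (.c 0 (.s13 (.tw (.c 0 (.b 14) (.b 44)))) (.s13 (.tw (.c 0 (.b 5) (.b 5)))))))) (.s13 (.tw (.c 0 (.b 180) (.b 44)))))))))))),
  (.c 0 (.tw (.c 0 (.b 348) (.s13 (.tw (.s12 (.s13 (.c 0 (.b 13) (.c 0 (.b 63) (.b 159))))))))) (.s13 (.tw (.c 0 (.s12 (.s13 (.tw (.s12 (.c 0 (.b 136) (.b 147)))))) (.s12 (.s13 (.tw (.c 0 (.s13 (.tw (.s12 (.c 0 (.s13 (.tw (.c 0 (.b 14) (.b 44)))) (.s13 (.tw (.c 0 (.b 5) (.b 5)))))))) (.s13 (.tw (.c 0 (.b 180) (.b 44)))))))))))),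
  (.tw (.c 0 (.tw (.c 0 (.b 284) (.s13 (.tw (.s12 (.s13 (.c 0 (.b 63) (.b 93)))))))) (.s13 (.tw (.c 0 (.s12 (.s13 (.tw (.c 0 (.b 462) (.tw (.s12 (.s13 (.tw (.c 0 (.b 63) (.b 381)))))))))) (.tw (.s12 (.s13 (.tw (.c 0 (.tw (.c 0 (.b 136) (.b 462))) (.s13 (.tw (.c 0 (.s13 (.tw (.c 0 (.b 63) (.b 381)))) (.s13 (.tw (.c 0 (.b 5) (.b 26))))))))))))))))),
  (.c 0 (.tw (.c 0 (.b 13) (.s13 (.tw (.s12 (.s13 (.c 0 (.b 284) (.c 0 (.b 136) (.b 29))))))))) (.s13 (.c 0 (.tw (.c 0 (.s12 (.s13 (.tw (.c 0 (.b 13) (.b 546))))) (.tw (.s12 (.s13 (.tw (.c 0 (.s13 (.tw (.c 0 (.b 44) (.b 247)))) (.s13 (.tw (.c 0 (.s13 (.tw (.c 0 (.b 44) (.b 1)))) (.s13 (.tw (.c 0 (.b 5) (.b 5)))))))))))))) (.b 1)))),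
  (.c 0 (.tw (.c 0 (.b 13) (.s13 (.tw (.s12 (.s13 (.c 0 (.b 284) (.c 0 (.b 136) (.b 29))))))))) (.s13 (.tw (.c 0 (.s12 (.s13 (.tw (.s12 (.c 0 (.b 136) (.b 147)))))) (.s12 (.s13 (.tw (.c 0 (.s13 (.tw (.s12 (.c 0 (.s13 (.tw (.c 0 (.b 14) (.b 44)))) (.s13 (.tw (.c 0 (.b 5) (.b 5)))))))) (.s13 (.tw (.c 0 (.b 180) (.b 44)))))))))))),
  (.c 0 (.tw (.c 0 (.b 13) (.s13 (.tw (.s12 (.s13 (.c 0 (.b 13) (.c 0 (.b 14) (.s13 (.tw (.s12 (.s13 (.c 0 (.b 381) (.b 381)))))))))))))) (.s13 (.tw (.c 0 (.s12 (.s13 (.tw (.s12 (.c 0 (.b 13) (.b 546)))))) (.s12 (.s13 (.tw (.c 0 (.s13 (.tw (.s12 (.c 0 (.s13 (.tw (.c 0 (.b 14) (.b 44)))) (.s13 (.tw (.c 0 (.b 5) (.b 5)))))))) (.s13 (.tw (.s12 (.c 0 (.b 200) (.b 44))))))))))))),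
  (.c 0 (.tw (.c 0 (.b 13) (.s13 (.tw (.s12 (.s13 (.c 0 (.b 13) (.c 0 (.b 14) (.s13 (.tw (.s12 (.s13 (.c 0 (.b 381) (.b 381)))))))))))))) (.s13 (.tw (.c 0 (.s12 (.s13 (.tw (.c 0 (.b 13) (.b 546))))) (.tw (.s12 (.s13 (.tw (.c 0 (.s13 (.tw (.c 0 (.b 44) (.b 247)))) (.s13 (.tw (.c 0 (.s13 (.tw (.c 0 (.b 44) (.b 1)))) (.s13 (.tw (.c 0 (.b 5) (.b 5)))))))))))))))),
  (.tw (.c 0 (.tw (.c 0 (.b 284) (.s13 (.tw (.s12 (.s13 (.c 0 (.b 63) (.b 93)))))))) (.s13 (.c 0 (.tw (.c 0 (.tw (.s13 (.tw (.c 0 (.b 63) (.b 247))))) (.tw (.s13 (.tw (.c 0 (.b 273) (.s13 (.tw (.s12 (.s13 (.c 0 (.b 136) (.b 44)))))))))))) (.tw (.c 0 (.b 460) (.s13 (.tw (.s12 (.s13 (.c 0 (.b 136) (.b 351)))))))))))),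
  (.c 0 (.tw (.c 0 (.b 19) (.s13 (.tw (.s12 (.s13 (.c 0 (.b 538) (.s13 (.tw (.s12 (.s13 (.c 0 (.b 63) (.b 159))))))))))))) (.s13 (.tw (.c 0 (.s13 (.tw (.c 0 (.b 478) (.b 236)))) (.tw (.s13 (.tw (.c 0 (.s13 (.tw (.c 0 (.b 24) (.s13 (.tw (.s12 (.s13 (.c 0 (.b 44) (.b 1))))))))) (.s13 (.tw (.c 0 (.b 5) (.s13 (.tw (.c 0 (.b 5) (.b 124))))))))))))))),
  (.tw (.c 0 (.s12 (.s13 (.tw (.s12 (.c 0 (.b 284) (.s13 (.tw (.s12 (.s13 (.c 0 (.b 63) (.s13 (.tw (.s12 (.s13 (.c 0 (.b 284) (.b 27)))))))))))))))) (.s13 (.tw (.s12 (.c 0 (.s13 (.tw (.c 0 (.b 304) (.tw (.s12 (.s13 (.tw (.c 0 (.b 63) (.b 381))))))))) (.tw (.s12 (.s13 (.tw (.c 0 (.tw (.c 0 (.b 136) (.b 462))) (.s13 (.tw (.c 0 (.b 693) (.s13 (.tw (.c 0 (.b 5) (.b 465)))))))))))))))))),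
  (.tw (.c 0 (.tw (.c 0 (.b 284) (.s13 (.tw (.s12 (.s13 (.c 0 (.b 63) (.b 93)))))))) (.s13 (.c 0 (.tw (.c 0 (.tw (.s13 (.tw (.c 0 (.b 63) (.s13 (.tw (.s12 (.s13 (.c 0 (.b 63) (.b 44)))))))))) (.tw (.s13 (.tw (.c 0 (.b 284) (.s13 (.tw (.s12 (.s13 (.c 0 (.b 63) (.b 44)))))))))))) (.tw (.c 0 (.b 718) (.c 0 (.b 136) (.b 136)))))))),
  (.c 0 (.tw (.c 0 (.b 348) (.s13 (.tw (.s12 (.s13 (.c 0 (.b 23) (.b 21)))))))) (.s13 (.tw (.c 0 (.s12 (.s13 (.tw (.c 0 (.b 13) (.s13 (.tw (.s12 (.s13 (.c 0 (.b 13) (.b 546)))))))))) (.tw (.s12 (.s13 (.tw (.c 0 (.s13 (.tw (.c 0 (.tw (.c 0 (.b 63) (.b 136))) (.s13 (.tw (.c 0 (.b 5) (.b 5))))))) (.s13 (.tw (.c 0 (.b 200) (.b 44))))))))))))),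
  (.c 0 (.tw (.c 0 (.b 348) (.s13 (.tw (.s12 (.s13 (.c 0 (.b 13) (.c 0 (.b 63) (.b 159))))))))) (.s13 (.tw (.c 0 (.s12 (.s13 (.tw (.c 0 (.b 13) (.s13 (.tw (.s12 (.s13 (.c 0 (.b 13) (.b 546)))))))))) (.tw (.s12 (.s13 (.tw (.c 0 (.s13 (.tw (.c 0 (.tw (.c 0 (.b 63) (.b 136))) (.s13 (.tw (.c 0 (.b 5) (.b 5))))))) (.s13 (.tw (.c 0 (.b 200) (.b 44))))))))))))),
  (.tw (.c 0 (.tw (.c 0 (.b 284) (.s13 (.tw (.s12 (.s13 (.c 0 (.b 63) (.b 93)))))))) (.s13 (.tw (.c 0 (.s12 (.s13 (.tw (.c 0 (.b 709) (.tw (.s12 (.s13 (.tw (.c 0 (.b 124) (.b 247)))))))))) (.s13 (.tw (.c 0 (.s13 (.tw (.c 0 (.b 136) (.b 405)))) (.s13 (.tw (.s12 (.c 0 (.b 313) (.s13 (.tw (.c 0 (.b 44) (.b 1)))))))))))))))),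
  (.c 0 (.tw (.c 0 (.b 13) (.s13 (.tw (.s12 (.s13 (.c 0 (.b 284) (.c 0 (.b 136) (.b 29))))))))) (.s13 (.c 0 (.tw (.c 0 (.s13 (.tw (.c 0 (.b 136) (.b 236)))) (.tw (.s13 (.tw (.c 0 (.s13 (.tw (.c 0 (.b 200) (.s13 (.tw (.s12 (.s13 (.c 0 (.b 44) (.b 1))))))))) (.s13 (.tw (.c 0 (.b 5) (.s13 (.tw (.c 0 (.b 384) (.b 5))))))))))))) (.b 1)))),
  (.c 0 (.tw (.c 0 (.b 13) (.s13 (.tw (.s12 (.s13 (.c 0 (.b 284) (.c 0 (.b 136) (.b 29))))))))) (.s13 (.tw (.c 0 (.s12 (.s13 (.tw (.c 0 (.b 13) (.s13 (.tw (.s12 (.s13 (.c 0 (.b 13) (.b 546)))))))))) (.tw (.s12 (.s13 (.tw (.c 0 (.s13 (.tw (.c 0 (.tw (.c 0 (.b 63) (.b 136))) (.s13 (.tw (.c 0 (.b 5) (.b 5))))))) (.s13 (.tw (.c 0 (.b 200) (.b 44))))))))))))),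
  (.tw (.c 0 (.tw (.c 0 (.b 14) (.s13 (.tw (.s12 (.s13 (.c 0 (.b 478) (.s13 (.tw (.s12 (.s13 (.c 0 (.b 136) (.s13 (.tw (.s12 (.s13 (.c 0 (.b 63) (.b 381)))))))))))))))))) (.s13 (.tw (.c 0 (.s12 (.s13 (.tw (.c 0 (.b 13) (.b 337))))) (.c 0 (.s12 (.s13 (.tw (.c 0 (.b 136) (.b 351))))) (.s13 (.tw (.c 0 (.b 73) (.s13 (.tw (.c 0 (.b 5) (.b 5))))))))))))),
  (.tw (.c 0 (.s12 (.s13 (.tw (.s12 (.c 0 (.b 284) (.s13 (.tw (.s12 (.s13 (.c 0 (.b 63) (.s13 (.tw (.s12 (.s13 (.c 0 (.b 284) (.b 27)))))))))))))))) (.s13 (.tw (.s12 (.c 0 (.tw (.s13 (.c 0 (.b 70) (.b 45)))) (.tw (.s12 (.s13 (.tw (.c 0 (.tw (.c 0 (.b 136) (.b 462))) (.s13 (.tw (.c 0 (.b 693) (.s13 (.tw (.c 0 (.b 5) (.b 465)))))))))))))))))),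
  (.tw (.c 0 (.tw (.c 0 (.b 284) (.s13 (.tw (.s12 (.s13 (.c 0 (.b 63) (.b 93)))))))) (.s13 (.tw (.c 0 (.s13 (.tw (.c 0 (.b 311) (.s13 (.tw (.c 0 (.b 538) (.b 26))))))) (.s13 (.c 0 (.tw (.c 0 (.b 304) (.s13 (.tw (.s12 (.s13 (.c 0 (.b 63) (.b 44)))))))) (.s13 (.tw (.s13 (.c 0 (.b 70) (.b 45)))))))))))),
  (.c 0 (.tw (.c 0 (.b 348) (.s13 (.tw (.s12 (.s13 (.c 0 (.b 23) (.b 21)))))))) (.s13 (.tw (.c 0 (.s12 (.s13 (.tw (.c 0 (.b 13) (.b 93))))) (.tw (.s12 (.s13 (.tw (.c 0 (.s13 (.tw (.c 0 (.b 44) (.b 247)))) (.s13 (.tw (.c 0 (.tw (.c 0 (.b 63) (.b 136))) (.s13 (.tw (.c 0 (.b 5) (.b 5)))))))))))))))),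
  (.tw (.c 0 (.tw (.c 0 (.b 284) (.s13 (.tw (.s12 (.s13 (.c 0 (.b 63) (.b 93)))))))) (.s13 (.tw (.c 0 (.s13 (.tw (.c 0 (.b 693) (.tw (.s13 (.tw (.c 0 (.b 601) (.b 26)))))))) (.tw (.s13 (.tw (.c 0 (.s13 (.tw (.c 0 (.b 136) (.b 44)))) (.tw (.s12 (.s13 (.tw (.c 0 (.b 95) (.s13 (.tw (.c 0 (.b 44) (.b 12)))))))))))))))))),
  (.c 0 (.tw (.c 0 (.b 348) (.s13 (.tw (.s12 (.s13 (.c 0 (.b 13) (.c 0 (.b 63) (.b 159))))))))) (.s13 (.tw (.c 0 (.s12 (.s13 (.tw (.c 0 (.b 13) (.b 93))))) (.tw (.s12 (.s13 (.tw (.c 0 (.s13 (.tw (.c 0 (.b 44) (.b 247)))) (.s13 (.tw (.c 0 (.tw (.c 0 (.b 63) (.b 136))) (.s13 (.tw (.c 0 (.b 5) (.b 5)))))))))))))))),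
  (.c 0 (.tw (.c 0 (.b 13) (.s13 (.tw (.s12 (.s13 (.c 0 (.b 13) (.c 0 (.b 14) (.s13 (.tw (.s12 (.s13 (.c 0 (.b 381) (.b 381)))))))))))))) (.s13 (.tw (.c 0 (.s13 (.tw (.c 0 (.b 478) (.b 236)))) (.tw (.s13 (.tw (.c 0 (.s13 (.tw (.c 0 (.b 24) (.s13 (.tw (.s12 (.s13 (.c 0 (.b 44) (.b 1))))))))) (.s13 (.tw (.c 0 (.b 5) (.s13 (.tw (.c 0 (.b 5) (.b 124))))))))))))))),
  (.c 0 (.tw (.c 0 (.b 13) (.s13 (.tw (.s12 (.s13 (.c 0 (.b 284) (.c 0 (.b 136) (.b 29))))))))) (.s13 (.c 0 (.tw (.c 0 (.s13 (.tw (.c 0 (.b 14) (.s13 (.tw (.s12 (.s13 (.c 0 (.b 136) (.b 180))))))))) (.tw (.s13 (.tw (.c 0 (.s13 (.tw (.c 0 (.b 5) (.s13 (.tw (.c 0 (.b 384) (.b 5))))))) (.s13 (.tw (.c 0 (.b 200) (.b 44)))))))))) (.b 1)))),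
  (.c 0 (.tw (.c 0 (.b 13) (.s13 (.tw (.s12 (.s13 (.c 0 (.b 284) (.c 0 (.b 136) (.b 29))))))))) (.s13 (.tw (.c 0 (.s12 (.s13 (.tw (.c 0 (.b 13) (.b 93))))) (.tw (.s12 (.s13 (.tw (.c 0 (.s13 (.tw (.c 0 (.b 44) (.b 247)))) (.s13 (.tw (.c 0 (.tw (.c 0 (.b 63) (.b 136))) (.s13 (.tw (.c 0 (.b 5) (.b 5)))))))))))))))),
  (.c 0 (.tw (.c 0 (.b 13) (.s13 (.tw (.s12 (.s13 (.c 0 (.b 13) (.c 0 (.b 14) (.s13 (.tw (.s12 (.s13 (.c 0 (.b 381) (.b 381)))))))))))))) (.s13 (.tw (.c 0 (.s13 (.tw (.c 0 (.b 14) (.s13 (.tw (.s12 (.s13 (.c 0 (.b 136) (.b 180))))))))) (.tw (.s13 (.tw (.c 0 (.s13 (.tw (.c 0 (.b 5) (.s13 (.tw (.c 0 (.b 384) (.b 5))))))) (.s13 (.tw (.c 0 (.b 200) (.b 44)))))))))))),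
  (.tw (.c 0 (.tw (.c 0 (.b 478) (.s13 (.tw (.s12 (.s13 (.c 0 (.b 381) (.c 0 (.b 136) (.b 136))))))))) (.s13 (.tw (.c 0 (.s12 (.s13 (.tw (.c 0 (.b 136) (.b 270))))) (.s13 (.tw (.s12 (.s13 (.c 0 (.tw (.s12 (.c 0 (.b 13) (.b 236)))) (.s13 (.tw (.c 0 (.b 202) (.s13 (.tw (.c 0 (.b 5) (.b 5))))))))))))))))),
  (.tw (.c 0 (.tw (.c 0 (.b 284) (.s13 (.tw (.s12 (.s13 (.c 0 (.b 63) (.b 93)))))))) (.s13 (.tw (.c 0 (.s12 (.s13 (.tw (.c 0 (.b 143) (.tw (.s12 (.s13 (.tw (.c 0 (.b 5) (.b 247)))))))))) (.s13 (.tw (.c 0 (.s13 (.tw (.c 0 (.b 136) (.b 249)))) (.s13 (.tw (.s12 (.c 0 (.b 313) (.b 73))))))))))))),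
  (.c 0 (.tw (.c 0 (.b 348) (.s13 (.tw (.s12 (.s13 (.c 0 (.b 23) (.b 21)))))))) (.c 0 (.tw (.c 0 (.s12 (.s13 (.tw (.c 0 (.b 14) (.s13 (.tw (.s12 (.s13 (.c 0 (.b 136) (.s13 (.tw (.s12 (.s13 (.c 0 (.b 63) (.b 24))))))))))))))) (.s12 (.s13 (.tw (.c 0 (.s13 (.tw (.s12 (.c 0 (.b 381) (.b 44))))) (.s13 (.tw (.s13 (.c 0 (.b 5) (.c 0 (.b 5) (.b 63)))))))))))) (.b 1))),
  (.c 0 (.tw (.c 0 (.b 348) (.s13 (.tw (.s12 (.s13 (.c 0 (.b 13) (.c 0 (.b 63) (.b 159))))))))) (.c 0 (.tw (.c 0 (.s12 (.s13 (.tw (.c 0 (.b 14) (.s13 (.tw (.s12 (.s13 (.c 0 (.b 136) (.s13 (.tw (.s12 (.s13 (.c 0 (.b 63) (.b 24))))))))))))))) (.s12 (.s13 (.tw (.c 0 (.s13 (.tw (.s12 (.c 0 (.b 381) (.b 44))))) (.s13 (.tw (.s13 (.c 0 (.b 5) (.c 0 (.b 5) (.b 63)))))))))))) (.b 1))),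
  (.c 0 (.tw (.c 0 (.b 19) (.s13 (.tw (.s12 (.s13 (.c 0 (.b 538) (.s13 (.tw (.s12 (.s13 (.c 0 (.b 63) (.b 159))))))))))))) (.tw (.c 0 (.s12 (.s13 (.tw (.c 0 (.b 14) (.s13 (.tw (.s12 (.s13 (.c 0 (.b 136) (.s13 (.tw (.s12 (.s13 (.c 0 (.b 63) (.b 24))))))))))))))) (.s12 (.s13 (.tw (.c 0 (.s13 (.tw (.s12 (.c 0 (.b 381) (.b 44))))) (.s13 (.tw (.s13 (.c 0 (.b 5) (.c 0 (.b 5) (.b 63))))))))))))),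
  (.c 0 (.tw (.c 0 (.b 13) (.s13 (.tw (.s12 (.s13 (.c 0 (.b 284) (.c 0 (.b 136) (.b 29))))))))) (.c 0 (.tw (.c 0 (.s12 (.s13 (.tw (.c 0 (.b 14) (.s13 (.tw (.s12 (.s13 (.c 0 (.b 136) (.s13 (.tw (.s12 (.s13 (.c 0 (.b 63) (.b 24))))))))))))))) (.s12 (.s13 (.tw (.c 0 (.s13 (.tw (.s12 (.c 0 (.b 381) (.b 44))))) (.s13 (.tw (.s13 (.c 0 (.b 5) (.c 0 (.b 5) (.b 63)))))))))))) (.b 1))),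
  (.c 0 (.tw (.c 0 (.b 13) (.s13 (.tw (.s12 (.s13 (.c 0 (.b 13) (.c 0 (.b 14) (.s13 (.tw (.s12 (.s13 (.c 0 (.b 381) (.b 381)))))))))))))) (.tw (.c 0 (.s12 (.s13 (.tw (.c 0 (.b 14) (.s13 (.tw (.s12 (.s13 (.c 0 (.b 136) (.s13 (.tw (.s12 (.s13 (.c 0 (.b 63) (.b 24))))))))))))))) (.s12 (.s13 (.tw (.c 0 (.s13 (.tw (.s12 (.c 0 (.b 381) (.b 44))))) (.s13 (.tw (.s13 (.c 0 (.b 5) (.c 0 (.b 5) (.b 63))))))))))))),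
  (.tw (.c 0 (.tw (.c 0 (.b 13) (.s13 (.tw (.s12 (.s13 (.c 0 (.b 136) (.c 0 (.b 260) (.b 147))))))))) (.s13 (.tw (.c 0 (.tw (.s13 (.tw (.c 0 (.tw (.s12 (.c 0 (.b 176) (.b 12)))) (.s13 (.tw (.c 0 (.b 381) (.b 44)))))))) (.tw (.s12 (.s13 (.tw (.c 0 (.s13 (.tw (.c 0 (.b 136) (.b 44)))) (.tw (.s13 (.s12 (.c 0 (.b 67) (.b 247))))))))))))))),
  (.tw (.c 0 (.tw (.c 0 (.b 284) (.s13 (.tw (.s12 (.s13 (.c 0 (.b 63) (.b 93)))))))) (.s13 (.c 0 (.tw (.c 0 (.tw (.s13 (.tw (.c 0 (.b 63) (.s13 (.tw (.s12 (.s13 (.c 0 (.b 63) (.b 44)))))))))) (.tw (.s13 (.tw (.c 0 (.b 284) (.s13 (.tw (.s12 (.s13 (.c 0 (.b 63) (.b 44)))))))))))) (.tw (.c 0 (.b 460) (.s13 (.tw (.s12 (.s13 (.c 0 (.b 136) (.b 351)))))))))))),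
  (.c 0 (.tw (.c 0 (.b 348) (.s13 (.tw (.s12 (.s13 (.c 0 (.b 23) (.b 21)))))))) (.s13 (.tw (.c 0 (.s12 (.s13 (.tw (.c 0 (.b 136) (.s13 (.tw (.s12 (.s13 (.c 0 (.b 284) (.b 147)))))))))) (.tw (.s12 (.s13 (.tw (.c 0 (.s13 (.tw (.c 0 (.b 136) (.b 44)))) (.tw (.s12 (.s13 (.tw (.c 0 (.s12 (.s13 (.tw (.c 0 (.b 44) (.b 1))))) (.s13 (.tw (.s12 (.c 0 (.b 5) (.b 124))))))))))))))))))),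
  (.c 0 (.tw (.c 0 (.b 348) (.s13 (.tw (.s12 (.s13 (.c 0 (.b 13) (.c 0 (.b 63) (.b 159))))))))) (.s13 (.tw (.c 0 (.s12 (.s13 (.tw (.c 0 (.b 136) (.s13 (.tw (.s12 (.s13 (.c 0 (.b 284) (.b 147)))))))))) (.tw (.s12 (.s13 (.tw (.c 0 (.s13 (.tw (.c 0 (.b 136) (.b 44)))) (.tw (.s12 (.s13 (.tw (.c 0 (.s12 (.s13 (.tw (.c 0 (.b 44) (.b 1))))) (.s13 (.tw (.s12 (.c 0 (.b 5) (.b 124))))))))))))))))))),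
  (.tw (.c 0 (.tw (.c 0 (.b 14) (.s13 (.tw (.s12 (.s13 (.c 0 (.b 478) (.s13 (.tw (.s12 (.s13 (.c 0 (.b 136) (.s13 (.tw (.s12 (.s13 (.c 0 (.b 63) (.b 381)))))))))))))))))) (.s13 (.tw (.c 0 (.s12 (.s13 (.tw (.c 0 (.b 136) (.b 351))))) (.c 0 (.s13 (.tw (.c 0 (.b 136) (.b 462)))) (.tw (.s13 (.tw (.c 0 (.s13 (.tw (.s12 (.c 0 (.b 180) (.b 12))))) (.s13 (.tw (.c 0 (.b 44) (.b 12)))))))))))))),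
  (.tw (.c 0 (.tw (.c 0 (.b 478) (.s13 (.tw (.s12 (.s13 (.c 0 (.b 381) (.c 0 (.b 136) (.b 136))))))))) (.s13 (.c 0 (.tw (.c 0 (.tw (.s12 (.s13 (.tw (.c 0 (.b 348) (.s13 (.tw (.c 0 (.b 5) (.b 5))))))))) (.tw (.s13 (.tw (.c 0 (.s13 (.tw (.c 0 (.b 14) (.b 44)))) (.s12 (.s13 (.tw (.c 0 (.b 14) (.b 247))))))))))) (.b 63))))),
  (.tw (.c 0 (.tw (.c 0 (.b 284) (.s13 (.tw (.s12 (.s13 (.c 0 (.b 63) (.b 93)))))))) (.s13 (.tw (.c 0 (.s13 (.tw (.c 0 (.b 693) (.tw (.s13 (.tw (.c 0 (.b 601) (.b 26)))))))) (.tw (.s13 (.tw (.c 0 (.s13 (.tw (.c 0 (.b 14) (.c 0 (.b 136) (.b 136))))) (.tw (.s12 (.s13 (.tw (.c 0 (.b 95) (.s13 (.tw (.c 0 (.b 44) (.b 12)))))))))))))))))),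
  (.c 0 (.tw (.c 0 (.b 348) (.s13 (.tw (.s12 (.s13 (.c 0 (.b 23) (.b 21)))))))) (.s13 (.tw (.c 0 (.s12 (.s13 (.tw (.c 0 (.b 136) (.s13 (.tw (.s12 (.s13 (.c 0 (.b 13) (.b 546)))))))))) (.tw (.s12 (.s13 (.tw (.c 0 (.s13 (.tw (.c 0 (.b 136) (.b 44)))) (.s13 (.tw (.s12 (.s13 (.c 0 (.tw (.s13 (.tw (.c 0 (.b 202) (.s13 (.tw (.c 0 (.b 44) (.b 1)))))))) (.b 5))))))))))))))),
  (.tw (.c 0 (.tw (.c 0 (.b 284) (.s13 (.tw (.s12 (.s13 (.c 0 (.b 63) (.b 93)))))))) (.s13 (.tw (.c 0 (.s12 (.s13 (.tw (.c 0 (.b 143) (.tw (.s12 (.s13 (.tw (.c 0 (.b 124) (.b 247)))))))))) (.s13 (.tw (.c 0 (.s13 (.tw (.c 0 (.b 136) (.b 405)))) (.s13 (.tw (.s12 (.c 0 (.b 313) (.s13 (.tw (.c 0 (.b 44) (.b 1)))))))))))))))),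
  (.c 0 (.tw (.c 0 (.b 348) (.s13 (.tw (.s12 (.s13 (.c 0 (.b 13) (.c 0 (.b 63) (.b 159))))))))) (.s13 (.tw (.c 0 (.s12 (.s13 (.tw (.c 0 (.b 136) (.s13 (.tw (.s12 (.s13 (.c 0 (.b 13) (.b 546)))))))))) (.tw (.s12 (.s13 (.tw (.c 0 (.s13 (.tw (.c 0 (.b 136) (.b 44)))) (.s13 (.tw (.s12 (.s13 (.c 0 (.tw (.s13 (.tw (.c 0 (.b 202) (.s13 (.tw (.c 0 (.b 44) (.b 1)))))))) (.b 5))))))))))))))),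
  (.c 0 (.tw (.c 0 (.b 13) (.s13 (.tw (.s12 (.s13 (.c 0 (.b 284) (.c 0 (.b 136) (.b 29))))))))) (.s13 (.tw (.c 0 (.s12 (.s13 (.tw (.c 0 (.b 136) (.s13 (.tw (.s12 (.s13 (.c 0 (.b 284) (.b 147)))))))))) (.tw (.s12 (.s13 (.tw (.c 0 (.s13 (.tw (.c 0 (.b 136) (.b 44)))) (.tw (.s12 (.s13 (.tw (.c 0 (.s12 (.s13 (.tw (.c 0 (.b 44) (.b 1))))) (.s13 (.tw (.s12 (.c 0 (.b 5) (.b 124))))))))))))))))))),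
  (.c 0 (.tw (.c 0 (.b 13) (.s13 (.tw (.s12 (.s13 (.c 0 (.b 284) (.c 0 (.b 136) (.b 29))))))))) (.s13 (.c 0 (.tw (.c 0 (.s13 (.tw (.c 0 (.b 14) (.s13 (.tw (.s12 (.s13 (.c 0 (.b 63) (.b 536))))))))) (.tw (.s13 (.tw (.c 0 (.s13 (.tw (.c 0 (.b 5) (.s13 (.tw (.c 0 (.b 384) (.b 5))))))) (.s13 (.tw (.c 0 (.b 200) (.b 44)))))))))) (.b 1)))),
  (.c 0 (.tw (.c 0 (.b 13) (.s13 (.tw (.s12 (.s13 (.c 0 (.b 284) (.c 0 (.b 136) (.b 29))))))))) (.s13 (.tw (.c 0 (.s12 (.s13 (.tw (.c 0 (.b 136) (.s13 (.tw (.s12 (.s13 (.c 0 (.b 13) (.b 546)))))))))) (.tw (.s12 (.s13 (.tw (.c 0 (.s13 (.tw (.c 0 (.b 136) (.b 44)))) (.s13 (.tw (.s12 (.s13 (.c 0 (.tw (.s13 (.tw (.c 0 (.b 202) (.s13 (.tw (.c 0 (.b 44) (.b 1)))))))) (.b 5))))))))))))))),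
  (.tw (.c 0 (.tw (.c 0 (.b 478) (.s13 (.tw (.s12 (.s13 (.c 0 (.b 381) (.c 0 (.b 136) (.b 136))))))))) (.s13 (.tw (.c 0 (.s12 (.s13 (.tw (.c 0 (.b 136) (.b 270))))) (.s13 (.tw (.s12 (.s13 (.c 0 (.s13 (.tw (.s12 (.c 0 (.b 202) (.s12 (.s13 (.tw (.c 0 (.b 58) (.b 247))))))))) (.s13 (.tw (.c 0 (.b 136) (.s13 (.tw (.s12 (.s13 (.c 0 (.b 13) (.b 200))))))))))))))))))),
  (.tw (.c 0 (.tw (.c 0 (.b 284) (.s13 (.tw (.s12 (.s13 (.c 0 (.b 63) (.b 93)))))))) (.s13 (.tw (.c 0 (.tw (.s13 (.tw (.c 0 (.s13 (.tw (.c 0 (.b 136) (.b 462)))) (.s13 (.tw (.c 0 (.tw (.s13 (.tw (.c 0 (.b 124) (.b 247))))) (.s13 (.tw (.c 0 (.b 63) (.b 381))))))))))) (.tw (.s13 (.c 0 (.b 70) (.b 45))))))))),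
  (.c 0 (.tw (.c 0 (.b 348) (.s13 (.tw (.s12 (.s13 (.c 0 (.b 23) (.b 21)))))))) (.c 0 (.tw (.c 0 (.s12 (.s13 (.tw (.c 0 (.b 164) (.s13 (.tw (.s12 (.s13 (.c 0 (.b 63) (.b 44)))))))))) (.s12 (.s13 (.tw (.c 0 (.s13 (.tw (.s12 (.c 0 (.b 381) (.b 44))))) (.s13 (.tw (.s13 (.c 0 (.b 5) (.c 0 (.b 5) (.b 63)))))))))))) (.b 1))),
  (.c 0 (.tw (.c 0 (.b 348) (.s13 (.tw (.s12 (.s13 (.c 0 (.b 13) (.c 0 (.b 63) (.b 159))))))))) (.c 0 (.tw (.c 0 (.s12 (.s13 (.tw (.c 0 (.b 164) (.s13 (.tw (.s12 (.s13 (.c 0 (.b 63) (.b 44)))))))))) (.s12 (.s13 (.tw (.c 0 (.s13 (.tw (.s12 (.c 0 (.b 381) (.b 44))))) (.s13 (.tw (.s13 (.c 0 (.b 5) (.c 0 (.b 5) (.b 63)))))))))))) (.b 1))),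
  (.c 0 (.tw (.c 0 (.b 19) (.s13 (.tw (.s12 (.s13 (.c 0 (.b 538) (.s13 (.tw (.s12 (.s13 (.c 0 (.b 63) (.b 159))))))))))))) (.tw (.c 0 (.s12 (.s13 (.tw (.c 0 (.b 164) (.s13 (.tw (.s12 (.s13 (.c 0 (.b 63) (.b 44)))))))))) (.s12 (.s13 (.tw (.c 0 (.s13 (.tw (.s12 (.c 0 (.b 381) (.b 44))))) (.s13 (.tw (.s13 (.c 0 (.b 5) (.c 0 (.b 5) (.b 63))))))))))))),
  (.c 0 (.tw (.c 0 (.b 13) (.s13 (.tw (.s12 (.s13 (.c 0 (.b 284) (.c 0 (.b 136) (.b 29))))))))) (.c 0 (.tw (.c 0 (.s12 (.s13 (.tw (.c 0 (.b 164) (.s13 (.tw (.s12 (.s13 (.c 0 (.b 63) (.b 44)))))))))) (.s12 (.s13 (.tw (.c 0 (.s13 (.tw (.s12 (.c 0 (.b 381) (.b 44))))) (.s13 (.tw (.s13 (.c 0 (.b 5) (.c 0 (.b 5) (.b 63)))))))))))) (.b 1))),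
  (.c 0 (.tw (.c 0 (.b 13) (.s13 (.tw (.s12 (.s13 (.c 0 (.b 13) (.c 0 (.b 14) (.s13 (.tw (.s12 (.s13 (.c 0 (.b 381) (.b 381)))))))))))))) (.tw (.c 0 (.s12 (.s13 (.tw (.c 0 (.b 164) (.s13 (.tw (.s12 (.s13 (.c 0 (.b 63) (.b 44)))))))))) (.s12 (.s13 (.tw (.c 0 (.s13 (.tw (.s12 (.c 0 (.b 381) (.b 44))))) (.s13 (.tw (.s13 (.c 0 (.b 5) (.c 0 (.b 5) (.b 63))))))))))))),
  (.tw (.c 0 (.tw (.c 0 (.b 14) (.s13 (.tw (.s12 (.s13 (.c 0 (.b 14) (.c 0 (.b 304) (.s13 (.tw (.s12 (.s13 (.c 0 (.b 63) (.b 369)))))))))))))) (.s13 (.tw (.c 0 (.s12 (.s13 (.tw (.c 0 (.b 136) (.b 351))))) (.s12 (.s13 (.s12 (.c 0 (.tw (.s13 (.tw (.s12 (.c 0 (.b 70) (.b 45)))))) (.s13 (.tw (.s12 (.c 0 (.b 143) (.tw (.s12 (.s13 (.tw (.c 0 (.b 58) (.b 44))))))))))))))))))),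
  (.c 0 (.tw (.c 0 (.tw (.s13 (.tw (.c 0 (.b 478) (.b 16))))) (.b 422))) (.tw (.c 0 (.s12 (.s13 (.tw (.c 0 (.b 14) (.s13 (.tw (.s12 (.s13 (.c 0 (.b 136) (.s13 (.tw (.s12 (.s13 (.c 0 (.b 63) (.b 24))))))))))))))) (.tw (.s12 (.s13 (.tw (.c 0 (.s13 (.tw (.c 0 (.b 136) (.b 44)))) (.s13 (.tw (.s12 (.s13 (.c 0 (.b 320) (.s13 (.tw (.c 0 (.b 384) (.b 5))))))))))))))))),
  (.c 0 (.tw (.c 0 (.b 348) (.s13 (.tw (.s12 (.s13 (.c 0 (.b 23) (.b 21)))))))) (.tw (.c 0 (.s12 (.s13 (.tw (.c 0 (.b 14) (.s13 (.tw (.s12 (.s13 (.c 0 (.b 136) (.s13 (.tw (.s12 (.s13 (.c 0 (.b 63) (.b 24))))))))))))))) (.tw (.s12 (.s13 (.tw (.c 0 (.s13 (.tw (.c 0 (.b 136) (.b 44)))) (.s13 (.tw (.s12 (.s13 (.c 0 (.b 320) (.s13 (.tw (.c 0 (.b 384) (.b 5))))))))))))))))),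
  (.c 0 (.tw (.c 0 (.b 348) (.s13 (.tw (.s12 (.s13 (.c 0 (.b 13) (.c 0 (.b 63) (.b 159))))))))) (.tw (.c 0 (.s12 (.s13 (.tw (.c 0 (.b 14) (.s13 (.tw (.s12 (.s13 (.c 0 (.b 136) (.s13 (.tw (.s12 (.s13 (.c 0 (.b 63) (.b 24))))))))))))))) (.tw (.s12 (.s13 (.tw (.c 0 (.s13 (.tw (.c 0 (.b 136) (.b 44)))) (.s13 (.tw (.s12 (.s13 (.c 0 (.b 320) (.s13 (.tw (.c 0 (.b 384) (.b 5))))))))))))))))),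
  (.c 0 (.tw (.c 0 (.b 13) (.s13 (.tw (.s12 (.s13 (.c 0 (.b 284) (.c 0 (.b 136) (.b 29))))))))) (.tw (.c 0 (.s12 (.s13 (.tw (.c 0 (.b 14) (.s13 (.tw (.s12 (.s13 (.c 0 (.b 136) (.s13 (.tw (.s12 (.s13 (.c 0 (.b 63) (.b 24))))))))))))))) (.tw (.s12 (.s13 (.tw (.c 0 (.s13 (.tw (.c 0 (.b 136) (.b 44)))) (.s13 (.tw (.s12 (.s13 (.c 0 (.b 320) (.s13 (.tw (.c 0 (.b 384) (.b 5))))))))))))))))),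
  (.c 0 (.tw (.c 0 (.b 14) (.s13 (.tw (.s12 (.s13 (.c 0 (.b 14) (.c 0 (.b 304) (.tw (.s12 (.s13 (.tw (.c 0 (.b 63) (.b 381)))))))))))))) (.s13 (.tw (.c 0 (.tw (.c 0 (.tw (.s12 (.s13 (.tw (.c 0 (.b 63) (.b 172)))))) (.b 14))) (.tw (.s12 (.s13 (.tw (.c 0 (.s13 (.tw (.c 0 (.b 63) (.b 44)))) (.tw (.s12 (.s13 (.tw (.c 0 (.b 5) (.s12 (.s13 (.tw (.c 0 (.b 5) (.b 192))))))))))))))))))),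
  (.c 0 (.tw (.c 0 (.b 14) (.s13 (.tw (.s12 (.s13 (.c 0 (.b 14) (.c 0 (.b 304) (.tw (.s12 (.s13 (.tw (.c 0 (.b 63) (.b 381)))))))))))))) (.s13 (.tw (.c 0 (.s12 (.s13 (.tw (.c 0 (.b 567) (.b 422))))) (.tw (.s12 (.s13 (.tw (.c 0 (.s13 (.tw (.c 0 (.b 63) (.b 44)))) (.s13 (.tw (.s12 (.s13 (.c 0 (.b 5) (.s13 (.tw (.s12 (.s13 (.c 0 (.b 5) (.b 136)))))))))))))))))))),
  (.c 0 (.tw (.c 0 (.b 14) (.s13 (.tw (.s12 (.s13 (.c 0 (.b 14) (.c 0 (.b 304) (.tw (.s12 (.s13 (.tw (.c 0 (.b 63) (.b 381)))))))))))))) (.tw (.c 0 (.s13 (.tw (.c 0 (.b 284) (.tw (.s12 (.s13 (.tw (.c 0 (.b 63) (.b 381))))))))) (.s12 (.s13 (.tw (.c 0 (.s13 (.tw (.s13 (.s12 (.c 0 (.b 99) (.b 247)))))) (.s13 (.tw (.s13 (.s12 (.c 0 (.b 5) (.c 0 (.b 63) (.b 124)))))))))))))),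
  (.tw (.c 0 (.tw (.c 0 (.b 14) (.s13 (.tw (.s12 (.s13 (.c 0 (.b 478) (.s13 (.tw (.s12 (.s13 (.c 0 (.b 136) (.s13 (.tw (.s12 (.s13 (.c 0 (.b 63) (.b 381)))))))))))))))))) (.s13 (.tw (.c 0 (.s12 (.s13 (.tw (.c 0 (.b 14) (.c 0 (.b 136) (.b 136)))))) (.tw (.s13 (.tw (.s13 (.c 0 (.tw (.c 0 (.b 284) (.s13 (.tw (.s12 (.s13 (.c 0 (.b 63) (.b 44)))))))) (.s12 (.s13 (.tw (.s12 (.c 0 (.b 136) (.tw (.s12 (.s13 (.tw (.c 0 (.b 63) (.b 381))))))))))))))))))))),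
  (.tw (.c 0 (.tw (.c 0 (.b 478) (.s13 (.tw (.s12 (.s13 (.c 0 (.b 381) (.c 0 (.b 136) (.b 136))))))))) (.s13 (.tw (.c 0 (.tw (.s12 (.s13 (.tw (.c 0 (.b 13) (.s13 (.tw (.s13 (.s12 (.c 0 (.b 381) (.b 381))))))))))) (.s12 (.s13 (.tw (.s12 (.c 0 (.tw (.s12 (.s13 (.s12 (.c 0 (.b 67) (.s13 (.tw (.s13 (.c 0 (.b 14) (.b 44)))))))))) (.s12 (.s13 (.tw (.s12 (.c 0 (.tw (.s12 (.s13 (.tw (.c 0 (.b 136) (.b 200)))))) (.b 136)))))))))))))))),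
  (.tw (.c 0 (.tw (.c 0 (.b 284) (.s13 (.tw (.s12 (.s13 (.c 0 (.b 63) (.b 93)))))))) (.tw (.s13 (.s12 (.c 0 (.s13 (.tw (.s12 (.c 0 (.b 693) (.s13 (.tw (.s12 (.s13 (.c 0 (.s13 (.tw (.c 0 (.b 63) (.b 381)))) (.tw (.s12 (.s13 (.tw (.c 0 (.b 124) (.b 247))))))))))))))) (.s13 (.tw (.s12 (.c 0 (.b 684) (.s13 (.tw (.s12 (.s13 (.c 0 (.b 14) (.c 0 (.b 136) (.b 136))))))))))))))))),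
  (.c 0 (.tw (.c 0 (.b 348) (.s13 (.tw (.s12 (.s13 (.c 0 (.b 23) (.b 21)))))))) (.s13 (.tw (.c 0 (.s12 (.s13 (.tw (.c 0 (.b 136) (.s13 (.tw (.s12 (.s13 (.c 0 (.b 284) (.b 147)))))))))) (.tw (.s12 (.s13 (.tw (.c 0 (.s13 (.tw (.c 0 (.b 136) (.b 44)))) (.s13 (.tw (.s12 (.s13 (.c 0 (.s12 (.s13 (.tw (.c 0 (.b 44) (.b 1))))) (.s13 (.tw (.c 0 (.b 384) (.b 5)))))))))))))))))),
  (.tw (.c 0 (.tw (.c 0 (.b 13) (.s13 (.tw (.s12 (.s13 (.c 0 (.b 13) (.c 0 (.b 136) (.s13 (.tw (.s12 (.s13 (.c 0 (.b 13) (.b 138)))))))))))))) (.s13 (.tw (.c 0 (.tw (.s13 (.tw (.c 0 (.tw (.s12 (.c 0 (.b 176) (.b 12)))) (.s13 (.tw (.c 0 (.b 381) (.b 44)))))))) (.tw (.s12 (.s13 (.tw (.c 0 (.s13 (.tw (.c 0 (.b 136) (.b 44)))) (.tw (.s13 (.s12 (.c 0 (.b 67) (.b 247))))))))))))))),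
  (.c 0 (.tw (.c 0 (.b 348) (.s13 (.tw (.s12 (.s13 (.c 0 (.b 13) (.c 0 (.b 63) (.b 159))))))))) (.s13 (.tw (.c 0 (.s12 (.s13 (.tw (.c 0 (.b 136) (.s13 (.tw (.s12 (.s13 (.c 0 (.b 284) (.b 147)))))))))) (.tw (.s12 (.s13 (.tw (.c 0 (.s13 (.tw (.c 0 (.b 136) (.b 44)))) (.s13 (.tw (.s12 (.s13 (.c 0 (.s12 (.s13 (.tw (.c 0 (.b 44) (.b 1))))) (.s13 (.tw (.c 0 (.b 384) (.b 5)))))))))))))))))),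
  (.c 0 (.tw (.c 0 (.b 311) (.s13 (.tw (.s12 (.s13 (.c 0 (.b 23) (.b 21)))))))) (.tw (.c 0 (.s12 (.s13 (.tw (.c 0 (.b 14) (.s13 (.tw (.s12 (.s13 (.c 0 (.b 63) (.b 536)))))))))) (.s12 (.s13 (.tw (.c 0 (.s13 (.tw (.s12 (.c 0 (.b 44) (.b 247))))) (.s13 (.tw (.s12 (.c 0 (.b 5) (.c 0 (.b 124) (.b 124))))))))))))),
  (.tw (.c 0 (.tw (.c 0 (.b 478) (.s13 (.tw (.s12 (.s13 (.c 0 (.b 381) (.c 0 (.b 136) (.b 136))))))))) (.s13 (.c 0 (.tw (.c 0 (.tw (.s12 (.s13 (.tw (.c 0 (.b 348) (.s13 (.tw (.c 0 (.b 5) (.b 5))))))))) (.tw (.s13 (.tw (.c 0 (.b 348) (.s13 (.tw (.c 0 (.b 5) (.b 5)))))))))) (.b 63))))),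
  (.tw (.c 0 (.tw (.c 0 (.b 14) (.s13 (.tw (.s12 (.s13 (.c 0 (.b 14) (.c 0 (.b 304) (.s13 (.tw (.s12 (.s13 (.c 0 (.b 63) (.b 369)))))))))))))) (.s13 (.tw (.c 0 (.s12 (.s13 (.tw (.c 0 (.b 14) (.c 0 (.b 136) (.b 136)))))) (.s13 (.tw (.s12 (.s13 (.c 0 (.s12 (.s13 (.tw (.c 0 (.b 136) (.b 351))))) (.s13 (.tw (.c 0 (.b 143) (.s13 (.tw (.c 0 (.b 5) (.b 200))))))))))))))))),
  (.c 0 (.tw (.c 0 (.b 348) (.s13 (.tw (.s12 (.s13 (.c 0 (.b 23) (.b 21)))))))) (.c 0 (.tw (.c 0 (.s13 (.tw (.c 0 (.b 304) (.s13 (.tw (.s12 (.s13 (.c 0 (.b 63) (.b 44))))))))) (.tw (.s12 (.s13 (.tw (.c 0 (.s13 (.tw (.c 0 (.b 63) (.b 44)))) (.s13 (.tw (.s12 (.s13 (.c 0 (.b 5) (.tw (.s13 (.tw (.c 0 (.s13 (.tw (.c 0 (.b 24) (.b 26)))) (.b 13))))))))))))))))) (.b 1))),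
  (.c 0 (.tw (.c 0 (.b 348) (.s13 (.tw (.s12 (.s13 (.c 0 (.b 13) (.c 0 (.b 63) (.b 159))))))))) (.c 0 (.tw (.c 0 (.s13 (.tw (.c 0 (.b 304) (.s13 (.tw (.s12 (.s13 (.c 0 (.b 63) (.b 44))))))))) (.tw (.s12 (.s13 (.tw (.c 0 (.s13 (.tw (.c 0 (.b 63) (.b 44)))) (.s13 (.tw (.s12 (.s13 (.c 0 (.b 5) (.tw (.s13 (.tw (.c 0 (.s13 (.tw (.c 0 (.b 24) (.b 26)))) (.b 13))))))))))))))))) (.b 1))),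
  (.c 0 (.tw (.c 0 (.b 13) (.s13 (.tw (.s12 (.s13 (.c 0 (.b 284) (.c 0 (.b 136) (.b 29))))))))) (.s13 (.tw (.c 0 (.s12 (.s13 (.tw (.c 0 (.b 136) (.s13 (.tw (.s12 (.s13 (.c 0 (.b 284) (.b 147)))))))))) (.tw (.s12 (.s13 (.tw (.c 0 (.s13 (.tw (.c 0 (.b 136) (.b 44)))) (.s13 (.tw (.s12 (.s13 (.c 0 (.s12 (.s13 (.tw (.c 0 (.b 44) (.b 1))))) (.s13 (.tw (.c 0 (.b 384) (.b 5)))))))))))))))))),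
  (.c 0 (.tw (.c 0 (.b 13) (.s13 (.tw (.s12 (.s13 (.c 0 (.b 284) (.c 0 (.b 136) (.b 29))))))))) (.c 0 (.tw (.c 0 (.s13 (.tw (.c 0 (.b 304) (.s13 (.tw (.s12 (.s13 (.c 0 (.b 63) (.b 44))))))))) (.tw (.s12 (.s13 (.tw (.c 0 (.s13 (.tw (.c 0 (.b 63) (.b 44)))) (.s13 (.tw (.s12 (.s13 (.c 0 (.b 5) (.tw (.s13 (.tw (.c 0 (.s13 (.tw (.c 0 (.b 24) (.b 26)))) (.b 13))))))))))))))))) (.b 1))),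
  (.tw (.c 0 (.tw (.c 0 (.b 14) (.s13 (.tw (.s12 (.s13 (.c 0 (.b 14) (.c 0 (.b 304) (.s13 (.tw (.s12 (.s13 (.c 0 (.b 63) (.b 369)))))))))))))) (.s13 (.tw (.c 0 (.tw (.s13 (.tw (.c 0 (.b 210) (.s13 (.tw (.c 0 (.b 5) (.b 381)))))))) (.s13 (.tw (.c 0 (.tw (.c 0 (.b 136) (.b 136))) (.s13 (.tw (.c 0 (.b 5) (.b 247)))))))))))),
  (.c 0 (.tw (.c 0 (.tw (.s13 (.tw (.c 0 (.b 478) (.b 16))))) (.b 422))) (.tw (.c 0 (.s12 (.s13 (.tw (.c 0 (.b 164) (.s13 (.tw (.s12 (.s13 (.c 0 (.b 63) (.b 44)))))))))) (.tw (.s12 (.s13 (.tw (.c 0 (.s13 (.tw (.c 0 (.b 136) (.b 44)))) (.s13 (.tw (.s12 (.s13 (.c 0 (.b 320) (.s13 (.tw (.c 0 (.b 384) (.b 5))))))))))))))))),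
  (.c 0 (.tw (.c 0 (.b 348) (.s13 (.tw (.s12 (.s13 (.c 0 (.b 23) (.b 21)))))))) (.tw (.c 0 (.s12 (.s13 (.tw (.c 0 (.b 164) (.s13 (.tw (.s12 (.s13 (.c 0 (.b 63) (.b 44)))))))))) (.tw (.s12 (.s13 (.tw (.c 0 (.s13 (.tw (.c 0 (.b 136) (.b 44)))) (.s13 (.tw (.s12 (.s13 (.c 0 (.b 320) (.s13 (.tw (.c 0 (.b 384) (.b 5))))))))))))))))),
  (.c 0 (.tw (.c 0 (.b 348) (.s13 (.tw (.s12 (.s13 (.c 0 (.b 13) (.c 0 (.b 63) (.b 159))))))))) (.tw (.c 0 (.s12 (.s13 (.tw (.c 0 (.b 164) (.s13 (.tw (.s12 (.s13 (.c 0 (.b 63) (.b 44)))))))))) (.tw (.s12 (.s13 (.tw (.c 0 (.s13 (.tw (.c 0 (.b 136) (.b 44)))) (.s13 (.tw (.s12 (.s13 (.c 0 (.b 320) (.s13 (.tw (.c 0 (.b 384) (.b 5))))))))))))))))),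
  (.c 0 (.tw (.c 0 (.b 13) (.s13 (.tw (.s12 (.s13 (.c 0 (.b 284) (.c 0 (.b 136) (.b 29))))))))) (.tw (.c 0 (.s12 (.s13 (.tw (.c 0 (.b 164) (.s13 (.tw (.s12 (.s13 (.c 0 (.b 63) (.b 44)))))))))) (.tw (.s12 (.s13 (.tw (.c 0 (.s13 (.tw (.c 0 (.b 136) (.b 44)))) (.s13 (.tw (.s12 (.s13 (.c 0 (.b 320) (.s13 (.tw (.c 0 (.b 384) (.b 5))))))))))))))))),
  (.c 0 (.tw (.c 0 (.b 14) (.s13 (.tw (.s12 (.s13 (.c 0 (.b 13) (.s13 (.tw (.s12 (.s13 (.c 0 (.b 136) (.s13 (.tw (.s12 (.s13 (.c 0 (.b 63) (.b 369)))))))))))))))))) (.s13 (.tw (.c 0 (.s12 (.s13 (.tw (.c 0 (.b 567) (.b 177))))) (.s12 (.s13 (.tw (.c 0 (.s13 (.tw (.s13 (.s12 (.c 0 (.b 5) (.s13 (.tw (.c 0 (.b 5) (.b 124))))))))) (.s13 (.tw (.c 0 (.b 180) (.b 44)))))))))))),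
  (.c 0 (.tw (.c 0 (.b 14) (.s13 (.tw (.s12 (.s13 (.c 0 (.b 13) (.s13 (.tw (.s12 (.s13 (.c 0 (.b 136) (.s13 (.tw (.s12 (.s13 (.c 0 (.b 63) (.b 369)))))))))))))))))) (.s12 (.s13 (.tw (.c 0 (.s12 (.s13 (.tw (.c 0 (.b 136) (.s13 (.tw (.s12 (.s13 (.c 0 (.b 63) (.b 369)))))))))) (.tw (.s12 (.s13 (.tw (.c 0 (.s13 (.tw (.c 0 (.tw (.c 0 (.b 5) (.b 1))) (.b 247)))) (.tw (.s12 (.s13 (.tw (.c 0 (.s12 (.s13 (.tw (.c 0 (.b 5) (.b 1))))) (.b 247)))))))))))))))),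
  (.c 0 (.tw (.c 0 (.b 14) (.s13 (.tw (.s12 (.s13 (.c 0 (.b 13) (.s13 (.tw (.s12 (.s13 (.c 0 (.b 136) (.s13 (.tw (.s12 (.s13 (.c 0 (.b 63) (.b 369)))))))))))))))))) (.s12 (.s13 (.tw (.s12 (.c 0 (.s13 (.tw (.c 0 (.b 136) (.s13 (.tw (.s12 (.s13 (.c 0 (.b 63) (.b 369))))))))) (.tw (.s12 (.s13 (.tw (.c 0 (.tw (.s12 (.s13 (.tw (.c 0 (.b 202) (.s13 (.tw (.s12 (.s13 (.c 0 (.b 693) (.b 5))))))))))) (.s13 (.tw (.c 0 (.b 63) (.b 44))))))))))))))),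
  (.c 0 (.tw (.c 0 (.b 14) (.s13 (.tw (.s12 (.s13 (.c 0 (.b 14) (.c 0 (.b 304) (.tw (.s12 (.s13 (.tw (.c 0 (.b 63) (.b 381)))))))))))))) (.s13 (.tw (.c 0 (.s12 (.s13 (.tw (.c 0 (.tw (.s12 (.s13 (.tw (.c 0 (.b 13) (.b 239)))))) (.b 29))))) (.tw (.s12 (.s13 (.tw (.c 0 (.s13 (.tw (.c 0 (.b 63) (.b 44)))) (.s13 (.tw (.s12 (.s13 (.c 0 (.b 5) (.tw (.s13 (.tw (.c 0 (.b 5) (.b 284))))))))))))))))))),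
  (.c 0 (.tw (.c 0 (.b 14) (.s13 (.tw (.s12 (.s13 (.c 0 (.b 14) (.c 0 (.b 304) (.tw (.s12 (.s13 (.tw (.c 0 (.b 63) (.b 381)))))))))))))) (.tw (.c 0 (.s12 (.s13 (.tw (.c 0 (.b 247) (.s13 (.tw (.s13 (.c 0 (.b 24) (.b 200))))))))) (.s13 (.tw (.c 0 (.s13 (.tw (.c 0 (.b 57) (.b 44)))) (.s13 (.tw (.s13 (.c 0 (.b 5) (.b 272))))))))))),
  (.c 0 (.tw (.c 0 (.b 136) (.s13 (.tw (.s12 (.s13 (.c 0 (.b 136) (.c 0 (.b 136) (.b 249))))))))) (.c 0 (.tw (.c 0 (.s13 (.tw (.c 0 (.b 247) (.s13 (.tw (.c 0 (.b 24) (.b 24))))))) (.tw (.s12 (.s13 (.tw (.c 0 (.s13 (.tw (.s13 (.c 0 (.b 5) (.b 272))))) (.s13 (.tw (.c 0 (.b 24) (.b 41))))))))))) (.b 1))),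
  (.c 0 (.tw (.c 0 (.b 13) (.s13 (.tw (.s12 (.s13 (.c 0 (.b 284) (.c 0 (.b 136) (.b 29))))))))) (.s13 (.tw (.c 0 (.tw (.s12 (.c 0 (.b 63) (.b 239)))) (.tw (.s12 (.s13 (.tw (.c 0 (.s13 (.tw (.c 0 (.b 136) (.b 44)))) (.tw (.s12 (.s13 (.tw (.c 0 (.tw (.s13 (.tw (.c 0 (.b 58) (.b 247))))) (.s13 (.tw (.c 0 (.b 82) (.b 5)))))))))))))))))),
  (.tw (.c 0 (.tw (.c 0 (.b 13) (.s13 (.tw (.s12 (.s13 (.c 0 (.b 57) (.s13 (.tw (.s12 (.s13 (.c 0 (.b 381) (.b 478))))))))))))) (.s13 (.tw (.c 0 (.s13 (.tw (.c 0 (.b 136) (.b 236)))) (.tw (.s13 (.tw (.c 0 (.s13 (.tw (.c 0 (.b 304) (.tw (.s12 (.s13 (.tw (.c 0 (.b 63) (.b 381))))))))) (.s13 (.tw (.c 0 (.s13 (.tw (.c 0 (.b 63) (.b 381)))) (.s13 (.tw (.c 0 (.b 5) (.b 26)))))))))))))))),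
  (.c 0 (.tw (.c 0 (.b 13) (.s13 (.tw (.s12 (.s13 (.c 0 (.b 284) (.c 0 (.b 136) (.b 29))))))))) (.s13 (.tw (.c 0 (.tw (.s12 (.s13 (.s12 (.c 0 (.b 14) (.b 526)))))) (.tw (.s12 (.s13 (.tw (.c 0 (.s13 (.tw (.c 0 (.tw (.c 0 (.b 63) (.b 136))) (.s13 (.tw (.c 0 (.b 5) (.b 5))))))) (.tw (.s12 (.s13 (.tw (.c 0 (.b 99) (.b 247))))))))))))))),
  (.tw (.c 0 (.tw (.c 0 (.b 13) (.s13 (.tw (.s12 (.s13 (.c 0 (.b 136) (.c 0 (.b 260) (.b 147))))))))) (.s13 (.tw (.c 0 (.s13 (.tw (.c 0 (.s13 (.tw (.c 0 (.b 63) (.b 381)))) (.s13 (.tw (.c 0 (.b 465) (.b 124))))))) (.tw (.s13 (.c 0 (.tw (.c 0 (.b 273) (.s13 (.tw (.s12 (.s13 (.c 0 (.b 24) (.b 136)))))))) (.tw (.c 0 (.b 136) (.b 136))))))))))),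
  (.tw (.c 0 (.tw (.c 0 (.b 13) (.s13 (.tw (.s12 (.s13 (.c 0 (.b 57) (.s13 (.tw (.s12 (.s13 (.c 0 (.b 381) (.b 478))))))))))))) (.s13 (.tw (.c 0 (.s13 (.tw (.c 0 (.b 136) (.s13 (.tw (.s12 (.s13 (.c 0 (.b 63) (.b 369))))))))) (.s13 (.tw (.c 0 (.tw (.s12 (.c 0 (.b 14) (.s13 (.tw (.s12 (.s13 (.c 0 (.b 136) (.b 536))))))))) (.s13 (.tw (.s12 (.c 0 (.b 693) (.s13 (.tw (.c 0 (.b 5) (.b 26)))))))))))))))),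
  (.c 0 (.tw (.c 0 (.b 13) (.s13 (.tw (.s12 (.s13 (.c 0 (.b 284) (.c 0 (.b 136) (.b 29))))))))) (.s13 (.tw (.c 0 (.s12 (.s13 (.tw (.s12 (.c 0 (.b 58) (.b 546)))))) (.tw (.s12 (.s13 (.tw (.c 0 (.s13 (.tw (.c 0 (.tw (.c 0 (.b 63) (.b 136))) (.s13 (.tw (.c 0 (.b 5) (.b 5))))))) (.tw (.s12 (.s13 (.tw (.c 0 (.b 99) (.b 247))))))))))))))),
  (.c 0 (.tw (.c 0 (.b 348) (.s13 (.tw (.s12 (.s13 (.c 0 (.b 13) (.c 0 (.b 63) (.b 159))))))))) (.s13 (.tw (.c 0 (.tw (.c 0 (.tw (.s13 (.tw (.c 0 (.b 136) (.b 124))))) (.b 136))) (.tw (.s13 (.tw (.c 0 (.s13 (.tw (.c 0 (.b 272) (.b 44)))) (.tw (.s12 (.s13 (.tw (.c 0 (.b 5) (.s13 (.tw (.s12 (.s13 (.c 0 (.b 5) (.b 63))))))))))))))))))),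
  (.c 0 (.tw (.c 0 (.b 13) (.s13 (.tw (.s12 (.s13 (.c 0 (.b 284) (.c 0 (.b 136) (.b 29))))))))) (.s13 (.tw (.c 0 (.tw (.c 0 (.tw (.s13 (.tw (.c 0 (.b 136) (.b 124))))) (.b 136))) (.tw (.s13 (.tw (.c 0 (.s13 (.tw (.c 0 (.b 272) (.b 44)))) (.tw (.s12 (.s13 (.tw (.c 0 (.b 5) (.s13 (.tw (.s12 (.s13 (.c 0 (.b 5) (.b 63))))))))))))))))))),
  (.tw (.c 0 (.tw (.c 0 (.b 13) (.s13 (.tw (.s12 (.s13 (.c 0 (.b 57) (.s13 (.tw (.s12 (.s13 (.c 0 (.b 381) (.b 478))))))))))))) (.s13 (.tw (.c 0 (.s13 (.tw (.c 0 (.b 136) (.b 462)))) (.tw (.s13 (.tw (.c 0 (.s13 (.tw (.c 0 (.b 304) (.tw (.s12 (.s13 (.tw (.c 0 (.b 63) (.b 381))))))))) (.s13 (.tw (.c 0 (.s13 (.tw (.c 0 (.b 63) (.b 381)))) (.s13 (.tw (.c 0 (.b 5) (.b 26)))))))))))))))),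
  (.c 0 (.tw (.c 0 (.b 13) (.s13 (.tw (.s12 (.s13 (.c 0 (.b 13) (.c 0 (.b 14) (.s13 (.tw (.s12 (.s13 (.c 0 (.b 381) (.b 381)))))))))))))) (.s13 (.tw (.c 0 (.tw (.c 0 (.b 63) (.b 44))) (.tw (.s13 (.tw (.c 0 (.s13 (.tw (.c 0 (.b 136) (.b 44)))) (.tw (.s12 (.s13 (.tw (.c 0 (.b 5) (.s13 (.tw (.s12 (.s13 (.c 0 (.b 202) (.tw (.s13 (.tw (.c 0 (.b 13) (.b 247))))))))))))))))))))))),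
  (.tw (.c 0 (.tw (.c 0 (.b 13) (.s13 (.tw (.s12 (.s13 (.c 0 (.b 136) (.c 0 (.b 260) (.b 147))))))))) (.s13 (.tw (.c 0 (.tw (.s13 (.c 0 (.b 38) (.tw (.c 0 (.b 13) (.b 247)))))) (.tw (.s13 (.tw (.c 0 (.s13 (.tw (.c 0 (.b 136) (.b 536)))) (.tw (.s13 (.tw (.c 0 (.s13 (.tw (.s12 (.c 0 (.b 63) (.b 381))))) (.s13 (.tw (.s12 (.c 0 (.b 44) (.b 12)))))))))))))))))),
  (.tw (.c 0 (.tw (.c 0 (.b 13) (.s13 (.tw (.s12 (.s13 (.c 0 (.b 57) (.s13 (.tw (.s12 (.s13 (.c 0 (.b 381) (.b 478))))))))))))) (.s13 (.tw (.c 0 (.s13 (.tw (.c 0 (.b 14) (.s13 (.tw (.s12 (.s13 (.c 0 (.b 136) (.b 351))))))))) (.tw (.s13 (.tw (.c 0 (.s12 (.s13 (.tw (.c 0 (.b 136) (.tw (.s12 (.s13 (.tw (.c 0 (.b 63) (.b 381)))))))))) (.s13 (.tw (.c 0 (.s13 (.tw (.c 0 (.b 63) (.b 381)))) (.s13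 (.tw (.c 0 (.b 5) (.b 26)))))))))))))))),
  (.c 0 (.tw (.c 0 (.b 348) (.s13 (.tw (.s12 (.s13 (.c 0 (.b 23) (.b 21)))))))) (.s13 (.tw (.c 0 (.s12 (.s13 (.tw (.s12 (.c 0 (.b 136) (.b 147)))))) (.tw (.s12 (.s13 (.tw (.c 0 (.s13 (.tw (.c 0 (.tw (.c 0 (.b 63) (.b 136))) (.s13 (.tw (.c 0 (.b 5) (.b 5))))))) (.tw (.s12 (.s13 (.tw (.c 0 (.b 99) (.b 247))))))))))))))),
  (.c 0 (.tw (.c 0 (.b 348) (.s13 (.tw (.s12 (.s13 (.c 0 (.b 13) (.c 0 (.b 63) (.b 159))))))))) (.s13 (.tw (.c 0 (.s12 (.s13 (.tw (.s12 (.c 0 (.b 136) (.b 147)))))) (.tw (.s12 (.s13 (.tw (.c 0 (.s13 (.tw (.c 0 (.tw (.c 0 (.b 63) (.b 136))) (.s13 (.tw (.c 0 (.b 5) (.b 5))))))) (.tw (.s12 (.s13 (.tw (.c 0 (.b 99) (.b 247))))))))))))))),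
  (.tw (.c 0 (.tw (.c 0 (.b 13) (.s13 (.tw (.s12 (.s13 (.c 0 (.b 57) (.s13 (.tw (.s12 (.s13 (.c 0 (.b 381) (.b 478))))))))))))) (.s13 (.tw (.c 0 (.s13 (.tw (.c 0 (.s13 (.tw (.c 0 (.b 63) (.b 381)))) (.s13 (.tw (.c 0 (.b 124) (.b 200))))))) (.tw (.s13 (.c 0 (.tw (.c 0 (.b 273) (.s13 (.tw (.s12 (.s13 (.c 0 (.b 24) (.b 136)))))))) (.tw (.c 0 (.b 136) (.b 136))))))))))),
  (.c 0 (.tw (.c 0 (.b 13) (.s13 (.tw (.s12 (.s13 (.c 0 (.b 284) (.c 0 (.b 136) (.b 29))))))))) (.s13 (.c 0 (.tw (.c 0 (.s13 (.tw (.c 0 (.b 304) (.s13 (.tw (.s12 (.s13 (.c 0 (.b 63) (.b 501))))))))) (.tw (.s13 (.tw (.c 0 (.s13 (.tw (.c 0 (.b 24) (.b 405)))) (.s13 (.tw (.c 0 (.b 5) (.s13 (.tw (.s12 (.s13 (.c 0 (.b 5) (.b 63))))))))))))))) (.b 1)))),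
  (.c 0 (.tw (.c 0 (.b 13) (.s13 (.tw (.s12 (.s13 (.c 0 (.b 284) (.c 0 (.b 136) (.b 29))))))))) (.s13 (.tw (.c 0 (.s12 (.s13 (.tw (.s12 (.c 0 (.b 136) (.b 147)))))) (.tw (.s12 (.s13 (.tw (.c 0 (.s13 (.tw (.c 0 (.tw (.c 0 (.b 63) (.b 136))) (.s13 (.tw (.c 0 (.b 5) (.b 5))))))) (.tw (.s12 (.s13 (.tw (.c 0 (.b 99) (.b 247))))))))))))))),
  (.tw (.c 0 (.tw (.c 0 (.b 14) (.s13 (.tw (.s12 (.s13 (.c 0 (.b 478) (.s13 (.tw (.s12 (.s13 (.c 0 (.b 136) (.s13 (.tw (.s12 (.s13 (.c 0 (.b 63) (.b 381)))))))))))))))))) (.s13 (.tw (.c 0 (.s12 (.s13 (.tw (.c 0 (.b 136) (.b 536))))) (.c 0 (.tw (.c 0 (.b 136) (.b 136))) (.tw (.s12 (.s13 (.tw (.c 0 (.b 210) (.s13 (.tw (.c 0 (.b 176) (.b 82))))))))))))))),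
  (.tw (.c 0 (.tw (.c 0 (.b 13) (.s13 (.tw (.s12 (.s13 (.c 0 (.b 136) (.c 0 (.b 260) (.b 147))))))))) (.s13 (.tw (.c 0 (.tw (.s13 (.c 0 (.b 38) (.tw (.c 0 (.b 13) (.b 247)))))) (.s13 (.c 0 (.tw (.c 0 (.b 304) (.tw (.s12 (.s13 (.tw (.c 0 (.b 44) (.b 12)))))))) (.s13 (.tw (.s13 (.c 0 (.b 70) (.b 45)))))))))))),
  (.tw (.c 0 (.tw (.c 0 (.b 13) (.s13 (.tw (.s12 (.s13 (.c 0 (.b 57) (.s13 (.tw (.s12 (.s13 (.c 0 (.b 381) (.b 478))))))))))))) (.s13 (.tw (.c 0 (.tw (.s13 (.c 0 (.b 38) (.tw (.c 0 (.b 13) (.b 247)))))) (.s13 (.c 0 (.tw (.c 0 (.b 304) (.s13 (.tw (.s12 (.s13 (.c 0 (.b 63) (.b 44)))))))) (.s13 (.tw (.s13 (.c 0 (.b 70) (.b 45)))))))))))),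
  (.c 0 (.tw (.c 0 (.b 348) (.s13 (.tw (.s12 (.s13 (.c 0 (.b 23) (.b 21)))))))) (.s13 (.tw (.c 0 (.s12 (.s13 (.tw (.s12 (.c 0 (.tw (.s13 (.tw (.c 0 (.b 334) (.b 26))))) (.b 304)))))) (.s12 (.s13 (.tw (.c 0 (.s13 (.tw (.s12 (.c 0 (.b 272) (.b 44))))) (.s13 (.tw (.c 0 (.b 5) (.c 0 (.b 5) (.b 63))))))))))))),
  (.tw (.c 0 (.tw (.c 0 (.b 13) (.s13 (.tw (.s12 (.s13 (.c 0 (.b 57) (.s13 (.tw (.s12 (.s13 (.c 0 (.b 381) (.b 478))))))))))))) (.s13 (.tw (.c 0 (.tw (.s13 (.c 0 (.b 45) (.s12 (.s13 (.tw (.c 0 (.b 44) (.b 12)))))))) (.tw (.s13 (.tw (.c 0 (.s13 (.tw (.c 0 (.b 136) (.b 44)))) (.tw (.s12 (.s13 (.tw (.c 0 (.b 95) (.s13 (.tw (.c 0 (.b 44) (.b 12)))))))))))))))))),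
  (.c 0 (.tw (.c 0 (.b 348) (.s13 (.tw (.s12 (.s13 (.c 0 (.b 13) (.c 0 (.b 63) (.b 159))))))))) (.s13 (.tw (.c 0 (.s12 (.s13 (.tw (.s12 (.c 0 (.tw (.s13 (.tw (.c 0 (.b 334) (.b 26))))) (.b 304)))))) (.s12 (.s13 (.tw (.c 0 (.s13 (.tw (.s12 (.c 0 (.b 272) (.b 44))))) (.s13 (.tw (.c 0 (.b 5) (.c 0 (.b 5) (.b 63))))))))))))),
  (.c 0 (.tw (.c 0 (.b 13) (.s13 (.tw (.s12 (.s13 (.c 0 (.b 13) (.c 0 (.b 14) (.s13 (.tw (.s12 (.s13 (.c 0 (.b 381) (.b 381)))))))))))))) (.s13 (.tw (.c 0 (.s13 (.tw (.c 0 (.b 136) (.s13 (.tw (.s12 (.s13 (.c 0 (.b 63) (.b 138))))))))) (.tw (.s13 (.tw (.c 0 (.s13 (.tw (.c 0 (.b 136) (.b 44)))) (.tw (.s12 (.s13 (.tw (.c 0 (.b 313) (.s13 (.tw (.s12 (.c 0 (.b 5) (.b 124)))))))))))))))))),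
  (.c 0 (.tw (.c 0 (.b 13) (.s13 (.tw (.s12 (.s13 (.c 0 (.b 284) (.c 0 (.b 136) (.b 29))))))))) (.s13 (.c 0 (.tw (.c 0 (.s13 (.tw (.c 0 (.b 136) (.b 462)))) (.tw (.s13 (.tw (.c 0 (.s13 (.tw (.c 0 (.b 5) (.s13 (.tw (.c 0 (.b 384) (.b 5))))))) (.s13 (.tw (.c 0 (.b 272) (.b 44)))))))))) (.b 1)))),
  (.c 0 (.tw (.c 0 (.b 13) (.s13 (.tw (.s12 (.s13 (.c 0 (.b 284) (.c 0 (.b 136) (.b 29))))))))) (.s13 (.tw (.c 0 (.s12 (.s13 (.tw (.s12 (.c 0 (.tw (.s13 (.tw (.c 0 (.b 334) (.b 26))))) (.b 304)))))) (.s12 (.s13 (.tw (.c 0 (.s13 (.tw (.s12 (.c 0 (.b 272) (.b 44))))) (.s13 (.tw (.c 0 (.b 5) (.c 0 (.b 5) (.b 63))))))))))))),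
  (.c 0 (.tw (.c 0 (.b 13) (.s13 (.tw (.s12 (.s13 (.c 0 (.b 13) (.c 0 (.b 14) (.s13 (.tw (.s12 (.s13 (.c 0 (.b 381) (.b 381)))))))))))))) (.s13 (.tw (.c 0 (.s13 (.tw (.c 0 (.b 136) (.b 462)))) (.tw (.s13 (.tw (.c 0 (.s13 (.tw (.c 0 (.b 5) (.s13 (.tw (.c 0 (.b 384) (.b 5))))))) (.s13 (.tw (.c 0 (.b 272) (.b 44)))))))))))),
  (.tw (.c 0 (.tw (.c 0 (.b 13) (.s13 (.tw (.s12 (.s13 (.c 0 (.b 136) (.c 0 (.b 260) (.b 147))))))))) (.s13 (.tw (.c 0 (.s13 (.tw (.c 0 (.b 693) (.s13 (.tw (.c 0 (.b 5) (.b 465))))))) (.tw (.s12 (.s13 (.tw (.c 0 (.tw (.s13 (.s12 (.c 0 (.b 67) (.b 247))))) (.s13 (.tw (.c 0 (.b 136) (.s13 (.tw (.s12 (.s13 (.c 0 (.b 44) (.b 1))))))))))))))))))),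
  (.tw (.c 0 (.tw (.c 0 (.b 13) (.s13 (.tw (.s12 (.s13 (.c 0 (.b 57) (.s13 (.tw (.s12 (.s13 (.c 0 (.b 381) (.b 478))))))))))))) (.s13 (.tw (.c 0 (.s13 (.tw (.c 0 (.s13 (.tw (.c 0 (.b 63) (.b 381)))) (.s13 (.tw (.c 0 (.b 601) (.b 124))))))) (.tw (.s13 (.c 0 (.tw (.c 0 (.b 284) (.s13 (.tw (.s12 (.s13 (.c 0 (.b 63) (.b 44)))))))) (.tw (.c 0 (.b 136) (.b 136))))))))))),
  (.c 0 (.tw (.c 0 (.b 348) (.s13 (.tw (.s12 (.s13 (.c 0 (.b 23) (.b 21)))))))) (.s13 (.tw (.c 0 (.s12 (.s13 (.tw (.c 0 (.b 136) (.s13 (.tw (.s12 (.s13 (.c 0 (.b 284) (.b 147)))))))))) (.tw (.s12 (.s13 (.tw (.c 0 (.s13 (.tw (.c 0 (.b 136) (.b 44)))) (.tw (.s12 (.s13 (.tw (.c 0 (.s12 (.s13 (.tw (.c 0 (.b 63) (.b 24))))) (.s13 (.tw (.s12 (.c 0 (.b 5) (.b 124))))))))))))))))))),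
  (.c 0 (.tw (.c 0 (.b 348) (.s13 (.tw (.s12 (.s13 (.c 0 (.b 13) (.c 0 (.b 63) (.b 159))))))))) (.s13 (.tw (.c 0 (.s12 (.s13 (.tw (.c 0 (.b 136) (.s13 (.tw (.s12 (.s13 (.c 0 (.b 284) (.b 147)))))))))) (.tw (.s12 (.s13 (.tw (.c 0 (.s13 (.tw (.c 0 (.b 136) (.b 44)))) (.tw (.s12 (.s13 (.tw (.c 0 (.s12 (.s13 (.tw (.c 0 (.b 63) (.b 24))))) (.s13 (.tw (.s12 (.c 0 (.b 5) (.b 124))))))))))))))))))),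
  (.tw (.c 0 (.tw (.c 0 (.b 14) (.s13 (.tw (.s12 (.s13 (.c 0 (.b 478) (.s13 (.tw (.s12 (.s13 (.c 0 (.b 136) (.s13 (.tw (.s12 (.s13 (.c 0 (.b 63) (.b 381)))))))))))))))))) (.s13 (.tw (.c 0 (.s12 (.s13 (.tw (.c 0 (.b 136) (.b 351))))) (.c 0 (.s12 (.s13 (.tw (.c 0 (.b 136) (.b 351))))) (.s13 (.tw (.c 0 (.b 143) (.s13 (.tw (.c 0 (.b 82) (.b 82))))))))))))),
  (.tw (.c 0 (.tw (.c 0 (.b 478) (.s13 (.tw (.s12 (.s13 (.c 0 (.b 381) (.c 0 (.b 136) (.b 136))))))))) (.s13 (.tw (.c 0 (.s12 (.s13 (.tw (.c 0 (.b 13) (.s13 (.tw (.s12 (.s13 (.c 0 (.b 13) (.b 337)))))))))) (.s12 (.s13 (.s12 (.c 0 (.s13 (.tw (.s12 (.c 0 (.b 586) (.s13 (.tw (.c 0 (.b 5) (.b 5)))))))) (.tw (.c 0 (.b 136) (.b 136)))))))))))),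
  (.tw (.c 0 (.tw (.c 0 (.b 13) (.s13 (.tw (.s12 (.s13 (.c 0 (.b 57) (.s13 (.tw (.s12 (.s13 (.c 0 (.b 381) (.b 478))))))))))))) (.s13 (.tw (.c 0 (.tw (.s13 (.c 0 (.b 45) (.s12 (.s13 (.tw (.c 0 (.b 44) (.b 12)))))))) (.tw (.s13 (.tw (.c 0 (.s13 (.tw (.c 0 (.b 14) (.c 0 (.b 136) (.b 136))))) (.tw (.s12 (.s13 (.tw (.c 0 (.b 95) (.s13 (.tw (.c 0 (.b 44) (.b 12)))))))))))))))))),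
  (.c 0 (.tw (.c 0 (.b 348) (.s13 (.tw (.s12 (.s13 (.c 0 (.b 23) (.b 21)))))))) (.s13 (.tw (.c 0 (.s12 (.s13 (.tw (.s12 (.c 0 (.b 460) (.s13 (.tw (.s12 (.s13 (.c 0 (.b 13) (.b 266))))))))))) (.s12 (.s13 (.tw (.c 0 (.s13 (.tw (.s12 (.c 0 (.b 272) (.b 44))))) (.s13 (.tw (.c 0 (.b 5) (.c 0 (.b 5) (.b 63))))))))))))),
  (.tw (.c 0 (.s12 (.s13 (.tw (.s12 (.c 0 (.b 13) (.s13 (.tw (.s12 (.s13 (.c 0 (.b 136) (.s13 (.tw (.s12 (.s13 (.c 0 (.b 284) (.b 147)))))))))))))))) (.s13 (.tw (.s12 (.c 0 (.s13 (.tw (.c 0 (.b 304) (.tw (.s12 (.s13 (.tw (.c 0 (.b 63) (.b 381))))))))) (.tw (.s12 (.s13 (.tw (.c 0 (.tw (.c 0 (.b 136) (.b 462))) (.s13 (.tw (.c 0 (.b 693) (.s13 (.tw (.c 0 (.b 5) (.b 465)))))))))))))))))),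
  (.c 0 (.tw (.c 0 (.b 13) (.s13 (.tw (.s12 (.s13 (.c 0 (.b 284) (.c 0 (.b 136) (.b 29))))))))) (.s13 (.c 0 (.tw (.c 0 (.s13 (.tw (.c 0 (.b 57) (.s13 (.tw (.s12 (.s13 (.c 0 (.b 63) (.b 612))))))))) (.tw (.s13 (.tw (.c 0 (.s13 (.tw (.c 0 (.b 5) (.s13 (.tw (.c 0 (.b 5) (.b 124))))))) (.s13 (.tw (.c 0 (.b 24) (.b 44)))))))))) (.b 1)))),
  (.c 0 (.tw (.c 0 (.b 13) (.s13 (.tw (.s12 (.s13 (.c 0 (.b 284) (.c 0 (.b 136) (.b 29))))))))) (.s13 (.tw (.c 0 (.s12 (.s13 (.tw (.c 0 (.b 136) (.s13 (.tw (.s12 (.s13 (.c 0 (.b 284) (.b 147)))))))))) (.tw (.s12 (.s13 (.tw (.c 0 (.s13 (.tw (.c 0 (.b 136) (.b 44)))) (.tw (.s12 (.s13 (.tw (.c 0 (.s12 (.s13 (.tw (.c 0 (.b 63) (.b 24))))) (.s13 (.tw (.s12 (.c 0 (.b 5) (.b 124))))))))))))))))))),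
  (.c 0 (.tw (.c 0 (.b 13) (.s13 (.tw (.s12 (.s13 (.c 0 (.b 284) (.c 0 (.b 136) (.b 29))))))))) (.s13 (.c 0 (.tw (.c 0 (.s13 (.tw (.c 0 (.b 136) (.b 236)))) (.tw (.s13 (.tw (.c 0 (.s13 (.tw (.c 0 (.b 5) (.s13 (.tw (.c 0 (.b 384) (.b 5))))))) (.s13 (.tw (.c 0 (.b 272) (.b 44)))))))))) (.b 1)))),
  (.c 0 (.tw (.c 0 (.b 13) (.s13 (.tw (.s12 (.s13 (.c 0 (.b 284) (.c 0 (.b 136) (.b 29))))))))) (.s13 (.tw (.c 0 (.s12 (.s13 (.tw (.s12 (.c 0 (.b 460) (.s13 (.tw (.s12 (.s13 (.c 0 (.b 13) (.b 266))))))))))) (.s12 (.s13 (.tw (.c 0 (.s13 (.tw (.s12 (.c 0 (.b 272) (.b 44))))) (.s13 (.tw (.c 0 (.b 5) (.c 0 (.b 5) (.b 63))))))))))))),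
  (.tw (.c 0 (.tw (.c 0 (.b 478) (.s13 (.tw (.s12 (.s13 (.c 0 (.b 381) (.c 0 (.b 136) (.b 136))))))))) (.s13 (.tw (.c 0 (.s12 (.s13 (.tw (.c 0 (.b 136) (.b 270))))) (.s13 (.tw (.s12 (.s13 (.c 0 (.s13 (.tw (.c 0 (.s12 (.s13 (.tw (.c 0 (.b 180) (.b 12))))) (.s13 (.tw (.c 0 (.b 24) (.b 24))))))) (.s13 (.tw (.c 0 (.b 14) (.c 0 (.b 136) (.b 136))))))))))))))),
  (.tw (.c 0 (.s12 (.s13 (.tw (.s12 (.c 0 (.b 13) (.s13 (.tw (.s12 (.s13 (.c 0 (.b 136) (.s13 (.tw (.s12 (.s13 (.c 0 (.b 284) (.b 147)))))))))))))))) (.s13 (.tw (.s12 (.c 0 (.tw (.s13 (.c 0 (.b 70) (.b 45)))) (.tw (.s12 (.s13 (.tw (.c 0 (.tw (.c 0 (.b 136) (.b 462))) (.s13 (.tw (.c 0 (.b 693) (.s13 (.tw (.c 0 (.b 5) (.b 465)))))))))))))))))),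
  (.c 0 (.tw (.c 0 (.b 348) (.s13 (.tw (.s12 (.s13 (.c 0 (.b 23) (.b 21)))))))) (.c 0 (.tw (.c 0 (.s12 (.s13 (.tw (.c 0 (.b 13) (.s13 (.tw (.s13 (.c 0 (.b 99) (.b 247))))))))) (.s13 (.tw (.c 0 (.s13 (.tw (.c 0 (.b 24) (.b 44)))) (.s13 (.tw (.s13 (.c 0 (.b 5) (.c 0 (.b 5) (.b 12))))))))))) (.b 1))),
  (.c 0 (.tw (.c 0 (.b 348) (.s13 (.tw (.s12 (.s13 (.c 0 (.b 13) (.c 0 (.b 63) (.b 159))))))))) (.c 0 (.tw (.c 0 (.s12 (.s13 (.tw (.c 0 (.b 13) (.s13 (.tw (.s13 (.c 0 (.b 99) (.b 247))))))))) (.s13 (.tw (.c 0 (.s13 (.tw (.c 0 (.b 24) (.b 44)))) (.s13 (.tw (.s13 (.c 0 (.b 5) (.c 0 (.b 5) (.b 12))))))))))) (.b 1))),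
  (.c 0 (.tw (.c 0 (.b 19) (.s13 (.tw (.s12 (.s13 (.c 0 (.b 538) (.s13 (.tw (.s12 (.s13 (.c 0 (.b 63) (.b 159))))))))))))) (.tw (.c 0 (.s12 (.s13 (.tw (.c 0 (.b 13) (.s13 (.tw (.s13 (.c 0 (.b 99) (.b 247))))))))) (.s13 (.tw (.c 0 (.s13 (.tw (.c 0 (.b 24) (.b 44)))) (.s13 (.tw (.s13 (.c 0 (.b 5) (.c 0 (.b 5) (.b 12)))))))))))),
  (.c 0 (.tw (.c 0 (.b 13) (.s13 (.tw (.s12 (.s13 (.c 0 (.b 284) (.c 0 (.b 136) (.b 29))))))))) (.c 0 (.tw (.c 0 (.s12 (.s13 (.tw (.c 0 (.b 13) (.s13 (.tw (.s13 (.c 0 (.b 99) (.b 247))))))))) (.s13 (.tw (.c 0 (.s13 (.tw (.c 0 (.b 24) (.b 44)))) (.s13 (.tw (.s13 (.c 0 (.b 5) (.c 0 (.b 5) (.b 12))))))))))) (.b 1))),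
  (.c 0 (.tw (.c 0 (.b 13) (.s13 (.tw (.s12 (.s13 (.c 0 (.b 13) (.c 0 (.b 14) (.s13 (.tw (.s12 (.s13 (.c 0 (.b 381) (.b 381)))))))))))))) (.tw (.c 0 (.s12 (.s13 (.tw (.c 0 (.b 13) (.s13 (.tw (.s13 (.c 0 (.b 99) (.b 247))))))))) (.s13 (.tw (.c 0 (.s13 (.tw (.c 0 (.b 24) (.b 44)))) (.s13 (.tw (.s13 (.c 0 (.b 5) (.c 0 (.b 5) (.b 12)))))))))))),
  (.tw (.c 0 (.tw (.c 0 (.b 14) (.s13 (.tw (.s12 (.s13 (.c 0 (.b 14) (.c 0 (.b 304) (.s13 (.tw (.s12 (.s13 (.c 0 (.b 63) (.b 369)))))))))))))) (.s13 (.tw (.c 0 (.s12 (.s13 (.tw (.c 0 (.b 136) (.b 536))))) (.s13 (.tw (.s12 (.s13 (.c 0 (.s12 (.s13 (.tw (.c 0 (.tw (.s12 (.s13 (.tw (.c 0 (.b 13) (.b 272)))))) (.s13 (.tw (.c 0 (.b 44) (.b 12)))))))) (.s13 (.tw (.c 0 (.b 14) (.c 0 (.b 136) (.b 136))))))))))))))),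
  (.c 0 (.tw (.c 0 (.tw (.s13 (.tw (.c 0 (.b 478) (.b 16))))) (.b 422))) (.tw (.c 0 (.s12 (.s13 (.tw (.c 0 (.b 14) (.s13 (.tw (.s12 (.s13 (.c 0 (.b 136) (.s13 (.tw (.s12 (.s13 (.c 0 (.b 63) (.b 24))))))))))))))) (.tw (.s12 (.s13 (.tw (.c 0 (.s13 (.tw (.c 0 (.b 136) (.b 44)))) (.s13 (.tw (.s12 (.s13 (.c 0 (.b 320) (.s13 (.tw (.c 0 (.b 5) (.b 124))))))))))))))))),
  (.c 0 (.tw (.c 0 (.b 348) (.s13 (.tw (.s12 (.s13 (.c 0 (.b 23) (.b 21)))))))) (.tw (.c 0 (.s12 (.s13 (.tw (.c 0 (.b 14) (.s13 (.tw (.s12 (.s13 (.c 0 (.b 136) (.s13 (.tw (.s12 (.s13 (.c 0 (.b 63) (.b 24))))))))))))))) (.tw (.s12 (.s13 (.tw (.c 0 (.s13 (.tw (.c 0 (.b 136) (.b 44)))) (.s13 (.tw (.s12 (.s13 (.c 0 (.b 320) (.s13 (.tw (.c 0 (.b 5) (.b 124))))))))))))))))),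
  (.c 0 (.tw (.c 0 (.b 348) (.s13 (.tw (.s12 (.s13 (.c 0 (.b 13) (.c 0 (.b 63) (.b 159))))))))) (.tw (.c 0 (.s12 (.s13 (.tw (.c 0 (.b 14) (.s13 (.tw (.s12 (.s13 (.c 0 (.b 136) (.s13 (.tw (.s12 (.s13 (.c 0 (.b 63) (.b 24))))))))))))))) (.tw (.s12 (.s13 (.tw (.c 0 (.s13 (.tw (.c 0 (.b 136) (.b 44)))) (.s13 (.tw (.s12 (.s13 (.c 0 (.b 320) (.s13 (.tw (.c 0 (.b 5) (.b 124))))))))))))))))),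
  (.c 0 (.tw (.c 0 (.b 13) (.s13 (.tw (.s12 (.s13 (.c 0 (.b 284) (.c 0 (.b 136) (.b 29))))))))) (.tw (.c 0 (.s12 (.s13 (.tw (.c 0 (.b 14) (.s13 (.tw (.s12 (.s13 (.c 0 (.b 136) (.s13 (.tw (.s12 (.s13 (.c 0 (.b 63) (.b 24))))))))))))))) (.tw (.s12 (.s13 (.tw (.c 0 (.s13 (.tw (.c 0 (.b 136) (.b 44)))) (.s13 (.tw (.s12 (.s13 (.c 0 (.b 320) (.s13 (.tw (.c 0 (.b 5) (.b 124))))))))))))))))),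
  (.tw (.c 0 (.tw (.c 0 (.b 14) (.s13 (.tw (.s12 (.s13 (.c 0 (.b 478) (.s13 (.tw (.s12 (.s13 (.c 0 (.b 136) (.s13 (.tw (.s12 (.s13 (.c 0 (.b 63) (.b 381)))))))))))))))))) (.s13 (.tw (.c 0 (.s12 (.s13 (.tw (.c 0 (.b 136) (.b 351))))) (.c 0 (.s12 (.s13 (.tw (.c 0 (.b 136) (.b 405))))) (.s13 (.tw (.c 0 (.b 202) (.s13 (.tw (.c 0 (.b 5) (.b 124))))))))))))),
  (.tw (.c 0 (.tw (.c 0 (.b 478) (.s13 (.tw (.s12 (.s13 (.c 0 (.b 381) (.c 0 (.b 136) (.b 136))))))))) (.s13 (.tw (.c 0 (.tw (.s12 (.s13 (.tw (.c 0 (.b 13) (.s13 (.tw (.s13 (.s12 (.c 0 (.b 381) (.b 381))))))))))) (.s12 (.s13 (.tw (.s12 (.c 0 (.tw (.s12 (.s13 (.s12 (.c 0 (.b 67) (.s13 (.tw (.s13 (.c 0 (.b 14) (.b 44)))))))))) (.s12 (.s13 (.tw (.s12 (.c 0 (.b 460) (.tw (.s12 (.s13 (.tw (.c 0 (.b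 44) (.b 12))))))))))))))))))))),
  (.tw (.c 0 (.s12 (.s13 (.tw (.s12 (.c 0 (.b 13) (.s13 (.tw (.s12 (.s13 (.c 0 (.b 136) (.s13 (.tw (.s12 (.s13 (.c 0 (.b 284) (.b 147)))))))))))))))) (.s13 (.tw (.s12 (.c 0 (.s13 (.tw (.s12 (.c 0 (.b 693) (.s13 (.tw (.c 0 (.b 82) (.b 26)))))))) (.tw (.s13 (.tw (.c 0 (.s13 (.tw (.c 0 (.b 14) (.c 0 (.b 136) (.b 136))))) (.tw (.s12 (.s13 (.tw (.c 0 (.b 95) (.s13 (.tw (.c 0 (.b 44) (.b 12))))))))))))))))))),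
  (.c 0 (.tw (.c 0 (.b 348) (.s13 (.tw (.s12 (.s13 (.c 0 (.b 23) (.b 21)))))))) (.s13 (.tw (.c 0 (.s12 (.s13 (.tw (.c 0 (.b 136) (.s13 (.tw (.s12 (.s13 (.c 0 (.b 284) (.b 147)))))))))) (.tw (.s12 (.s13 (.tw (.c 0 (.s13 (.tw (.c 0 (.b 136) (.b 44)))) (.s13 (.tw (.s12 (.s13 (.c 0 (.s12 (.s13 (.tw (.c 0 (.b 44) (.b 1))))) (.s13 (.tw (.s13 (.c 0 (.b 5) (.b 124))))))))))))))))))),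
  (.tw (.c 0 (.tw (.c 0 (.b 13) (.s13 (.tw (.s12 (.s13 (.c 0 (.b 13) (.c 0 (.b 136) (.s13 (.tw (.s12 (.s13 (.c 0 (.b 13) (.b 138)))))))))))))) (.s13 (.tw (.c 0 (.s13 (.tw (.c 0 (.b 693) (.s13 (.tw (.c 0 (.b 5) (.b 465))))))) (.tw (.s12 (.s13 (.tw (.c 0 (.tw (.s13 (.s12 (.c 0 (.b 67) (.b 247))))) (.s13 (.tw (.c 0 (.b 136) (.s13 (.tw (.s12 (.s13 (.c 0 (.b 44) (.b 1))))))))))))))))))),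
  (.c 0 (.tw (.c 0 (.b 348) (.s13 (.tw (.s12 (.s13 (.c 0 (.b 13) (.c 0 (.b 63) (.b 159))))))))) (.s13 (.tw (.c 0 (.s12 (.s13 (.tw (.c 0 (.b 136) (.s13 (.tw (.s12 (.s13 (.c 0 (.b 284) (.b 147)))))))))) (.tw (.s12 (.s13 (.tw (.c 0 (.s13 (.tw (.c 0 (.b 136) (.b 44)))) (.s13 (.tw (.s12 (.s13 (.c 0 (.s12 (.s13 (.tw (.c 0 (.b 44) (.b 1))))) (.s13 (.tw (.s13 (.c 0 (.b 5) (.b 124))))))))))))))))))),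
  (.c 0 (.tw (.c 0 (.b 311) (.s13 (.tw (.s12 (.s13 (.c 0 (.b 23) (.b 21)))))))) (.tw (.c 0 (.s12 (.s13 (.tw (.c 0 (.b 284) (.s13 (.tw (.s12 (.s13 (.c 0 (.b 13) (.b 266)))))))))) (.s12 (.s13 (.tw (.c 0 (.s13 (.tw (.s12 (.c 0 (.b 44) (.b 247))))) (.s13 (.tw (.s12 (.c 0 (.b 5) (.c 0 (.b 124) (.b 124))))))))))))),
  (.tw (.c 0 (.tw (.c 0 (.b 478) (.s13 (.tw (.s12 (.s13 (.c 0 (.b 381) (.c 0 (.b 136) (.b 136))))))))) (.s13 (.tw (.c 0 (.s12 (.s13 (.tw (.c 0 (.b 136) (.b 270))))) (.s13 (.tw (.s12 (.s13 (.c 0 (.s13 (.tw (.s12 (.c 0 (.b 202) (.s12 (.s13 (.tw (.c 0 (.b 58) (.b 247))))))))) (.s13 (.tw (.c 0 (.b 58) (.c 0 (.b 136) (.b 136))))))))))))))),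
  (.tw (.c 0 (.tw (.c 0 (.b 14) (.s13 (.tw (.s12 (.s13 (.c 0 (.b 14) (.c 0 (.b 304) (.s13 (.tw (.s12 (.s13 (.c 0 (.b 63) (.b 369)))))))))))))) (.s13 (.tw (.c 0 (.s12 (.s13 (.tw (.c 0 (.b 136) (.b 351))))) (.c 0 (.s13 (.tw (.c 0 (.b 136) (.b 462)))) (.s13 (.tw (.c 0 (.b 693) (.s13 (.tw (.c 0 (.b 5) (.b 200))))))))))))),
  (.c 0 (.tw (.c 0 (.b 348) (.s13 (.tw (.s12 (.s13 (.c 0 (.b 23) (.b 21)))))))) (.c 0 (.tw (.c 0 (.s13 (.tw (.c 0 (.b 304) (.s13 (.tw (.s12 (.s13 (.c 0 (.b 63) (.b 44))))))))) (.tw (.s12 (.s13 (.tw (.c 0 (.s13 (.tw (.c 0 (.b 124) (.s13 (.tw (.s13 (.c 0 (.b 24) (.b 26)))))))) (.s13 (.tw (.c 0 (.b 5) (.c 0 (.b 5) (.b 1)))))))))))) (.b 1))),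
  (.c 0 (.tw (.c 0 (.b 348) (.s13 (.tw (.s12 (.s13 (.c 0 (.b 13) (.c 0 (.b 63) (.b 159))))))))) (.c 0 (.tw (.c 0 (.s13 (.tw (.c 0 (.b 304) (.s13 (.tw (.s12 (.s13 (.c 0 (.b 63) (.b 44))))))))) (.tw (.s12 (.s13 (.tw (.c 0 (.s13 (.tw (.c 0 (.b 124) (.s13 (.tw (.s13 (.c 0 (.b 24) (.b 26)))))))) (.s13 (.tw (.c 0 (.b 5) (.c 0 (.b 5) (.b 1)))))))))))) (.b 1))),
  (.c 0 (.tw (.c 0 (.b 13) (.s13 (.tw (.s12 (.s13 (.c 0 (.b 284) (.c 0 (.b 136) (.b 29))))))))) (.s13 (.tw (.c 0 (.s12 (.s13 (.tw (.c 0 (.b 136) (.s13 (.tw (.s12 (.s13 (.c 0 (.b 284) (.b 147)))))))))) (.tw (.s12 (.s13 (.tw (.c 0 (.s13 (.tw (.c 0 (.b 136) (.b 44)))) (.s13 (.tw (.s12 (.s13 (.c 0 (.s12 (.s13 (.tw (.c 0 (.b 44) (.b 1))))) (.s13 (.tw (.s13 (.c 0 (.b 5) (.b 124))))))))))))))))))),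
  (.c 0 (.tw (.c 0 (.b 13) (.s13 (.tw (.s12 (.s13 (.c 0 (.b 284) (.c 0 (.b 136) (.b 29))))))))) (.c 0 (.tw (.c 0 (.s13 (.tw (.c 0 (.b 304) (.s13 (.tw (.s12 (.s13 (.c 0 (.b 63) (.b 44))))))))) (.tw (.s12 (.s13 (.tw (.c 0 (.s13 (.tw (.c 0 (.b 124) (.s13 (.tw (.s13 (.c 0 (.b 24) (.b 26)))))))) (.s13 (.tw (.c 0 (.b 5) (.c 0 (.b 5) (.b 1)))))))))))) (.b 1))),
  (.tw (.c 0 (.tw (.c 0 (.b 14) (.s13 (.tw (.s12 (.s13 (.c 0 (.b 14) (.c 0 (.b 304) (.s13 (.tw (.s12 (.s13 (.c 0 (.b 63) (.b 369)))))))))))))) (.s13 (.tw (.c 0 (.s12 (.s13 (.tw (.c 0 (.b 136) (.b 351))))) (.c 0 (.tw (.s13 (.c 0 (.b 70) (.b 45)))) (.s13 (.tw (.c 0 (.b 143) (.s13 (.tw (.c 0 (.b 124) (.b 200))))))))))))),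
  (.c 0 (.tw (.c 0 (.tw (.s13 (.tw (.c 0 (.b 478) (.b 16))))) (.b 422))) (.tw (.c 0 (.s12 (.s13 (.tw (.c 0 (.b 164) (.s13 (.tw (.s12 (.s13 (.c 0 (.b 63) (.b 44)))))))))) (.tw (.s12 (.s13 (.tw (.c 0 (.s13 (.tw (.c 0 (.b 136) (.b 44)))) (.s13 (.tw (.s12 (.s13 (.c 0 (.b 320) (.s13 (.tw (.c 0 (.b 5) (.b 124))))))))))))))))),
  (.c 0 (.tw (.c 0 (.b 348) (.s13 (.tw (.s12 (.s13 (.c 0 (.b 23) (.b 21)))))))) (.tw (.c 0 (.s12 (.s13 (.tw (.c 0 (.b 164) (.s13 (.tw (.s12 (.s13 (.c 0 (.b 63) (.b 44)))))))))) (.tw (.s12 (.s13 (.tw (.c 0 (.s13 (.tw (.c 0 (.b 136) (.b 44)))) (.s13 (.tw (.s12 (.s13 (.c 0 (.b 320) (.s13 (.tw (.c 0 (.b 5) (.b 124))))))))))))))))),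
  (.c 0 (.tw (.c 0 (.b 348) (.s13 (.tw (.s12 (.s13 (.c 0 (.b 13) (.c 0 (.b 63) (.b 159))))))))) (.tw (.c 0 (.s12 (.s13 (.tw (.c 0 (.b 164) (.s13 (.tw (.s12 (.s13 (.c 0 (.b 63) (.b 44)))))))))) (.tw (.s12 (.s13 (.tw (.c 0 (.s13 (.tw (.c 0 (.b 136) (.b 44)))) (.s13 (.tw (.s12 (.s13 (.c 0 (.b 320) (.s13 (.tw (.c 0 (.b 5) (.b 124))))))))))))))))),
  (.c 0 (.tw (.c 0 (.b 13) (.s13 (.tw (.s12 (.s13 (.c 0 (.b 284) (.c 0 (.b 136) (.b 29))))))))) (.tw (.c 0 (.s12 (.s13 (.tw (.c 0 (.b 164) (.s13 (.tw (.s12 (.s13 (.c 0 (.b 63) (.b 44)))))))))) (.tw (.s12 (.s13 (.tw (.c 0 (.s13 (.tw (.c 0 (.b 136) (.b 44)))) (.s13 (.tw (.s12 (.s13 (.c 0 (.b 320) (.s13 (.tw (.c 0 (.b 5) (.b 124))))))))))))))))),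
  (.c 0 (.tw (.c 0 (.b 14) (.s13 (.tw (.s12 (.s13 (.c 0 (.b 13) (.s13 (.tw (.s12 (.s13 (.c 0 (.b 136) (.s13 (.tw (.s12 (.s13 (.c 0 (.b 63) (.b 369)))))))))))))))))) (.s13 (.tw (.c 0 (.s12 (.s13 (.tw (.c 0 (.b 530) (.b 111))))) (.tw (.s12 (.s13 (.tw (.c 0 (.s13 (.tw (.s12 (.c 0 (.b 5) (.s13 (.tw (.c 0 (.b 5) (.b 63)))))))) (.s13 (.tw (.c 0 (.b 200) (.b 44))))))))))))),
  (.c 0 (.tw (.c 0 (.b 14) (.s13 (.tw (.s12 (.s13 (.c 0 (.b 13) (.s13 (.tw (.s12 (.s13 (.c 0 (.b 136) (.s13 (.tw (.s12 (.s13 (.c 0 (.b 63) (.b 369)))))))))))))))))) (.s12 (.s13 (.tw (.c 0 (.s12 (.s13 (.tw (.c 0 (.b 136) (.s13 (.tw (.s12 (.s13 (.c 0 (.b 63) (.b 381)))))))))) (.tw (.s12 (.s13 (.tw (.c 0 (.s13 (.tw (.c 0 (.b 14) (.c 0 (.b 136) (.b 200))))) (.s13 (.tw (.s12 (.s13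 (.c 0 (.b 313) (.s13 (.tw (.c 0 (.b 5) (.b 63))))))))))))))))))),
  (.c 0 (.tw (.c 0 (.b 14) (.s13 (.tw (.s12 (.s13 (.c 0 (.b 13) (.s13 (.tw (.s12 (.s13 (.c 0 (.b 136) (.s13 (.tw (.s12 (.s13 (.c 0 (.b 63) (.b 369)))))))))))))))))) (.s12 (.s13 (.tw (.s12 (.c 0 (.s12 (.s13 (.tw (.c 0 (.b 304) (.s13 (.tw (.s12 (.s13 (.c 0 (.b 13) (.b 394)))))))))) (.tw (.s12 (.s13 (.tw (.c 0 (.tw (.s12 (.s13 (.tw (.c 0 (.b 377) (.s13 (.tw (.s12 (.s13 (.c 0 (.b 202) (.b 5))))))))))) (.s13 (.tw (.c 0 (.b 63) (.b 44))))))))))))))),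
  (.c 0 (.tw (.c 0 (.b 14) (.s13 (.tw (.s12 (.s13 (.c 0 (.b 14) (.c 0 (.b 304) (.tw (.s12 (.s13 (.tw (.c 0 (.b 63) (.b 381)))))))))))))) (.s13 (.tw (.c 0 (.s12 (.s13 (.tw (.c 0 (.b 567) (.b 111))))) (.tw (.s12 (.s13 (.tw (.c 0 (.s13 (.tw (.c 0 (.b 63) (.b 44)))) (.s13 (.tw (.s12 (.s13 (.c 0 (.b 5) (.s13 (.tw (.s12 (.s13 (.c 0 (.b 5) (.b 136)))))))))))))))))))),
  (.c 0 (.tw (.c 0 (.b 14) (.s13 (.tw (.s12 (.s13 (.c 0 (.b 14) (.c 0 (.b 304) (.tw (.s12 (.s13 (.tw (.c 0 (.b 63) (.b 381)))))))))))))) (.tw (.c 0 (.s12 (.s13 (.tw (.c 0 (.b 284) (.s13 (.tw (.s12 (.s13 (.c 0 (.b 44) (.b 12)))))))))) (.tw (.s12 (.s13 (.tw (.c 0 (.tw (.s12 (.s13 (.tw (.c 0 (.b 266) (.b 272)))))) (.s13 (.tw (.c 0 (.b 5) (.c 0 (.b 5) (.b 1))))))))))))),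
  (.tw (.c 0 (.s12 (.s13 (.tw (.s12 (.c 0 (.b 478) (.s13 (.tw (.s12 (.s13 (.c 0 (.b 136) (.c 0 (.b 136) (.b 172)))))))))))) (.s13 (.tw (.s13 (.s12 (.c 0 (.tw (.c 0 (.b 136) (.b 351))) (.s13 (.tw (.s13 (.c 0 (.s13 (.tw (.s12 (.c 0 (.b 313) (.s12 (.s13 (.tw (.c 0 (.b 58) (.b 247))))))))) (.s13 (.tw (.c 0 (.b 14) (.c 0 (.b 136) (.b 136)))))))))))))))),
  (.tw (.c 0 (.s12 (.s13 (.tw (.s12 (.c 0 (.b 14) (.s13 (.tw (.s12 (.s13 (.c 0 (.b 304) (.s13 (.tw (.s12 (.s13 (.c 0 (.b 284) (.s13 (.tw (.s12 (.s13 (.c 0 (.b 63) (.b 381))))))))))))))))))))) (.s13 (.tw (.s13 (.s12 (.c 0 (.tw (.c 0 (.b 136) (.b 351))) (.s13 (.tw (.s13 (.c 0 (.s13 (.tw (.s12 (.c 0 (.b 313) (.s12 (.s13 (.tw (.c 0 (.b 58) (.b 247))))))))) (.s13 (.tw (.c 0 (.b 14) (.c 0 (.b 136) (.b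 136)))))))))))))))),
  (.tw (.c 0 (.s12 (.s13 (.tw (.s12 (.c 0 (.b 14) (.s13 (.tw (.s12 (.s13 (.c 0 (.b 304) (.s13 (.tw (.s12 (.s13 (.c 0 (.b 63) (.s13 (.tw (.s12 (.s13 (.c 0 (.b 44) (.b 12))))))))))))))))))))) (.s13 (.tw (.s13 (.s12 (.c 0 (.tw (.c 0 (.b 136) (.b 351))) (.s13 (.tw (.s13 (.c 0 (.s13 (.tw (.s12 (.c 0 (.b 313) (.s12 (.s13 (.tw (.c 0 (.b 58) (.b 247))))))))) (.s13 (.tw (.c 0 (.b 14) (.c 0 (.b 136) (.b 136)))))))))))))))),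
  (.tw (.c 0 (.s12 (.s13 (.tw (.s12 (.c 0 (.b 14) (.s13 (.tw (.s12 (.s13 (.c 0 (.b 136) (.s13 (.tw (.s12 (.s13 (.c 0 (.b 136) (.s13 (.tw (.s12 (.s13 (.c 0 (.b 44) (.b 12))))))))))))))))))))) (.s13 (.tw (.s13 (.s12 (.c 0 (.tw (.c 0 (.b 136) (.b 351))) (.s13 (.tw (.s13 (.c 0 (.s13 (.tw (.s12 (.c 0 (.b 313) (.s12 (.s13 (.tw (.c 0 (.b 58) (.b 247))))))))) (.s13 (.tw (.c 0 (.b 14) (.c 0 (.b 136) (.b 136)))))))))))))))),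
  (.c 0 (.tw (.c 0 (.b 348) (.s13 (.tw (.s12 (.s13 (.c 0 (.b 23) (.b 21)))))))) (.s13 (.tw (.c 0 (.s12 (.s13 (.tw (.c 0 (.tw (.s12 (.s13 (.tw (.c 0 (.b 13) (.s13 (.tw (.s12 (.s13 (.c 0 (.b 24) (.b 136))))))))))) (.b 29))))) (.tw (.s12 (.s13 (.tw (.c 0 (.s13 (.tw (.c 0 (.b 63) (.b 44)))) (.s13 (.tw (.s12 (.s13 (.c 0 (.b 5) (.tw (.s12 (.s13 (.tw (.c 0 (.b 345) (.b 5)))))))))))))))))))),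
  (.tw (.c 0 (.tw (.c 0 (.b 478) (.s13 (.tw (.s12 (.s13 (.c 0 (.b 381) (.c 0 (.b 136) (.b 136))))))))) (.s13 (.tw (.c 0 (.s12 (.s13 (.tw (.s12 (.c 0 (.b 136) (.b 536)))))) (.s13 (.tw (.s12 (.s13 (.c 0 (.s13 (.tw (.c 0 (.b 387) (.tw (.s12 (.s13 (.tw (.c 0 (.b 63) (.b 139))))))))) (.s13 (.tw (.c 0 (.b 14) (.c 0 (.b 136) (.b 136))))))))))))))),
  (.tw (.c 0 (.tw (.c 0 (.b 14) (.s13 (.tw (.s12 (.s13 (.c 0 (.b 14) (.c 0 (.b 304) (.s13 (.tw (.s12 (.s13 (.c 0 (.b 63) (.b 369)))))))))))))) (.s13 (.tw (.c 0 (.s12 (.s13 (.tw (.c 0 (.b 14) (.c 0 (.b 136) (.b 136)))))) (.s13 (.tw (.s12 (.s13 (.c 0 (.s13 (.tw (.c 0 (.b 136) (.tw (.s12 (.s13 (.tw (.c 0 (.b 63) (.b 381))))))))) (.s13 (.tw (.c 0 (.b 143) (.s13 (.tw (.c 0 (.b 124) (.b 200))))))))))))))))),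
  (.c 0 (.tw (.c 0 (.b 348) (.s13 (.tw (.s12 (.s13 (.c 0 (.b 23) (.b 21)))))))) (.c 0 (.tw (.c 0 (.s13 (.tw (.c 0 (.b 304) (.s13 (.tw (.s12 (.s13 (.c 0 (.b 63) (.b 44))))))))) (.tw (.s12 (.s13 (.tw (.c 0 (.tw (.s12 (.s13 (.tw (.c 0 (.b 266) (.b 272)))))) (.s13 (.tw (.c 0 (.b 5) (.c 0 (.b 5) (.b 1)))))))))))) (.b 1))),
  (.c 0 (.tw (.c 0 (.b 348) (.s13 (.tw (.s12 (.s13 (.c 0 (.b 13) (.c 0 (.b 63) (.b 159))))))))) (.c 0 (.tw (.c 0 (.s13 (.tw (.c 0 (.b 304) (.s13 (.tw (.s12 (.s13 (.c 0 (.b 63) (.b 44))))))))) (.tw (.s12 (.s13 (.tw (.c 0 (.tw (.s12 (.s13 (.tw (.c 0 (.b 266) (.b 272)))))) (.s13 (.tw (.c 0 (.b 5) (.c 0 (.b 5) (.b 1)))))))))))) (.b 1))),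
  (.c 0 (.tw (.c 0 (.b 19) (.s13 (.tw (.s12 (.s13 (.c 0 (.b 538) (.s13 (.tw (.s12 (.s13 (.c 0 (.b 63) (.b 159))))))))))))) (.tw (.c 0 (.s13 (.tw (.c 0 (.b 304) (.s13 (.tw (.s12 (.s13 (.c 0 (.b 63) (.b 44))))))))) (.tw (.s12 (.s13 (.tw (.c 0 (.tw (.s12 (.s13 (.tw (.c 0 (.b 266) (.b 272)))))) (.s13 (.tw (.c 0 (.b 5) (.c 0 (.b 5) (.b 1))))))))))))),
  (.tw (.c 0 (.s12 (.s13 (.tw (.s12 (.c 0 (.b 19) (.s13 (.tw (.s12 (.s13 (.c 0 (.b 345) (.s12 (.s13 (.tw (.c 0 (.b 82) (.b 80))))))))))))))) (.s13 (.tw (.s12 (.c 0 (.s12 (.s13 (.tw (.c 0 (.b 136) (.b 405))))) (.s12 (.s13 (.s12 (.c 0 (.s13 (.tw (.s12 (.c 0 (.b 249) (.b 247))))) (.s13 (.tw (.s13 (.s12 (.c 0 (.b 67) (.s13 (.tw (.s13 (.c 0 (.b 14) (.b 44)))))))))))))))))))),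
  (.c 0 (.tw (.c 0 (.tw (.s13 (.tw (.c 0 (.b 478) (.b 16))))) (.b 422))) (.tw (.c 0 (.s12 (.s13 (.tw (.c 0 (.b 58) (.s13 (.tw (.s12 (.s13 (.c 0 (.b 136) (.b 44)))))))))) (.tw (.s12 (.s13 (.tw (.c 0 (.s13 (.tw (.c 0 (.b 136) (.b 44)))) (.s13 (.tw (.s12 (.s13 (.c 0 (.b 345) (.s13 (.tw (.s12 (.s13 (.c 0 (.b 202) (.b 5))))))))))))))))))),
  (.c 0 (.tw (.c 0 (.b 13) (.s13 (.tw (.s12 (.s13 (.c 0 (.b 284) (.c 0 (.b 136) (.b 29))))))))) (.s13 (.tw (.c 0 (.s12 (.s13 (.tw (.c 0 (.tw (.s12 (.s13 (.tw (.c 0 (.b 13) (.s13 (.tw (.s12 (.s13 (.c 0 (.b 24) (.b 136))))))))))) (.b 29))))) (.tw (.s12 (.s13 (.tw (.c 0 (.s13 (.tw (.c 0 (.b 63) (.b 44)))) (.s13 (.tw (.s12 (.s13 (.c 0 (.b 5) (.tw (.s12 (.s13 (.tw (.c 0 (.b 345) (.b 5)))))))))))))))))))),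
  (.c 0 (.tw (.c 0 (.b 348) (.s13 (.tw (.s12 (.s13 (.c 0 (.b 13) (.c 0 (.b 63) (.b 159))))))))) (.tw (.c 0 (.s12 (.s13 (.tw (.c 0 (.b 58) (.s13 (.tw (.s12 (.s13 (.c 0 (.b 136) (.b 44)))))))))) (.tw (.s12 (.s13 (.tw (.c 0 (.s13 (.tw (.c 0 (.b 136) (.b 44)))) (.s13 (.tw (.s12 (.s13 (.c 0 (.b 345) (.s13 (.tw (.s12 (.s13 (.c 0 (.b 202) (.b 5))))))))))))))))))),
  (.c 0 (.tw (.c 0 (.b 13) (.s13 (.tw (.s12 (.s13 (.c 0 (.b 284) (.c 0 (.b 136) (.b 29))))))))) (.tw (.c 0 (.s12 (.s13 (.tw (.c 0 (.b 58) (.s13 (.tw (.s12 (.s13 (.c 0 (.b 136) (.b 44)))))))))) (.tw (.s12 (.s13 (.tw (.c 0 (.s13 (.tw (.c 0 (.b 136) (.b 44)))) (.s13 (.tw (.s12 (.s13 (.c 0 (.b 345) (.s13 (.tw (.s12 (.s13 (.c 0 (.b 202) (.b 5))))))))))))))))))),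
  (.c 0 (.tw (.c 0 (.b 13) (.s13 (.tw (.s12 (.s13 (.c 0 (.b 13) (.c 0 (.b 14) (.s13 (.tw (.s12 (.s13 (.c 0 (.b 381) (.b 381)))))))))))))) (.s13 (.tw (.c 0 (.s13 (.tw (.c 0 (.b 247) (.s13 (.tw (.s12 (.s13 (.c 0 (.b 200) (.b 44))))))))) (.tw (.s12 (.s13 (.tw (.c 0 (.tw (.s13 (.s12 (.c 0 (.b 15) (.s13 (.tw (.c 0 (.b 24) (.b 24)))))))) (.s13 (.tw (.c 0 (.b 24) (.b 142))))))))))))),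
  (.c 0 (.tw (.c 0 (.b 13) (.s13 (.tw (.s12 (.s13 (.c 0 (.b 13) (.c 0 (.b 14) (.s13 (.tw (.s12 (.s13 (.c 0 (.b 381) (.b 381)))))))))))))) (.s13 (.tw (.c 0 (.s13 (.tw (.c 0 (.b 247) (.s13 (.tw (.s12 (.s13 (.c 0 (.b 200) (.b 44))))))))) (.s12 (.s13 (.tw (.c 0 (.s13 (.tw (.c 0 (.b 136) (.b 180)))) (.s13 (.tw (.s13 (.c 0 (.b 99) (.b 247))))))))))))),
  (.c 0 (.tw (.c 0 (.b 13) (.s13 (.tw (.s12 (.s13 (.c 0 (.b 13) (.c 0 (.b 14) (.s13 (.tw (.s12 (.s13 (.c 0 (.b 381) (.b 381)))))))))))))) (.tw (.c 0 (.s13 (.tw (.c 0 (.b 304) (.s13 (.tw (.s12 (.s13 (.c 0 (.b 63) (.b 44))))))))) (.tw (.s12 (.s13 (.tw (.c 0 (.tw (.s12 (.s13 (.tw (.c 0 (.b 266) (.b 272)))))) (.s13 (.tw (.c 0 (.b 5) (.c 0 (.b 5) (.b 1))))))))))))),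
  (.c 0 (.tw (.c 0 (.b 14) (.s13 (.tw (.s12 (.s13 (.c 0 (.b 13) (.s13 (.tw (.s12 (.s13 (.c 0 (.b 136) (.s13 (.tw (.s12 (.s13 (.c 0 (.b 63) (.b 369)))))))))))))))))) (.s12 (.s13 (.tw (.c 0 (.s12 (.s13 (.tw (.c 0 (.b 136) (.s13 (.tw (.s12 (.s13 (.c 0 (.b 63) (.b 381)))))))))) (.tw (.s12 (.s13 (.tw (.c 0 (.s13 (.tw (.c 0 (.tw (.c 0 (.b 5) (.b 1))) (.b 247)))) (.tw (.s12 (.s13 (.tw (.c 0 (.s12 (.s13 (.tw (.c 0 (.b 5) (.b 1))))) (.b 247)))))))))))))))),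
  (.c 0 (.tw (.c 0 (.b 14) (.s13 (.tw (.s12 (.s13 (.c 0 (.b 13) (.s13 (.tw (.s12 (.s13 (.c 0 (.b 136) (.s13 (.tw (.s12 (.s13 (.c 0 (.b 63) (.b 369)))))))))))))))))) (.s12 (.s13 (.tw (.s12 (.c 0 (.s13 (.tw (.c 0 (.tw (.s12 (.s13 (.tw (.c 0 (.b 63) (.b 239)))))) (.b 136)))) (.tw (.s12 (.s13 (.tw (.c 0 (.tw (.s12 (.s13 (.tw (.c 0 (.b 266) (.b 272)))))) (.s13 (.tw (.c 0 (.b 5) (.c 0 (.b 5) (.b 1)))))))))))))))),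
  (.c 0 (.tw (.c 0 (.b 14) (.s13 (.tw (.s12 (.s13 (.c 0 (.b 14) (.c 0 (.b 304) (.tw (.s12 (.s13 (.tw (.c 0 (.b 63) (.b 381)))))))))))))) (.tw (.c 0 (.s12 (.s13 (.tw (.c 0 (.b 284) (.s13 (.tw (.s12 (.s13 (.c 0 (.b 44) (.b 12)))))))))) (.tw (.s12 (.s13 (.tw (.c 0 (.tw (.s12 (.s13 (.tw (.c 0 (.b 272) (.b 239)))))) (.s13 (.tw (.c 0 (.b 5) (.b 5)))))))))))),
  (.c 0 (.tw (.c 0 (.b 136) (.s13 (.tw (.s12 (.s13 (.c 0 (.b 136) (.c 0 (.b 136) (.b 249))))))))) (.tw (.c 0 (.tw (.s13 (.tw (.c 0 (.s13 (.tw (.c 0 (.b 13) (.b 200)))) (.s13 (.tw (.c 0 (.b 24) (.b 24)))))))) (.tw (.s12 (.s13 (.tw (.c 0 (.s13 (.tw (.s13 (.c 0 (.b 634) (.b 320))))) (.s13 (.tw (.c 0 (.b 24) (.b 24)))))))))))),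
  (.tw (.c 0 (.tw (.c 0 (.s13 (.tw (.c 0 (.b 381) (.b 26)))) (.tw (.s12 (.s13 (.tw (.c 0 (.b 211) (.s13 (.tw (.s12 (.s13 (.c 0 (.b 24) (.b 304))))))))))))) (.s13 (.tw (.c 0 (.s13 (.tw (.c 0 (.b 13) (.tw (.s12 (.s13 (.tw (.c 0 (.b 44) (.b 12))))))))) (.c 0 (.tw (.s12 (.s13 (.tw (.c 0 (.b 67) (.b 247)))))) (.tw (.s13 (.tw (.c 0 (.b 67) (.b 247))))))))))),
  (.tw (.c 0 (.tw (.c 0 (.b 478) (.s13 (.tw (.s12 (.s13 (.c 0 (.b 381) (.c 0 (.b 136) (.b 136))))))))) (.tw (.s12 (.s13 (.s12 (.c 0 (.tw (.c 0 (.b 14) (.c 0 (.b 136) (.c 0 (.b 136) (.b 136))))) (.tw (.c 0 (.b 313) (.tw (.s12 (.s13 (.tw (.c 0 (.b 693) (.s13 (.tw (.c 0 (.b 272) (.b 26)))))))))))))))))),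
  (.tw (.c 0 (.tw (.c 0 (.b 136) (.s13 (.tw (.s12 (.s13 (.c 0 (.b 136) (.c 0 (.b 136) (.b 478))))))))) (.tw (.s12 (.s13 (.s12 (.c 0 (.tw (.c 0 (.b 14) (.c 0 (.b 136) (.c 0 (.b 136) (.b 136))))) (.tw (.c 0 (.b 313) (.tw (.s12 (.s13 (.tw (.c 0 (.b 693) (.s13 (.tw (.c 0 (.b 272) (.b 26)))))))))))))))))),
  (.c 0 (.tw (.c 0 (.b 348) (.s13 (.tw (.s12 (.s13 (.c 0 (.b 23) (.b 21)))))))) (.c 0 (.tw (.c 0 (.s13 (.tw (.c 0 (.b 304) (.s13 (.tw (.s12 (.s13 (.c 0 (.b 63) (.b 44))))))))) (.tw (.s12 (.s13 (.tw (.c 0 (.tw (.s12 (.s13 (.tw (.c 0 (.b 272) (.b 239)))))) (.s13 (.tw (.c 0 (.b 5) (.b 5))))))))))) (.b 1))),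
  (.tw (.c 0 (.tw (.c 0 (.b 189) (.s13 (.tw (.s12 (.s13 (.c 0 (.b 443) (.tw (.s13 (.tw (.c 0 (.b 5) (.b 136)))))))))))) (.s13 (.tw (.c 0 (.tw (.s12 (.s13 (.tw (.c 0 (.b 348) (.s13 (.tw (.c 0 (.b 5) (.b 5))))))))) (.tw (.s13 (.tw (.c 0 (.b 348) (.s13 (.tw (.c 0 (.b 5) (.b 5))))))))))))),
  (.c 0 (.tw (.c 0 (.tw (.s13 (.tw (.c 0 (.b 478) (.b 16))))) (.b 422))) (.tw (.c 0 (.s13 (.tw (.c 0 (.b 136) (.s13 (.tw (.s12 (.s13 (.c 0 (.b 136) (.b 180))))))))) (.tw (.s12 (.s13 (.tw (.c 0 (.s13 (.tw (.c 0 (.b 272) (.b 247)))) (.s13 (.tw (.s13 (.c 0 (.b 5) (.c 0 (.b 5) (.b 12)))))))))))))),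
  (.c 0 (.tw (.c 0 (.b 348) (.s13 (.tw (.s12 (.s13 (.c 0 (.b 23) (.b 21)))))))) (.tw (.c 0 (.s13 (.tw (.c 0 (.b 136) (.s13 (.tw (.s12 (.s13 (.c 0 (.b 136) (.b 180))))))))) (.tw (.s12 (.s13 (.tw (.c 0 (.s13 (.tw (.c 0 (.b 272) (.b 247)))) (.s13 (.tw (.s13 (.c 0 (.b 5) (.c 0 (.b 5) (.b 12)))))))))))))),
  (.c 0 (.tw (.c 0 (.b 348) (.s13 (.tw (.s12 (.s13 (.c 0 (.b 13) (.c 0 (.b 63) (.b 159))))))))) (.tw (.c 0 (.s13 (.tw (.c 0 (.b 136) (.s13 (.tw (.s12 (.s13 (.c 0 (.b 136) (.b 180))))))))) (.tw (.s12 (.s13 (.tw (.c 0 (.s13 (.tw (.c 0 (.b 272) (.b 247)))) (.s13 (.tw (.s13 (.c 0 (.b 5) (.c 0 (.b 5) (.b 12)))))))))))))),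
  (.c 0 (.tw (.c 0 (.b 13) (.s13 (.tw (.s12 (.s13 (.c 0 (.b 284) (.c 0 (.b 136) (.b 29))))))))) (.s13 (.c 0 (.tw (.c 0 (.s13 (.tw (.c 0 (.s13 (.tw (.c 0 (.b 180) (.b 12)))) (.s13 (.tw (.s13 (.c 0 (.b 99) (.b 247)))))))) (.s12 (.s13 (.tw (.c 0 (.s13 (.tw (.c 0 (.b 180) (.b 12)))) (.s13 (.tw (.s13 (.c 0 (.b 99) (.b 247))))))))))) (.b 1)))),
  (.c 0 (.tw (.c 0 (.b 13) (.s13 (.tw (.s12 (.s13 (.c 0 (.b 284) (.c 0 (.b 136) (.b 29))))))))) (.c 0 (.tw (.c 0 (.s13 (.tw (.c 0 (.b 304) (.s13 (.tw (.s12 (.s13 (.c 0 (.b 63) (.b 44))))))))) (.tw (.s12 (.s13 (.tw (.c 0 (.tw (.s12 (.s13 (.tw (.c 0 (.b 272) (.b 239)))))) (.s13 (.tw (.c 0 (.b 5) (.b 5))))))))))) (.b 1))),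
  (.c 0 (.tw (.c 0 (.b 13) (.s13 (.tw (.s12 (.s13 (.c 0 (.b 284) (.c 0 (.b 136) (.b 29))))))))) (.tw (.c 0 (.s13 (.tw (.c 0 (.b 136) (.s13 (.tw (.s12 (.s13 (.c 0 (.b 136) (.b 180))))))))) (.tw (.s12 (.s13 (.tw (.c 0 (.s13 (.tw (.c 0 (.b 272) (.b 247)))) (.s13 (.tw (.s13 (.c 0 (.b 5) (.c 0 (.b 5) (.b 12)))))))))))))),
  (.c 0 (.tw (.c 0 (.b 13) (.s13 (.tw (.s12 (.s13 (.c 0 (.b 13) (.c 0 (.b 14) (.s13 (.tw (.s12 (.s13 (.c 0 (.b 381) (.b 381)))))))))))))) (.s13 (.tw (.c 0 (.s13 (.tw (.c 0 (.s13 (.tw (.c 0 (.b 180) (.b 12)))) (.s13 (.tw (.s13 (.c 0 (.b 99) (.b 247)))))))) (.s12 (.s13 (.tw (.c 0 (.s13 (.tw (.c 0 (.b 180) (.b 12)))) (.s13 (.tw (.s13 (.c 0 (.b 99) (.b 247))))))))))))),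
  (.c 0 (.tw (.c 0 (.b 13) (.s13 (.tw (.s12 (.s13 (.c 0 (.b 13) (.c 0 (.b 14) (.s13 (.tw (.s12 (.s13 (.c 0 (.b 381) (.b 381)))))))))))))) (.tw (.c 0 (.s13 (.tw (.c 0 (.b 304) (.s13 (.tw (.s12 (.s13 (.c 0 (.b 63) (.b 44))))))))) (.tw (.s12 (.s13 (.tw (.c 0 (.tw (.s12 (.s13 (.tw (.c 0 (.b 272) (.b 239)))))) (.s13 (.tw (.c 0 (.b 5) (.b 5)))))))))))),
  (.c 0 (.tw (.c 0 (.b 14) (.s13 (.tw (.s12 (.s13 (.c 0 (.b 13) (.s13 (.tw (.s12 (.s13 (.c 0 (.b 136) (.s13 (.tw (.s12 (.s13 (.c 0 (.b 63) (.b 369)))))))))))))))))) (.s12 (.s13 (.tw (.s12 (.c 0 (.s13 (.tw (.c 0 (.tw (.s12 (.s13 (.tw (.c 0 (.b 63) (.b 239)))))) (.b 136)))) (.tw (.s12 (.s13 (.tw (.c 0 (.tw (.s12 (.s13 (.tw (.c 0 (.b 272) (.b 239)))))) (.s13 (.tw (.c 0 (.b 5) (.b 5))))))))))))))),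
  (.c 0 (.tw (.c 0 (.b 14) (.s13 (.tw (.s12 (.s13 (.c 0 (.b 14) (.c 0 (.b 304) (.tw (.s12 (.s13 (.tw (.c 0 (.b 63) (.b 381)))))))))))))) (.s13 (.tw (.s13 (.c 0 (.tw (.s12 (.s13 (.s12 (.c 0 (.b 13) (.s13 (.tw (.s13 (.c 0 (.b 14) (.c 0 (.b 247) (.s13 (.tw (.c 0 (.b 24) (.b 24)))))))))))))) (.tw (.c 0 (.s13 (.tw (.c 0 (.b 24) (.b 24)))) (.s13 (.tw (.s12 (.s13 (.c 0 (.b 24) (.b 44))))))))))))),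
  (.c 0 (.tw (.c 0 (.b 189) (.s13 (.tw (.s12 (.s13 (.c 0 (.b 443) (.tw (.s13 (.tw (.c 0 (.b 5) (.b 136)))))))))))) (.s13 (.tw (.c 0 (.tw (.s12 (.s13 (.tw (.c 0 (.b 348) (.s13 (.tw (.c 0 (.b 5) (.b 5))))))))) (.tw (.s13 (.tw (.c 0 (.b 348) (.s13 (.tw (.c 0 (.b 5) (.b 5)))))))))))),
  (.c 0 (.s12 (.s13 (.tw (.s12 (.c 0 (.b 19) (.s13 (.tw (.s12 (.s13 (.c 0 (.b 345) (.s12 (.s13 (.tw (.c 0 (.b 82) (.b 80))))))))))))))) (.s13 (.tw (.s12 (.c 0 (.s12 (.s13 (.tw (.c 0 (.b 136) (.b 405))))) (.s12 (.s13 (.s12 (.c 0 (.s13 (.tw (.s12 (.c 0 (.b 249) (.b 247))))) (.s13 (.tw (.s13 (.s12 (.c 0 (.b 67) (.s13 (.tw (.s13 (.c 0 (.b 14) (.b 44))))))))))))))))))),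
  (.c 0 (.tw (.c 0 (.b 14) (.s13 (.tw (.s12 (.s13 (.c 0 (.b 14) (.c 0 (.b 304) (.s13 (.tw (.s12 (.s13 (.c 0 (.b 63) (.b 369)))))))))))))) (.s13 (.tw (.c 0 (.s12 (.s13 (.tw (.c 0 (.b 136) (.b 351))))) (.c 0 (.tw (.s13 (.c 0 (.b 70) (.b 45)))) (.s13 (.tw (.c 0 (.b 143) (.s13 (.tw (.c 0 (.b 124) (.b 200)))))))))))),
  (.c 0 (.tw (.c 0 (.b 14) (.s13 (.tw (.s12 (.s13 (.c 0 (.b 14) (.c 0 (.b 304) (.s13 (.tw (.s12 (.s13 (.c 0 (.b 63) (.b 369)))))))))))))) (.s13 (.tw (.c 0 (.tw (.s13 (.tw (.c 0 (.b 210) (.s13 (.tw (.c 0 (.b 5) (.b 381)))))))) (.s13 (.tw (.c 0 (.tw (.c 0 (.b 136) (.b 136))) (.s13 (.tw (.c 0 (.b 5) (.b 247))))))))))),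
  (.c 0 (.tw (.c 0 (.b 14) (.s13 (.tw (.s12 (.s13 (.c 0 (.b 14) (.c 0 (.b 304) (.s13 (.tw (.s12 (.s13 (.c 0 (.b 63) (.b 369)))))))))))))) (.s13 (.tw (.c 0 (.s12 (.s13 (.tw (.c 0 (.b 136) (.b 536))))) (.s13 (.tw (.s12 (.s13 (.c 0 (.s12 (.s13 (.tw (.c 0 (.tw (.s12 (.s13 (.tw (.c 0 (.b 13) (.b 272)))))) (.s13 (.tw (.c 0 (.b 44) (.b 12)))))))) (.s13 (.tw (.c 0 (.b 14) (.c 0 (.b 136) (.b 136)))))))))))))),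
  (.c 0 (.tw (.c 0 (.b 14) (.s13 (.tw (.s12 (.s13 (.c 0 (.b 14) (.c 0 (.b 304) (.s13 (.tw (.s12 (.s13 (.c 0 (.b 63) (.b 369)))))))))))))) (.s13 (.tw (.c 0 (.s12 (.s13 (.tw (.c 0 (.b 136) (.b 351))))) (.s12 (.s13 (.s12 (.c 0 (.tw (.s13 (.tw (.s12 (.c 0 (.b 70) (.b 45)))))) (.s13 (.tw (.s12 (.c 0 (.b 143) (.tw (.s12 (.s13 (.tw (.c 0 (.b 58) (.b 44)))))))))))))))))),
  (.tw (.c 0 (.tw (.c 0 (.tw (.s13 (.tw (.c 0 (.b 478) (.b 16))))) (.b 111))) (.s13 (.c 0 (.tw (.c 0 (.s13 (.tw (.c 0 (.b 14) (.s13 (.tw (.s12 (.s13 (.c 0 (.b 136) (.s13 (.tw (.s12 (.s13 (.c 0 (.b 44) (.b 12)))))))))))))) (.s13 (.tw (.c 0 (.s13 (.tw (.c 0 (.b 63) (.b 44)))) (.s13 (.tw (.s12 (.c 0 (.b 5) (.c 0 (.b 5) (.b 26))))))))))) (.b 1))))),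
  (.c 0 (.tw (.c 0 (.b 14) (.s13 (.tw (.s12 (.s13 (.c 0 (.b 14) (.c 0 (.b 304) (.s13 (.tw (.s12 (.s13 (.c 0 (.b 63) (.b 369)))))))))))))) (.s13 (.tw (.c 0 (.s13 (.tw (.c 0 (.b 136) (.tw (.s12 (.s13 (.tw (.c 0 (.b 63) (.b 381))))))))) (.s13 (.s12 (.c 0 (.s13 (.tw (.s12 (.c 0 (.b 693) (.s13 (.tw (.c 0 (.b 24) (.b 26)))))))) (.s13 (.tw (.s13 (.s12 (.c 0 (.b 67) (.s13 (.tw (.s13 (.c 0 (.b 14) (.b 44))))))))))))))))),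
  (.c 0 (.tw (.c 0 (.b 311) (.s13 (.tw (.s13 (.c 0 (.b 443) (.b 147))))))) (.s13 (.tw (.c 0 (.tw (.s13 (.c 0 (.b 70) (.b 45)))) (.s13 (.c 0 (.tw (.s13 (.tw (.s13 (.c 0 (.b 67) (.s13 (.tw (.s13 (.c 0 (.b 14) (.b 44)))))))))) (.tw (.s12 (.s13 (.s12 (.c 0 (.b 67) (.s13 (.tw (.s13 (.c 0 (.b 14) (.b 44)))))))))))))))),
  (.tw (.c 0 (.tw (.c 0 (.tw (.s13 (.tw (.c 0 (.b 478) (.b 16))))) (.b 111))) (.s13 (.tw (.c 0 (.s12 (.s13 (.tw (.c 0 (.b 164) (.s13 (.tw (.s12 (.s13 (.c 0 (.b 14) (.c 0 (.b 136) (.b 136))))))))))) (.s13 (.tw (.c 0 (.s13 (.tw (.c 0 (.b 136) (.b 44)))) (.s13 (.tw (.s13 (.c 0 (.b 5) (.s13 (.tw (.c 0 (.b 5) (.b 63)))))))))))))))),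
  (.c 0 (.tw (.c 0 (.b 189) (.tw (.s12 (.s13 (.tw (.c 0 (.b 13) (.c 0 (.b 136) (.b 207))))))))) (.s13 (.tw (.c 0 (.tw (.s13 (.c 0 (.b 70) (.b 45)))) (.s13 (.c 0 (.tw (.s13 (.tw (.s13 (.c 0 (.b 67) (.s13 (.tw (.s13 (.c 0 (.b 14) (.b 44)))))))))) (.tw (.s12 (.s13 (.s12 (.c 0 (.b 67) (.s13 (.tw (.s13 (.c 0 (.b 14) (.b 44)))))))))))))))),
  (.c 0 (.tw (.c 0 (.tw (.s12 (.s13 (.tw (.c 0 (.b 63) (.b 159)))))) (.s13 (.tw (.s12 (.s13 (.c 0 (.b 63) (.b 108)))))))) (.s13 (.tw (.c 0 (.tw (.s13 (.c 0 (.b 70) (.b 45)))) (.s13 (.c 0 (.tw (.s13 (.tw (.s13 (.c 0 (.b 67) (.s13 (.tw (.s13 (.c 0 (.b 14) (.b 44)))))))))) (.tw (.s12 (.s13 (.s12 (.c 0 (.b 67) (.s13 (.tw (.s13 (.c 0 (.b 14) (.b 44)))))))))))))))),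
  (.c 0 (.tw (.c 0 (.b 14) (.s13 (.tw (.s12 (.s13 (.c 0 (.b 14) (.c 0 (.b 304) (.s13 (.tw (.s12 (.s13 (.c 0 (.b 63) (.b 369)))))))))))))) (.s13 (.tw (.c 0 (.tw (.s13 (.c 0 (.b 70) (.b 45)))) (.s13 (.c 0 (.tw (.s13 (.tw (.s13 (.c 0 (.b 67) (.s13 (.tw (.s13 (.c 0 (.b 14) (.b 44)))))))))) (.tw (.s12 (.s13 (.s12 (.c 0 (.b 67) (.s13 (.tw (.s13 (.c 0 (.b 14) (.b 44)))))))))))))))),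
  (.c 0 (.tw (.c 0 (.b 136) (.s13 (.tw (.s12 (.s13 (.c 0 (.b 136) (.c 0 (.b 136) (.b 478))))))))) (.tw (.s12 (.s13 (.s12 (.c 0 (.tw (.c 0 (.b 14) (.c 0 (.b 136) (.c 0 (.b 136) (.b 136))))) (.tw (.c 0 (.b 313) (.tw (.s12 (.s13 (.tw (.c 0 (.b 693) (.s13 (.tw (.c 0 (.b 272) (.b 26))))))))))))))))),
  (.c 0 (.tw (.c 0 (.b 14) (.s13 (.tw (.s12 (.s13 (.c 0 (.b 14) (.c 0 (.b 304) (.s13 (.tw (.s12 (.s13 (.c 0 (.b 63) (.b 369)))))))))))))) (.s13 (.tw (.c 0 (.s12 (.s13 (.tw (.c 0 (.b 14) (.c 0 (.b 136) (.b 136)))))) (.s13 (.tw (.s12 (.s13 (.c 0 (.s13 (.tw (.c 0 (.b 136) (.tw (.s12 (.s13 (.tw (.c 0 (.b 63) (.b 381))))))))) (.s13 (.tw (.c 0 (.b 143) (.s13 (.tw (.c 0 (.b 124) (.b 200)))))))))))))))),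
  (.c 0 (.tw (.c 0 (.b 14) (.s13 (.tw (.s12 (.s13 (.c 0 (.b 14) (.c 0 (.b 304) (.s13 (.tw (.s12 (.s13 (.c 0 (.b 63) (.b 369)))))))))))))) (.s13 (.tw (.c 0 (.s12 (.s13 (.tw (.c 0 (.b 136) (.b 351))))) (.c 0 (.s13 (.tw (.c 0 (.b 136) (.b 462)))) (.s13 (.tw (.c 0 (.b 693) (.s13 (.tw (.c 0 (.b 5) (.b 200)))))))))))),
  (.c 0 (.tw (.c 0 (.b 14) (.s13 (.tw (.s12 (.s13 (.c 0 (.b 14) (.c 0 (.b 304) (.s13 (.tw (.s12 (.s13 (.c 0 (.b 63) (.b 369)))))))))))))) (.s13 (.tw (.c 0 (.s12 (.s13 (.tw (.c 0 (.b 14) (.c 0 (.b 136) (.b 136)))))) (.s13 (.tw (.s12 (.s13 (.c 0 (.s12 (.s13 (.tw (.c 0 (.b 136) (.b 351))))) (.s13 (.tw (.c 0 (.b 143) (.s13 (.tw (.c 0 (.b 5) (.b 200)))))))))))))))),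
  (.c 0 (.s12 (.s13 (.tw (.s12 (.c 0 (.b 13) (.s13 (.tw (.s12 (.s13 (.c 0 (.b 136) (.s13 (.tw (.s12 (.s13 (.c 0 (.b 284) (.b 147)))))))))))))))) (.s13 (.tw (.s12 (.c 0 (.tw (.s13 (.c 0 (.b 70) (.b 45)))) (.tw (.s12 (.s13 (.tw (.c 0 (.tw (.c 0 (.b 136) (.b 462))) (.s13 (.tw (.c 0 (.b 693) (.s13 (.tw (.c 0 (.b 5) (.b 465))))))))))))))))),
  (.c 0 (.tw (.c 0 (.b 284) (.s13 (.tw (.s12 (.s13 (.c 0 (.b 63) (.b 93)))))))) (.s13 (.tw (.c 0 (.tw (.s13 (.tw (.c 0 (.s13 (.tw (.c 0 (.b 136) (.b 462)))) (.s13 (.tw (.c 0 (.tw (.s13 (.tw (.c 0 (.b 124) (.b 247))))) (.s13 (.tw (.c 0 (.b 63) (.b 381))))))))))) (.tw (.s13 (.c 0 (.b 70) (.b 45))))))))]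

theorem good4 : ∀ l ∈ box4, G (l, H, H) := by
  intro l hl
  have h := G_chkTbl tbl_good (ts := box4.map fun l => (l, H, H)) (ds := dv4) (by decide +kernel)
  exact h _ (List.mem_map.mpr ⟨l, hl, rfl⟩)

def box5 : List (List ℕ) := [
  [10,7,6,6,6,5,5,5,1,1],
  [10,7,6,6,6,5,5,5,2],
  [10,7,6,6,6,6,4,4,3],
  [10,7,6,6,6,6,5,3,3],
  [10,7,6,6,6,6,5,4,1,1],
  [10,7,6,6,6,6,5,4,2],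
  [10,7,6,6,6,6,5,5,1],
  [10,7,6,6,6,6,6,3,1,1],
  [10,7,6,6,6,6,6,3,2],
  [10,7,6,6,6,6,6,4,1],
  [10,7,6,6,6,6,6,5],
  [10,7,7,5,5,5,5,4,4],
  [10,7,7,5,5,5,5,5,3],
  [10,7,7,6,5,5,4,4,4],
  [10,7,7,6,5,5,5,4,3],
  [10,7,7,6,5,5,5,5,1,1],
  [10,7,7,6,5,5,5,5,2],
  [10,7,7,6,6,4,4,4,4],
  [10,7,7,6,6,5,4,4,3],
  [10,7,7,6,6,5,5,3,3],
  [10,7,7,6,6,5,5,4,1,1],
  [10,7,7,6,6,5,5,4,2],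
  [10,7,7,6,6,5,5,5,1],
  [10,7,7,6,6,6,4,3,3],
  [10,7,7,6,6,6,4,4,1,1],
  [10,7,7,6,6,6,4,4,2],
  [10,7,7,6,6,6,5,3,1,1],
  [10,7,7,6,6,6,5,3,2],
  [10,7,7,6,6,6,5,4,1],
  [10,7,7,6,6,6,5,5],
  [10,7,7,6,6,6,6,1,1,1,1],
  [10,7,7,6,6,6,6,2,1,1],
  [10,7,7,6,6,6,6,2,2],
  [10,7,7,6,6,6,6,3,1],
  [10,7,7,6,6,6,6,4],
  [10,7,7,7,5,4,4,4,4],
  [10,7,7,7,5,5,4,4,3],
  [10,7,7,7,5,5,5,3,3],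
  [10,7,7,7,5,5,5,4,1,1],
  [10,7,7,7,5,5,5,4,2],
  [10,7,7,7,5,5,5,5,1],
  [10,7,7,7,6,4,4,4,3],
  [10,7,7,7,6,5,4,3,3],
  [10,7,7,7,6,5,4,4,1,1],
  [10,7,7,7,6,5,4,4,2],
  [10,7,7,7,6,5,5,3,1,1],
  [10,7,7,7,6,5,5,3,2],
  [10,7,7,7,6,5,5,4,1],
  [10,7,7,7,6,5,5,5],
  [10,7,7,7,6,6,3,3,3],
  [10,7,7,7,6,6,4,3,1,1],
  [10,7,7,7,6,6,4,3,2],
  [10,7,7,7,6,6,4,4,1],
  [10,7,7,7,6,6,5,1,1,1,1],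
  [10,7,7,7,6,6,5,2,1,1],
  [10,7,7,7,6,6,5,2,2],
  [10,7,7,7,6,6,5,3,1],
  [10,7,7,7,6,6,5,4],
  [10,7,7,7,6,6,6,1,1,1],
  [10,7,7,7,6,6,6,2,1],
  [10,7,7,7,6,6,6,3],
  [10,7,7,7,7,4,4,3,3],
  [10,7,7,7,7,4,4,4,1,1],
  [10,7,7,7,7,4,4,4,2],
  [10,7,7,7,7,5,3,3,3],
  [10,7,7,7,7,5,4,3,1,1],
  [10,7,7,7,7,5,4,3,2],
  [10,7,7,7,7,5,4,4,1],
  [10,7,7,7,7,5,5,1,1,1,1],
  [10,7,7,7,7,5,5,2,1,1],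
  [10,7,7,7,7,5,5,2,2],
  [10,7,7,7,7,5,5,3,1],
  [10,7,7,7,7,5,5,4],
  [10,7,7,7,7,6,3,3,1,1],
  [10,7,7,7,7,6,3,3,2],
  [10,7,7,7,7,6,4,1,1,1,1],
  [10,7,7,7,7,6,4,2,1,1],
  [10,7,7,7,7,6,4,2,2],
  [10,7,7,7,7,6,4,3,1],
  [10,7,7,7,7,6,4,4],
  [10,7,7,7,7,6,5,1,1,1],
  [10,7,7,7,7,6,5,2,1],
  [10,7,7,7,7,6,5,3],
  [10,7,7,7,7,6,6,1,1],
  [10,7,7,7,7,6,6,2],
  [10,7,7,7,7,7,3,1,1,1,1],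
  [10,7,7,7,7,7,3,2,1,1],
  [10,7,7,7,7,7,3,2,2],
  [10,7,7,7,7,7,3,3,1],
  [10,7,7,7,7,7,4,1,1,1],
  [10,7,7,7,7,7,4,2,1],
  [10,7,7,7,7,7,4,3],
  [10,7,7,7,7,7,5,1,1],
  [10,7,7,7,7,7,5,2],
  [10,7,7,7,7,7,6,1],
  [10,7,7,7,7,7,7],
  [10,8,5,5,5,5,5,5,4],
  [10,8,6,5,5,5,5,4,4],
  [10,8,6,5,5,5,5,5,3],
  [10,8,6,6,5,5,4,4,4],
  [10,8,6,6,5,5,5,4,3],
  [10,8,6,6,5,5,5,5,1,1],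
  [10,8,6,6,5,5,5,5,2],
  [10,8,6,6,6,4,4,4,4],
  [10,8,6,6,6,5,4,4,3],
  [10,8,6,6,6,5,5,3,3],
  [10,8,6,6,6,5,5,4,1,1],
  [10,8,6,6,6,5,5,4,2],
  [10,8,6,6,6,5,5,5,1],
  [10,8,6,6,6,6,4,3,3],
  [10,8,6,6,6,6,4,4,1,1],
  [10,8,6,6,6,6,4,4,2],
  [10,8,6,6,6,6,5,3,1,1],
  [10,8,6,6,6,6,5,3,2],
  [10,8,6,6,6,6,5,4,1],
  [10,8,6,6,6,6,5,5],
  [10,8,6,6,6,6,6,1,1,1,1],
  [10,8,6,6,6,6,6,2,1,1],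
  [10,8,6,6,6,6,6,2,2],
  [10,8,6,6,6,6,6,3,1],
  [10,8,6,6,6,6,6,4],
  [10,8,7,5,5,5,4,4,4],
  [10,8,7,5,5,5,5,4,3],
  [10,8,7,5,5,5,5,5,1,1],
  [10,8,7,5,5,5,5,5,2],
  [10,8,7,6,5,4,4,4,4],
  [10,8,7,6,5,5,4,4,3],
  [10,8,7,6,5,5,5,3,3],
  [10,8,7,6,5,5,5,4,1,1],
  [10,8,7,6,5,5,5,4,2],
  [10,8,7,6,5,5,5,5,1],
  [10,8,7,6,6,4,4,4,3],
  [10,8,7,6,6,5,4,3,3],
  [10,8,7,6,6,5,4,4,1,1],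
  [10,8,7,6,6,5,4,4,2],
  [10,8,7,6,6,5,5,3,1,1],
  [10,8,7,6,6,5,5,3,2],
  [10,8,7,6,6,5,5,4,1],
  [10,8,7,6,6,5,5,5],
  [10,8,7,6,6,6,3,3,3],
  [10,8,7,6,6,6,4,3,1,1],
  [10,8,7,6,6,6,4,3,2],
  [10,8,7,6,6,6,4,4,1],
  [10,8,7,6,6,6,5,1,1,1,1],
  [10,8,7,6,6,6,5,2,1,1],
  [10,8,7,6,6,6,5,2,2],
  [10,8,7,6,6,6,5,3,1],
  [10,8,7,6,6,6,5,4],
  [10,8,7,6,6,6,6,1,1,1],
  [10,8,7,6,6,6,6,2,1],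
  [10,8,7,6,6,6,6,3],
  [10,8,7,7,4,4,4,4,4],
  [10,8,7,7,5,4,4,4,3],
  [10,8,7,7,5,5,4,3,3],
  [10,8,7,7,5,5,4,4,1,1],
  [10,8,7,7,5,5,4,4,2],
  [10,8,7,7,5,5,5,3,1,1],
  [10,8,7,7,5,5,5,3,2],
  [10,8,7,7,5,5,5,4,1],
  [10,8,7,7,5,5,5,5],
  [10,8,7,7,6,4,4,3,3],
  [10,8,7,7,6,4,4,4,1,1],
  [10,8,7,7,6,4,4,4,2],
  [10,8,7,7,6,5,3,3,3],
  [10,8,7,7,6,5,4,3,1,1],
  [10,8,7,7,6,5,4,3,2],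
  [10,8,7,7,6,5,4,4,1],
  [10,8,7,7,6,5,5,1,1,1,1],
  [10,8,7,7,6,5,5,2,1,1],
  [10,8,7,7,6,5,5,2,2],
  [10,8,7,7,6,5,5,3,1],
  [10,8,7,7,6,5,5,4],
  [10,8,7,7,6,6,3,3,1,1],
  [10,8,7,7,6,6,3,3,2],
  [10,8,7,7,6,6,4,1,1,1,1],
  [10,8,7,7,6,6,4,2,1,1],
  [10,8,7,7,6,6,4,2,2],
  [10,8,7,7,6,6,4,3,1],
  [10,8,7,7,6,6,4,4],
  [10,8,7,7,6,6,5,1,1,1],
  [10,8,7,7,6,6,5,2,1],
  [10,8,7,7,6,6,5,3],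
  [10,8,7,7,6,6,6,1,1],
  [10,8,7,7,6,6,6,2],
  [10,8,7,7,7,4,3,3,3],
  [10,8,7,7,7,4,4,3,1,1],
  [10,8,7,7,7,4,4,3,2],
  [10,8,7,7,7,4,4,4,1],
  [10,8,7,7,7,5,3,3,1,1],
  [10,8,7,7,7,5,3,3,2],
  [10,8,7,7,7,5,4,1,1,1,1],
  [10,8,7,7,7,5,4,2,1,1],
  [10,8,7,7,7,5,4,2,2],
  [10,8,7,7,7,5,4,3,1],
  [10,8,7,7,7,5,4,4],
  [10,8,7,7,7,5,5,1,1,1],
  [10,8,7,7,7,5,5,2,1],
  [10,8,7,7,7,5,5,3],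
  [10,8,7,7,7,6,3,1,1,1,1],
  [10,8,7,7,7,6,3,2,1,1],
  [10,8,7,7,7,6,3,2,2],
  [10,8,7,7,7,6,3,3,1],
  [10,8,7,7,7,6,4,1,1,1],
  [10,8,7,7,7,6,4,2,1],
  [10,8,7,7,7,6,4,3],
  [10,8,7,7,7,6,5,1,1],
  [10,8,7,7,7,6,5,2],
  [10,8,7,7,7,6,6,1],
  [10,8,7,7,7,7,1,1,1,1,1,1],
  [10,8,7,7,7,7,2,1,1,1,1],
  [10,8,7,7,7,7,2,2,1,1],
  [10,8,7,7,7,7,2,2,2],
  [10,8,7,7,7,7,3,1,1,1],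
  [10,8,7,7,7,7,3,2,1],
  [10,8,7,7,7,7,3,3],
  [10,8,7,7,7,7,4,1,1],
  [10,8,7,7,7,7,4,2],
  [10,8,7,7,7,7,5,1],
  [10,8,7,7,7,7,6],
  [10,8,8,5,5,4,4,4,4],
  [10,8,8,5,5,5,4,4,3],
  [10,8,8,5,5,5,5,3,3],
  [10,8,8,5,5,5,5,4,1,1],
  [10,8,8,5,5,5,5,4,2],
  [10,8,8,5,5,5,5,5,1],
  [10,8,8,6,4,4,4,4,4],
  [10,8,8,6,5,4,4,4,3],
  [10,8,8,6,5,5,4,3,3],
  [10,8,8,6,5,5,4,4,1,1],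
  [10,8,8,6,5,5,4,4,2],
  [10,8,8,6,5,5,5,3,1,1],
  [10,8,8,6,5,5,5,3,2],
  [10,8,8,6,5,5,5,4,1],
  [10,8,8,6,5,5,5,5],
  [10,8,8,6,6,4,4,3,3],
  [10,8,8,6,6,4,4,4,1,1],
  [10,8,8,6,6,4,4,4,2],
  [10,8,8,6,6,5,3,3,3],
  [10,8,8,6,6,5,4,3,1,1],
  [10,8,8,6,6,5,4,3,2],
  [10,8,8,6,6,5,4,4,1],
  [10,8,8,6,6,5,5,1,1,1,1],
  [10,8,8,6,6,5,5,2,1,1],
  [10,8,8,6,6,5,5,2,2],
  [10,8,8,6,6,5,5,3,1],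
  [10,8,8,6,6,5,5,4],
  [10,8,8,6,6,6,3,3,1,1],
  [10,8,8,6,6,6,3,3,2],
  [10,8,8,6,6,6,4,1,1,1,1],
  [10,8,8,6,6,6,4,2,1,1],
  [10,8,8,6,6,6,4,2,2],
  [10,8,8,6,6,6,4,3,1],
  [10,8,8,6,6,6,4,4],
  [10,8,8,6,6,6,5,1,1,1],
  [10,8,8,6,6,6,5,2,1],
  [10,8,8,6,6,6,5,3],
  [10,8,8,6,6,6,6,1,1],
  [10,8,8,6,6,6,6,2],
  [10,8,8,7,4,4,4,4,3],
  [10,8,8,7,5,4,4,3,3],
  [10,8,8,7,5,4,4,4,1,1],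
  [10,8,8,7,5,4,4,4,2],
  [10,8,8,7,5,5,3,3,3],
  [10,8,8,7,5,5,4,3,1,1],
  [10,8,8,7,5,5,4,3,2],
  [10,8,8,7,5,5,4,4,1],
  [10,8,8,7,5,5,5,1,1,1,1],
  [10,8,8,7,5,5,5,2,1,1],
  [10,8,8,7,5,5,5,2,2],
  [10,8,8,7,5,5,5,3,1],
  [10,8,8,7,5,5,5,4],
  [10,8,8,7,6,4,3,3,3],
  [10,8,8,7,6,4,4,3,1,1],
  [10,8,8,7,6,4,4,3,2],
  [10,8,8,7,6,4,4,4,1],
  [10,8,8,7,6,5,3,3,1,1],
  [10,8,8,7,6,5,3,3,2],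
  [10,8,8,7,6,5,4,1,1,1,1],
  [10,8,8,7,6,5,4,2,1,1],
  [10,8,8,7,6,5,4,2,2],
  [10,8,8,7,6,5,4,3,1],
  [10,8,8,7,6,5,4,4],
  [10,8,8,7,6,5,5,1,1,1],
  [10,8,8,7,6,5,5,2,1],
  [10,8,8,7,6,5,5,3],
  [10,8,8,7,6,6,3,1,1,1,1],
  [10,8,8,7,6,6,3,2,1,1],
  [10,8,8,7,6,6,3,2,2],
  [10,8,8,7,6,6,3,3,1],
  [10,8,8,7,6,6,4,1,1,1],
  [10,8,8,7,6,6,4,2,1],
  [10,8,8,7,6,6,4,3],
  [10,8,8,7,6,6,5,1,1],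
  [10,8,8,7,6,6,5,2],
  [10,8,8,7,6,6,6,1],
  [10,8,8,7,7,3,3,3,3],
  [10,8,8,7,7,4,3,3,1,1],
  [10,8,8,7,7,4,3,3,2],
  [10,8,8,7,7,4,4,1,1,1,1],
  [10,8,8,7,7,4,4,2,1,1]]

def dv5 : List Dv := [
  (.tw (.c 0 (.tw (.c 0 (.tw (.s13 (.tw (.c 0 (.b 478) (.b 16))))) (.b 111))) (.s13 (.tw (.c 0 (.s13 (.tw (.c 0 (.b 13) (.s13 (.tw (.s12 (.s13 (.c 0 (.b 13) (.c 0 (.b 136) (.b 478)))))))))) (.tw (.s13 (.tw (.c 0 (.s13 (.tw (.c 0 (.b 136) (.b 44)))) (.s13 (.tw (.c 0 (.b 5) (.s13 (.tw (.c 0 (.b 384) (.b 5)))))))))))))))),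
  (.c 0 (.tw (.c 0 (.b 14) (.s13 (.tw (.s12 (.s13 (.c 0 (.b 14) (.c 0 (.b 304) (.s13 (.tw (.s12 (.s13 (.c 0 (.b 63) (.b 369)))))))))))))) (.s13 (.tw (.c 0 (.s12 (.s13 (.tw (.c 0 (.b 14) (.c 0 (.b 136) (.b 136)))))) (.s13 (.tw (.s12 (.s13 (.c 0 (.s13 (.tw (.c 0 (.b 136) (.b 462)))) (.tw (.s13 (.tw (.c 0 (.s13 (.tw (.c 0 (.b 44) (.b 12)))) (.s13 (.tw (.s12 (.c 0 (.b 63) (.b 200)))))))))))))))))),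
  (.c 0 (.tw (.c 0 (.b 284) (.s13 (.tw (.s12 (.s13 (.c 0 (.b 63) (.b 93)))))))) (.s13 (.tw (.c 0 (.s12 (.s13 (.tw (.c 0 (.b 143) (.tw (.s12 (.s13 (.tw (.c 0 (.b 5) (.b 247)))))))))) (.s13 (.tw (.c 0 (.s13 (.tw (.c 0 (.b 136) (.b 249)))) (.s13 (.tw (.s12 (.c 0 (.b 313) (.b 73)))))))))))),
  (.c 0 (.tw (.c 0 (.b 284) (.s13 (.tw (.s12 (.s13 (.c 0 (.b 63) (.b 93)))))))) (.s13 (.tw (.c 0 (.s13 (.tw (.c 0 (.b 693) (.tw (.s12 (.s13 (.tw (.c 0 (.b 136) (.b 272))))))))) (.s13 (.c 0 (.s12 (.s13 (.tw (.s12 (.c 0 (.b 14) (.s13 (.tw (.s12 (.s13 (.c 0 (.b 136) (.b 351))))))))))) (.s13 (.tw (.s13 (.c 0 (.b 70) (.b 45))))))))))),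
  (.tw (.c 0 (.tw (.c 0 (.tw (.s13 (.tw (.c 0 (.b 478) (.b 16))))) (.b 111))) (.s13 (.tw (.c 0 (.s13 (.tw (.c 0 (.b 13) (.s13 (.tw (.s12 (.s13 (.c 0 (.b 13) (.c 0 (.b 136) (.b 249)))))))))) (.tw (.s13 (.tw (.c 0 (.s13 (.tw (.c 0 (.b 136) (.b 44)))) (.s13 (.tw (.c 0 (.b 5) (.s13 (.tw (.c 0 (.b 384) (.b 5)))))))))))))))),
  (.c 0 (.s12 (.s13 (.tw (.s12 (.c 0 (.b 13) (.s13 (.tw (.s12 (.s13 (.c 0 (.b 136) (.s13 (.tw (.s12 (.s13 (.c 0 (.b 284) (.b 147)))))))))))))))) (.s13 (.tw (.s12 (.c 0 (.s13 (.tw (.c 0 (.b 14) (.s13 (.tw (.s12 (.s13 (.c 0 (.b 136) (.b 351))))))))) (.s12 (.s13 (.c 0 (.tw (.c 0 (.b 693) (.tw (.s12 (.s13 (.tw (.c 0 (.b 44) (.b 26)))))))) (.s13 (.tw (.s13 (.c 0 (.b 70) (.b 45))))))))))))),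
  (.c 0 (.tw (.c 0 (.b 13) (.s13 (.tw (.s12 (.s13 (.c 0 (.b 13) (.c 0 (.b 136) (.s13 (.tw (.s12 (.s13 (.c 0 (.b 13) (.b 138)))))))))))))) (.s13 (.tw (.c 0 (.s13 (.tw (.c 0 (.b 684) (.b 185)))) (.s13 (.c 0 (.tw (.c 0 (.b 304) (.tw (.s12 (.s13 (.tw (.c 0 (.b 44) (.b 12)))))))) (.s13 (.tw (.s13 (.c 0 (.b 70) (.b 45))))))))))),
  (.tw (.c 0 (.tw (.c 0 (.tw (.s13 (.tw (.c 0 (.b 478) (.b 16))))) (.b 111))) (.s13 (.tw (.c 0 (.s12 (.s13 (.tw (.c 0 (.b 462) (.s13 (.tw (.s13 (.c 0 (.b 13) (.b 225))))))))) (.s13 (.tw (.c 0 (.s13 (.tw (.c 0 (.b 136) (.b 44)))) (.s13 (.tw (.c 0 (.b 5) (.s13 (.tw (.c 0 (.b 5) (.b 63))))))))))))))),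
  (.c 0 (.tw (.c 0 (.b 284) (.s13 (.tw (.s12 (.s13 (.c 0 (.b 63) (.b 93)))))))) (.s13 (.tw (.c 0 (.s13 (.tw (.c 0 (.tw (.s13 (.tw (.c 0 (.b 63) (.b 247))))) (.b 273)))) (.s13 (.c 0 (.tw (.c 0 (.b 14) (.s13 (.tw (.s12 (.s13 (.c 0 (.b 14) (.c 0 (.b 136) (.b 136))))))))) (.s13 (.tw (.s13 (.c 0 (.b 70) (.b 45))))))))))),
  (.c 0 (.s12 (.s13 (.tw (.s12 (.c 0 (.b 13) (.s13 (.tw (.s12 (.s13 (.c 0 (.b 136) (.s13 (.tw (.s12 (.s13 (.c 0 (.b 284) (.b 147)))))))))))))))) (.s13 (.tw (.s12 (.c 0 (.s13 (.tw (.c 0 (.b 14) (.s13 (.tw (.s12 (.s13 (.c 0 (.b 14) (.c 0 (.b 136) (.b 136)))))))))) (.s12 (.s13 (.c 0 (.s12 (.s13 (.tw (.s12 (.c 0 (.b 460) (.s13 (.tw (.s12 (.s13 (.c 0 (.b 63) (.b 44))))))))))) (.s13 (.tw (.s13 (.c 0 (.b 70) (.b 45))))))))))))),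
  (.c 0 (.tw (.c 0 (.b 13) (.s13 (.tw (.s12 (.s13 (.c 0 (.b 13) (.c 0 (.b 136) (.s13 (.tw (.s12 (.s13 (.c 0 (.b 13) (.b 138)))))))))))))) (.s13 (.tw (.c 0 (.s13 (.tw (.c 0 (.b 14) (.s13 (.tw (.s12 (.s13 (.c 0 (.b 14) (.c 0 (.b 136) (.b 136)))))))))) (.s13 (.c 0 (.tw (.c 0 (.b 304) (.tw (.s12 (.s13 (.tw (.c 0 (.b 44) (.b 12)))))))) (.s13 (.tw (.s13 (.c 0 (.b 70) (.b 45))))))))))),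
  (.c 0 (.tw (.c 0 (.b 13) (.s13 (.tw (.s12 (.s13 (.c 0 (.b 13) (.c 0 (.b 136) (.s13 (.tw (.s12 (.s13 (.c 0 (.b 13) (.b 138)))))))))))))) (.s13 (.tw (.c 0 (.s13 (.tw (.c 0 (.b 693) (.s13 (.tw (.c 0 (.b 5) (.b 465))))))) (.tw (.s12 (.s13 (.tw (.c 0 (.tw (.s13 (.s12 (.c 0 (.b 67) (.b 247))))) (.s13 (.tw (.c 0 (.b 136) (.s13 (.tw (.s12 (.s13 (.c 0 (.b 44) (.b 1)))))))))))))))))),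
  (.c 0 (.tw (.c 0 (.b 13) (.s13 (.tw (.s12 (.s13 (.c 0 (.b 13) (.c 0 (.b 136) (.s13 (.tw (.s12 (.s13 (.c 0 (.b 13) (.b 138)))))))))))))) (.s13 (.tw (.c 0 (.tw (.s13 (.tw (.c 0 (.tw (.s12 (.c 0 (.b 176) (.b 12)))) (.s13 (.tw (.c 0 (.b 381) (.b 44)))))))) (.tw (.s12 (.s13 (.tw (.c 0 (.s13 (.tw (.c 0 (.b 136) (.b 44)))) (.tw (.s13 (.s12 (.c 0 (.b 67) (.b 247)))))))))))))),
  (.c 0 (.s12 (.s13 (.tw (.s12 (.c 0 (.b 13) (.s13 (.tw (.s12 (.s13 (.c 0 (.b 136) (.s13 (.tw (.s12 (.s13 (.c 0 (.b 284) (.b 147)))))))))))))))) (.s13 (.tw (.s12 (.c 0 (.s13 (.tw (.c 0 (.b 304) (.tw (.s12 (.s13 (.tw (.c 0 (.b 63) (.b 381))))))))) (.tw (.s12 (.s13 (.tw (.c 0 (.tw (.c 0 (.b 136) (.b 462))) (.s13 (.tw (.c 0 (.b 693) (.s13 (.tw (.c 0 (.b 5) (.b 465))))))))))))))))),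
  (.c 0 (.tw (.c 0 (.b 284) (.s13 (.tw (.s12 (.s13 (.c 0 (.b 63) (.b 93)))))))) (.s13 (.tw (.c 0 (.s12 (.s13 (.tw (.c 0 (.b 143) (.tw (.s12 (.s13 (.tw (.c 0 (.b 124) (.b 247)))))))))) (.s13 (.tw (.c 0 (.s13 (.tw (.c 0 (.b 136) (.b 405)))) (.s13 (.tw (.s12 (.c 0 (.b 313) (.s13 (.tw (.c 0 (.b 44) (.b 1))))))))))))))),
  (.tw (.c 0 (.tw (.c 0 (.tw (.s13 (.tw (.c 0 (.b 478) (.b 16))))) (.b 111))) (.s13 (.tw (.c 0 (.s12 (.s13 (.tw (.c 0 (.b 13) (.s13 (.tw (.s12 (.s13 (.c 0 (.b 136) (.b 581)))))))))) (.tw (.s12 (.s13 (.tw (.c 0 (.s13 (.tw (.c 0 (.b 136) (.b 44)))) (.s13 (.tw (.c 0 (.tw (.c 0 (.b 63) (.b 136))) (.s13 (.tw (.c 0 (.b 384) (.b 5))))))))))))))))),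
  (.c 0 (.tw (.c 0 (.b 13) (.s13 (.tw (.s12 (.s13 (.c 0 (.b 13) (.c 0 (.b 136) (.s13 (.tw (.s12 (.s13 (.c 0 (.b 13) (.b 138)))))))))))))) (.s13 (.tw (.c 0 (.s13 (.tw (.c 0 (.tw (.s13 (.tw (.c 0 (.b 136) (.b 247))))) (.b 14)))) (.tw (.s13 (.tw (.c 0 (.s13 (.tw (.c 0 (.b 136) (.b 536)))) (.s12 (.s13 (.tw (.c 0 (.s13 (.tw (.s12 (.c 0 (.b 239) (.b 1))))) (.s13 (.tw (.c 0 (.b 44) (.b 12)))))))))))))))),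
  (.c 0 (.tw (.c 0 (.b 13) (.s13 (.tw (.s12 (.s13 (.c 0 (.b 57) (.s13 (.tw (.s12 (.s13 (.c 0 (.b 381) (.b 478))))))))))))) (.s13 (.tw (.c 0 (.tw (.s13 (.c 0 (.b 45) (.s12 (.s13 (.tw (.c 0 (.b 44) (.b 12)))))))) (.tw (.s13 (.tw (.c 0 (.s13 (.tw (.c 0 (.b 136) (.b 44)))) (.tw (.s12 (.s13 (.tw (.c 0 (.b 95) (.s13 (.tw (.c 0 (.b 44) (.b 12))))))))))))))))),
  (.c 0 (.tw (.c 0 (.b 284) (.s13 (.tw (.s12 (.s13 (.c 0 (.b 63) (.b 93)))))))) (.s13 (.tw (.c 0 (.s13 (.tw (.c 0 (.b 693) (.tw (.s13 (.tw (.c 0 (.b 601) (.b 26)))))))) (.tw (.s13 (.tw (.c 0 (.s13 (.tw (.c 0 (.b 136) (.b 44)))) (.tw (.s12 (.s13 (.tw (.c 0 (.b 95) (.s13 (.tw (.c 0 (.b 44) (.b 12))))))))))))))))),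
  (.c 0 (.tw (.c 0 (.b 284) (.s13 (.tw (.s12 (.s13 (.c 0 (.b 63) (.b 93)))))))) (.s13 (.tw (.c 0 (.s13 (.tw (.c 0 (.b 693) (.s13 (.tw (.c 0 (.b 200) (.b 26))))))) (.s12 (.s13 (.tw (.c 0 (.s13 (.tw (.c 0 (.b 63) (.c 0 (.b 136) (.b 136))))) (.s13 (.tw (.s13 (.s12 (.c 0 (.b 95) (.s13 (.tw (.c 0 (.b 44) (.b 12))))))))))))))))),
  (.tw (.c 0 (.tw (.c 0 (.tw (.s13 (.tw (.c 0 (.b 478) (.b 16))))) (.b 111))) (.s13 (.tw (.c 0 (.s12 (.s13 (.tw (.s12 (.c 0 (.b 136) (.b 147)))))) (.tw (.s12 (.s13 (.tw (.c 0 (.tw (.s12 (.s13 (.tw (.c 0 (.b 67) (.s13 (.tw (.s13 (.c 0 (.b 14) (.b 44)))))))))) (.s13 (.tw (.c 0 (.tw (.c 0 (.b 63) (.b 136))) (.s13 (.tw (.c 0 (.b 5) (.b 5))))))))))))))))),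
  (.c 0 (.tw (.c 0 (.b 13) (.s13 (.tw (.s12 (.s13 (.c 0 (.b 57) (.s13 (.tw (.s12 (.s13 (.c 0 (.b 381) (.b 478))))))))))))) (.tw (.s13 (.s12 (.c 0 (.s13 (.tw (.s12 (.c 0 (.b 136) (.s13 (.tw (.s12 (.s13 (.c 0 (.b 136) (.tw (.s12 (.s13 (.tw (.c 0 (.b 63) (.b 381))))))))))))))) (.s13 (.tw (.s12 (.c 0 (.tw (.s12 (.s13 (.tw (.c 0 (.b 82) (.b 239)))))) (.tw (.s12 (.s13 (.tw (.c 0 (.b 5) (.b 247))))))))))))))),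
  (.c 0 (.tw (.c 0 (.b 13) (.s13 (.tw (.s12 (.s13 (.c 0 (.b 13) (.c 0 (.b 136) (.s13 (.tw (.s12 (.s13 (.c 0 (.b 13) (.b 138)))))))))))))) (.s13 (.tw (.c 0 (.s13 (.tw (.c 0 (.b 684) (.b 185)))) (.tw (.s13 (.tw (.c 0 (.s13 (.tw (.c 0 (.b 136) (.b 536)))) (.tw (.s13 (.tw (.c 0 (.s13 (.tw (.s12 (.c 0 (.b 63) (.b 381))))) (.s13 (.tw (.s12 (.c 0 (.b 44) (.b 12))))))))))))))))),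
  (.c 0 (.tw (.c 0 (.b 284) (.s13 (.tw (.s12 (.s13 (.c 0 (.b 63) (.b 93)))))))) (.s13 (.tw (.c 0 (.s13 (.tw (.c 0 (.b 14) (.tw (.s12 (.s13 (.tw (.c 0 (.b 136) (.b 536))))))))) (.tw (.s12 (.s13 (.tw (.c 0 (.s13 (.tw (.c 0 (.s13 (.tw (.c 0 (.b 124) (.b 247)))) (.s13 (.tw (.c 0 (.b 63) (.b 381))))))) (.s13 (.tw (.c 0 (.b 136) (.b 44))))))))))))),
  (.tw (.c 0 (.tw (.c 0 (.tw (.s13 (.tw (.c 0 (.b 478) (.b 16))))) (.b 111))) (.s13 (.tw (.c 0 (.s12 (.s13 (.tw (.c 0 (.b 13) (.s13 (.tw (.s12 (.s13 (.c 0 (.b 13) (.b 546)))))))))) (.tw (.s12 (.s13 (.tw (.c 0 (.s13 (.tw (.c 0 (.b 136) (.s13 (.tw (.s12 (.s13 (.c 0 (.b 44) (.b 1))))))))) (.s13 (.tw (.c 0 (.tw (.c 0 (.b 63) (.b 136))) (.s13 (.tw (.c 0 (.b 5) (.b 5))))))))))))))))),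
  (.c 0 (.tw (.c 0 (.b 13) (.s13 (.tw (.s12 (.s13 (.c 0 (.b 57) (.s13 (.tw (.s12 (.s13 (.c 0 (.b 381) (.b 478))))))))))))) (.s13 (.tw (.c 0 (.tw (.s13 (.c 0 (.b 70) (.b 45)))) (.tw (.s13 (.tw (.c 0 (.s12 (.s13 (.tw (.c 0 (.s13 (.tw (.s12 (.c 0 (.b 239) (.b 1))))) (.s13 (.tw (.c 0 (.b 124) (.b 200)))))))) (.s13 (.tw (.c 0 (.b 136) (.b 44)))))))))))),
  (.tw (.c 0 (.tw (.c 0 (.tw (.s13 (.tw (.c 0 (.b 478) (.b 16))))) (.b 111))) (.s13 (.tw (.c 0 (.s12 (.s13 (.tw (.c 0 (.b 13) (.s13 (.tw (.s12 (.s13 (.c 0 (.b 58) (.c 0 (.b 136) (.b 136))))))))))) (.tw (.s12 (.s13 (.tw (.c 0 (.s13 (.tw (.c 0 (.b 136) (.b 44)))) (.s13 (.tw (.c 0 (.b 387) (.s13 (.tw (.c 0 (.b 384) (.b 5))))))))))))))))),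
  (.c 0 (.tw (.c 0 (.b 284) (.s13 (.tw (.s12 (.s13 (.c 0 (.b 63) (.b 93)))))))) (.s13 (.tw (.c 0 (.s13 (.tw (.c 0 (.s13 (.tw (.c 0 (.b 82) (.b 26)))) (.b 273)))) (.s12 (.s13 (.tw (.c 0 (.s13 (.tw (.c 0 (.b 63) (.c 0 (.b 136) (.b 136))))) (.s13 (.tw (.s13 (.s12 (.c 0 (.b 95) (.s13 (.tw (.c 0 (.b 44) (.b 12))))))))))))))))),
  (.c 0 (.s12 (.s13 (.tw (.s12 (.c 0 (.b 13) (.s13 (.tw (.s12 (.s13 (.c 0 (.b 136) (.s13 (.tw (.s12 (.s13 (.c 0 (.b 284) (.b 147)))))))))))))))) (.s13 (.tw (.s12 (.c 0 (.s13 (.tw (.c 0 (.b 136) (.tw (.s12 (.s13 (.tw (.c 0 (.b 63) (.b 381))))))))) (.tw (.s12 (.s13 (.tw (.c 0 (.tw (.s12 (.s13 (.tw (.c 0 (.tw (.s13 (.s12 (.c 0 (.b 58) (.b 247))))) (.s13 (.tw (.c 0 (.b 44) (.b 12))))))))) (.s13 (.tw (.c 0 (.b 136) (.b 536)))))))))))))),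
  (.c 0 (.tw (.c 0 (.b 13) (.s13 (.tw (.s12 (.s13 (.c 0 (.b 13) (.c 0 (.b 136) (.s13 (.tw (.s12 (.s13 (.c 0 (.b 13) (.b 138)))))))))))))) (.s13 (.tw (.c 0 (.s13 (.tw (.c 0 (.b 14) (.s13 (.tw (.s12 (.s13 (.c 0 (.b 14) (.c 0 (.b 136) (.b 136)))))))))) (.tw (.s13 (.tw (.c 0 (.s13 (.tw (.c 0 (.b 136) (.b 536)))) (.tw (.s13 (.tw (.c 0 (.s13 (.tw (.s12 (.c 0 (.b 63) (.b 381))))) (.s13 (.tw (.s12 (.c 0 (.b 44) (.b 12))))))))))))))))),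
  (.tw (.c 0 (.s12 (.s13 (.tw (.s12 (.c 0 (.tw (.s13 (.tw (.c 0 (.b 478) (.b 16))))) (.s13 (.tw (.s13 (.c 0 (.b 1) (.b 21)))))))))) (.tw (.s13 (.tw (.s12 (.c 0 (.s12 (.s13 (.tw (.s12 (.c 0 (.b 666) (.s13 (.tw (.s12 (.s13 (.c 0 (.b 136) (.s13 (.tw (.s12 (.s13 (.c 0 (.b 44) (.b 1)))))))))))))))) (.s12 (.s13 (.tw (.s12 (.c 0 (.s13 (.tw (.c 0 (.b 44) (.b 12)))) (.tw (.s12 (.s13 (.tw (.c 0 (.b 5) (.s13 (.tw (.s12 (.s13 (.c 0 (.b 63) (.b 24))))))))))))))))))))))),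
  (.tw (.c 0 (.tw (.c 0 (.tw (.s13 (.tw (.c 0 (.b 478) (.b 16))))) (.b 111))) (.s13 (.tw (.c 0 (.s13 (.tw (.c 0 (.b 462) (.tw (.s12 (.s13 (.tw (.c 0 (.b 381) (.b 381))))))))) (.tw (.s13 (.tw (.c 0 (.s13 (.tw (.c 0 (.b 136) (.b 351)))) (.s13 (.tw (.c 0 (.b 5) (.s13 (.tw (.c 0 (.b 384) (.b 5)))))))))))))))),
  (.c 0 (.s12 (.s13 (.tw (.s12 (.c 0 (.s13 (.tw (.s13 (.c 0 (.tw (.s12 (.c 0 (.b 14) (.s13 (.tw (.s13 (.s12 (.c 0 (.b 381) (.b 381))))))))) (.b 12))))) (.b 12)))))) (.s13 (.tw (.s13 (.s12 (.c 0 (.tw (.s13 (.s12 (.c 0 (.s13 (.tw (.c 0 (.b 239) (.b 1)))) (.s13 (.tw (.s12 (.c 0 (.b 272) (.b 239))))))))) (.tw (.s12 (.c 0 (.s13 (.tw (.c 0 (.b 63) (.b 381)))) (.s13 (.tw (.c 0 (.b 5) (.b 5))))))))))))),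
  (.c 0 (.tw (.c 0 (.b 284) (.s13 (.tw (.s12 (.s13 (.c 0 (.b 63) (.b 93)))))))) (.s13 (.tw (.c 0 (.s13 (.tw (.c 0 (.tw (.s12 (.s13 (.tw (.c 0 (.b 136) (.b 200)))))) (.b 273)))) (.s13 (.c 0 (.tw (.c 0 (.b 14) (.s13 (.tw (.s12 (.s13 (.c 0 (.b 14) (.c 0 (.b 136) (.b 136))))))))) (.s13 (.tw (.s13 (.c 0 (.b 70) (.b 45))))))))))),
  (.c 0 (.s12 (.s13 (.tw (.s12 (.c 0 (.b 13) (.s13 (.tw (.s12 (.s13 (.c 0 (.b 136) (.s13 (.tw (.s12 (.s13 (.c 0 (.b 284) (.b 147)))))))))))))))) (.s13 (.tw (.s12 (.c 0 (.s13 (.tw (.c 0 (.b 14) (.s13 (.tw (.s12 (.s13 (.c 0 (.b 14) (.c 0 (.b 136) (.b 136)))))))))) (.s12 (.s13 (.c 0 (.s12 (.s13 (.tw (.s12 (.c 0 (.b 136) (.s13 (.tw (.s12 (.s13 (.c 0 (.b 136) (.b 44))))))))))) (.s13 (.tw (.s13 (.c 0 (.b 70) (.b 45))))))))))))),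
  (.c 0 (.tw (.c 0 (.b 13) (.s13 (.tw (.s12 (.s13 (.c 0 (.b 57) (.s13 (.tw (.s12 (.s13 (.c 0 (.b 381) (.b 478))))))))))))) (.s13 (.tw (.c 0 (.s13 (.tw (.c 0 (.s13 (.tw (.c 0 (.b 63) (.b 381)))) (.s13 (.tw (.c 0 (.b 124) (.b 200))))))) (.tw (.s13 (.c 0 (.tw (.c 0 (.b 273) (.s13 (.tw (.s12 (.s13 (.c 0 (.b 24) (.b 136)))))))) (.tw (.c 0 (.b 136) (.b 136)))))))))),
  (.c 0 (.tw (.c 0 (.b 284) (.s13 (.tw (.s12 (.s13 (.c 0 (.b 63) (.b 93)))))))) (.s13 (.tw (.c 0 (.s12 (.s13 (.tw (.c 0 (.b 709) (.tw (.s12 (.s13 (.tw (.c 0 (.b 124) (.b 247)))))))))) (.s13 (.tw (.c 0 (.s13 (.tw (.c 0 (.b 136) (.b 405)))) (.s13 (.tw (.s12 (.c 0 (.b 313) (.s13 (.tw (.c 0 (.b 44) (.b 1))))))))))))))),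
  (.c 0 (.tw (.c 0 (.b 284) (.s13 (.tw (.s12 (.s13 (.c 0 (.b 63) (.b 93)))))))) (.s13 (.tw (.c 0 (.s13 (.tw (.c 0 (.b 693) (.tw (.s12 (.s13 (.tw (.c 0 (.b 601) (.b 26))))))))) (.s12 (.s13 (.tw (.c 0 (.s13 (.tw (.c 0 (.b 136) (.b 536)))) (.s13 (.tw (.s13 (.s12 (.c 0 (.b 95) (.s13 (.tw (.c 0 (.b 44) (.b 12))))))))))))))))),
  (.tw (.c 0 (.tw (.c 0 (.tw (.s13 (.tw (.c 0 (.b 478) (.b 16))))) (.b 111))) (.s13 (.tw (.c 0 (.s12 (.s13 (.tw (.c 0 (.b 136) (.s13 (.tw (.s12 (.s13 (.c 0 (.b 13) (.b 546)))))))))) (.tw (.s12 (.s13 (.tw (.c 0 (.s13 (.tw (.c 0 (.b 136) (.b 44)))) (.tw (.s12 (.s13 (.tw (.c 0 (.tw (.c 0 (.b 63) (.b 136))) (.s13 (.tw (.c 0 (.b 176) (.b 5))))))))))))))))))),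
  (.c 0 (.s12 (.s13 (.tw (.s12 (.c 0 (.b 13) (.s13 (.tw (.s12 (.s13 (.c 0 (.b 136) (.s13 (.tw (.s12 (.s13 (.c 0 (.b 284) (.b 147)))))))))))))))) (.s13 (.tw (.s12 (.c 0 (.s13 (.tw (.c 0 (.tw (.s13 (.tw (.c 0 (.b 136) (.b 247))))) (.b 14)))) (.s12 (.s13 (.tw (.c 0 (.s13 (.tw (.c 0 (.b 136) (.b 44)))) (.tw (.s12 (.c 0 (.s13 (.tw (.c 0 (.b 44) (.b 12)))) (.s13 (.tw (.s12 (.c 0 (.b 13) (.b 239))))))))))))))))),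
  (.c 0 (.tw (.c 0 (.b 13) (.s13 (.tw (.s12 (.s13 (.c 0 (.b 13) (.c 0 (.b 136) (.s13 (.tw (.s12 (.s13 (.c 0 (.b 13) (.b 138)))))))))))))) (.s13 (.tw (.c 0 (.s13 (.tw (.c 0 (.b 14) (.s13 (.tw (.s12 (.s13 (.c 0 (.b 136) (.b 536))))))))) (.tw (.s13 (.tw (.c 0 (.s12 (.s13 (.tw (.c 0 (.s13 (.tw (.c 0 (.b 334) (.b 26)))) (.s13 (.tw (.c 0 (.b 44) (.b 12)))))))) (.s13 (.tw (.c 0 (.b 136) (.b 536)))))))))))),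
  (.c 0 (.tw (.c 0 (.b 284) (.s13 (.tw (.s12 (.s13 (.c 0 (.b 63) (.b 93)))))))) (.s13 (.tw (.c 0 (.s12 (.s13 (.tw (.c 0 (.b 462) (.tw (.s12 (.s13 (.tw (.c 0 (.b 63) (.b 381)))))))))) (.tw (.s12 (.s13 (.tw (.c 0 (.tw (.c 0 (.b 136) (.b 462))) (.s13 (.tw (.c 0 (.s13 (.tw (.c 0 (.b 63) (.b 381)))) (.s13 (.tw (.c 0 (.b 5) (.b 26)))))))))))))))),
  (.c 0 (.tw (.c 0 (.b 284) (.s13 (.tw (.s12 (.s13 (.c 0 (.b 63) (.b 93)))))))) (.s13 (.tw (.c 0 (.s12 (.s13 (.tw (.c 0 (.b 304) (.s13 (.tw (.s12 (.s13 (.c 0 (.b 13) (.b 337)))))))))) (.tw (.s12 (.s13 (.tw (.c 0 (.s13 (.tw (.c 0 (.b 136) (.tw (.s12 (.s13 (.tw (.c 0 (.b 63) (.b 381))))))))) (.s13 (.tw (.c 0 (.s13 (.tw (.c 0 (.b 124) (.b 247)))) (.b 5))))))))))))),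
  (.tw (.c 0 (.tw (.c 0 (.tw (.s13 (.tw (.c 0 (.b 478) (.b 16))))) (.b 111))) (.s13 (.tw (.c 0 (.s12 (.s13 (.tw (.c 0 (.b 13) (.s13 (.tw (.s12 (.s13 (.c 0 (.b 13) (.b 337)))))))))) (.tw (.s12 (.s13 (.tw (.c 0 (.s13 (.tw (.c 0 (.b 136) (.s13 (.tw (.s12 (.s13 (.c 0 (.b 44) (.b 1))))))))) (.s13 (.tw (.c 0 (.tw (.c 0 (.b 63) (.b 136))) (.s13 (.tw (.c 0 (.b 5) (.b 5))))))))))))))))),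
  (.c 0 (.tw (.c 0 (.b 13) (.s13 (.tw (.s12 (.s13 (.c 0 (.b 57) (.s13 (.tw (.s12 (.s13 (.c 0 (.b 381) (.b 478))))))))))))) (.s13 (.tw (.c 0 (.s13 (.tw (.c 0 (.b 136) (.tw (.s12 (.s13 (.tw (.c 0 (.b 63) (.b 381))))))))) (.tw (.s13 (.tw (.c 0 (.tw (.s12 (.s13 (.tw (.c 0 (.s13 (.tw (.s13 (.s12 (.c 0 (.b 13) (.b 272)))))) (.s13 (.tw (.c 0 (.b 63) (.b 44))))))))) (.s13 (.tw (.c 0 (.b 136) (.b 44)))))))))))),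
  (.tw (.c 0 (.tw (.c 0 (.tw (.s13 (.tw (.c 0 (.b 478) (.b 16))))) (.b 111))) (.s13 (.tw (.c 0 (.s12 (.s13 (.tw (.c 0 (.b 136) (.s13 (.tw (.s12 (.s13 (.c 0 (.b 13) (.b 546)))))))))) (.tw (.s12 (.s13 (.tw (.c 0 (.s13 (.tw (.c 0 (.b 136) (.s13 (.tw (.s12 (.s13 (.c 0 (.b 44) (.b 1))))))))) (.s13 (.tw (.c 0 (.tw (.c 0 (.b 63) (.b 136))) (.s13 (.tw (.c 0 (.b 5) (.b 124))))))))))))))))),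
  (.c 0 (.tw (.c 0 (.b 284) (.s13 (.tw (.s12 (.s13 (.c 0 (.b 63) (.b 93)))))))) (.s13 (.tw (.c 0 (.s12 (.s13 (.tw (.c 0 (.b 13) (.s13 (.tw (.s12 (.s13 (.c 0 (.b 136) (.b 351)))))))))) (.tw (.s12 (.s13 (.tw (.c 0 (.tw (.s12 (.s13 (.tw (.c 0 (.tw (.s13 (.s12 (.c 0 (.b 58) (.b 247))))) (.s13 (.tw (.c 0 (.b 63) (.b 44))))))))) (.s13 (.tw (.c 0 (.b 136) (.b 44))))))))))))),
  (.c 0 (.tw (.c 0 (.b 13) (.s13 (.tw (.s12 (.s13 (.c 0 (.b 57) (.s13 (.tw (.s12 (.s13 (.c 0 (.b 381) (.b 478))))))))))))) (.tw (.s13 (.s12 (.c 0 (.s13 (.tw (.s12 (.c 0 (.b 136) (.s13 (.tw (.s12 (.s13 (.c 0 (.b 136) (.s13 (.tw (.s12 (.s13 (.c 0 (.b 44) (.b 1))))))))))))))) (.s13 (.tw (.s12 (.c 0 (.tw (.s12 (.s13 (.tw (.c 0 (.b 82) (.b 239)))))) (.tw (.s12 (.s13 (.tw (.c 0 (.b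 5) (.b 247))))))))))))))),
  (.c 0 (.tw (.c 0 (.b 13) (.s13 (.tw (.s12 (.s13 (.c 0 (.b 13) (.c 0 (.b 136) (.s13 (.tw (.s12 (.s13 (.c 0 (.b 13) (.b 138)))))))))))))) (.s13 (.tw (.c 0 (.s13 (.tw (.c 0 (.b 14) (.s13 (.tw (.s12 (.s13 (.c 0 (.b 136) (.b 536))))))))) (.tw (.s13 (.tw (.c 0 (.s13 (.tw (.c 0 (.b 136) (.b 536)))) (.s12 (.s13 (.tw (.c 0 (.s13 (.tw (.s12 (.c 0 (.b 239) (.b 1))))) (.s13 (.tw (.c 0 (.b 44) (.b 12)))))))))))))))),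
  (.c 0 (.tw (.c 0 (.b 284) (.s13 (.tw (.s12 (.s13 (.c 0 (.b 63) (.b 93)))))))) (.s13 (.tw (.c 0 (.s13 (.tw (.c 0 (.b 14) (.tw (.s12 (.s13 (.tw (.c 0 (.b 136) (.b 536))))))))) (.s12 (.s13 (.tw (.c 0 (.s13 (.tw (.s12 (.c 0 (.b 304) (.b 44))))) (.s13 (.tw (.s12 (.c 0 (.b 5) (.tw (.s12 (.s13 (.tw (.c 0 (.b 124) (.b 247)))))))))))))))))),
  (.tw (.c 0 (.tw (.c 0 (.tw (.s13 (.tw (.c 0 (.b 478) (.b 16))))) (.b 111))) (.s13 (.tw (.c 0 (.s12 (.s13 (.tw (.c 0 (.b 13) (.s13 (.tw (.s12 (.s13 (.c 0 (.b 136) (.b 598)))))))))) (.tw (.s12 (.s13 (.tw (.c 0 (.s13 (.tw (.c 0 (.b 136) (.b 44)))) (.s13 (.tw (.c 0 (.tw (.c 0 (.b 63) (.b 136))) (.s13 (.tw (.c 0 (.b 5) (.b 124))))))))))))))))),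
  (.c 0 (.tw (.c 0 (.b 284) (.s13 (.tw (.s12 (.s13 (.c 0 (.b 63) (.b 93)))))))) (.s13 (.tw (.c 0 (.s13 (.tw (.c 0 (.b 14) (.tw (.s12 (.s13 (.tw (.c 0 (.b 136) (.b 536))))))))) (.tw (.s12 (.s13 (.tw (.c 0 (.s13 (.tw (.c 0 (.tw (.s13 (.tw (.c 0 (.b 58) (.b 247))))) (.s13 (.tw (.c 0 (.b 44) (.b 12))))))) (.s13 (.tw (.c 0 (.b 136) (.b 44))))))))))))),
  (.c 0 (.tw (.c 0 (.b 13) (.s13 (.tw (.s12 (.s13 (.c 0 (.b 57) (.s13 (.tw (.s12 (.s13 (.c 0 (.b 381) (.b 478))))))))))))) (.s13 (.tw (.c 0 (.tw (.s13 (.c 0 (.b 70) (.b 45)))) (.tw (.s13 (.tw (.c 0 (.s12 (.s13 (.tw (.c 0 (.s13 (.tw (.s12 (.c 0 (.b 239) (.b 1))))) (.s13 (.tw (.c 0 (.b 58) (.b 44)))))))) (.s13 (.tw (.c 0 (.b 136) (.b 44)))))))))))),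
  (.tw (.c 0 (.s12 (.s13 (.tw (.s12 (.c 0 (.tw (.s13 (.tw (.c 0 (.b 478) (.b 16))))) (.s13 (.tw (.s13 (.c 0 (.b 1) (.b 21)))))))))) (.s13 (.tw (.s12 (.c 0 (.s13 (.tw (.c 0 (.b 57) (.s13 (.tw (.s12 (.s13 (.c 0 (.b 14) (.c 0 (.b 136) (.b 136)))))))))) (.tw (.s13 (.tw (.c 0 (.s13 (.tw (.c 0 (.b 136) (.b 44)))) (.tw (.s13 (.tw (.c 0 (.s13 (.tw (.s12 (.c 0 (.b 63) (.b 381))))) (.s13 (.tw (.s12 (.c 0 (.b 44) (.b 12))))))))))))))))))),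
  (.tw (.c 0 (.tw (.c 0 (.tw (.s13 (.tw (.c 0 (.b 478) (.b 16))))) (.b 111))) (.s13 (.tw (.c 0 (.s13 (.tw (.c 0 (.b 136) (.s13 (.tw (.s12 (.s13 (.c 0 (.b 63) (.b 207))))))))) (.tw (.s13 (.tw (.c 0 (.s13 (.tw (.c 0 (.b 136) (.b 44)))) (.tw (.s13 (.tw (.c 0 (.s13 (.tw (.s12 (.c 0 (.b 63) (.b 381))))) (.s13 (.tw (.c 0 (.b 63) (.b 44))))))))))))))))),
  (.c 0 (.s12 (.s13 (.tw (.s12 (.c 0 (.s13 (.tw (.s13 (.c 0 (.tw (.s12 (.c 0 (.b 14) (.s13 (.tw (.s13 (.s12 (.c 0 (.b 381) (.b 381))))))))) (.b 12))))) (.b 12)))))) (.tw (.s12 (.c 0 (.tw (.s13 (.tw (.c 0 (.s13 (.tw (.s13 (.s12 (.c 0 (.b 381) (.b 200)))))) (.b 80))))) (.s13 (.tw (.c 0 (.s13 (.tw (.c 0 (.b 220) (.b 247)))) (.s13 (.tw (.s12 (.s13 (.c 0 (.b 5) (.b 44))))))))))))),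
  (.c 0 (.tw (.c 0 (.b 284) (.s13 (.tw (.s12 (.s13 (.c 0 (.b 63) (.b 93)))))))) (.s13 (.tw (.c 0 (.s13 (.tw (.c 0 (.tw (.s12 (.s13 (.tw (.c 0 (.b 176) (.b 63)))))) (.b 273)))) (.s12 (.s13 (.tw (.c 0 (.s13 (.tw (.c 0 (.b 63) (.c 0 (.b 136) (.b 136))))) (.s13 (.tw (.s13 (.s12 (.c 0 (.b 95) (.s13 (.tw (.c 0 (.b 44) (.b 12))))))))))))))))),
  (.c 0 (.s12 (.s13 (.tw (.s12 (.c 0 (.b 13) (.s13 (.tw (.s12 (.s13 (.c 0 (.b 136) (.s13 (.tw (.s12 (.s13 (.c 0 (.b 284) (.b 147)))))))))))))))) (.s13 (.tw (.s12 (.c 0 (.s13 (.tw (.c 0 (.b 14) (.s13 (.tw (.s12 (.s13 (.c 0 (.b 14) (.c 0 (.b 136) (.b 136)))))))))) (.s12 (.s13 (.tw (.c 0 (.s13 (.tw (.c 0 (.b 63) (.c 0 (.b 136) (.b 136))))) (.tw (.s13 (.s12 (.c 0 (.s13 (.tw (.s12 (.c 0 (.b 63) (.b 381))))) (.s13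 (.tw (.s12 (.c 0 (.b 44) (.b 12)))))))))))))))))),
  (.tw (.c 0 (.tw (.c 0 (.tw (.s13 (.tw (.c 0 (.b 478) (.b 16))))) (.b 111))) (.tw (.s13 (.s12 (.c 0 (.tw (.s13 (.s12 (.c 0 (.s13 (.tw (.s12 (.c 0 (.b 247) (.b 152))))) (.s13 (.tw (.c 0 (.b 381) (.b 44)))))))) (.s13 (.tw (.s12 (.c 0 (.b 304) (.s13 (.tw (.s12 (.s13 (.c 0 (.b 136) (.s13 (.tw (.s12 (.s13 (.c 0 (.b 44) (.b 12))))))))))))))))))))),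
  (.c 0 (.tw (.c 0 (.b 14) (.s13 (.tw (.s12 (.s13 (.c 0 (.b 14) (.c 0 (.b 304) (.s13 (.tw (.s12 (.s13 (.c 0 (.b 63) (.b 369)))))))))))))) (.s13 (.tw (.c 0 (.s12 (.s13 (.tw (.c 0 (.b 136) (.s13 (.tw (.s13 (.c 0 (.b 14) (.b 405))))))))) (.tw (.s12 (.s13 (.tw (.c 0 (.s13 (.tw (.c 0 (.b 5) (.s13 (.tw (.c 0 (.b 63) (.b 200))))))) (.s13 (.tw (.c 0 (.b 136) (.b 44))))))))))))),
  (.c 0 (.tw (.c 0 (.b 14) (.s13 (.tw (.s12 (.s13 (.c 0 (.b 14) (.c 0 (.b 304) (.s13 (.tw (.s12 (.s13 (.c 0 (.b 63) (.b 369)))))))))))))) (.s13 (.tw (.c 0 (.s13 (.tw (.c 0 (.b 136) (.s13 (.tw (.s12 (.s13 (.c 0 (.b 13) (.b 139))))))))) (.tw (.s13 (.tw (.c 0 (.s13 (.tw (.c 0 (.b 136) (.b 44)))) (.s13 (.tw (.c 0 (.b 5) (.s13 (.tw (.c 0 (.b 24) (.b 124))))))))))))))),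
  (.c 0 (.tw (.c 0 (.b 284) (.s13 (.tw (.s12 (.s13 (.c 0 (.b 63) (.b 93)))))))) (.s13 (.tw (.c 0 (.s13 (.tw (.c 0 (.b 693) (.tw (.s12 (.s13 (.tw (.c 0 (.b 266) (.b 26))))))))) (.s12 (.s13 (.tw (.c 0 (.s13 (.tw (.c 0 (.b 136) (.b 44)))) (.tw (.s12 (.c 0 (.s13 (.tw (.c 0 (.b 63) (.b 381)))) (.s13 (.tw (.s12 (.c 0 (.b 13) (.b 239)))))))))))))))),
  (.tw (.c 0 (.tw (.c 0 (.tw (.s13 (.tw (.c 0 (.b 478) (.b 16))))) (.b 111))) (.s13 (.tw (.c 0 (.s12 (.s13 (.tw (.c 0 (.s13 (.tw (.s12 (.s13 (.c 0 (.b 14) (.c 0 (.b 136) (.b 136))))))) (.b 29))))) (.tw (.s12 (.s13 (.tw (.c 0 (.s13 (.tw (.s12 (.c 0 (.b 136) (.b 405))))) (.s13 (.tw (.c 0 (.b 73) (.s13 (.tw (.c 0 (.b 5) (.b 124))))))))))))))))),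
  (.c 0 (.tw (.c 0 (.b 13) (.s13 (.tw (.s12 (.s13 (.c 0 (.b 57) (.s13 (.tw (.s12 (.s13 (.c 0 (.b 381) (.b 478))))))))))))) (.s13 (.tw (.c 0 (.s13 (.tw (.c 0 (.b 136) (.s13 (.tw (.s12 (.s13 (.c 0 (.b 63) (.b 369))))))))) (.tw (.s13 (.tw (.c 0 (.tw (.s12 (.s13 (.tw (.c 0 (.s13 (.tw (.s13 (.s12 (.c 0 (.b 13) (.b 272)))))) (.s13 (.tw (.c 0 (.b 63) (.b 44))))))))) (.s13 (.tw (.c 0 (.b 136) (.b 44)))))))))))),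
  (.c 0 (.tw (.c 0 (.b 284) (.s13 (.tw (.s12 (.s13 (.c 0 (.b 63) (.b 93)))))))) (.s13 (.tw (.c 0 (.s12 (.s13 (.tw (.c 0 (.b 304) (.s13 (.tw (.s12 (.s13 (.c 0 (.b 13) (.b 337)))))))))) (.tw (.s12 (.s13 (.tw (.c 0 (.s13 (.tw (.c 0 (.b 304) (.b 44)))) (.s13 (.tw (.c 0 (.s13 (.tw (.c 0 (.b 124) (.b 247)))) (.b 5))))))))))))),
  (.tw (.c 0 (.tw (.c 0 (.tw (.s13 (.tw (.c 0 (.b 478) (.b 16))))) (.b 111))) (.s13 (.tw (.c 0 (.s12 (.s13 (.tw (.c 0 (.b 136) (.s13 (.tw (.s12 (.s13 (.c 0 (.b 13) (.b 337)))))))))) (.tw (.s12 (.s13 (.tw (.c 0 (.s13 (.tw (.c 0 (.b 136) (.s13 (.tw (.s12 (.s13 (.c 0 (.b 44) (.b 1))))))))) (.s13 (.tw (.c 0 (.tw (.c 0 (.b 63) (.b 136))) (.s13 (.tw (.c 0 (.b 5) (.b 124))))))))))))))))),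
  (.c 0 (.tw (.c 0 (.b 284) (.s13 (.tw (.s12 (.s13 (.c 0 (.b 63) (.b 93)))))))) (.s13 (.tw (.c 0 (.s12 (.s13 (.tw (.c 0 (.b 304) (.s13 (.tw (.s12 (.s13 (.c 0 (.b 13) (.b 337)))))))))) (.tw (.s12 (.s13 (.tw (.c 0 (.s13 (.tw (.c 0 (.s13 (.tw (.c 0 (.b 124) (.b 247)))) (.b 5)))) (.s13 (.tw (.c 0 (.b 136) (.s13 (.tw (.s12 (.s13 (.c 0 (.b 44) (.b 1)))))))))))))))))),
  (.c 0 (.tw (.c 0 (.b 13) (.s13 (.tw (.s12 (.s13 (.c 0 (.b 57) (.s13 (.tw (.s12 (.s13 (.c 0 (.b 381) (.b 478))))))))))))) (.s13 (.tw (.c 0 (.s13 (.tw (.c 0 (.b 14) (.s13 (.tw (.s12 (.s13 (.c 0 (.b 136) (.b 536))))))))) (.tw (.s13 (.tw (.c 0 (.s13 (.tw (.c 0 (.b 5) (.s13 (.tw (.c 0 (.b 124) (.b 200))))))) (.s13 (.tw (.c 0 (.b 136) (.s13 (.tw (.s12 (.s13 (.c 0 (.b 44) (.b 1))))))))))))))))),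
  (.tw (.c 0 (.s12 (.s13 (.tw (.s12 (.c 0 (.tw (.s13 (.tw (.c 0 (.b 478) (.b 16))))) (.s13 (.tw (.s13 (.c 0 (.b 1) (.b 21)))))))))) (.s13 (.tw (.s12 (.c 0 (.s13 (.tw (.c 0 (.b 14) (.s13 (.tw (.s12 (.s13 (.c 0 (.b 136) (.b 536))))))))) (.s12 (.s13 (.tw (.c 0 (.s13 (.tw (.c 0 (.b 136) (.b 44)))) (.tw (.s12 (.c 0 (.s13 (.tw (.c 0 (.b 44) (.b 12)))) (.s13 (.tw (.s12 (.c 0 (.b 13) (.b 239)))))))))))))))))),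
  (.tw (.c 0 (.tw (.c 0 (.tw (.s13 (.tw (.c 0 (.b 478) (.b 16))))) (.b 111))) (.s13 (.tw (.c 0 (.s12 (.s13 (.tw (.c 0 (.s13 (.tw (.s12 (.s13 (.c 0 (.b 14) (.c 0 (.b 136) (.b 136))))))) (.b 16))))) (.s12 (.s13 (.tw (.c 0 (.s13 (.tw (.c 0 (.b 63) (.c 0 (.b 136) (.b 136))))) (.tw (.s13 (.s12 (.c 0 (.s13 (.tw (.s12 (.c 0 (.b 63) (.b 381))))) (.s13 (.tw (.c 0 (.b 63) (.b 44))))))))))))))))),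
  (.c 0 (.s12 (.s13 (.tw (.s12 (.c 0 (.s13 (.tw (.s13 (.c 0 (.tw (.s12 (.c 0 (.b 14) (.s13 (.tw (.s13 (.s12 (.c 0 (.b 381) (.b 381))))))))) (.b 12))))) (.b 12)))))) (.tw (.s12 (.c 0 (.s13 (.tw (.s12 (.c 0 (.b 13) (.c 0 (.b 136) (.b 462)))))) (.s13 (.tw (.c 0 (.s13 (.tw (.c 0 (.b 136) (.b 44)))) (.s13 (.tw (.s12 (.s13 (.c 0 (.b 320) (.s13 (.tw (.c 0 (.b 5) (.b 124)))))))))))))))),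
  (.c 0 (.tw (.c 0 (.b 284) (.s13 (.tw (.s12 (.s13 (.c 0 (.b 63) (.b 93)))))))) (.s13 (.tw (.c 0 (.s12 (.s13 (.tw (.c 0 (.b 13) (.s13 (.tw (.s12 (.s13 (.c 0 (.b 136) (.b 536)))))))))) (.tw (.s12 (.s13 (.tw (.c 0 (.tw (.s12 (.s13 (.tw (.c 0 (.tw (.s13 (.s12 (.c 0 (.b 58) (.b 247))))) (.s13 (.tw (.c 0 (.b 44) (.b 12))))))))) (.s13 (.tw (.c 0 (.b 136) (.b 44))))))))))))),
  (.c 0 (.s12 (.s13 (.tw (.s12 (.c 0 (.b 13) (.s13 (.tw (.s12 (.s13 (.c 0 (.b 136) (.s13 (.tw (.s12 (.s13 (.c 0 (.b 284) (.b 147)))))))))))))))) (.s13 (.tw (.s12 (.c 0 (.s13 (.tw (.c 0 (.b 14) (.s13 (.tw (.s12 (.s13 (.c 0 (.b 136) (.b 536))))))))) (.s12 (.s13 (.tw (.c 0 (.s13 (.tw (.c 0 (.b 136) (.b 44)))) (.tw (.s12 (.c 0 (.s13 (.tw (.c 0 (.b 44) (.b 12)))) (.s13 (.tw (.s12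 (.c 0 (.b 13) (.b 239))))))))))))))))),
  (.tw (.c 0 (.tw (.c 0 (.tw (.s13 (.tw (.c 0 (.b 478) (.b 16))))) (.b 111))) (.s13 (.tw (.c 0 (.s13 (.tw (.c 0 (.b 14) (.tw (.s12 (.s13 (.tw (.c 0 (.b 136) (.b 536))))))))) (.tw (.s12 (.s13 (.tw (.c 0 (.s13 (.tw (.s12 (.c 0 (.b 136) (.b 405))))) (.s13 (.tw (.c 0 (.s13 (.tw (.c 0 (.b 44) (.b 1)))) (.s13 (.tw (.c 0 (.b 5) (.b 124))))))))))))))))),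
  (.c 0 (.tw (.c 0 (.b 284) (.s13 (.tw (.s12 (.s13 (.c 0 (.b 63) (.b 93)))))))) (.s13 (.tw (.c 0 (.s12 (.s13 (.tw (.c 0 (.b 13) (.s13 (.tw (.s12 (.s13 (.c 0 (.b 58) (.c 0 (.b 136) (.b 136))))))))))) (.tw (.s12 (.s13 (.tw (.c 0 (.s13 (.tw (.c 0 (.s13 (.tw (.c 0 (.b 124) (.b 247)))) (.b 5)))) (.s13 (.tw (.c 0 (.b 136) (.b 44))))))))))))),
  (.tw (.c 0 (.s12 (.s13 (.tw (.s12 (.c 0 (.tw (.s13 (.tw (.c 0 (.b 478) (.b 16))))) (.s13 (.tw (.s13 (.c 0 (.b 1) (.b 21)))))))))) (.s13 (.tw (.s12 (.c 0 (.s13 (.tw (.c 0 (.b 14) (.s13 (.tw (.s12 (.s13 (.c 0 (.b 14) (.c 0 (.b 136) (.b 136)))))))))) (.s12 (.s13 (.tw (.c 0 (.s13 (.tw (.c 0 (.b 63) (.c 0 (.b 136) (.b 136))))) (.tw (.s13 (.s12 (.c 0 (.s13 (.tw (.s12 (.c 0 (.b 63) (.b 381))))) (.s13 (.tw (.s12 (.c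 0 (.b 44) (.b 12))))))))))))))))))),
  (.tw (.c 0 (.tw (.c 0 (.tw (.s13 (.tw (.c 0 (.b 478) (.b 16))))) (.b 111))) (.s13 (.tw (.c 0 (.s12 (.s13 (.tw (.c 0 (.s13 (.tw (.s12 (.s13 (.c 0 (.b 14) (.c 0 (.b 136) (.b 136))))))) (.b 16))))) (.s12 (.s13 (.c 0 (.s12 (.s13 (.tw (.s12 (.c 0 (.b 304) (.s13 (.tw (.s12 (.s13 (.c 0 (.b 136) (.b 44))))))))))) (.s13 (.tw (.s13 (.c 0 (.b 70) (.b 45))))))))))))),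
  (.c 0 (.s12 (.s13 (.tw (.s12 (.c 0 (.s13 (.tw (.s13 (.c 0 (.tw (.s12 (.c 0 (.b 14) (.s13 (.tw (.s13 (.s12 (.c 0 (.b 381) (.b 381))))))))) (.b 12))))) (.b 12)))))) (.tw (.s12 (.c 0 (.s13 (.tw (.s12 (.c 0 (.b 13) (.c 0 (.b 136) (.b 462)))))) (.s13 (.tw (.c 0 (.s13 (.tw (.c 0 (.b 136) (.b 44)))) (.s13 (.tw (.s12 (.s13 (.c 0 (.b 320) (.s13 (.tw (.c 0 (.b 384) (.b 5)))))))))))))))),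
  (.c 0 (.tw (.c 0 (.b 284) (.s13 (.tw (.s12 (.s13 (.c 0 (.b 63) (.b 93)))))))) (.s13 (.tw (.c 0 (.s12 (.s13 (.tw (.c 0 (.b 57) (.s13 (.tw (.s12 (.s13 (.c 0 (.b 14) (.c 0 (.b 136) (.b 136))))))))))) (.tw (.s12 (.s13 (.tw (.c 0 (.s13 (.tw (.c 0 (.tw (.c 0 (.b 63) (.b 136))) (.s13 (.tw (.c 0 (.b 124) (.b 200))))))) (.s13 (.tw (.c 0 (.b 136) (.b 44))))))))))))),
  (.c 0 (.s12 (.s13 (.tw (.s12 (.c 0 (.b 13) (.s13 (.tw (.s12 (.s13 (.c 0 (.b 136) (.s13 (.tw (.s12 (.s13 (.c 0 (.b 284) (.b 147)))))))))))))))) (.s13 (.tw (.s12 (.c 0 (.s13 (.tw (.c 0 (.b 57) (.s13 (.tw (.s12 (.s13 (.c 0 (.b 14) (.c 0 (.b 136) (.b 136)))))))))) (.tw (.s13 (.tw (.c 0 (.s13 (.tw (.c 0 (.b 136) (.b 44)))) (.tw (.s13 (.tw (.c 0 (.s13 (.tw (.s12 (.c 0 (.b 63) (.b 381)))))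 (.s13 (.tw (.s12 (.c 0 (.b 44) (.b 12)))))))))))))))))),
  (.c 0 (.tw (.c 0 (.tw (.s13 (.tw (.c 0 (.b 478) (.b 16))))) (.b 111))) (.tw (.s13 (.s12 (.c 0 (.tw (.s13 (.s12 (.c 0 (.s13 (.tw (.s12 (.c 0 (.b 247) (.b 152))))) (.s13 (.tw (.c 0 (.b 63) (.b 44)))))))) (.tw (.s13 (.s12 (.c 0 (.b 80) (.s13 (.tw (.s13 (.c 0 (.b 663) (.b 44)))))))))))))),
  (.c 0 (.tw (.c 0 (.b 416) (.s13 (.tw (.s12 (.s13 (.c 0 (.b 63) (.b 159)))))))) (.tw (.s13 (.s12 (.c 0 (.tw (.s13 (.s12 (.c 0 (.s13 (.tw (.s12 (.c 0 (.b 247) (.b 152))))) (.s13 (.tw (.c 0 (.b 63) (.b 44)))))))) (.tw (.s13 (.s12 (.c 0 (.b 80) (.s13 (.tw (.s13 (.c 0 (.b 663) (.b 44)))))))))))))),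
  (.c 0 (.tw (.c 0 (.b 284) (.s13 (.tw (.s12 (.s13 (.c 0 (.b 63) (.b 93)))))))) (.tw (.s13 (.s12 (.c 0 (.tw (.s13 (.s12 (.c 0 (.s13 (.tw (.s12 (.c 0 (.b 247) (.b 152))))) (.s13 (.tw (.c 0 (.b 63) (.b 44)))))))) (.tw (.s13 (.s12 (.c 0 (.b 80) (.s13 (.tw (.s13 (.c 0 (.b 663) (.b 44)))))))))))))),
  (.c 0 (.tw (.c 0 (.b 14) (.s13 (.tw (.s12 (.s13 (.c 0 (.b 14) (.c 0 (.b 304) (.s13 (.tw (.s12 (.s13 (.c 0 (.b 63) (.b 369)))))))))))))) (.s13 (.tw (.c 0 (.s13 (.tw (.c 0 (.b 58) (.s13 (.tw (.s12 (.s13 (.c 0 (.b 124) (.b 44))))))))) (.tw (.s12 (.s13 (.tw (.c 0 (.s13 (.tw (.c 0 (.b 5) (.tw (.s12 (.s13 (.tw (.c 0 (.b 13) (.b 272))))))))) (.s13 (.tw (.c 0 (.b 63) (.b 44))))))))))))),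
  (.c 0 (.tw (.c 0 (.b 14) (.s13 (.tw (.s12 (.s13 (.c 0 (.b 14) (.c 0 (.b 304) (.s13 (.tw (.s12 (.s13 (.c 0 (.b 63) (.b 369)))))))))))))) (.s13 (.tw (.c 0 (.s13 (.tw (.c 0 (.b 14) (.s13 (.tw (.s12 (.s13 (.c 0 (.b 136) (.s13 (.tw (.s12 (.s13 (.c 0 (.b 13) (.b 200)))))))))))))) (.tw (.s13 (.tw (.c 0 (.s13 (.tw (.c 0 (.b 136) (.b 44)))) (.s13 (.tw (.c 0 (.b 5) (.s13 (.tw (.c 0 (.b 63) (.b 24))))))))))))))),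
  (.tw (.c 0 (.s12 (.s13 (.tw (.s12 (.c 0 (.tw (.s13 (.tw (.c 0 (.b 478) (.b 16))))) (.s13 (.tw (.s13 (.c 0 (.b 1) (.b 21)))))))))) (.s13 (.tw (.s12 (.c 0 (.s13 (.tw (.c 0 (.b 14) (.s13 (.tw (.s12 (.s13 (.c 0 (.b 14) (.c 0 (.b 136) (.b 136)))))))))) (.s12 (.s13 (.c 0 (.s12 (.s13 (.tw (.s12 (.c 0 (.b 136) (.s13 (.tw (.s12 (.s13 (.c 0 (.b 136) (.b 44))))))))))) (.s13 (.tw (.s13 (.c 0 (.b 70) (.b 45)))))))))))))),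
  (.tw (.c 0 (.tw (.c 0 (.tw (.s13 (.tw (.c 0 (.b 478) (.b 16))))) (.b 111))) (.s13 (.tw (.c 0 (.s13 (.tw (.c 0 (.b 273) (.s13 (.tw (.s12 (.s13 (.c 0 (.b 136) (.b 180))))))))) (.s13 (.c 0 (.tw (.c 0 (.b 14) (.s13 (.tw (.s12 (.s13 (.c 0 (.b 14) (.c 0 (.b 136) (.b 136))))))))) (.s13 (.tw (.s13 (.c 0 (.b 70) (.b 45)))))))))))),
  (.c 0 (.tw (.c 0 (.b 284) (.s13 (.tw (.s12 (.s13 (.c 0 (.b 63) (.b 93)))))))) (.s13 (.tw (.c 0 (.s12 (.s13 (.tw (.c 0 (.b 143) (.s13 (.tw (.s12 (.s13 (.c 0 (.b 136) (.b 44)))))))))) (.s13 (.tw (.c 0 (.s13 (.tw (.s13 (.s12 (.c 0 (.tw (.c 0 (.b 63) (.b 24))) (.s13 (.tw (.c 0 (.b 63) (.b 381))))))))) (.s13 (.tw (.c 0 (.b 63) (.b 44))))))))))),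
  (.c 0 (.tw (.c 0 (.b 284) (.s13 (.tw (.s12 (.s13 (.c 0 (.b 63) (.b 93)))))))) (.s13 (.tw (.c 0 (.s12 (.s13 (.tw (.c 0 (.b 164) (.s13 (.tw (.s12 (.s13 (.c 0 (.b 14) (.c 0 (.b 136) (.b 136))))))))))) (.s13 (.tw (.c 0 (.s13 (.tw (.c 0 (.s13 (.tw (.c 0 (.b 63) (.b 247)))) (.b 5)))) (.s13 (.tw (.c 0 (.b 136) (.b 44))))))))))),
  (.c 0 (.tw (.c 0 (.tw (.s13 (.tw (.c 0 (.b 478) (.b 16))))) (.b 111))) (.tw (.s13 (.s12 (.c 0 (.tw (.s13 (.s12 (.c 0 (.s13 (.tw (.s12 (.c 0 (.b 247) (.b 152))))) (.s13 (.tw (.c 0 (.b 381) (.b 44)))))))) (.s13 (.tw (.s12 (.c 0 (.b 304) (.s13 (.tw (.s12 (.s13 (.c 0 (.b 136) (.s13 (.tw (.s12 (.s13 (.c 0 (.b 44) (.b 12)))))))))))))))))))),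
  (.c 0 (.tw (.c 0 (.b 416) (.s13 (.tw (.s12 (.s13 (.c 0 (.b 63) (.b 159)))))))) (.tw (.s13 (.s12 (.c 0 (.tw (.s13 (.s12 (.c 0 (.s13 (.tw (.s12 (.c 0 (.b 247) (.b 152))))) (.s13 (.tw (.c 0 (.b 381) (.b 44)))))))) (.s13 (.tw (.s12 (.c 0 (.b 304) (.s13 (.tw (.s12 (.s13 (.c 0 (.b 136) (.s13 (.tw (.s12 (.s13 (.c 0 (.b 44) (.b 12)))))))))))))))))))),
  (.c 0 (.tw (.c 0 (.b 284) (.s13 (.tw (.s12 (.s13 (.c 0 (.b 63) (.b 93)))))))) (.tw (.s13 (.s12 (.c 0 (.tw (.s13 (.s12 (.c 0 (.s13 (.tw (.s12 (.c 0 (.b 247) (.b 152))))) (.s13 (.tw (.c 0 (.b 381) (.b 44)))))))) (.s13 (.tw (.s12 (.c 0 (.b 304) (.s13 (.tw (.s12 (.s13 (.c 0 (.b 136) (.s13 (.tw (.s12 (.s13 (.c 0 (.b 44) (.b 12)))))))))))))))))))),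
  (.c 0 (.tw (.c 0 (.b 13) (.s13 (.tw (.s12 (.s13 (.c 0 (.b 13) (.c 0 (.b 136) (.s13 (.tw (.s12 (.s13 (.c 0 (.b 13) (.b 138)))))))))))))) (.tw (.s13 (.s12 (.c 0 (.tw (.s13 (.s12 (.c 0 (.b 192) (.s13 (.tw (.s13 (.c 0 (.b 24) (.b 44))))))))) (.tw (.s13 (.s12 (.c 0 (.s13 (.tw (.c 0 (.b 381) (.b 44)))) (.s13 (.tw (.s13 (.s12 (.c 0 (.b 272) (.b 239))))))))))))))),
  (.c 0 (.tw (.c 0 (.tw (.s12 (.s13 (.tw (.c 0 (.b 63) (.b 159)))))) (.tw (.s12 (.s13 (.tw (.c 0 (.b 63) (.c 0 (.b 63) (.b 124))))))))) (.tw (.c 0 (.s12 (.s13 (.tw (.c 0 (.b 247) (.s13 (.tw (.s12 (.s13 (.c 0 (.b 63) (.b 44)))))))))) (.s12 (.s13 (.tw (.c 0 (.s13 (.tw (.c 0 (.b 24) (.b 136)))) (.s13 (.tw (.s13 (.c 0 (.b 443) (.b 99)))))))))))),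
  (.c 0 (.tw (.c 0 (.b 14) (.s13 (.tw (.s12 (.s13 (.c 0 (.b 14) (.c 0 (.b 304) (.s13 (.tw (.s12 (.s13 (.c 0 (.b 63) (.b 369)))))))))))))) (.s13 (.tw (.c 0 (.tw (.s12 (.s13 (.tw (.c 0 (.b 67) (.s13 (.tw (.s13 (.c 0 (.b 164) (.b 44)))))))))) (.tw (.s13 (.tw (.c 0 (.s13 (.tw (.c 0 (.b 5) (.tw (.s12 (.s13 (.tw (.c 0 (.b 13) (.b 200))))))))) (.s13 (.tw (.c 0 (.b 63) (.b 44)))))))))))),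
  (.c 0 (.tw (.c 0 (.b 136) (.s13 (.tw (.s12 (.s13 (.c 0 (.b 136) (.c 0 (.b 136) (.b 478))))))))) (.tw (.c 0 (.s12 (.s13 (.tw (.c 0 (.b 247) (.s13 (.tw (.s12 (.s13 (.c 0 (.b 63) (.b 44)))))))))) (.s12 (.s13 (.tw (.c 0 (.s13 (.tw (.c 0 (.b 24) (.b 136)))) (.s13 (.tw (.s13 (.c 0 (.b 443) (.b 99)))))))))))),
  (.c 0 (.s12 (.s13 (.tw (.s12 (.c 0 (.b 14) (.s13 (.tw (.s12 (.s13 (.c 0 (.b 136) (.s13 (.tw (.s12 (.s13 (.c 0 (.b 136) (.s13 (.tw (.s12 (.s13 (.c 0 (.b 44) (.b 12))))))))))))))))))))) (.s13 (.tw (.s13 (.s12 (.c 0 (.tw (.c 0 (.b 136) (.b 351))) (.s13 (.tw (.s13 (.c 0 (.s13 (.tw (.s12 (.c 0 (.b 313) (.s12 (.s13 (.tw (.c 0 (.b 58) (.b 247))))))))) (.s13 (.tw (.c 0 (.b 14) (.c 0 (.b 136) (.b 136))))))))))))))),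
  (.c 0 (.s12 (.s13 (.tw (.s12 (.c 0 (.b 13) (.s13 (.tw (.s12 (.s13 (.c 0 (.b 136) (.s13 (.tw (.s12 (.s13 (.c 0 (.b 284) (.b 147)))))))))))))))) (.s13 (.tw (.s12 (.c 0 (.s13 (.tw (.s12 (.c 0 (.b 693) (.s13 (.tw (.c 0 (.b 82) (.b 26)))))))) (.tw (.s13 (.tw (.c 0 (.s13 (.tw (.c 0 (.b 14) (.c 0 (.b 136) (.b 136))))) (.tw (.s12 (.s13 (.tw (.c 0 (.b 95) (.s13 (.tw (.c 0 (.b 44) (.b 12)))))))))))))))))),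
  (.c 0 (.tw (.c 0 (.b 284) (.s13 (.tw (.s12 (.s13 (.c 0 (.b 63) (.b 93)))))))) (.tw (.s13 (.s12 (.c 0 (.s13 (.tw (.s12 (.c 0 (.b 693) (.s13 (.tw (.s12 (.s13 (.c 0 (.s13 (.tw (.c 0 (.b 63) (.b 381)))) (.tw (.s12 (.s13 (.tw (.c 0 (.b 124) (.b 247))))))))))))))) (.s13 (.tw (.s12 (.c 0 (.b 684) (.s13 (.tw (.s12 (.s13 (.c 0 (.b 14) (.c 0 (.b 136) (.b 136)))))))))))))))),
  (.c 0 (.tw (.c 0 (.b 13) (.s13 (.tw (.s12 (.s13 (.c 0 (.b 57) (.s13 (.tw (.s12 (.s13 (.c 0 (.b 381) (.b 478))))))))))))) (.s13 (.tw (.c 0 (.tw (.s13 (.c 0 (.b 45) (.s12 (.s13 (.tw (.c 0 (.b 44) (.b 12)))))))) (.tw (.s13 (.tw (.c 0 (.s13 (.tw (.c 0 (.b 14) (.c 0 (.b 136) (.b 136))))) (.tw (.s12 (.s13 (.tw (.c 0 (.b 95) (.s13 (.tw (.c 0 (.b 44) (.b 12))))))))))))))))),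
  (.c 0 (.tw (.c 0 (.b 284) (.s13 (.tw (.s12 (.s13 (.c 0 (.b 63) (.b 93)))))))) (.s13 (.tw (.c 0 (.s13 (.tw (.c 0 (.b 693) (.tw (.s13 (.tw (.c 0 (.b 601) (.b 26)))))))) (.tw (.s13 (.tw (.c 0 (.s13 (.tw (.c 0 (.b 14) (.c 0 (.b 136) (.b 136))))) (.tw (.s12 (.s13 (.tw (.c 0 (.b 95) (.s13 (.tw (.c 0 (.b 44) (.b 12))))))))))))))))),
  (.tw (.c 0 (.tw (.c 0 (.b 416) (.s13 (.tw (.s12 (.s13 (.c 0 (.b 63) (.b 159)))))))) (.s13 (.c 0 (.tw (.c 0 (.s13 (.tw (.c 0 (.b 57) (.s13 (.tw (.s12 (.s13 (.c 0 (.b 63) (.b 663))))))))) (.tw (.s13 (.tw (.c 0 (.s13 (.tw (.c 0 (.b 136) (.b 44)))) (.s13 (.tw (.c 0 (.b 5) (.s13 (.tw (.c 0 (.b 384) (.b 5))))))))))))) (.b 1))))),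
  (.c 0 (.tw (.c 0 (.b 13) (.s13 (.tw (.s12 (.s13 (.c 0 (.b 13) (.c 0 (.b 136) (.s13 (.tw (.s12 (.s13 (.c 0 (.b 13) (.b 138)))))))))))))) (.s13 (.tw (.c 0 (.s13 (.tw (.c 0 (.tw (.s13 (.tw (.c 0 (.b 136) (.b 247))))) (.b 14)))) (.tw (.s13 (.tw (.c 0 (.s13 (.tw (.c 0 (.b 136) (.s13 (.tw (.s12 (.s13 (.c 0 (.b 44) (.b 1))))))))) (.s13 (.tw (.c 0 (.b 143) (.s13 (.tw (.c 0 (.b 124) (.b 124))))))))))))))),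
  (.c 0 (.tw (.c 0 (.b 13) (.s13 (.tw (.s12 (.s13 (.c 0 (.b 57) (.s13 (.tw (.s12 (.s13 (.c 0 (.b 381) (.b 478))))))))))))) (.s13 (.tw (.c 0 (.tw (.s13 (.c 0 (.b 38) (.tw (.c 0 (.b 13) (.b 247)))))) (.s13 (.c 0 (.tw (.c 0 (.b 304) (.s13 (.tw (.s12 (.s13 (.c 0 (.b 63) (.b 44)))))))) (.s13 (.tw (.s13 (.c 0 (.b 70) (.b 45))))))))))),
  (.c 0 (.tw (.c 0 (.b 284) (.s13 (.tw (.s12 (.s13 (.c 0 (.b 63) (.b 93)))))))) (.s13 (.tw (.c 0 (.s13 (.tw (.c 0 (.b 311) (.s13 (.tw (.c 0 (.b 538) (.b 26))))))) (.s13 (.c 0 (.tw (.c 0 (.b 304) (.s13 (.tw (.s12 (.s13 (.c 0 (.b 63) (.b 44)))))))) (.s13 (.tw (.s13 (.c 0 (.b 70) (.b 45))))))))))),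
  (.c 0 (.tw (.c 0 (.b 284) (.s13 (.tw (.s12 (.s13 (.c 0 (.b 63) (.b 93)))))))) (.s13 (.tw (.c 0 (.s13 (.tw (.c 0 (.b 14) (.tw (.s12 (.s13 (.tw (.c 0 (.b 136) (.b 536))))))))) (.tw (.s12 (.s13 (.tw (.c 0 (.s13 (.tw (.c 0 (.s13 (.tw (.c 0 (.b 124) (.b 247)))) (.s13 (.tw (.c 0 (.b 63) (.b 381))))))) (.s13 (.tw (.c 0 (.b 14) (.c 0 (.b 136) (.b 136)))))))))))))),
  (.tw (.c 0 (.tw (.c 0 (.b 416) (.s13 (.tw (.s12 (.s13 (.c 0 (.b 63) (.b 159)))))))) (.s13 (.c 0 (.tw (.c 0 (.s13 (.tw (.c 0 (.b 57) (.s13 (.tw (.s12 (.s13 (.c 0 (.b 57) (.b 44))))))))) (.tw (.s13 (.tw (.c 0 (.s13 (.tw (.c 0 (.b 136) (.b 44)))) (.s13 (.tw (.c 0 (.b 5) (.s13 (.tw (.c 0 (.b 384) (.b 5))))))))))))) (.b 1))))),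
  (.c 0 (.tw (.c 0 (.b 13) (.s13 (.tw (.s12 (.s13 (.c 0 (.b 57) (.s13 (.tw (.s12 (.s13 (.c 0 (.b 381) (.b 478))))))))))))) (.s13 (.tw (.c 0 (.s13 (.tw (.c 0 (.b 136) (.b 462)))) (.s13 (.c 0 (.tw (.c 0 (.b 693) (.tw (.s12 (.s13 (.tw (.c 0 (.b 124) (.b 44)))))))) (.s13 (.tw (.s13 (.c 0 (.b 70) (.b 45))))))))))),
  (.c 0 (.tw (.c 0 (.b 13) (.s13 (.tw (.s12 (.s13 (.c 0 (.b 13) (.c 0 (.b 136) (.s13 (.tw (.s12 (.s13 (.c 0 (.b 13) (.b 138)))))))))))))) (.s13 (.tw (.c 0 (.s13 (.tw (.c 0 (.b 684) (.b 185)))) (.s13 (.c 0 (.tw (.c 0 (.b 304) (.s13 (.tw (.s12 (.s13 (.c 0 (.b 63) (.b 180)))))))) (.s13 (.tw (.s13 (.c 0 (.b 70) (.b 45))))))))))),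
  (.c 0 (.tw (.c 0 (.b 284) (.s13 (.tw (.s12 (.s13 (.c 0 (.b 63) (.b 93)))))))) (.s13 (.tw (.c 0 (.s13 (.tw (.c 0 (.b 14) (.tw (.s12 (.s13 (.tw (.c 0 (.b 136) (.b 536))))))))) (.tw (.s12 (.s13 (.tw (.c 0 (.s13 (.tw (.c 0 (.s13 (.tw (.c 0 (.b 124) (.b 247)))) (.s13 (.tw (.s12 (.c 0 (.b 239) (.b 1)))))))) (.s13 (.tw (.c 0 (.b 136) (.b 44))))))))))))),
  (.tw (.c 0 (.tw (.c 0 (.b 416) (.s13 (.tw (.s12 (.s13 (.c 0 (.b 63) (.b 159)))))))) (.s13 (.c 0 (.tw (.c 0 (.s13 (.tw (.c 0 (.b 136) (.s13 (.tw (.s12 (.s13 (.c 0 (.b 13) (.b 139))))))))) (.tw (.s13 (.tw (.c 0 (.s13 (.tw (.c 0 (.b 136) (.b 44)))) (.s13 (.tw (.c 0 (.b 5) (.s13 (.tw (.c 0 (.b 384) (.b 5))))))))))))) (.b 1))))),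
  (.c 0 (.tw (.c 0 (.b 13) (.s13 (.tw (.s12 (.s13 (.c 0 (.b 57) (.s13 (.tw (.s12 (.s13 (.c 0 (.b 381) (.b 478))))))))))))) (.s13 (.tw (.c 0 (.s13 (.tw (.c 0 (.b 136) (.b 236)))) (.s13 (.c 0 (.tw (.c 0 (.b 693) (.tw (.s12 (.s13 (.tw (.c 0 (.b 124) (.b 44)))))))) (.s13 (.tw (.s13 (.c 0 (.b 70) (.b 45))))))))))),
  (.tw (.c 0 (.tw (.c 0 (.b 416) (.s13 (.tw (.s12 (.s13 (.c 0 (.b 63) (.b 159)))))))) (.s13 (.c 0 (.tw (.c 0 (.s13 (.tw (.c 0 (.b 14) (.s13 (.tw (.s12 (.s13 (.c 0 (.b 136) (.s13 (.tw (.s12 (.s13 (.c 0 (.b 13) (.b 200)))))))))))))) (.tw (.s13 (.tw (.c 0 (.s13 (.tw (.c 0 (.b 136) (.b 44)))) (.s13 (.tw (.c 0 (.b 5) (.s13 (.tw (.c 0 (.b 5) (.b 63))))))))))))) (.b 1))))),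
  (.c 0 (.tw (.c 0 (.b 284) (.s13 (.tw (.s12 (.s13 (.c 0 (.b 63) (.b 93)))))))) (.s13 (.tw (.c 0 (.s12 (.s13 (.tw (.c 0 (.b 13) (.s13 (.tw (.s12 (.s13 (.c 0 (.b 136) (.b 351)))))))))) (.tw (.s12 (.s13 (.tw (.c 0 (.tw (.s12 (.s13 (.tw (.c 0 (.tw (.s13 (.s12 (.c 0 (.b 58) (.b 247))))) (.s13 (.tw (.c 0 (.b 63) (.b 44))))))))) (.s13 (.tw (.c 0 (.b 14) (.c 0 (.b 136) (.b 136)))))))))))))),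
  (.c 0 (.tw (.c 0 (.b 13) (.s13 (.tw (.s12 (.s13 (.c 0 (.b 57) (.s13 (.tw (.s12 (.s13 (.c 0 (.b 381) (.b 478))))))))))))) (.s13 (.tw (.c 0 (.s13 (.tw (.c 0 (.b 14) (.s13 (.tw (.s12 (.s13 (.c 0 (.b 136) (.b 351))))))))) (.s13 (.c 0 (.s12 (.s13 (.tw (.s12 (.c 0 (.b 693) (.s13 (.tw (.s12 (.s13 (.c 0 (.b 63) (.b 44))))))))))) (.s13 (.tw (.s13 (.c 0 (.b 70) (.b 45))))))))))),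
  (.c 0 (.tw (.c 0 (.b 13) (.s13 (.tw (.s12 (.s13 (.c 0 (.b 13) (.c 0 (.b 136) (.s13 (.tw (.s12 (.s13 (.c 0 (.b 13) (.b 138)))))))))))))) (.s13 (.tw (.c 0 (.s13 (.tw (.c 0 (.b 14) (.s13 (.tw (.s12 (.s13 (.c 0 (.b 14) (.c 0 (.b 136) (.b 136)))))))))) (.s13 (.c 0 (.tw (.c 0 (.b 304) (.s13 (.tw (.s12 (.s13 (.c 0 (.b 63) (.b 180)))))))) (.s13 (.tw (.s13 (.c 0 (.b 70) (.b 45))))))))))),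
  (.tw (.c 0 (.s12 (.s13 (.tw (.s12 (.c 0 (.b 416) (.c 0 (.b 478) (.b 29))))))) (.s13 (.tw (.s12 (.c 0 (.s13 (.tw (.c 0 (.b 14) (.s13 (.tw (.s12 (.s13 (.c 0 (.b 14) (.c 0 (.b 136) (.b 247)))))))))) (.s13 (.tw (.c 0 (.s13 (.tw (.c 0 (.b 5) (.s13 (.tw (.c 0 (.b 63) (.b 200))))))) (.s13 (.tw (.c 0 (.b 136) (.b 44))))))))))))),
  (.tw (.c 0 (.tw (.c 0 (.b 416) (.s13 (.tw (.s12 (.s13 (.c 0 (.b 63) (.b 159)))))))) (.s13 (.tw (.c 0 (.s13 (.tw (.c 0 (.b 14) (.s13 (.tw (.s12 (.s13 (.c 0 (.b 136) (.s13 (.tw (.s12 (.s13 (.c 0 (.b 24) (.b 136)))))))))))))) (.tw (.s12 (.s13 (.tw (.c 0 (.tw (.s12 (.c 0 (.b 136) (.b 462)))) (.s13 (.tw (.c 0 (.b 5) (.c 0 (.b 5) (.b 26))))))))))))))),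
  (.c 0 (.tw (.c 0 (.b 19) (.s13 (.tw (.s12 (.s13 (.c 0 (.b 567) (.b 21)))))))) (.s13 (.tw (.c 0 (.s13 (.tw (.c 0 (.b 14) (.s13 (.tw (.s12 (.s13 (.c 0 (.b 14) (.c 0 (.b 136) (.b 136)))))))))) (.s13 (.c 0 (.tw (.c 0 (.b 304) (.s13 (.tw (.s12 (.s13 (.c 0 (.b 63) (.b 44)))))))) (.s13 (.tw (.s13 (.c 0 (.b 70) (.b 45))))))))))),
  (.c 0 (.tw (.c 0 (.b 284) (.s13 (.tw (.s12 (.s13 (.c 0 (.b 63) (.b 93)))))))) (.s13 (.c 0 (.tw (.c 0 (.s13 (.tw (.c 0 (.b 14) (.s13 (.tw (.s12 (.s13 (.c 0 (.b 14) (.c 0 (.b 136) (.b 136)))))))))) (.s13 (.c 0 (.tw (.c 0 (.b 304) (.s13 (.tw (.s12 (.s13 (.c 0 (.b 63) (.b 44)))))))) (.s13 (.tw (.s13 (.c 0 (.b 70) (.b 45))))))))) (.b 1)))),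
  (.c 0 (.tw (.c 0 (.b 13) (.s13 (.tw (.s12 (.s13 (.c 0 (.b 57) (.s13 (.tw (.s12 (.s13 (.c 0 (.b 381) (.b 478))))))))))))) (.s13 (.tw (.c 0 (.s13 (.tw (.c 0 (.b 14) (.s13 (.tw (.s12 (.s13 (.c 0 (.b 14) (.c 0 (.b 136) (.b 136)))))))))) (.s13 (.c 0 (.tw (.c 0 (.b 304) (.s13 (.tw (.s12 (.s13 (.c 0 (.b 63) (.b 44)))))))) (.s13 (.tw (.s13 (.c 0 (.b 70) (.b 45))))))))))),
  (.c 0 (.tw (.c 0 (.b 13) (.s13 (.tw (.s12 (.s13 (.c 0 (.b 57) (.s13 (.tw (.s12 (.s13 (.c 0 (.b 381) (.b 478))))))))))))) (.s13 (.tw (.c 0 (.s13 (.tw (.c 0 (.s13 (.tw (.c 0 (.b 63) (.b 381)))) (.s13 (.tw (.c 0 (.b 601) (.b 124))))))) (.tw (.s13 (.c 0 (.tw (.c 0 (.b 284) (.s13 (.tw (.s12 (.s13 (.c 0 (.b 63) (.b 44)))))))) (.tw (.c 0 (.b 136) (.b 136)))))))))),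
  (.c 0 (.tw (.c 0 (.b 284) (.s13 (.tw (.s12 (.s13 (.c 0 (.b 63) (.b 93)))))))) (.s13 (.c 0 (.tw (.c 0 (.tw (.s13 (.tw (.c 0 (.b 63) (.s13 (.tw (.s12 (.s13 (.c 0 (.b 63) (.b 44)))))))))) (.tw (.s13 (.tw (.c 0 (.b 284) (.s13 (.tw (.s12 (.s13 (.c 0 (.b 63) (.b 44)))))))))))) (.tw (.c 0 (.b 460) (.s13 (.tw (.s12 (.s13 (.c 0 (.b 136) (.b 351))))))))))),
  (.tw (.c 0 (.tw (.c 0 (.b 416) (.s13 (.tw (.s12 (.s13 (.c 0 (.b 63) (.b 159)))))))) (.s13 (.c 0 (.tw (.c 0 (.s13 (.tw (.c 0 (.b 136) (.s13 (.tw (.s12 (.s13 (.c 0 (.b 13) (.b 138))))))))) (.tw (.s13 (.tw (.c 0 (.s13 (.tw (.c 0 (.b 136) (.b 44)))) (.s13 (.tw (.c 0 (.b 5) (.s13 (.tw (.c 0 (.b 82) (.b 5))))))))))))) (.b 1))))),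
  (.c 0 (.tw (.c 0 (.b 13) (.s13 (.tw (.s12 (.s13 (.c 0 (.b 13) (.c 0 (.b 136) (.s13 (.tw (.s12 (.s13 (.c 0 (.b 13) (.b 138)))))))))))))) (.s13 (.tw (.c 0 (.s13 (.tw (.c 0 (.tw (.s13 (.tw (.c 0 (.b 136) (.b 247))))) (.b 14)))) (.tw (.s13 (.tw (.c 0 (.s13 (.tw (.c 0 (.b 136) (.b 536)))) (.tw (.s12 (.s13 (.tw (.c 0 (.b 208) (.s13 (.tw (.c 0 (.b 5) (.b 381))))))))))))))))),
  (.c 0 (.tw (.c 0 (.b 13) (.s13 (.tw (.s12 (.s13 (.c 0 (.b 57) (.s13 (.tw (.s12 (.s13 (.c 0 (.b 381) (.b 478))))))))))))) (.s13 (.tw (.c 0 (.s13 (.tw (.c 0 (.b 14) (.s13 (.tw (.s12 (.s13 (.c 0 (.b 136) (.b 351))))))))) (.tw (.s13 (.tw (.c 0 (.s12 (.s13 (.tw (.c 0 (.b 136) (.tw (.s12 (.s13 (.tw (.c 0 (.b 63) (.b 381)))))))))) (.s13 (.tw (.c 0 (.s13 (.tw (.c 0 (.b 63) (.b 381))))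 (.s13 (.tw (.c 0 (.b 5) (.b 26))))))))))))))),
  (.c 0 (.tw (.c 0 (.b 284) (.s13 (.tw (.s12 (.s13 (.c 0 (.b 63) (.b 93)))))))) (.s13 (.c 0 (.tw (.c 0 (.tw (.s13 (.tw (.c 0 (.b 63) (.s13 (.tw (.s12 (.s13 (.c 0 (.b 63) (.b 44)))))))))) (.tw (.s13 (.tw (.c 0 (.b 284) (.s13 (.tw (.s12 (.s13 (.c 0 (.b 63) (.b 44)))))))))))) (.tw (.c 0 (.b 718) (.c 0 (.b 136) (.b 136))))))),
  (.c 0 (.tw (.c 0 (.b 284) (.s13 (.tw (.s12 (.s13 (.c 0 (.b 63) (.b 93)))))))) (.s13 (.tw (.c 0 (.s12 (.s13 (.tw (.c 0 (.b 304) (.s13 (.tw (.s12 (.s13 (.c 0 (.b 13) (.b 337)))))))))) (.tw (.s12 (.s13 (.tw (.c 0 (.s13 (.tw (.c 0 (.b 136) (.tw (.s12 (.s13 (.tw (.c 0 (.b 63) (.b 381))))))))) (.s13 (.tw (.c 0 (.s13 (.tw (.c 0 (.b 124) (.b 247)))) (.b 143))))))))))))),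
  (.tw (.c 0 (.tw (.c 0 (.b 416) (.s13 (.tw (.s12 (.s13 (.c 0 (.b 63) (.b 159)))))))) (.s13 (.c 0 (.tw (.c 0 (.s12 (.s13 (.tw (.s12 (.c 0 (.b 136) (.b 29)))))) (.tw (.s12 (.s13 (.tw (.c 0 (.tw (.s12 (.s13 (.tw (.c 0 (.b 67) (.s13 (.tw (.s13 (.c 0 (.b 14) (.b 44)))))))))) (.s13 (.tw (.c 0 (.s13 (.tw (.c 0 (.b 44) (.b 1)))) (.s13 (.tw (.c 0 (.b 5) (.b 5)))))))))))))) (.b 1))))),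
  (.c 0 (.tw (.c 0 (.b 13) (.s13 (.tw (.s12 (.s13 (.c 0 (.b 57) (.s13 (.tw (.s12 (.s13 (.c 0 (.b 381) (.b 478))))))))))))) (.s13 (.tw (.c 0 (.s13 (.tw (.c 0 (.b 136) (.b 462)))) (.tw (.s13 (.tw (.c 0 (.s13 (.tw (.c 0 (.b 136) (.tw (.s12 (.s13 (.tw (.c 0 (.b 63) (.b 381))))))))) (.tw (.s13 (.tw (.c 0 (.s13 (.tw (.s12 (.c 0 (.b 63) (.b 381))))) (.s13 (.tw (.s12 (.c 0 (.b 124) (.b 44))))))))))))))))),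
  (.c 0 (.tw (.c 0 (.b 13) (.s13 (.tw (.s12 (.s13 (.c 0 (.b 13) (.c 0 (.b 136) (.s13 (.tw (.s12 (.s13 (.c 0 (.b 13) (.b 138)))))))))))))) (.s13 (.tw (.c 0 (.s13 (.tw (.c 0 (.b 684) (.b 185)))) (.tw (.s13 (.tw (.c 0 (.s13 (.tw (.c 0 (.b 136) (.b 536)))) (.s13 (.tw (.c 0 (.b 73) (.s13 (.tw (.c 0 (.b 82) (.b 124))))))))))))))),
  (.c 0 (.tw (.c 0 (.b 284) (.s13 (.tw (.s12 (.s13 (.c 0 (.b 63) (.b 93)))))))) (.s13 (.c 0 (.tw (.c 0 (.tw (.s12 (.s13 (.tw (.c 0 (.b 63) (.s13 (.tw (.s12 (.s13 (.c 0 (.b 63) (.b 24))))))))))) (.tw (.s13 (.tw (.c 0 (.b 304) (.s13 (.tw (.s12 (.s13 (.c 0 (.b 136) (.b 44)))))))))))) (.tw (.c 0 (.b 718) (.c 0 (.b 136) (.b 136))))))),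
  (.c 0 (.tw (.c 0 (.b 284) (.s13 (.tw (.s12 (.s13 (.c 0 (.b 63) (.b 93)))))))) (.s13 (.tw (.c 0 (.s12 (.s13 (.tw (.c 0 (.b 136) (.s13 (.tw (.s12 (.s13 (.c 0 (.b 13) (.b 337)))))))))) (.s12 (.s13 (.tw (.c 0 (.s13 (.tw (.s12 (.c 0 (.b 693) (.tw (.s12 (.s13 (.tw (.c 0 (.b 5) (.b 247)))))))))) (.s13 (.tw (.c 0 (.b 136) (.b 44)))))))))))),
  (.tw (.c 0 (.tw (.c 0 (.b 416) (.s13 (.tw (.s12 (.s13 (.c 0 (.b 63) (.b 159)))))))) (.s13 (.c 0 (.tw (.c 0 (.s13 (.tw (.c 0 (.b 13) (.b 236)))) (.tw (.s13 (.tw (.c 0 (.s13 (.tw (.c 0 (.b 136) (.s13 (.tw (.s12 (.s13 (.c 0 (.b 44) (.b 1))))))))) (.s13 (.tw (.c 0 (.s13 (.tw (.c 0 (.b 44) (.b 1)))) (.s13 (.tw (.c 0 (.b 5) (.b 5))))))))))))) (.b 1))))),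
  (.c 0 (.tw (.c 0 (.b 13) (.s13 (.tw (.s12 (.s13 (.c 0 (.b 57) (.s13 (.tw (.s12 (.s13 (.c 0 (.b 381) (.b 478))))))))))))) (.s13 (.tw (.c 0 (.s13 (.tw (.c 0 (.b 136) (.b 236)))) (.tw (.s13 (.tw (.c 0 (.s13 (.tw (.c 0 (.b 136) (.tw (.s12 (.s13 (.tw (.c 0 (.b 63) (.b 381))))))))) (.tw (.s13 (.tw (.c 0 (.s13 (.tw (.s12 (.c 0 (.b 63) (.b 381))))) (.s13 (.tw (.s12 (.c 0 (.b 124) (.b 44))))))))))))))))),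
  (.tw (.c 0 (.tw (.c 0 (.b 416) (.s13 (.tw (.s12 (.s13 (.c 0 (.b 63) (.b 159)))))))) (.s13 (.c 0 (.tw (.c 0 (.s13 (.tw (.c 0 (.b 57) (.s13 (.tw (.s12 (.s13 (.c 0 (.b 57) (.b 44))))))))) (.tw (.s13 (.tw (.c 0 (.s13 (.tw (.c 0 (.b 136) (.b 44)))) (.s13 (.tw (.c 0 (.b 5) (.s13 (.tw (.c 0 (.b 5) (.b 124))))))))))))) (.b 1))))),
  (.c 0 (.tw (.c 0 (.b 284) (.s13 (.tw (.s12 (.s13 (.c 0 (.b 63) (.b 93)))))))) (.s13 (.tw (.c 0 (.s12 (.s13 (.tw (.c 0 (.b 460) (.s13 (.tw (.c 0 (.b 355) (.b 26)))))))) (.s12 (.s13 (.c 0 (.s12 (.s13 (.tw (.s12 (.c 0 (.b 304) (.s13 (.tw (.s12 (.s13 (.c 0 (.b 136) (.b 44))))))))))) (.s13 (.tw (.s13 (.c 0 (.b 70) (.b 45)))))))))))),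
  (.c 0 (.tw (.c 0 (.b 13) (.s13 (.tw (.s12 (.s13 (.c 0 (.b 57) (.s13 (.tw (.s12 (.s13 (.c 0 (.b 381) (.b 478))))))))))))) (.s13 (.tw (.c 0 (.s13 (.tw (.c 0 (.b 14) (.s13 (.tw (.s12 (.s13 (.c 0 (.b 136) (.b 351))))))))) (.tw (.s13 (.tw (.c 0 (.s13 (.tw (.c 0 (.b 136) (.tw (.s12 (.s13 (.tw (.c 0 (.b 63) (.b 381))))))))) (.tw (.s13 (.tw (.c 0 (.s13 (.tw (.s12 (.c 0 (.b 63) (.b 381))))) (.s13 (.tw (.c 0 (.b 63) (.b 44)))))))))))))))),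
  (.c 0 (.tw (.c 0 (.b 13) (.s13 (.tw (.s12 (.s13 (.c 0 (.b 13) (.c 0 (.b 136) (.s13 (.tw (.s12 (.s13 (.c 0 (.b 13) (.b 138)))))))))))))) (.s13 (.tw (.c 0 (.s13 (.tw (.c 0 (.b 14) (.s13 (.tw (.s12 (.s13 (.c 0 (.b 14) (.c 0 (.b 136) (.b 136)))))))))) (.tw (.s13 (.tw (.c 0 (.s13 (.tw (.c 0 (.b 136) (.b 536)))) (.s13 (.tw (.c 0 (.b 73) (.s13 (.tw (.c 0 (.b 82) (.b 124))))))))))))))),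
  (.c 0 (.tw (.c 0 (.b 284) (.s13 (.tw (.s12 (.s13 (.c 0 (.b 63) (.b 93)))))))) (.s13 (.tw (.c 0 (.s12 (.s13 (.tw (.c 0 (.b 541) (.b 333))))) (.s12 (.s13 (.c 0 (.s12 (.s13 (.tw (.s12 (.c 0 (.b 304) (.s13 (.tw (.s12 (.s13 (.c 0 (.b 136) (.b 44))))))))))) (.s13 (.tw (.s13 (.c 0 (.b 70) (.b 45)))))))))))),
  (.tw (.c 0 (.tw (.c 0 (.b 416) (.s13 (.tw (.s12 (.s13 (.c 0 (.b 63) (.b 159)))))))) (.s13 (.c 0 (.tw (.c 0 (.s13 (.tw (.c 0 (.b 136) (.s13 (.tw (.s12 (.s13 (.c 0 (.b 13) (.b 139))))))))) (.tw (.s13 (.tw (.c 0 (.s13 (.tw (.c 0 (.b 136) (.b 44)))) (.s13 (.tw (.c 0 (.b 5) (.s13 (.tw (.c 0 (.b 5) (.b 124))))))))))))) (.b 1))))),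
  (.c 0 (.tw (.c 0 (.b 284) (.s13 (.tw (.s12 (.s13 (.c 0 (.b 63) (.b 93)))))))) (.s13 (.tw (.c 0 (.s12 (.s13 (.tw (.c 0 (.b 460) (.s13 (.c 0 (.b 169) (.b 1))))))) (.s12 (.s13 (.c 0 (.s12 (.s13 (.tw (.s12 (.c 0 (.b 304) (.s13 (.tw (.s12 (.s13 (.c 0 (.b 136) (.b 44))))))))))) (.s13 (.tw (.s13 (.c 0 (.b 70) (.b 45)))))))))))),
  (.c 0 (.tw (.c 0 (.b 13) (.s13 (.tw (.s12 (.s13 (.c 0 (.b 57) (.s13 (.tw (.s12 (.s13 (.c 0 (.b 381) (.b 478))))))))))))) (.s13 (.tw (.c 0 (.s13 (.tw (.c 0 (.b 684) (.b 304)))) (.tw (.s13 (.tw (.c 0 (.s13 (.tw (.c 0 (.b 136) (.b 351)))) (.tw (.s12 (.s13 (.tw (.c 0 (.s13 (.tw (.c 0 (.b 44) (.b 12)))) (.s13 (.tw (.s12 (.c 0 (.b 5) (.b 124)))))))))))))))))),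
  (.tw (.c 0 (.tw (.c 0 (.b 567) (.s13 (.tw (.s12 (.s13 (.c 0 (.b 13) (.c 0 (.b 1) (.b 21))))))))) (.s13 (.tw (.c 0 (.s13 (.tw (.c 0 (.b 58) (.s13 (.tw (.s12 (.s13 (.c 0 (.b 14) (.c 0 (.b 136) (.b 136)))))))))) (.tw (.s13 (.tw (.c 0 (.s13 (.tw (.c 0 (.b 5) (.s13 (.tw (.c 0 (.b 124) (.b 200))))))) (.s13 (.tw (.c 0 (.b 136) (.b 44))))))))))))),
  (.tw (.c 0 (.tw (.c 0 (.b 416) (.s13 (.tw (.s12 (.s13 (.c 0 (.b 63) (.b 159)))))))) (.s13 (.c 0 (.tw (.c 0 (.s13 (.tw (.c 0 (.b 58) (.s13 (.tw (.s12 (.s13 (.c 0 (.b 14) (.c 0 (.b 136) (.b 136)))))))))) (.tw (.s13 (.tw (.c 0 (.s13 (.tw (.c 0 (.b 136) (.b 351)))) (.s13 (.tw (.c 0 (.b 5) (.s13 (.tw (.c 0 (.b 384) (.b 5))))))))))))) (.b 1))))),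
  (.c 0 (.tw (.c 0 (.b 19) (.s13 (.tw (.s12 (.s13 (.c 0 (.b 567) (.b 21)))))))) (.s13 (.tw (.c 0 (.s13 (.tw (.c 0 (.b 14) (.s13 (.tw (.s12 (.s13 (.c 0 (.b 14) (.c 0 (.b 136) (.b 136)))))))))) (.tw (.s13 (.tw (.c 0 (.s13 (.tw (.c 0 (.b 136) (.b 536)))) (.tw (.s13 (.tw (.c 0 (.s13 (.tw (.s12 (.c 0 (.b 63) (.b 381))))) (.s13 (.tw (.c 0 (.b 63) (.b 44)))))))))))))))),
  (.c 0 (.tw (.c 0 (.b 284) (.s13 (.tw (.s12 (.s13 (.c 0 (.b 63) (.b 93)))))))) (.s13 (.c 0 (.tw (.c 0 (.s13 (.tw (.c 0 (.b 14) (.s13 (.tw (.s12 (.s13 (.c 0 (.b 14) (.c 0 (.b 136) (.b 136)))))))))) (.tw (.s13 (.tw (.c 0 (.s13 (.tw (.c 0 (.b 136) (.b 536)))) (.tw (.s13 (.tw (.c 0 (.s13 (.tw (.s12 (.c 0 (.b 63) (.b 381))))) (.s13 (.tw (.c 0 (.b 63) (.b 44)))))))))))))) (.b 1)))),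
  (.c 0 (.tw (.c 0 (.b 13) (.s13 (.tw (.s12 (.s13 (.c 0 (.b 57) (.s13 (.tw (.s12 (.s13 (.c 0 (.b 381) (.b 478))))))))))))) (.s13 (.tw (.c 0 (.s13 (.tw (.c 0 (.b 14) (.s13 (.tw (.s12 (.s13 (.c 0 (.b 14) (.c 0 (.b 136) (.b 136)))))))))) (.tw (.s13 (.tw (.c 0 (.s13 (.tw (.c 0 (.b 136) (.b 536)))) (.tw (.s13 (.tw (.c 0 (.s13 (.tw (.s12 (.c 0 (.b 63) (.b 381))))) (.s13 (.tw (.c 0 (.b 63) (.b 44)))))))))))))))),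
  (.c 0 (.tw (.c 0 (.tw (.s13 (.tw (.c 0 (.b 478) (.b 16))))) (.b 111))) (.s13 (.tw (.c 0 (.s13 (.tw (.c 0 (.b 273) (.s13 (.tw (.s12 (.s13 (.c 0 (.b 136) (.b 180))))))))) (.s13 (.c 0 (.tw (.c 0 (.b 14) (.s13 (.tw (.s12 (.s13 (.c 0 (.b 14) (.c 0 (.b 136) (.b 136))))))))) (.s13 (.tw (.s13 (.c 0 (.b 70) (.b 45))))))))))),
  (.c 0 (.tw (.c 0 (.b 416) (.s13 (.tw (.s12 (.s13 (.c 0 (.b 63) (.b 159)))))))) (.s13 (.tw (.c 0 (.s13 (.tw (.c 0 (.b 273) (.s13 (.tw (.s12 (.s13 (.c 0 (.b 136) (.b 180))))))))) (.s13 (.c 0 (.tw (.c 0 (.b 14) (.s13 (.tw (.s12 (.s13 (.c 0 (.b 14) (.c 0 (.b 136) (.b 136))))))))) (.s13 (.tw (.s13 (.c 0 (.b 70) (.b 45))))))))))),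
  (.c 0 (.tw (.c 0 (.b 284) (.s13 (.tw (.s12 (.s13 (.c 0 (.b 63) (.b 93)))))))) (.s13 (.tw (.c 0 (.s13 (.tw (.c 0 (.b 273) (.s13 (.tw (.s12 (.s13 (.c 0 (.b 136) (.b 180))))))))) (.s13 (.c 0 (.tw (.c 0 (.b 14) (.s13 (.tw (.s12 (.s13 (.c 0 (.b 14) (.c 0 (.b 136) (.b 136))))))))) (.s13 (.tw (.s13 (.c 0 (.b 70) (.b 45))))))))))),
  (.c 0 (.tw (.c 0 (.b 13) (.s13 (.tw (.s12 (.s13 (.c 0 (.b 57) (.s13 (.tw (.s12 (.s13 (.c 0 (.b 381) (.b 478))))))))))))) (.s13 (.tw (.c 0 (.s13 (.tw (.c 0 (.b 136) (.s13 (.tw (.s12 (.s13 (.c 0 (.b 63) (.b 369))))))))) (.s13 (.tw (.c 0 (.tw (.s12 (.c 0 (.b 14) (.s13 (.tw (.s12 (.s13 (.c 0 (.b 136) (.b 536))))))))) (.s13 (.tw (.s12 (.c 0 (.b 693) (.s13 (.tw (.c 0 (.b 5) (.b 26))))))))))))))),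
  (.c 0 (.tw (.c 0 (.b 284) (.s13 (.tw (.s12 (.s13 (.c 0 (.b 63) (.b 93)))))))) (.s13 (.tw (.c 0 (.s12 (.s13 (.tw (.c 0 (.s13 (.tw (.s12 (.s13 (.c 0 (.b 14) (.c 0 (.b 136) (.b 136))))))) (.b 16))))) (.s12 (.s13 (.tw (.c 0 (.tw (.s13 (.tw (.s12 (.c 0 (.b 70) (.b 45)))))) (.s13 (.tw (.c 0 (.b 693) (.s13 (.tw (.c 0 (.b 5) (.b 26))))))))))))))),
  (.c 0 (.tw (.c 0 (.b 284) (.s13 (.tw (.s12 (.s13 (.c 0 (.b 63) (.b 93)))))))) (.s13 (.c 0 (.tw (.c 0 (.tw (.s12 (.s13 (.tw (.c 0 (.b 63) (.s13 (.tw (.s12 (.s13 (.c 0 (.b 180) (.b 12))))))))))) (.tw (.s13 (.tw (.c 0 (.b 304) (.s13 (.tw (.s12 (.s13 (.c 0 (.b 136) (.b 44)))))))))))) (.tw (.c 0 (.b 460) (.s13 (.tw (.s12 (.s13 (.c 0 (.b 136) (.b 351))))))))))),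
  (.tw (.c 0 (.tw (.c 0 (.b 416) (.s13 (.tw (.s12 (.s13 (.c 0 (.b 63) (.b 159)))))))) (.s13 (.c 0 (.tw (.c 0 (.s13 (.tw (.c 0 (.b 12) (.b 137)))) (.tw (.s13 (.tw (.c 0 (.s13 (.tw (.c 0 (.b 12) (.b 172)))) (.s13 (.tw (.s12 (.s13 (.c 0 (.b 136) (.b 44)))))))))))) (.tw (.c 0 (.b 718) (.c 0 (.b 136) (.b 136)))))))),
  (.c 0 (.tw (.c 0 (.b 13) (.s13 (.tw (.s12 (.s13 (.c 0 (.b 57) (.s13 (.tw (.s12 (.s13 (.c 0 (.b 381) (.b 478))))))))))))) (.s13 (.tw (.c 0 (.s13 (.tw (.c 0 (.b 136) (.b 462)))) (.tw (.s13 (.tw (.c 0 (.s13 (.tw (.c 0 (.b 304) (.b 44)))) (.tw (.s13 (.tw (.c 0 (.s13 (.tw (.s12 (.c 0 (.b 63) (.b 381))))) (.s13 (.tw (.s12 (.c 0 (.b 124) (.b 44))))))))))))))))),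
  (.tw (.c 0 (.tw (.c 0 (.b 416) (.s13 (.tw (.s12 (.s13 (.c 0 (.b 63) (.b 159)))))))) (.s13 (.c 0 (.tw (.c 0 (.s13 (.tw (.c 0 (.b 14) (.s13 (.tw (.s12 (.s13 (.c 0 (.b 63) (.b 536))))))))) (.tw (.s13 (.tw (.c 0 (.s13 (.tw (.c 0 (.b 136) (.s13 (.tw (.s12 (.s13 (.c 0 (.b 44) (.b 1))))))))) (.s13 (.tw (.c 0 (.b 5) (.s13 (.tw (.c 0 (.b 5) (.b 124))))))))))))) (.b 1))))),
  (.c 0 (.tw (.c 0 (.b 284) (.s13 (.tw (.s12 (.s13 (.c 0 (.b 63) (.b 93)))))))) (.s13 (.tw (.c 0 (.s12 (.s13 (.tw (.c 0 (.b 460) (.s13 (.tw (.c 0 (.b 355) (.b 26)))))))) (.s12 (.s13 (.tw (.c 0 (.s13 (.tw (.c 0 (.b 63) (.c 0 (.b 136) (.b 136))))) (.tw (.s13 (.s12 (.c 0 (.s13 (.tw (.s12 (.c 0 (.b 63) (.b 381))))) (.s13 (.tw (.c 0 (.b 63) (.b 44)))))))))))))))),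
  (.c 0 (.tw (.c 0 (.b 13) (.s13 (.tw (.s12 (.s13 (.c 0 (.b 57) (.s13 (.tw (.s12 (.s13 (.c 0 (.b 381) (.b 478))))))))))))) (.s13 (.tw (.c 0 (.s13 (.tw (.c 0 (.b 136) (.b 462)))) (.tw (.s13 (.tw (.c 0 (.tw (.s13 (.tw (.c 0 (.s13 (.tw (.s12 (.c 0 (.b 63) (.b 381))))) (.s13 (.tw (.s12 (.c 0 (.b 124) (.b 44))))))))) (.s13 (.tw (.c 0 (.b 136) (.s13 (.tw (.s12 (.s13 (.c 0 (.b 44) (.b 1))))))))))))))))),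
  (.c 0 (.tw (.c 0 (.b 13) (.s13 (.tw (.s12 (.s13 (.c 0 (.b 13) (.c 0 (.b 136) (.s13 (.tw (.s12 (.s13 (.c 0 (.b 13) (.b 138)))))))))))))) (.s13 (.tw (.c 0 (.s13 (.tw (.c 0 (.b 14) (.s13 (.tw (.s12 (.s13 (.c 0 (.b 136) (.b 536))))))))) (.tw (.s13 (.tw (.c 0 (.s13 (.tw (.c 0 (.b 136) (.b 536)))) (.tw (.s12 (.s13 (.tw (.c 0 (.b 208) (.s13 (.tw (.c 0 (.b 5) (.b 381))))))))))))))))),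
  (.c 0 (.tw (.c 0 (.b 284) (.s13 (.tw (.s12 (.s13 (.c 0 (.b 63) (.b 93)))))))) (.s13 (.c 0 (.tw (.c 0 (.tw (.s12 (.s13 (.tw (.c 0 (.b 63) (.s13 (.tw (.s12 (.s13 (.c 0 (.b 180) (.b 12))))))))))) (.tw (.s13 (.tw (.c 0 (.b 304) (.s13 (.tw (.s12 (.s13 (.c 0 (.b 136) (.b 44)))))))))))) (.tw (.c 0 (.b 718) (.c 0 (.b 136) (.b 136))))))),
  (.tw (.c 0 (.tw (.c 0 (.b 416) (.s13 (.tw (.s12 (.s13 (.c 0 (.b 63) (.b 159)))))))) (.s13 (.c 0 (.tw (.c 0 (.s13 (.tw (.c 0 (.b 12) (.b 137)))) (.tw (.s13 (.tw (.c 0 (.s13 (.tw (.c 0 (.b 12) (.b 172)))) (.s13 (.tw (.s12 (.s13 (.c 0 (.b 136) (.b 44)))))))))))) (.tw (.c 0 (.b 460) (.s13 (.tw (.s12 (.s13 (.c 0 (.b 136) (.b 351)))))))))))),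
  (.c 0 (.tw (.c 0 (.b 13) (.s13 (.tw (.s12 (.s13 (.c 0 (.b 57) (.s13 (.tw (.s12 (.s13 (.c 0 (.b 381) (.b 478))))))))))))) (.s13 (.tw (.c 0 (.s13 (.tw (.c 0 (.b 136) (.b 236)))) (.tw (.s13 (.tw (.c 0 (.s13 (.tw (.c 0 (.b 304) (.b 44)))) (.tw (.s13 (.tw (.c 0 (.s13 (.tw (.s12 (.c 0 (.b 63) (.b 381))))) (.s13 (.tw (.s12 (.c 0 (.b 124) (.b 44))))))))))))))))),
  (.c 0 (.tw (.c 0 (.b 284) (.s13 (.tw (.s12 (.s13 (.c 0 (.b 63) (.b 93)))))))) (.s13 (.tw (.c 0 (.s13 (.tw (.s13 (.c 0 (.b 70) (.b 354))))) (.s12 (.s13 (.tw (.c 0 (.s13 (.tw (.s12 (.c 0 (.b 136) (.s13 (.tw (.s12 (.s13 (.c 0 (.b 44) (.b 1)))))))))) (.tw (.s13 (.s12 (.c 0 (.s13 (.tw (.s12 (.c 0 (.b 381) (.b 381))))) (.s13 (.tw (.c 0 (.b 63) (.b 44)))))))))))))))),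
  (.tw (.c 0 (.tw (.c 0 (.b 416) (.s13 (.tw (.s12 (.s13 (.c 0 (.b 63) (.b 159)))))))) (.s13 (.c 0 (.tw (.c 0 (.s13 (.tw (.c 0 (.b 136) (.b 236)))) (.tw (.s13 (.tw (.c 0 (.s13 (.tw (.c 0 (.b 136) (.b 44)))) (.tw (.s12 (.s13 (.tw (.c 0 (.s13 (.tw (.c 0 (.b 44) (.b 12)))) (.s13 (.tw (.s12 (.c 0 (.b 5) (.b 124)))))))))))))))) (.b 1))))),
  (.c 0 (.tw (.c 0 (.b 284) (.s13 (.tw (.s12 (.s13 (.c 0 (.b 63) (.b 93)))))))) (.s13 (.tw (.c 0 (.s12 (.s13 (.tw (.c 0 (.b 136) (.s13 (.tw (.s12 (.s13 (.c 0 (.b 13) (.b 337)))))))))) (.s12 (.s13 (.tw (.c 0 (.s13 (.tw (.s12 (.c 0 (.b 693) (.tw (.s12 (.s13 (.tw (.c 0 (.b 320) (.b 5)))))))))) (.s13 (.tw (.c 0 (.b 136) (.b 44)))))))))))),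
  (.c 0 (.tw (.c 0 (.b 13) (.s13 (.tw (.s12 (.s13 (.c 0 (.b 57) (.s13 (.tw (.s12 (.s13 (.c 0 (.b 381) (.b 478))))))))))))) (.s13 (.tw (.c 0 (.s13 (.tw (.c 0 (.b 136) (.b 236)))) (.tw (.s13 (.tw (.c 0 (.tw (.s13 (.tw (.c 0 (.s13 (.tw (.s12 (.c 0 (.b 63) (.b 381))))) (.s13 (.tw (.s12 (.c 0 (.b 124) (.b 44))))))))) (.s13 (.tw (.c 0 (.b 136) (.s13 (.tw (.s12 (.s13 (.c 0 (.b 44) (.b 1))))))))))))))))),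
  (.tw (.c 0 (.tw (.c 0 (.b 567) (.s13 (.tw (.s12 (.s13 (.c 0 (.b 13) (.c 0 (.b 1) (.b 21))))))))) (.s13 (.tw (.c 0 (.s13 (.tw (.c 0 (.b 14) (.s13 (.tw (.s12 (.s13 (.c 0 (.b 136) (.b 536))))))))) (.tw (.s13 (.tw (.c 0 (.s13 (.tw (.c 0 (.b 5) (.s13 (.tw (.c 0 (.b 124) (.b 200))))))) (.s13 (.tw (.c 0 (.b 136) (.s13 (.tw (.s12 (.s13 (.c 0 (.b 44) (.b 1)))))))))))))))))),
  (.tw (.c 0 (.tw (.c 0 (.b 416) (.s13 (.tw (.s12 (.s13 (.c 0 (.b 63) (.b 159)))))))) (.s13 (.c 0 (.tw (.c 0 (.s13 (.tw (.c 0 (.b 136) (.s13 (.tw (.s12 (.s13 (.c 0 (.b 63) (.b 369))))))))) (.tw (.s13 (.tw (.c 0 (.s13 (.tw (.c 0 (.b 136) (.b 44)))) (.s12 (.s13 (.tw (.c 0 (.s13 (.tw (.s12 (.c 0 (.b 14) (.b 239))))) (.s13 (.tw (.c 0 (.b 63) (.b 44)))))))))))))) (.b 1))))),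
  (.c 0 (.tw (.c 0 (.b 19) (.s13 (.tw (.s12 (.s13 (.c 0 (.b 567) (.b 21)))))))) (.s13 (.tw (.c 0 (.s13 (.tw (.c 0 (.b 14) (.s13 (.tw (.s12 (.s13 (.c 0 (.b 136) (.b 351))))))))) (.tw (.s13 (.tw (.c 0 (.s13 (.tw (.c 0 (.b 136) (.s13 (.tw (.s12 (.s13 (.c 0 (.b 44) (.b 1))))))))) (.tw (.s13 (.tw (.c 0 (.s13 (.tw (.s12 (.c 0 (.b 63) (.b 381))))) (.s13 (.tw (.c 0 (.b 63) (.b 44)))))))))))))))),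
  (.c 0 (.tw (.c 0 (.b 284) (.s13 (.tw (.s12 (.s13 (.c 0 (.b 63) (.b 93)))))))) (.s13 (.c 0 (.tw (.c 0 (.s13 (.tw (.c 0 (.b 14) (.s13 (.tw (.s12 (.s13 (.c 0 (.b 136) (.b 351))))))))) (.tw (.s13 (.tw (.c 0 (.s13 (.tw (.c 0 (.b 136) (.s13 (.tw (.s12 (.s13 (.c 0 (.b 44) (.b 1))))))))) (.tw (.s13 (.tw (.c 0 (.s13 (.tw (.s12 (.c 0 (.b 63) (.b 381))))) (.s13 (.tw (.c 0 (.b 63) (.b 44)))))))))))))) (.b 1)))),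
  (.c 0 (.tw (.c 0 (.b 13) (.s13 (.tw (.s12 (.s13 (.c 0 (.b 57) (.s13 (.tw (.s12 (.s13 (.c 0 (.b 381) (.b 478))))))))))))) (.s13 (.tw (.c 0 (.s13 (.tw (.c 0 (.b 14) (.s13 (.tw (.s12 (.s13 (.c 0 (.b 136) (.b 351))))))))) (.tw (.s13 (.tw (.c 0 (.s13 (.tw (.c 0 (.b 136) (.s13 (.tw (.s12 (.s13 (.c 0 (.b 44) (.b 1))))))))) (.tw (.s13 (.tw (.c 0 (.s13 (.tw (.s12 (.c 0 (.b 63) (.b 381))))) (.s13 (.tw (.c 0 (.b 63) (.b 44)))))))))))))))),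
  (.tw (.c 0 (.tw (.c 0 (.b 416) (.s13 (.tw (.s12 (.s13 (.c 0 (.b 63) (.b 159)))))))) (.s13 (.c 0 (.tw (.c 0 (.s13 (.tw (.c 0 (.b 136) (.s13 (.tw (.s12 (.s13 (.c 0 (.b 14) (.b 239))))))))) (.tw (.s13 (.tw (.c 0 (.s13 (.tw (.c 0 (.b 136) (.b 44)))) (.s13 (.tw (.c 0 (.b 73) (.s13 (.tw (.c 0 (.b 5) (.b 124))))))))))))) (.b 1))))),
  (.c 0 (.tw (.c 0 (.b 284) (.s13 (.tw (.s12 (.s13 (.c 0 (.b 63) (.b 93)))))))) (.s13 (.tw (.c 0 (.tw (.c 0 (.tw (.s13 (.tw (.c 0 (.b 136) (.b 478))))) (.b 12))) (.s12 (.s13 (.tw (.c 0 (.s13 (.tw (.s12 (.c 0 (.b 136) (.s13 (.tw (.s12 (.s13 (.c 0 (.b 44) (.b 1)))))))))) (.tw (.s13 (.s12 (.c 0 (.s13 (.tw (.s12 (.c 0 (.b 381) (.b 381))))) (.s13 (.tw (.c 0 (.b 63) (.b 44)))))))))))))))),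
  (.tw (.c 0 (.tw (.c 0 (.b 567) (.s13 (.tw (.s12 (.s13 (.c 0 (.b 13) (.c 0 (.b 1) (.b 21))))))))) (.s13 (.tw (.c 0 (.tw (.s13 (.c 0 (.b 70) (.b 45)))) (.tw (.s13 (.tw (.c 0 (.s12 (.s13 (.tw (.c 0 (.s13 (.tw (.s12 (.c 0 (.b 239) (.b 1))))) (.s13 (.tw (.c 0 (.b 58) (.b 44)))))))) (.s13 (.tw (.c 0 (.b 136) (.b 44))))))))))))),
  (.c 0 (.tw (.c 0 (.b 416) (.s13 (.tw (.s12 (.s13 (.c 0 (.b 63) (.b 159)))))))) (.s13 (.c 0 (.tw (.c 0 (.s13 (.tw (.c 0 (.b 136) (.s13 (.tw (.s12 (.s13 (.c 0 (.b 14) (.b 239))))))))) (.tw (.s13 (.tw (.c 0 (.s13 (.tw (.c 0 (.b 136) (.b 44)))) (.tw (.s13 (.tw (.c 0 (.s13 (.tw (.s12 (.c 0 (.b 63) (.b 381))))) (.s13 (.tw (.c 0 (.b 63) (.b 44)))))))))))))) (.b 1)))),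
  (.c 0 (.tw (.c 0 (.b 19) (.s13 (.tw (.s12 (.s13 (.c 0 (.b 567) (.b 21)))))))) (.s13 (.tw (.c 0 (.s13 (.tw (.c 0 (.b 136) (.s13 (.tw (.s12 (.s13 (.c 0 (.b 14) (.b 239))))))))) (.tw (.s13 (.tw (.c 0 (.s13 (.tw (.c 0 (.b 136) (.b 44)))) (.tw (.s13 (.tw (.c 0 (.s13 (.tw (.s12 (.c 0 (.b 63) (.b 381))))) (.s13 (.tw (.c 0 (.b 63) (.b 44)))))))))))))))),
  (.c 0 (.tw (.c 0 (.b 284) (.s13 (.tw (.s12 (.s13 (.c 0 (.b 63) (.b 93)))))))) (.s13 (.c 0 (.tw (.c 0 (.s13 (.tw (.c 0 (.b 136) (.s13 (.tw (.s12 (.s13 (.c 0 (.b 14) (.b 239))))))))) (.tw (.s13 (.tw (.c 0 (.s13 (.tw (.c 0 (.b 136) (.b 44)))) (.tw (.s13 (.tw (.c 0 (.s13 (.tw (.s12 (.c 0 (.b 63) (.b 381))))) (.s13 (.tw (.c 0 (.b 63) (.b 44)))))))))))))) (.b 1)))),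
  (.c 0 (.tw (.c 0 (.b 13) (.s13 (.tw (.s12 (.s13 (.c 0 (.b 57) (.s13 (.tw (.s12 (.s13 (.c 0 (.b 381) (.b 478))))))))))))) (.s13 (.tw (.c 0 (.s13 (.tw (.c 0 (.b 136) (.s13 (.tw (.s12 (.s13 (.c 0 (.b 14) (.b 239))))))))) (.tw (.s13 (.tw (.c 0 (.s13 (.tw (.c 0 (.b 136) (.b 44)))) (.tw (.s13 (.tw (.c 0 (.s13 (.tw (.s12 (.c 0 (.b 63) (.b 381))))) (.s13 (.tw (.c 0 (.b 63) (.b 44)))))))))))))))),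
  (.c 0 (.tw (.c 0 (.tw (.s13 (.tw (.c 0 (.b 478) (.b 16))))) (.b 111))) (.s13 (.tw (.c 0 (.s12 (.s13 (.tw (.c 0 (.s13 (.tw (.s12 (.s13 (.c 0 (.b 14) (.c 0 (.b 136) (.b 136))))))) (.b 16))))) (.s12 (.s13 (.c 0 (.s12 (.s13 (.tw (.s12 (.c 0 (.b 304) (.s13 (.tw (.s12 (.s13 (.c 0 (.b 136) (.b 44))))))))))) (.s13 (.tw (.s13 (.c 0 (.b 70) (.b 45)))))))))))),
  (.c 0 (.tw (.c 0 (.b 416) (.s13 (.tw (.s12 (.s13 (.c 0 (.b 63) (.b 159)))))))) (.s13 (.tw (.c 0 (.s12 (.s13 (.tw (.c 0 (.s13 (.tw (.s12 (.s13 (.c 0 (.b 14) (.c 0 (.b 136) (.b 136))))))) (.b 16))))) (.s12 (.s13 (.c 0 (.s12 (.s13 (.tw (.s12 (.c 0 (.b 304) (.s13 (.tw (.s12 (.s13 (.c 0 (.b 136) (.b 44))))))))))) (.s13 (.tw (.s13 (.c 0 (.b 70) (.b 45)))))))))))),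
  (.c 0 (.tw (.c 0 (.b 284) (.s13 (.tw (.s12 (.s13 (.c 0 (.b 63) (.b 93)))))))) (.s13 (.tw (.c 0 (.s12 (.s13 (.tw (.c 0 (.s13 (.tw (.s12 (.s13 (.c 0 (.b 14) (.c 0 (.b 136) (.b 136))))))) (.b 16))))) (.s12 (.s13 (.c 0 (.s12 (.s13 (.tw (.s12 (.c 0 (.b 304) (.s13 (.tw (.s12 (.s13 (.c 0 (.b 136) (.b 44))))))))))) (.s13 (.tw (.s13 (.c 0 (.b 70) (.b 45)))))))))))),
  (.c 0 (.tw (.c 0 (.b 14) (.s13 (.tw (.s12 (.s13 (.c 0 (.b 14) (.c 0 (.b 304) (.s13 (.tw (.s12 (.s13 (.c 0 (.b 63) (.b 369)))))))))))))) (.s13 (.tw (.c 0 (.s12 (.s13 (.tw (.c 0 (.b 284) (.b 147))))) (.tw (.s12 (.s13 (.tw (.c 0 (.s13 (.tw (.c 0 (.b 136) (.b 236)))) (.s13 (.tw (.c 0 (.b 73) (.s13 (.tw (.c 0 (.b 5) (.b 5)))))))))))))))),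
  (.c 0 (.tw (.c 0 (.b 14) (.s13 (.tw (.s12 (.s13 (.c 0 (.b 14) (.c 0 (.b 304) (.s13 (.tw (.s12 (.s13 (.c 0 (.b 63) (.b 369)))))))))))))) (.s13 (.tw (.c 0 (.s12 (.s13 (.tw (.c 0 (.b 136) (.s13 (.tw (.s13 (.c 0 (.b 14) (.b 405))))))))) (.tw (.s12 (.s13 (.tw (.c 0 (.s13 (.tw (.c 0 (.b 136) (.b 44)))) (.s13 (.tw (.c 0 (.b 5) (.s13 (.tw (.c 0 (.b 82) (.b 63)))))))))))))))),
  (.c 0 (.tw (.c 0 (.b 284) (.s13 (.tw (.s12 (.s13 (.c 0 (.b 63) (.b 93)))))))) (.s13 (.tw (.c 0 (.s12 (.s13 (.tw (.c 0 (.b 304) (.s13 (.tw (.s12 (.s13 (.c 0 (.b 13) (.b 546)))))))))) (.tw (.s12 (.s13 (.tw (.c 0 (.s13 (.tw (.c 0 (.b 304) (.b 44)))) (.s13 (.tw (.c 0 (.s13 (.tw (.c 0 (.b 124) (.b 247)))) (.b 5))))))))))))),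
  (.tw (.s13 (.c 0 (.tw (.c 0 (.b 279) (.s13 (.tw (.s12 (.s13 (.c 0 (.b 63) (.b 138)))))))) (.s13 (.c 0 (.tw (.c 0 (.s13 (.tw (.c 0 (.b 136) (.b 236)))) (.tw (.s12 (.s13 (.tw (.c 0 (.s13 (.tw (.c 0 (.b 136) (.s13 (.tw (.s12 (.s13 (.c 0 (.b 44) (.b 1))))))))) (.s13 (.tw (.c 0 (.b 345) (.s13 (.tw (.c 0 (.b 5) (.b 5)))))))))))))) (.b 1)))))),
  (.c 0 (.tw (.c 0 (.b 284) (.s13 (.tw (.s12 (.s13 (.c 0 (.b 63) (.b 93)))))))) (.s13 (.tw (.c 0 (.tw (.c 0 (.b 136) (.b 536))) (.s12 (.s13 (.c 0 (.s12 (.s13 (.tw (.s12 (.c 0 (.b 304) (.s13 (.tw (.s12 (.s13 (.c 0 (.b 136) (.b 44))))))))))) (.tw (.c 0 (.b 14) (.s13 (.tw (.s12 (.s13 (.c 0 (.b 14) (.c 0 (.b 136) (.b 247)))))))))))))))),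
  (.c 0 (.tw (.c 0 (.b 13) (.s13 (.tw (.s12 (.s13 (.c 0 (.b 57) (.s13 (.tw (.s12 (.s13 (.c 0 (.b 381) (.b 478))))))))))))) (.s13 (.tw (.c 0 (.s13 (.tw (.c 0 (.b 14) (.s13 (.tw (.s12 (.s13 (.c 0 (.b 63) (.b 536))))))))) (.s13 (.tw (.c 0 (.tw (.s13 (.s12 (.c 0 (.s13 (.tw (.s12 (.c 0 (.b 63) (.b 381))))) (.s13 (.tw (.s12 (.c 0 (.b 124) (.b 44))))))))) (.s13 (.tw (.c 0 (.b 136) (.b 44))))))))))),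
  (.tw (.s13 (.c 0 (.tw (.c 0 (.b 279) (.s13 (.tw (.s12 (.s13 (.c 0 (.b 63) (.b 138)))))))) (.s13 (.c 0 (.tw (.c 0 (.s13 (.tw (.c 0 (.b 44) (.b 185)))) (.tw (.s13 (.tw (.c 0 (.s13 (.tw (.c 0 (.b 136) (.b 44)))) (.tw (.s13 (.tw (.c 0 (.s13 (.tw (.s12 (.c 0 (.b 63) (.b 381))))) (.s13 (.tw (.c 0 (.b 63) (.b 44)))))))))))))) (.b 1)))))),
  (.c 0 (.tw (.c 0 (.b 284) (.s13 (.tw (.s12 (.s13 (.c 0 (.b 63) (.b 93)))))))) (.s13 (.tw (.c 0 (.s12 (.s13 (.tw (.c 0 (.b 460) (.s13 (.tw (.s12 (.s13 (.c 0 (.b 344) (.b 16)))))))))) (.s12 (.s13 (.tw (.c 0 (.s13 (.tw (.c 0 (.b 63) (.c 0 (.b 136) (.b 136))))) (.tw (.s13 (.s12 (.c 0 (.s13 (.tw (.s12 (.c 0 (.b 63) (.b 381))))) (.s13 (.tw (.c 0 (.b 63) (.b 44)))))))))))))))),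
  (.tw (.s13 (.c 0 (.tw (.c 0 (.b 279) (.s13 (.tw (.s12 (.s13 (.c 0 (.b 63) (.b 138)))))))) (.s13 (.c 0 (.tw (.c 0 (.s13 (.tw (.c 0 (.b 14) (.s13 (.tw (.s12 (.s13 (.c 0 (.b 136) (.b 598))))))))) (.tw (.s13 (.tw (.c 0 (.s13 (.tw (.c 0 (.b 136) (.b 44)))) (.tw (.s13 (.tw (.c 0 (.s13 (.tw (.s12 (.c 0 (.b 63) (.b 381))))) (.s13 (.tw (.c 0 (.b 63) (.b 44)))))))))))))) (.b 1)))))),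
  (.c 0 (.tw (.c 0 (.b 416) (.s13 (.tw (.s12 (.s13 (.c 0 (.b 63) (.b 159)))))))) (.s13 (.c 0 (.tw (.c 0 (.s13 (.tw (.c 0 (.b 136) (.s13 (.tw (.s12 (.s13 (.c 0 (.b 63) (.b 369))))))))) (.tw (.s13 (.tw (.c 0 (.s13 (.tw (.c 0 (.b 136) (.b 44)))) (.s12 (.s13 (.tw (.c 0 (.s13 (.tw (.s12 (.c 0 (.b 14) (.b 239))))) (.s13 (.tw (.c 0 (.b 63) (.b 44)))))))))))))) (.b 1)))),
  (.c 0 (.tw (.c 0 (.b 19) (.s13 (.tw (.s12 (.s13 (.c 0 (.b 567) (.b 21)))))))) (.s13 (.tw (.c 0 (.s13 (.tw (.c 0 (.b 136) (.s13 (.tw (.s12 (.s13 (.c 0 (.b 63) (.b 369))))))))) (.tw (.s13 (.tw (.c 0 (.s13 (.tw (.c 0 (.b 136) (.b 44)))) (.s12 (.s13 (.tw (.c 0 (.s13 (.tw (.s12 (.c 0 (.b 14) (.b 239))))) (.s13 (.tw (.c 0 (.b 63) (.b 44)))))))))))))))),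
  (.c 0 (.tw (.c 0 (.b 284) (.s13 (.tw (.s12 (.s13 (.c 0 (.b 63) (.b 93)))))))) (.s13 (.c 0 (.tw (.c 0 (.s13 (.tw (.c 0 (.b 136) (.s13 (.tw (.s12 (.s13 (.c 0 (.b 63) (.b 369))))))))) (.tw (.s13 (.tw (.c 0 (.s13 (.tw (.c 0 (.b 136) (.b 44)))) (.s12 (.s13 (.tw (.c 0 (.s13 (.tw (.s12 (.c 0 (.b 14) (.b 239))))) (.s13 (.tw (.c 0 (.b 63) (.b 44)))))))))))))) (.b 1)))),
  (.c 0 (.tw (.c 0 (.b 13) (.s13 (.tw (.s12 (.s13 (.c 0 (.b 57) (.s13 (.tw (.s12 (.s13 (.c 0 (.b 381) (.b 478))))))))))))) (.s13 (.tw (.c 0 (.s13 (.tw (.c 0 (.b 136) (.s13 (.tw (.s12 (.s13 (.c 0 (.b 63) (.b 369))))))))) (.tw (.s13 (.tw (.c 0 (.s13 (.tw (.c 0 (.b 136) (.b 44)))) (.s12 (.s13 (.tw (.c 0 (.s13 (.tw (.s12 (.c 0 (.b 14) (.b 239))))) (.s13 (.tw (.c 0 (.b 63) (.b 44)))))))))))))))),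
  (.c 0 (.tw (.c 0 (.tw (.s13 (.tw (.c 0 (.b 478) (.b 16))))) (.b 111))) (.s13 (.tw (.c 0 (.s12 (.s13 (.tw (.c 0 (.s13 (.tw (.s12 (.s13 (.c 0 (.b 14) (.c 0 (.b 136) (.b 136))))))) (.b 16))))) (.s12 (.s13 (.tw (.c 0 (.s13 (.tw (.c 0 (.b 63) (.c 0 (.b 136) (.b 136))))) (.tw (.s13 (.s12 (.c 0 (.s13 (.tw (.s12 (.c 0 (.b 63) (.b 381))))) (.s13 (.tw (.c 0 (.b 63) (.b 44)))))))))))))))),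
  (.c 0 (.tw (.c 0 (.b 416) (.s13 (.tw (.s12 (.s13 (.c 0 (.b 63) (.b 159)))))))) (.s13 (.tw (.c 0 (.s12 (.s13 (.tw (.c 0 (.s13 (.tw (.s12 (.s13 (.c 0 (.b 14) (.c 0 (.b 136) (.b 136))))))) (.b 16))))) (.s12 (.s13 (.tw (.c 0 (.s13 (.tw (.c 0 (.b 63) (.c 0 (.b 136) (.b 136))))) (.tw (.s13 (.s12 (.c 0 (.s13 (.tw (.s12 (.c 0 (.b 63) (.b 381))))) (.s13 (.tw (.c 0 (.b 63) (.b 44)))))))))))))))),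
  (.c 0 (.tw (.c 0 (.b 284) (.s13 (.tw (.s12 (.s13 (.c 0 (.b 63) (.b 93)))))))) (.s13 (.tw (.c 0 (.s12 (.s13 (.tw (.c 0 (.s13 (.tw (.s12 (.s13 (.c 0 (.b 14) (.c 0 (.b 136) (.b 136))))))) (.b 16))))) (.s12 (.s13 (.tw (.c 0 (.s13 (.tw (.c 0 (.b 63) (.c 0 (.b 136) (.b 136))))) (.tw (.s13 (.s12 (.c 0 (.s13 (.tw (.s12 (.c 0 (.b 63) (.b 381))))) (.s13 (.tw (.c 0 (.b 63) (.b 44)))))))))))))))),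
  (.tw (.s13 (.c 0 (.s12 (.s13 (.tw (.s12 (.c 0 (.s13 (.tw (.c 0 (.b 478) (.b 16)))) (.s13 (.tw (.s12 (.s13 (.c 0 (.b 63) (.b 159))))))))))) (.s13 (.tw (.s12 (.c 0 (.s13 (.tw (.c 0 (.b 136) (.s13 (.tw (.s12 (.s13 (.c 0 (.b 14) (.b 239))))))))) (.s12 (.s13 (.tw (.c 0 (.s13 (.tw (.c 0 (.b 136) (.b 44)))) (.s13 (.tw (.s13 (.s12 (.c 0 (.b 140) (.s13 (.tw (.s13 (.c 0 (.b 5) (.b 143))))))))))))))))))))),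
  (.c 0 (.tw (.c 0 (.b 416) (.s13 (.tw (.s12 (.s13 (.c 0 (.b 63) (.b 159)))))))) (.s13 (.c 0 (.tw (.c 0 (.s13 (.tw (.c 0 (.b 58) (.s13 (.tw (.s12 (.s13 (.c 0 (.b 14) (.c 0 (.b 136) (.b 136)))))))))) (.tw (.s13 (.tw (.c 0 (.s13 (.tw (.c 0 (.b 136) (.b 351)))) (.s13 (.tw (.c 0 (.b 5) (.s13 (.tw (.c 0 (.b 384) (.b 5))))))))))))) (.b 1)))),
  (.c 0 (.tw (.c 0 (.b 284) (.s13 (.tw (.s12 (.s13 (.c 0 (.b 63) (.b 93)))))))) (.s13 (.tw (.c 0 (.s12 (.s13 (.tw (.c 0 (.b 57) (.s13 (.tw (.s12 (.s13 (.c 0 (.b 14) (.c 0 (.b 136) (.b 136))))))))))) (.s12 (.s13 (.tw (.c 0 (.s13 (.tw (.s12 (.c 0 (.b 304) (.b 44))))) (.s13 (.tw (.c 0 (.b 5) (.tw (.s13 (.tw (.c 0 (.b 82) (.b 284)))))))))))))))),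
  (.c 0 (.tw (.c 0 (.b 284) (.s13 (.tw (.s12 (.s13 (.c 0 (.b 63) (.b 93)))))))) (.s13 (.c 0 (.tw (.c 0 (.s13 (.tw (.c 0 (.b 58) (.s13 (.tw (.s12 (.s13 (.c 0 (.b 14) (.c 0 (.b 136) (.b 136)))))))))) (.tw (.s13 (.tw (.c 0 (.s13 (.tw (.c 0 (.b 136) (.b 351)))) (.s13 (.tw (.c 0 (.b 5) (.s13 (.tw (.c 0 (.b 384) (.b 5))))))))))))) (.b 1)))),
  (.c 0 (.tw (.c 0 (.tw (.s13 (.tw (.c 0 (.b 478) (.b 16))))) (.b 111))) (.s13 (.tw (.c 0 (.s13 (.tw (.c 0 (.b 136) (.s13 (.tw (.s12 (.s13 (.c 0 (.b 63) (.b 207))))))))) (.tw (.s13 (.tw (.c 0 (.s13 (.tw (.c 0 (.b 136) (.b 44)))) (.tw (.s13 (.tw (.c 0 (.s13 (.tw (.s12 (.c 0 (.b 63) (.b 381))))) (.s13 (.tw (.c 0 (.b 63) (.b 44)))))))))))))))),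
  (.c 0 (.tw (.c 0 (.b 416) (.s13 (.tw (.s12 (.s13 (.c 0 (.b 63) (.b 159)))))))) (.s13 (.tw (.c 0 (.s13 (.tw (.c 0 (.b 136) (.s13 (.tw (.s12 (.s13 (.c 0 (.b 63) (.b 207))))))))) (.tw (.s13 (.tw (.c 0 (.s13 (.tw (.c 0 (.b 136) (.b 44)))) (.tw (.s13 (.tw (.c 0 (.s13 (.tw (.s12 (.c 0 (.b 63) (.b 381))))) (.s13 (.tw (.c 0 (.b 63) (.b 44)))))))))))))))),
  (.c 0 (.tw (.c 0 (.b 284) (.s13 (.tw (.s12 (.s13 (.c 0 (.b 63) (.b 93)))))))) (.s13 (.tw (.c 0 (.s13 (.tw (.c 0 (.b 136) (.s13 (.tw (.s12 (.s13 (.c 0 (.b 63) (.b 207))))))))) (.tw (.s13 (.tw (.c 0 (.s13 (.tw (.c 0 (.b 136) (.b 44)))) (.tw (.s13 (.tw (.c 0 (.s13 (.tw (.s12 (.c 0 (.b 63) (.b 381))))) (.s13 (.tw (.c 0 (.b 63) (.b 44)))))))))))))))),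
  (.c 0 (.tw (.c 0 (.b 13) (.s13 (.tw (.s12 (.s13 (.c 0 (.b 13) (.c 0 (.b 136) (.s13 (.tw (.s12 (.s13 (.c 0 (.b 13) (.b 138)))))))))))))) (.s13 (.tw (.c 0 (.s13 (.tw (.c 0 (.b 58) (.s13 (.tw (.s12 (.s13 (.c 0 (.b 14) (.c 0 (.b 136) (.b 136)))))))))) (.tw (.s13 (.tw (.c 0 (.s13 (.tw (.c 0 (.b 5) (.s13 (.tw (.c 0 (.b 13) (.b 272))))))) (.s13 (.tw (.c 0 (.b 381) (.b 44)))))))))))),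
  (.c 0 (.tw (.c 0 (.b 13) (.s13 (.tw (.s12 (.s13 (.c 0 (.b 13) (.c 0 (.b 136) (.s13 (.tw (.s12 (.s13 (.c 0 (.b 13) (.b 138)))))))))))))) (.s13 (.tw (.c 0 (.s13 (.tw (.c 0 (.b 58) (.s13 (.tw (.s12 (.s13 (.c 0 (.b 14) (.c 0 (.b 136) (.b 136)))))))))) (.tw (.s13 (.tw (.c 0 (.s13 (.tw (.s12 (.c 0 (.b 381) (.b 136))))) (.s13 (.tw (.c 0 (.b 5) (.s13 (.tw (.c 0 (.b 384) (.b 5))))))))))))))),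
  (.c 0 (.tw (.c 0 (.b 14) (.s13 (.tw (.s12 (.s13 (.c 0 (.b 14) (.c 0 (.b 304) (.s13 (.tw (.s12 (.s13 (.c 0 (.b 63) (.b 369)))))))))))))) (.s13 (.tw (.c 0 (.s13 (.tw (.c 0 (.b 164) (.s13 (.tw (.s12 (.s13 (.c 0 (.b 63) (.b 44))))))))) (.tw (.s13 (.tw (.c 0 (.s13 (.tw (.c 0 (.b 136) (.b 44)))) (.tw (.s12 (.s13 (.tw (.c 0 (.s13 (.tw (.c 0 (.b 5) (.b 26)))) (.b 124)))))))))))))),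
  (.tw (.s13 (.c 0 (.s12 (.s13 (.tw (.s12 (.c 0 (.tw (.s13 (.tw (.s12 (.c 0 (.b 13) (.b 207)))))) (.b 111)))))) (.s13 (.tw (.s12 (.c 0 (.s13 (.tw (.c 0 (.b 136) (.s13 (.tw (.s12 (.s13 (.c 0 (.b 63) (.b 369))))))))) (.s12 (.s13 (.tw (.c 0 (.s13 (.tw (.s12 (.c 0 (.b 284) (.c 0 (.b 136) (.b 136)))))) (.s13 (.tw (.s13 (.s12 (.c 0 (.b 19) (.s12 (.s13 (.tw (.s13 (.c 0 (.b 42) (.tw (.c 0 (.b 136) (.b 136)))))))))))))))))))))))),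
  (.tw (.s13 (.c 0 (.s12 (.s13 (.tw (.s12 (.c 0 (.tw (.s13 (.tw (.s12 (.c 0 (.b 13) (.b 207)))))) (.b 111)))))) (.s13 (.tw (.s12 (.c 0 (.s13 (.tw (.c 0 (.b 136) (.s13 (.tw (.s12 (.s13 (.c 0 (.b 63) (.b 369))))))))) (.tw (.s12 (.s13 (.tw (.c 0 (.s13 (.tw (.c 0 (.b 13) (.b 546)))) (.s13 (.tw (.c 0 (.tw (.c 0 (.b 136) (.b 136))) (.s13 (.c 0 (.b 42) (.tw (.c 0 (.b 136) (.b 136)))))))))))))))))))),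
  (.c 0 (.tw (.c 0 (.b 416) (.s13 (.tw (.s12 (.s13 (.c 0 (.b 63) (.b 159)))))))) (.s13 (.tw (.c 0 (.s13 (.tw (.c 0 (.b 14) (.s13 (.tw (.s12 (.s13 (.c 0 (.b 136) (.s13 (.tw (.s12 (.s13 (.c 0 (.b 24) (.b 136)))))))))))))) (.tw (.s12 (.s13 (.tw (.c 0 (.tw (.s12 (.c 0 (.b 136) (.b 462)))) (.s13 (.tw (.c 0 (.b 5) (.c 0 (.b 5) (.b 26)))))))))))))),
  (.c 0 (.s12 (.s13 (.tw (.s12 (.c 0 (.s13 (.tw (.s13 (.c 0 (.tw (.s12 (.c 0 (.b 14) (.s13 (.tw (.s13 (.s12 (.c 0 (.b 381) (.b 381))))))))) (.b 12))))) (.b 12)))))) (.tw (.s12 (.c 0 (.s13 (.tw (.c 0 (.b 567) (.tw (.s12 (.s13 (.tw (.c 0 (.b 63) (.b 381))))))))) (.s13 (.tw (.c 0 (.s13 (.tw (.c 0 (.b 136) (.b 44)))) (.s13 (.tw (.s13 (.c 0 (.b 5) (.s13 (.tw (.s13 (.c 0 (.b 5) (.b 465)))))))))))))))),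
  (.c 0 (.tw (.c 0 (.tw (.s13 (.tw (.c 0 (.b 478) (.b 16))))) (.b 111))) (.s13 (.tw (.c 0 (.s13 (.tw (.c 0 (.b 462) (.tw (.s12 (.s13 (.tw (.c 0 (.b 381) (.b 381))))))))) (.tw (.s13 (.tw (.c 0 (.s13 (.tw (.c 0 (.b 136) (.b 351)))) (.s13 (.tw (.c 0 (.b 5) (.s13 (.tw (.c 0 (.b 384) (.b 5))))))))))))))),
  (.c 0 (.tw (.c 0 (.b 416) (.s13 (.tw (.s12 (.s13 (.c 0 (.b 63) (.b 159)))))))) (.s13 (.tw (.c 0 (.s13 (.tw (.c 0 (.b 462) (.tw (.s12 (.s13 (.tw (.c 0 (.b 381) (.b 381))))))))) (.tw (.s13 (.tw (.c 0 (.s13 (.tw (.c 0 (.b 136) (.b 351)))) (.s13 (.tw (.c 0 (.b 5) (.s13 (.tw (.c 0 (.b 384) (.b 5))))))))))))))),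
  (.c 0 (.tw (.c 0 (.b 284) (.s13 (.tw (.s12 (.s13 (.c 0 (.b 63) (.b 93)))))))) (.s13 (.tw (.c 0 (.s13 (.tw (.c 0 (.b 462) (.tw (.s12 (.s13 (.tw (.c 0 (.b 381) (.b 381))))))))) (.tw (.s13 (.tw (.c 0 (.s13 (.tw (.c 0 (.b 136) (.b 351)))) (.s13 (.tw (.c 0 (.b 5) (.s13 (.tw (.c 0 (.b 384) (.b 5))))))))))))))),
  (.c 0 (.s12 (.s13 (.tw (.s12 (.c 0 (.b 13) (.s13 (.tw (.s12 (.s13 (.c 0 (.b 136) (.s13 (.tw (.s12 (.s13 (.c 0 (.b 284) (.b 147)))))))))))))))) (.s13 (.tw (.s12 (.c 0 (.s13 (.tw (.c 0 (.b 14) (.s13 (.tw (.s12 (.s13 (.c 0 (.b 136) (.tw (.s12 (.s13 (.tw (.c 0 (.b 44) (.b 12)))))))))))))) (.s13 (.tw (.c 0 (.s13 (.tw (.s12 (.c 0 (.b 5) (.tw (.s12 (.s13 (.tw (.c 0 (.b 23) (.b 272)))))))))) (.s13 (.tw (.c 0 (.b 63) (.b 44)))))))))))),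
  (.c 0 (.s12 (.s13 (.tw (.s12 (.c 0 (.b 13) (.s13 (.tw (.s12 (.s13 (.c 0 (.b 136) (.s13 (.tw (.s12 (.s13 (.c 0 (.b 284) (.b 147)))))))))))))))) (.s13 (.tw (.s12 (.c 0 (.s13 (.tw (.c 0 (.b 14) (.s13 (.tw (.s12 (.s13 (.c 0 (.b 14) (.c 0 (.b 136) (.b 247)))))))))) (.s13 (.tw (.c 0 (.s13 (.tw (.c 0 (.b 136) (.b 44)))) (.s13 (.tw (.c 0 (.b 5) (.s13 (.tw (.c 0 (.b 82) (.b 63))))))))))))))),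
  (.c 0 (.tw (.c 0 (.tw (.s12 (.s13 (.tw (.c 0 (.b 63) (.b 159)))))) (.s13 (.tw (.s12 (.s13 (.c 0 (.b 63) (.b 108)))))))) (.s13 (.tw (.c 0 (.tw (.s12 (.s13 (.tw (.c 0 (.b 67) (.s13 (.tw (.s13 (.c 0 (.b 164) (.b 44)))))))))) (.tw (.s13 (.tw (.c 0 (.s13 (.tw (.c 0 (.b 63) (.b 44)))) (.s13 (.tw (.c 0 (.b 5) (.s13 (.tw (.s13 (.c 0 (.b 82) (.b 12)))))))))))))))),
  (.c 0 (.tw (.c 0 (.b 14) (.s13 (.tw (.s12 (.s13 (.c 0 (.b 14) (.c 0 (.b 304) (.s13 (.tw (.s12 (.s13 (.c 0 (.b 63) (.b 369)))))))))))))) (.s13 (.tw (.c 0 (.tw (.s12 (.s13 (.tw (.c 0 (.b 67) (.s13 (.tw (.s13 (.c 0 (.b 164) (.b 44)))))))))) (.tw (.s13 (.tw (.c 0 (.s13 (.tw (.c 0 (.b 63) (.b 44)))) (.s13 (.tw (.c 0 (.b 5) (.s13 (.tw (.s13 (.c 0 (.b 82) (.b 12)))))))))))))))),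
  (.c 0 (.tw (.c 0 (.b 13) (.s13 (.tw (.s12 (.s13 (.c 0 (.b 57) (.s13 (.tw (.s12 (.s13 (.c 0 (.b 381) (.b 478))))))))))))) (.s13 (.tw (.c 0 (.s13 (.tw (.c 0 (.b 136) (.b 462)))) (.tw (.s13 (.tw (.c 0 (.s13 (.tw (.c 0 (.b 304) (.tw (.s12 (.s13 (.tw (.c 0 (.b 63) (.b 381))))))))) (.s13 (.tw (.c 0 (.s13 (.tw (.c 0 (.b 63) (.b 381)))) (.s13 (.tw (.c 0 (.b 5) (.b 26))))))))))))))),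
  (.c 0 (.tw (.c 0 (.b 284) (.s13 (.tw (.s12 (.s13 (.c 0 (.b 63) (.b 93)))))))) (.s13 (.c 0 (.tw (.c 0 (.tw (.s13 (.tw (.c 0 (.b 63) (.b 247))))) (.tw (.s13 (.tw (.c 0 (.b 273) (.s13 (.tw (.s12 (.s13 (.c 0 (.b 136) (.b 44)))))))))))) (.tw (.c 0 (.b 460) (.s13 (.tw (.s12 (.s13 (.c 0 (.b 136) (.b 351))))))))))),
  (.c 0 (.tw (.c 0 (.b 284) (.s13 (.tw (.s12 (.s13 (.c 0 (.b 63) (.b 93)))))))) (.s13 (.tw (.c 0 (.s12 (.s13 (.tw (.c 0 (.b 460) (.s13 (.tw (.c 0 (.b 227) (.b 26)))))))) (.tw (.s12 (.s13 (.tw (.c 0 (.s13 (.tw (.s12 (.c 0 (.b 136) (.b 405))))) (.s13 (.tw (.c 0 (.b 73) (.s13 (.tw (.c 0 (.b 5) (.b 124)))))))))))))))),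
  (.tw (.s13 (.c 0 (.s12 (.s13 (.tw (.s12 (.c 0 (.b 312) (.s13 (.tw (.s13 (.c 0 (.b 478) (.b 29)))))))))) (.s13 (.tw (.s12 (.c 0 (.s12 (.s13 (.tw (.c 0 (.b 14) (.s13 (.tw (.s12 (.s13 (.c 0 (.b 381) (.b 136)))))))))) (.s12 (.s13 (.tw (.c 0 (.s13 (.tw (.c 0 (.b 63) (.c 0 (.b 136) (.b 136))))) (.s13 (.tw (.s12 (.c 0 (.b 296) (.s13 (.tw (.c 0 (.b 5) (.b 5))))))))))))))))))),
  (.c 0 (.tw (.c 0 (.b 13) (.s13 (.tw (.s12 (.s13 (.c 0 (.b 57) (.s13 (.tw (.s12 (.s13 (.c 0 (.b 381) (.b 478))))))))))))) (.s13 (.tw (.c 0 (.s13 (.tw (.c 0 (.b 136) (.b 462)))) (.tw (.s13 (.tw (.c 0 (.s13 (.tw (.c 0 (.b 136) (.tw (.s12 (.s13 (.tw (.c 0 (.b 63) (.b 381))))))))) (.s13 (.tw (.c 0 (.s13 (.tw (.c 0 (.b 63) (.b 381)))) (.s13 (.tw (.c 0 (.b 5) (.b 124))))))))))))))),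
  (.c 0 (.tw (.c 0 (.b 13) (.s13 (.tw (.s12 (.s13 (.c 0 (.b 13) (.c 0 (.b 136) (.s13 (.tw (.s12 (.s13 (.c 0 (.b 13) (.b 138)))))))))))))) (.s13 (.tw (.c 0 (.s13 (.tw (.c 0 (.b 58) (.s13 (.tw (.s12 (.s13 (.c 0 (.b 136) (.b 536))))))))) (.tw (.s13 (.tw (.c 0 (.s12 (.s13 (.tw (.c 0 (.s13 (.tw (.c 0 (.b 334) (.b 26)))) (.s13 (.tw (.c 0 (.b 63) (.b 381)))))))) (.s13 (.tw (.c 0 (.b 14) (.c 0 (.b 136) (.b 136))))))))))))),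
  (.c 0 (.tw (.c 0 (.b 13) (.s13 (.tw (.s12 (.s13 (.c 0 (.b 57) (.s13 (.tw (.s12 (.s13 (.c 0 (.b 381) (.b 478))))))))))))) (.s13 (.tw (.c 0 (.s13 (.tw (.c 0 (.b 136) (.b 236)))) (.tw (.s13 (.tw (.c 0 (.s13 (.tw (.c 0 (.b 304) (.tw (.s12 (.s13 (.tw (.c 0 (.b 63) (.b 381))))))))) (.s13 (.tw (.c 0 (.s13 (.tw (.c 0 (.b 63) (.b 381)))) (.s13 (.tw (.c 0 (.b 5) (.b 26))))))))))))))),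
  (.c 0 (.tw (.c 0 (.b 284) (.s13 (.tw (.s12 (.s13 (.c 0 (.b 63) (.b 93)))))))) (.s13 (.c 0 (.tw (.c 0 (.tw (.s13 (.tw (.c 0 (.b 63) (.b 247))))) (.tw (.s13 (.tw (.c 0 (.b 273) (.s13 (.tw (.s12 (.s13 (.c 0 (.b 136) (.b 44)))))))))))) (.tw (.c 0 (.b 718) (.c 0 (.b 136) (.b 136))))))),
  (.c 0 (.tw (.c 0 (.b 284) (.s13 (.tw (.s12 (.s13 (.c 0 (.b 63) (.b 93)))))))) (.s13 (.c 0 (.tw (.c 0 (.b 718) (.tw (.s13 (.tw (.c 0 (.tw (.s12 (.s13 (.tw (.c 0 (.b 136) (.s13 (.tw (.s12 (.s13 (.c 0 (.b 63) (.b 44))))))))))) (.b 273))))))) (.tw (.c 0 (.b 460) (.s13 (.tw (.s12 (.s13 (.c 0 (.b 136) (.b 351))))))))))),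
  (.tw (.s13 (.c 0 (.tw (.c 0 (.b 346) (.b 18))) (.s13 (.tw (.c 0 (.s13 (.tw (.c 0 (.b 136) (.b 236)))) (.tw (.s12 (.s13 (.tw (.c 0 (.s13 (.tw (.c 0 (.b 136) (.b 462)))) (.s13 (.tw (.c 0 (.tw (.c 0 (.b 136) (.b 136))) (.s13 (.tw (.s12 (.s13 (.c 0 (.b 601) (.b 5)))))))))))))))))))),
  (.c 0 (.tw (.c 0 (.b 13) (.s13 (.tw (.s12 (.s13 (.c 0 (.b 57) (.s13 (.tw (.s12 (.s13 (.c 0 (.b 381) (.b 478))))))))))))) (.s13 (.tw (.c 0 (.s13 (.tw (.c 0 (.b 136) (.b 462)))) (.tw (.s13 (.tw (.c 0 (.s13 (.tw (.c 0 (.b 304) (.b 44)))) (.s13 (.tw (.c 0 (.s13 (.tw (.c 0 (.b 63) (.b 381)))) (.s13 (.tw (.c 0 (.b 5) (.b 124))))))))))))))),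
  (.tw (.s13 (.c 0 (.tw (.c 0 (.b 346) (.b 18))) (.s13 (.tw (.c 0 (.s13 (.tw (.c 0 (.b 684) (.b 356)))) (.s12 (.s13 (.tw (.c 0 (.s13 (.tw (.c 0 (.b 136) (.c 0 (.b 136) (.b 136))))) (.tw (.s13 (.s12 (.c 0 (.s13 (.tw (.s12 (.c 0 (.b 63) (.b 381))))) (.s13 (.tw (.c 0 (.b 63) (.b 44)))))))))))))))))),
  (.c 0 (.tw (.c 0 (.b 284) (.s13 (.tw (.s12 (.s13 (.c 0 (.b 63) (.b 93)))))))) (.s13 (.tw (.c 0 (.s12 (.s13 (.tw (.c 0 (.b 13) (.s13 (.tw (.s12 (.s13 (.c 0 (.b 136) (.b 351)))))))))) (.s12 (.s13 (.tw (.c 0 (.s13 (.tw (.s12 (.c 0 (.s13 (.tw (.c 0 (.b 63) (.b 381)))) (.s13 (.tw (.c 0 (.b 5) (.b 26)))))))) (.s13 (.tw (.s12 (.c 0 (.b 284) (.c 0 (.b 136) (.b 136)))))))))))))),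
  (.c 0 (.tw (.c 0 (.b 13) (.s13 (.tw (.s12 (.s13 (.c 0 (.b 57) (.s13 (.tw (.s12 (.s13 (.c 0 (.b 381) (.b 478))))))))))))) (.s13 (.tw (.c 0 (.s13 (.tw (.c 0 (.b 136) (.b 462)))) (.tw (.s13 (.tw (.c 0 (.s13 (.tw (.c 0 (.b 136) (.tw (.s12 (.s13 (.tw (.c 0 (.b 63) (.b 381))))))))) (.s13 (.tw (.c 0 (.s13 (.tw (.c 0 (.b 44) (.b 1)))) (.s13 (.tw (.c 0 (.b 5) (.b 124))))))))))))))),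
  (.c 0 (.tw (.c 0 (.b 13) (.s13 (.tw (.s12 (.s13 (.c 0 (.b 13) (.c 0 (.b 136) (.s13 (.tw (.s12 (.s13 (.c 0 (.b 13) (.b 138)))))))))))))) (.s13 (.tw (.c 0 (.s13 (.tw (.c 0 (.b 58) (.s13 (.tw (.s12 (.s13 (.c 0 (.b 136) (.b 536))))))))) (.tw (.s13 (.tw (.c 0 (.s13 (.tw (.c 0 (.b 14) (.c 0 (.b 136) (.b 136))))) (.s12 (.s13 (.tw (.c 0 (.s13 (.tw (.s12 (.c 0 (.b 239) (.b 1))))) (.s13 (.tw (.c 0 (.b 63) (.b 381)))))))))))))))),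
  (.c 0 (.tw (.c 0 (.b 284) (.s13 (.tw (.s12 (.s13 (.c 0 (.b 63) (.b 93)))))))) (.s13 (.c 0 (.tw (.c 0 (.b 718) (.tw (.s13 (.tw (.c 0 (.tw (.s12 (.s13 (.tw (.c 0 (.b 136) (.s13 (.tw (.s12 (.s13 (.c 0 (.b 63) (.b 44))))))))))) (.b 273))))))) (.tw (.c 0 (.b 718) (.c 0 (.b 136) (.b 136))))))),
  (.tw (.s13 (.c 0 (.tw (.c 0 (.b 538) (.s13 (.tw (.s12 (.s13 (.c 0 (.b 63) (.b 21)))))))) (.s13 (.tw (.c 0 (.s13 (.tw (.c 0 (.b 136) (.b 236)))) (.tw (.s12 (.s13 (.tw (.c 0 (.s13 (.tw (.c 0 (.b 136) (.b 462)))) (.s13 (.tw (.c 0 (.s13 (.tw (.c 0 (.b 57) (.b 136)))) (.s13 (.tw (.c 0 (.b 5) (.b 5)))))))))))))))))),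
  (.c 0 (.tw (.c 0 (.b 13) (.s13 (.tw (.s12 (.s13 (.c 0 (.b 57) (.s13 (.tw (.s12 (.s13 (.c 0 (.b 381) (.b 478))))))))))))) (.s13 (.tw (.c 0 (.s13 (.tw (.c 0 (.b 13) (.b 462)))) (.tw (.s13 (.tw (.c 0 (.s13 (.tw (.c 0 (.b 136) (.tw (.s12 (.s13 (.tw (.c 0 (.b 63) (.b 381))))))))) (.s13 (.tw (.c 0 (.s13 (.tw (.c 0 (.b 63) (.b 381)))) (.s13 (.tw (.c 0 (.b 5) (.b 5))))))))))))))),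
  (.c 0 (.tw (.c 0 (.b 284) (.s13 (.tw (.s12 (.s13 (.c 0 (.b 63) (.b 93)))))))) (.s13 (.tw (.c 0 (.s12 (.s13 (.tw (.c 0 (.b 136) (.s13 (.tw (.s12 (.s13 (.c 0 (.b 13) (.b 337)))))))))) (.tw (.s12 (.s13 (.tw (.c 0 (.s13 (.tw (.c 0 (.b 304) (.b 44)))) (.s13 (.tw (.c 0 (.s13 (.tw (.c 0 (.b 381) (.b 136)))) (.s13 (.tw (.c 0 (.b 5) (.b 26)))))))))))))))),
  (.tw (.s13 (.c 0 (.tw (.c 0 (.b 538) (.s13 (.tw (.s12 (.s13 (.c 0 (.b 63) (.b 21)))))))) (.s13 (.tw (.c 0 (.s13 (.tw (.c 0 (.b 136) (.b 236)))) (.tw (.s12 (.s13 (.tw (.c 0 (.tw (.s13 (.tw (.c 0 (.s13 (.tw (.s12 (.c 0 (.b 381) (.b 136))))) (.s13 (.tw (.s12 (.c 0 (.b 124) (.b 44))))))))) (.s13 (.tw (.c 0 (.b 136) (.s13 (.tw (.s12 (.s13 (.c 0 (.b 44) (.b 1)))))))))))))))))))),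
  (.c 0 (.tw (.c 0 (.b 284) (.s13 (.tw (.s12 (.s13 (.c 0 (.b 63) (.b 93)))))))) (.s13 (.tw (.c 0 (.s12 (.s13 (.tw (.c 0 (.b 136) (.s13 (.tw (.s12 (.s13 (.c 0 (.b 13) (.b 337)))))))))) (.tw (.s12 (.s13 (.tw (.c 0 (.s13 (.tw (.c 0 (.b 136) (.tw (.s12 (.s13 (.tw (.c 0 (.b 63) (.b 381))))))))) (.s13 (.tw (.c 0 (.tw (.c 0 (.b 63) (.b 136))) (.s13 (.tw (.c 0 (.b 5) (.b 465)))))))))))))))),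
  (.c 0 (.tw (.c 0 (.b 13) (.s13 (.tw (.s12 (.s13 (.c 0 (.b 57) (.s13 (.tw (.s12 (.s13 (.c 0 (.b 381) (.b 478))))))))))))) (.s13 (.tw (.c 0 (.s13 (.tw (.c 0 (.b 136) (.b 236)))) (.tw (.s13 (.tw (.c 0 (.s13 (.tw (.c 0 (.b 136) (.tw (.s12 (.s13 (.tw (.c 0 (.b 63) (.b 381))))))))) (.s13 (.tw (.c 0 (.s13 (.tw (.c 0 (.b 44) (.b 1)))) (.s13 (.tw (.c 0 (.b 5) (.b 124))))))))))))))),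
  (.tw (.s13 (.c 0 (.tw (.c 0 (.b 538) (.s13 (.tw (.s12 (.s13 (.c 0 (.b 63) (.b 21)))))))) (.s13 (.tw (.c 0 (.s12 (.s13 (.tw (.c 0 (.b 136) (.s13 (.tw (.s12 (.s13 (.c 0 (.b 63) (.b 369)))))))))) (.s12 (.s13 (.c 0 (.s12 (.s13 (.tw (.s12 (.c 0 (.b 693) (.s13 (.tw (.s12 (.s13 (.c 0 (.b 136) (.b 44))))))))))) (.tw (.c 0 (.b 14) (.s13 (.tw (.s12 (.s13 (.c 0 (.b 14) (.c 0 (.b 136) (.b 136)))))))))))))))))),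
  (.s13 (.c 0 (.tw (.c 0 (.b 279) (.s13 (.tw (.s12 (.s13 (.c 0 (.b 63) (.b 138)))))))) (.s13 (.c 0 (.tw (.c 0 (.s13 (.tw (.c 0 (.b 44) (.b 185)))) (.tw (.s13 (.tw (.c 0 (.s13 (.tw (.c 0 (.b 136) (.b 44)))) (.tw (.s13 (.tw (.c 0 (.s13 (.tw (.s12 (.c 0 (.b 63) (.b 381))))) (.s13 (.tw (.c 0 (.b 63) (.b 44)))))))))))))) (.b 1))))),
  (.c 0 (.tw (.c 0 (.b 19) (.s13 (.tw (.s12 (.s13 (.c 0 (.b 567) (.b 21)))))))) (.s13 (.tw (.c 0 (.s13 (.tw (.c 0 (.b 14) (.s13 (.tw (.s12 (.s13 (.c 0 (.b 136) (.b 351))))))))) (.tw (.s13 (.tw (.c 0 (.s13 (.tw (.c 0 (.b 136) (.s13 (.tw (.s12 (.s13 (.c 0 (.b 44) (.b 1))))))))) (.s13 (.tw (.c 0 (.b 73) (.s13 (.tw (.c 0 (.b 5) (.b 124))))))))))))))),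
  (.c 0 (.tw (.c 0 (.b 284) (.s13 (.tw (.s12 (.s13 (.c 0 (.b 63) (.b 93)))))))) (.s13 (.c 0 (.tw (.c 0 (.s13 (.tw (.c 0 (.b 14) (.s13 (.tw (.s12 (.s13 (.c 0 (.b 136) (.b 351))))))))) (.tw (.s13 (.tw (.c 0 (.s13 (.tw (.c 0 (.b 136) (.s13 (.tw (.s12 (.s13 (.c 0 (.b 44) (.b 1))))))))) (.s13 (.tw (.c 0 (.b 73) (.s13 (.tw (.c 0 (.b 5) (.b 124))))))))))))) (.b 1)))),
  (.c 0 (.tw (.c 0 (.b 13) (.s13 (.tw (.s12 (.s13 (.c 0 (.b 57) (.s13 (.tw (.s12 (.s13 (.c 0 (.b 381) (.b 478))))))))))))) (.s13 (.tw (.c 0 (.s13 (.tw (.c 0 (.b 14) (.s13 (.tw (.s12 (.s13 (.c 0 (.b 136) (.b 351))))))))) (.tw (.s13 (.tw (.c 0 (.s13 (.tw (.c 0 (.b 136) (.s13 (.tw (.s12 (.s13 (.c 0 (.b 44) (.b 1))))))))) (.s13 (.tw (.c 0 (.b 73) (.s13 (.tw (.c 0 (.b 5) (.b 124))))))))))))))),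
  (.s13 (.c 0 (.tw (.c 0 (.b 416) (.c 0 (.b 381) (.b 26)))) (.s13 (.c 0 (.tw (.c 0 (.s13 (.tw (.c 0 (.b 44) (.b 185)))) (.tw (.s13 (.tw (.c 0 (.s13 (.tw (.c 0 (.b 136) (.b 44)))) (.tw (.s13 (.tw (.c 0 (.s13 (.tw (.s12 (.c 0 (.b 63) (.b 381))))) (.s13 (.tw (.c 0 (.b 63) (.b 44)))))))))))))) (.b 1))))),
  (.c 0 (.tw (.c 0 (.b 284) (.s13 (.tw (.s12 (.s13 (.c 0 (.b 63) (.b 93)))))))) (.s13 (.tw (.c 0 (.tw (.c 0 (.tw (.s13 (.tw (.c 0 (.b 136) (.b 478))))) (.b 12))) (.tw (.s12 (.s13 (.tw (.c 0 (.s13 (.tw (.s12 (.c 0 (.b 136) (.b 405))))) (.tw (.s12 (.s13 (.tw (.c 0 (.s13 (.tw (.c 0 (.b 44) (.b 12)))) (.s13 (.tw (.s12 (.c 0 (.b 5) (.b 124))))))))))))))))))),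
  (.tw (.s13 (.c 0 (.tw (.c 0 (.b 416) (.c 0 (.b 381) (.b 26)))) (.s13 (.c 0 (.tw (.c 0 (.s13 (.tw (.c 0 (.b 14) (.s13 (.tw (.s12 (.s13 (.c 0 (.b 136) (.b 598))))))))) (.tw (.s13 (.tw (.c 0 (.s13 (.tw (.c 0 (.b 136) (.b 44)))) (.tw (.s13 (.tw (.c 0 (.s13 (.tw (.s12 (.c 0 (.b 63) (.b 381))))) (.s13 (.tw (.c 0 (.b 63) (.b 44)))))))))))))) (.b 1)))))),
  (.c 0 (.tw (.c 0 (.b 416) (.s13 (.tw (.s12 (.s13 (.c 0 (.b 63) (.b 159)))))))) (.s13 (.c 0 (.tw (.c 0 (.s13 (.tw (.c 0 (.b 136) (.s13 (.tw (.s12 (.s13 (.c 0 (.b 14) (.b 239))))))))) (.tw (.s13 (.tw (.c 0 (.s13 (.tw (.c 0 (.b 136) (.b 44)))) (.s13 (.tw (.c 0 (.b 73) (.s13 (.tw (.c 0 (.b 5) (.b 124))))))))))))) (.b 1)))),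
  (.c 0 (.tw (.c 0 (.b 19) (.s13 (.tw (.s12 (.s13 (.c 0 (.b 567) (.b 21)))))))) (.s13 (.tw (.c 0 (.s13 (.tw (.c 0 (.b 136) (.s13 (.tw (.s12 (.s13 (.c 0 (.b 14) (.b 239))))))))) (.tw (.s13 (.tw (.c 0 (.s13 (.tw (.c 0 (.b 136) (.b 44)))) (.s13 (.tw (.c 0 (.b 73) (.s13 (.tw (.c 0 (.b 5) (.b 124))))))))))))))),
  (.c 0 (.tw (.c 0 (.b 284) (.s13 (.tw (.s12 (.s13 (.c 0 (.b 63) (.b 93)))))))) (.s13 (.c 0 (.tw (.c 0 (.s13 (.tw (.c 0 (.b 136) (.s13 (.tw (.s12 (.s13 (.c 0 (.b 14) (.b 239))))))))) (.tw (.s13 (.tw (.c 0 (.s13 (.tw (.c 0 (.b 136) (.b 44)))) (.s13 (.tw (.c 0 (.b 73) (.s13 (.tw (.c 0 (.b 5) (.b 124))))))))))))) (.b 1)))),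
  (.c 0 (.tw (.c 0 (.b 13) (.s13 (.tw (.s12 (.s13 (.c 0 (.b 57) (.s13 (.tw (.s12 (.s13 (.c 0 (.b 381) (.b 478))))))))))))) (.s13 (.tw (.c 0 (.s13 (.tw (.c 0 (.b 136) (.s13 (.tw (.s12 (.s13 (.c 0 (.b 14) (.b 239))))))))) (.tw (.s13 (.tw (.c 0 (.s13 (.tw (.c 0 (.b 136) (.b 44)))) (.s13 (.tw (.c 0 (.b 73) (.s13 (.tw (.c 0 (.b 5) (.b 124))))))))))))))),
  (.c 0 (.tw (.c 0 (.tw (.s13 (.tw (.c 0 (.b 478) (.b 16))))) (.b 111))) (.s13 (.tw (.c 0 (.s13 (.tw (.c 0 (.b 14) (.tw (.s12 (.s13 (.tw (.c 0 (.b 136) (.b 536))))))))) (.tw (.s12 (.s13 (.tw (.c 0 (.s13 (.tw (.s12 (.c 0 (.b 136) (.b 405))))) (.s13 (.tw (.c 0 (.s13 (.tw (.c 0 (.b 44) (.b 1)))) (.s13 (.tw (.c 0 (.b 5) (.b 124)))))))))))))))),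
  (.c 0 (.tw (.c 0 (.b 416) (.s13 (.tw (.s12 (.s13 (.c 0 (.b 63) (.b 159)))))))) (.s13 (.tw (.c 0 (.s13 (.tw (.c 0 (.b 14) (.tw (.s12 (.s13 (.tw (.c 0 (.b 136) (.b 536))))))))) (.tw (.s12 (.s13 (.tw (.c 0 (.s13 (.tw (.s12 (.c 0 (.b 136) (.b 405))))) (.s13 (.tw (.c 0 (.s13 (.tw (.c 0 (.b 44) (.b 1)))) (.s13 (.tw (.c 0 (.b 5) (.b 124)))))))))))))))),
  (.c 0 (.tw (.c 0 (.b 284) (.s13 (.tw (.s12 (.s13 (.c 0 (.b 63) (.b 93)))))))) (.s13 (.tw (.c 0 (.s13 (.tw (.c 0 (.b 14) (.tw (.s12 (.s13 (.tw (.c 0 (.b 136) (.b 536))))))))) (.tw (.s12 (.s13 (.tw (.c 0 (.s13 (.tw (.s12 (.c 0 (.b 136) (.b 405))))) (.s13 (.tw (.c 0 (.s13 (.tw (.c 0 (.b 44) (.b 1)))) (.s13 (.tw (.c 0 (.b 5) (.b 124)))))))))))))))),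
  (.c 0 (.tw (.c 0 (.b 14) (.s13 (.tw (.s12 (.s13 (.c 0 (.b 14) (.c 0 (.b 304) (.s13 (.tw (.s12 (.s13 (.c 0 (.b 63) (.b 369)))))))))))))) (.s13 (.tw (.c 0 (.s12 (.s13 (.tw (.c 0 (.b 530) (.b 29))))) (.tw (.s12 (.s13 (.tw (.c 0 (.s13 (.tw (.c 0 (.b 136) (.b 713)))) (.s13 (.tw (.c 0 (.b 73) (.s13 (.tw (.c 0 (.b 5) (.b 5)))))))))))))))),
  (.c 0 (.tw (.c 0 (.b 14) (.s13 (.tw (.s12 (.s13 (.c 0 (.b 14) (.c 0 (.b 304) (.s13 (.tw (.s12 (.s13 (.c 0 (.b 63) (.b 369)))))))))))))) (.s13 (.tw (.c 0 (.s12 (.s13 (.tw (.c 0 (.b 13) (.b 581))))) (.tw (.s12 (.s13 (.tw (.c 0 (.s13 (.tw (.c 0 (.b 136) (.b 713)))) (.s13 (.tw (.c 0 (.b 73) (.s13 (.tw (.c 0 (.b 5) (.b 5)))))))))))))))),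
  (.c 0 (.tw (.c 0 (.b 284) (.s13 (.tw (.s12 (.s13 (.c 0 (.b 63) (.b 93)))))))) (.s13 (.tw (.c 0 (.s12 (.s13 (.tw (.c 0 (.b 136) (.s13 (.tw (.s12 (.s13 (.c 0 (.b 13) (.b 546)))))))))) (.tw (.s12 (.s13 (.c 0 (.tw (.c 0 (.b 273) (.s13 (.tw (.s12 (.s13 (.c 0 (.b 136) (.b 44)))))))) (.s13 (.tw (.s12 (.c 0 (.b 284) (.c 0 (.b 136) (.b 136)))))))))))))),
  (.c 0 (.tw (.c 0 (.b 284) (.s13 (.tw (.s12 (.s13 (.c 0 (.b 63) (.b 93)))))))) (.s13 (.tw (.c 0 (.s12 (.s13 (.tw (.s12 (.c 0 (.b 202) (.b 666)))))) (.tw (.s12 (.s13 (.tw (.c 0 (.s13 (.tw (.c 0 (.b 136) (.s13 (.tw (.s12 (.s13 (.c 0 (.b 44) (.b 1))))))))) (.s13 (.tw (.c 0 (.tw (.c 0 (.b 63) (.b 136))) (.s13 (.tw (.c 0 (.b 5) (.b 124)))))))))))))))),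
  (.tw (.s13 (.c 0 (.tw (.c 0 (.b 538) (.s13 (.tw (.s12 (.s13 (.c 0 (.b 381) (.b 172)))))))) (.s13 (.tw (.c 0 (.s13 (.tw (.c 0 (.b 136) (.b 236)))) (.tw (.s12 (.s13 (.tw (.c 0 (.s13 (.tw (.c 0 (.b 136) (.b 462)))) (.s13 (.tw (.c 0 (.s13 (.tw (.c 0 (.b 57) (.b 136)))) (.s13 (.tw (.c 0 (.b 5) (.b 5)))))))))))))))))),
  (.c 0 (.tw (.c 0 (.b 13) (.s13 (.tw (.s12 (.s13 (.c 0 (.b 57) (.s13 (.tw (.s12 (.s13 (.c 0 (.b 381) (.b 478))))))))))))) (.s13 (.tw (.c 0 (.s13 (.tw (.c 0 (.b 13) (.b 462)))) (.tw (.s13 (.tw (.c 0 (.s13 (.tw (.c 0 (.b 304) (.b 44)))) (.s13 (.tw (.c 0 (.s13 (.tw (.c 0 (.b 63) (.b 381)))) (.s13 (.tw (.c 0 (.b 5) (.b 5))))))))))))))),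
  (.c 0 (.tw (.c 0 (.b 284) (.s13 (.tw (.s12 (.s13 (.c 0 (.b 63) (.b 93)))))))) (.s13 (.tw (.c 0 (.s12 (.s13 (.tw (.s12 (.c 0 (.b 377) (.b 666)))))) (.tw (.s12 (.s13 (.tw (.c 0 (.s13 (.tw (.c 0 (.b 136) (.s13 (.tw (.s12 (.s13 (.c 0 (.b 44) (.b 1))))))))) (.s13 (.tw (.c 0 (.tw (.c 0 (.b 63) (.b 136))) (.s13 (.tw (.c 0 (.b 5) (.b 124)))))))))))))))),
  (.tw (.s13 (.c 0 (.tw (.c 0 (.b 538) (.s13 (.tw (.s12 (.s13 (.c 0 (.b 381) (.b 172)))))))) (.s13 (.tw (.c 0 (.s13 (.tw (.c 0 (.b 136) (.b 236)))) (.tw (.s12 (.s13 (.tw (.c 0 (.tw (.s13 (.tw (.c 0 (.s13 (.tw (.s12 (.c 0 (.b 381) (.b 136))))) (.s13 (.tw (.s12 (.c 0 (.b 124) (.b 44))))))))) (.s13 (.tw (.c 0 (.b 136) (.s13 (.tw (.s12 (.s13 (.c 0 (.b 44) (.b 1)))))))))))))))))))),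
  (.c 0 (.tw (.c 0 (.b 284) (.s13 (.tw (.s12 (.s13 (.c 0 (.b 63) (.b 93)))))))) (.s13 (.c 0 (.tw (.c 0 (.tw (.s13 (.tw (.c 0 (.b 63) (.b 526))))) (.tw (.s13 (.tw (.c 0 (.b 273) (.s13 (.tw (.s12 (.s13 (.c 0 (.b 136) (.b 44)))))))))))) (.tw (.c 0 (.b 460) (.s13 (.tw (.s12 (.s13 (.c 0 (.b 136) (.b 351))))))))))),
  (.c 0 (.tw (.c 0 (.b 13) (.s13 (.tw (.s12 (.s13 (.c 0 (.b 57) (.s13 (.tw (.s12 (.s13 (.c 0 (.b 381) (.b 478))))))))))))) (.s13 (.tw (.c 0 (.tw (.c 0 (.b 319) (.b 304))) (.tw (.s13 (.tw (.c 0 (.s13 (.tw (.c 0 (.b 136) (.b 44)))) (.tw (.s12 (.s13 (.tw (.c 0 (.s13 (.tw (.c 0 (.b 44) (.b 12)))) (.s13 (.tw (.s12 (.c 0 (.b 5) (.b 124)))))))))))))))))),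
  (.tw (.s13 (.c 0 (.tw (.c 0 (.b 538) (.s13 (.tw (.s12 (.s13 (.c 0 (.b 381) (.b 172)))))))) (.s13 (.tw (.c 0 (.s12 (.s13 (.tw (.c 0 (.b 136) (.s13 (.tw (.s12 (.s13 (.c 0 (.b 63) (.b 369)))))))))) (.s12 (.s13 (.c 0 (.s12 (.s13 (.tw (.s12 (.c 0 (.b 693) (.s13 (.tw (.s12 (.s13 (.c 0 (.b 136) (.b 44))))))))))) (.tw (.c 0 (.b 14) (.s13 (.tw (.s12 (.s13 (.c 0 (.b 14) (.c 0 (.b 136) (.b 136)))))))))))))))))),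
  (.s13 (.c 0 (.tw (.c 0 (.b 279) (.s13 (.tw (.s12 (.s13 (.c 0 (.b 63) (.b 138)))))))) (.s13 (.c 0 (.tw (.c 0 (.s13 (.tw (.c 0 (.b 136) (.b 236)))) (.tw (.s12 (.s13 (.tw (.c 0 (.s13 (.tw (.c 0 (.b 136) (.s13 (.tw (.s12 (.s13 (.c 0 (.b 44) (.b 1))))))))) (.s13 (.tw (.c 0 (.b 345) (.s13 (.tw (.c 0 (.b 5) (.b 5)))))))))))))) (.b 1))))),
  (.c 0 (.tw (.c 0 (.b 19) (.s13 (.tw (.s12 (.s13 (.c 0 (.b 567) (.b 21)))))))) (.s13 (.tw (.c 0 (.s13 (.tw (.c 0 (.b 136) (.b 462)))) (.tw (.s13 (.tw (.c 0 (.s13 (.tw (.c 0 (.b 136) (.b 44)))) (.tw (.s12 (.s13 (.tw (.c 0 (.s13 (.tw (.c 0 (.b 44) (.b 12)))) (.s13 (.tw (.s12 (.c 0 (.b 5) (.b 124)))))))))))))))))),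
  (.c 0 (.tw (.c 0 (.b 284) (.s13 (.tw (.s12 (.s13 (.c 0 (.b 63) (.b 93)))))))) (.s13 (.c 0 (.tw (.c 0 (.s13 (.tw (.c 0 (.b 136) (.b 462)))) (.tw (.s13 (.tw (.c 0 (.s13 (.tw (.c 0 (.b 136) (.b 44)))) (.tw (.s12 (.s13 (.tw (.c 0 (.s13 (.tw (.c 0 (.b 44) (.b 12)))) (.s13 (.tw (.s12 (.c 0 (.b 5) (.b 124)))))))))))))))) (.b 1)))),
  (.c 0 (.tw (.c 0 (.b 13) (.s13 (.tw (.s12 (.s13 (.c 0 (.b 57) (.s13 (.tw (.s12 (.s13 (.c 0 (.b 381) (.b 478))))))))))))) (.s13 (.tw (.c 0 (.s13 (.tw (.c 0 (.b 136) (.b 462)))) (.tw (.s13 (.tw (.c 0 (.s13 (.tw (.c 0 (.b 136) (.b 44)))) (.tw (.s12 (.s13 (.tw (.c 0 (.s13 (.tw (.c 0 (.b 44) (.b 12)))) (.s13 (.tw (.s12 (.c 0 (.b 5) (.b 124)))))))))))))))))),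
  (.c 0 (.tw (.c 0 (.b 284) (.s13 (.tw (.s12 (.s13 (.c 0 (.b 63) (.b 93)))))))) (.s13 (.tw (.c 0 (.s13 (.tw (.s12 (.c 0 (.b 164) (.b 273))))) (.tw (.s12 (.s13 (.tw (.c 0 (.s13 (.tw (.s12 (.c 0 (.b 136) (.b 405))))) (.s13 (.tw (.c 0 (.s13 (.tw (.c 0 (.b 14) (.b 180)))) (.s13 (.tw (.c 0 (.b 5) (.b 5)))))))))))))))),
  (.s13 (.c 0 (.tw (.c 0 (.b 538) (.s13 (.tw (.s12 (.s13 (.c 0 (.b 381) (.b 172)))))))) (.s13 (.tw (.c 0 (.s13 (.tw (.c 0 (.b 136) (.b 236)))) (.tw (.s12 (.s13 (.tw (.c 0 (.tw (.s13 (.tw (.c 0 (.s13 (.tw (.s12 (.c 0 (.b 381) (.b 136))))) (.s13 (.tw (.s12 (.c 0 (.b 124) (.b 44))))))))) (.s13 (.tw (.c 0 (.b 136) (.s13 (.tw (.s12 (.s13 (.c 0 (.b 44) (.b 1))))))))))))))))))),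
  (.c 0 (.tw (.c 0 (.b 284) (.s13 (.tw (.s12 (.s13 (.c 0 (.b 63) (.b 93)))))))) (.s13 (.c 0 (.tw (.c 0 (.tw (.s13 (.tw (.c 0 (.b 63) (.b 526))))) (.tw (.s13 (.tw (.c 0 (.b 273) (.s13 (.tw (.s12 (.s13 (.c 0 (.b 136) (.b 44)))))))))))) (.tw (.c 0 (.b 718) (.c 0 (.b 136) (.b 136))))))),
  (.c 0 (.tw (.c 0 (.b 13) (.s13 (.tw (.s12 (.s13 (.c 0 (.b 57) (.s13 (.tw (.s12 (.s13 (.c 0 (.b 381) (.b 478))))))))))))) (.s13 (.tw (.c 0 (.s13 (.tw (.c 0 (.b 13) (.b 462)))) (.tw (.s13 (.tw (.c 0 (.s13 (.tw (.c 0 (.b 136) (.tw (.s12 (.s13 (.tw (.c 0 (.b 63) (.b 381))))))))) (.s13 (.tw (.c 0 (.s13 (.tw (.c 0 (.b 44) (.b 1)))) (.s13 (.tw (.c 0 (.b 5) (.b 5))))))))))))))),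
  (.s13 (.c 0 (.tw (.c 0 (.b 538) (.s13 (.tw (.s12 (.s13 (.c 0 (.b 63) (.b 21)))))))) (.s13 (.tw (.c 0 (.s13 (.tw (.c 0 (.b 136) (.b 236)))) (.tw (.s12 (.s13 (.tw (.c 0 (.tw (.s13 (.tw (.c 0 (.s13 (.tw (.s12 (.c 0 (.b 381) (.b 136))))) (.s13 (.tw (.s12 (.c 0 (.b 124) (.b 44))))))))) (.s13 (.tw (.c 0 (.b 136) (.s13 (.tw (.s12 (.s13 (.c 0 (.b 44) (.b 1))))))))))))))))))),
  (.c 0 (.tw (.c 0 (.b 284) (.s13 (.tw (.s12 (.s13 (.c 0 (.b 63) (.b 93)))))))) (.s13 (.tw (.c 0 (.s12 (.s13 (.tw (.c 0 (.b 13) (.b 442))))) (.tw (.s12 (.s13 (.tw (.c 0 (.tw (.s13 (.c 0 (.b 70) (.b 45)))) (.s13 (.tw (.c 0 (.tw (.c 0 (.b 63) (.b 136))) (.s13 (.tw (.c 0 (.b 5) (.b 5)))))))))))))))),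
  (.tw (.s13 (.c 0 (.tw (.c 0 (.b 348) (.s13 (.tw (.s12 (.s13 (.c 0 (.b 63) (.b 21)))))))) (.s13 (.c 0 (.tw (.c 0 (.s13 (.tw (.c 0 (.b 14) (.s13 (.tw (.s12 (.s13 (.c 0 (.b 136) (.b 598))))))))) (.tw (.s13 (.tw (.c 0 (.s13 (.tw (.c 0 (.b 136) (.b 44)))) (.tw (.s13 (.tw (.c 0 (.s13 (.tw (.s12 (.c 0 (.b 63) (.b 381))))) (.s13 (.tw (.c 0 (.b 63) (.b 44)))))))))))))) (.b 1)))))),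
  (.c 0 (.tw (.c 0 (.b 416) (.s13 (.tw (.s12 (.s13 (.c 0 (.b 63) (.b 159)))))))) (.s13 (.c 0 (.tw (.c 0 (.s13 (.tw (.c 0 (.b 136) (.b 236)))) (.tw (.s13 (.tw (.c 0 (.s13 (.tw (.c 0 (.b 136) (.b 44)))) (.tw (.s12 (.s13 (.tw (.c 0 (.s13 (.tw (.c 0 (.b 44) (.b 12)))) (.s13 (.tw (.s12 (.c 0 (.b 5) (.b 124)))))))))))))))) (.b 1)))),
  (.c 0 (.tw (.c 0 (.b 13) (.s13 (.tw (.s12 (.s13 (.c 0 (.b 57) (.s13 (.tw (.s12 (.s13 (.c 0 (.b 381) (.b 478))))))))))))) (.s13 (.tw (.c 0 (.s12 (.s13 (.tw (.c 0 (.b 13) (.b 546))))) (.tw (.s12 (.s13 (.tw (.c 0 (.s13 (.tw (.c 0 (.b 136) (.tw (.s12 (.s13 (.tw (.c 0 (.b 44) (.b 12))))))))) (.s13 (.tw (.c 0 (.s13 (.tw (.c 0 (.b 63) (.b 381)))) (.s13 (.tw (.c 0 (.b 5) (.b 5)))))))))))))))),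
  (.c 0 (.tw (.c 0 (.b 284) (.s13 (.tw (.s12 (.s13 (.c 0 (.b 63) (.b 93)))))))) (.s13 (.c 0 (.tw (.c 0 (.s13 (.tw (.c 0 (.b 136) (.b 236)))) (.tw (.s13 (.tw (.c 0 (.s13 (.tw (.c 0 (.b 136) (.b 44)))) (.tw (.s12 (.s13 (.tw (.c 0 (.s13 (.tw (.c 0 (.b 44) (.b 12)))) (.s13 (.tw (.s12 (.c 0 (.b 5) (.b 124)))))))))))))))) (.b 1)))),
  (.c 0 (.tw (.c 0 (.b 13) (.s13 (.tw (.s12 (.s13 (.c 0 (.b 57) (.s13 (.tw (.s12 (.s13 (.c 0 (.b 381) (.b 478))))))))))))) (.s13 (.tw (.c 0 (.s13 (.tw (.c 0 (.b 136) (.b 236)))) (.tw (.s13 (.tw (.c 0 (.s13 (.tw (.c 0 (.b 136) (.b 44)))) (.tw (.s12 (.s13 (.tw (.c 0 (.s13 (.tw (.c 0 (.b 44) (.b 12)))) (.s13 (.tw (.s12 (.c 0 (.b 5) (.b 124)))))))))))))))))),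
  (.c 0 (.tw (.c 0 (.tw (.s13 (.tw (.c 0 (.b 478) (.b 16))))) (.b 111))) (.s13 (.tw (.c 0 (.s12 (.s13 (.tw (.c 0 (.b 136) (.s13 (.tw (.s12 (.s13 (.c 0 (.b 13) (.b 337)))))))))) (.tw (.s12 (.s13 (.tw (.c 0 (.s13 (.tw (.c 0 (.b 136) (.s13 (.tw (.s12 (.s13 (.c 0 (.b 44) (.b 1))))))))) (.s13 (.tw (.c 0 (.tw (.c 0 (.b 63) (.b 136))) (.s13 (.tw (.c 0 (.b 5) (.b 124)))))))))))))))),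
  (.c 0 (.tw (.c 0 (.b 416) (.s13 (.tw (.s12 (.s13 (.c 0 (.b 63) (.b 159)))))))) (.s13 (.tw (.c 0 (.s12 (.s13 (.tw (.c 0 (.b 136) (.s13 (.tw (.s12 (.s13 (.c 0 (.b 13) (.b 337)))))))))) (.tw (.s12 (.s13 (.tw (.c 0 (.s13 (.tw (.c 0 (.b 136) (.s13 (.tw (.s12 (.s13 (.c 0 (.b 44) (.b 1))))))))) (.s13 (.tw (.c 0 (.tw (.c 0 (.b 63) (.b 136))) (.s13 (.tw (.c 0 (.b 5) (.b 124)))))))))))))))),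
  (.c 0 (.tw (.c 0 (.b 284) (.s13 (.tw (.s12 (.s13 (.c 0 (.b 63) (.b 93)))))))) (.s13 (.tw (.c 0 (.s12 (.s13 (.tw (.c 0 (.b 136) (.s13 (.tw (.s12 (.s13 (.c 0 (.b 13) (.b 337)))))))))) (.tw (.s12 (.s13 (.tw (.c 0 (.s13 (.tw (.c 0 (.b 136) (.s13 (.tw (.s12 (.s13 (.c 0 (.b 44) (.b 1))))))))) (.s13 (.tw (.c 0 (.tw (.c 0 (.b 63) (.b 136))) (.s13 (.tw (.c 0 (.b 5) (.b 124)))))))))))))))),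
  (.tw (.s13 (.c 0 (.s12 (.s13 (.tw (.s12 (.c 0 (.tw (.s13 (.tw (.c 0 (.b 478) (.b 16))))) (.s13 (.tw (.s13 (.c 0 (.b 381) (.b 29)))))))))) (.s13 (.tw (.s12 (.c 0 (.s13 (.tw (.c 0 (.b 136) (.s13 (.tw (.s12 (.s13 (.c 0 (.b 14) (.b 239))))))))) (.s12 (.s13 (.tw (.c 0 (.s13 (.tw (.c 0 (.b 136) (.b 44)))) (.s13 (.tw (.s13 (.s12 (.c 0 (.b 140) (.s13 (.tw (.s13 (.c 0 (.b 5) (.b 143))))))))))))))))))))),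
  (.c 0 (.tw (.c 0 (.b 416) (.s13 (.tw (.s12 (.s13 (.c 0 (.b 63) (.b 159)))))))) (.s13 (.c 0 (.tw (.c 0 (.s13 (.tw (.c 0 (.b 136) (.s13 (.tw (.s12 (.s13 (.c 0 (.b 13) (.b 139))))))))) (.tw (.s13 (.tw (.c 0 (.s13 (.tw (.c 0 (.b 136) (.b 44)))) (.s13 (.tw (.c 0 (.b 5) (.s13 (.tw (.c 0 (.b 5) (.b 124))))))))))))) (.b 1)))),
  (.c 0 (.tw (.c 0 (.b 284) (.s13 (.tw (.s12 (.s13 (.c 0 (.b 63) (.b 93)))))))) (.s13 (.tw (.c 0 (.s12 (.s13 (.tw (.c 0 (.b 13) (.b 93))))) (.tw (.s12 (.s13 (.tw (.c 0 (.tw (.s13 (.c 0 (.b 70) (.b 45)))) (.s13 (.tw (.c 0 (.tw (.c 0 (.b 63) (.b 136))) (.s13 (.tw (.c 0 (.b 5) (.b 5)))))))))))))))),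
  (.c 0 (.tw (.c 0 (.b 284) (.s13 (.tw (.s12 (.s13 (.c 0 (.b 63) (.b 93)))))))) (.s13 (.c 0 (.tw (.c 0 (.s13 (.tw (.c 0 (.b 136) (.s13 (.tw (.s12 (.s13 (.c 0 (.b 13) (.b 139))))))))) (.tw (.s13 (.tw (.c 0 (.s13 (.tw (.c 0 (.b 136) (.b 44)))) (.s13 (.tw (.c 0 (.b 5) (.s13 (.tw (.c 0 (.b 5) (.b 124))))))))))))) (.b 1)))),
  (.c 0 (.tw (.c 0 (.tw (.s13 (.tw (.c 0 (.b 478) (.b 16))))) (.b 111))) (.s13 (.tw (.c 0 (.s12 (.s13 (.tw (.c 0 (.b 13) (.s13 (.tw (.s12 (.s13 (.c 0 (.b 136) (.b 598)))))))))) (.tw (.s12 (.s13 (.tw (.c 0 (.s13 (.tw (.c 0 (.b 136) (.b 44)))) (.s13 (.tw (.c 0 (.tw (.c 0 (.b 63) (.b 136))) (.s13 (.tw (.c 0 (.b 5) (.b 124)))))))))))))))),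
  (.c 0 (.tw (.c 0 (.b 416) (.s13 (.tw (.s12 (.s13 (.c 0 (.b 63) (.b 159)))))))) (.s13 (.tw (.c 0 (.s12 (.s13 (.tw (.c 0 (.b 13) (.s13 (.tw (.s12 (.s13 (.c 0 (.b 136) (.b 598)))))))))) (.tw (.s12 (.s13 (.tw (.c 0 (.s13 (.tw (.c 0 (.b 136) (.b 44)))) (.s13 (.tw (.c 0 (.tw (.c 0 (.b 63) (.b 136))) (.s13 (.tw (.c 0 (.b 5) (.b 124)))))))))))))))),
  (.c 0 (.tw (.c 0 (.b 284) (.s13 (.tw (.s12 (.s13 (.c 0 (.b 63) (.b 93)))))))) (.s13 (.tw (.c 0 (.s12 (.s13 (.tw (.c 0 (.b 13) (.s13 (.tw (.s12 (.s13 (.c 0 (.b 136) (.b 598)))))))))) (.tw (.s12 (.s13 (.tw (.c 0 (.s13 (.tw (.c 0 (.b 136) (.b 44)))) (.s13 (.tw (.c 0 (.tw (.c 0 (.b 63) (.b 136))) (.s13 (.tw (.c 0 (.b 5) (.b 124)))))))))))))))),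
  (.c 0 (.tw (.c 0 (.b 13) (.s13 (.tw (.s12 (.s13 (.c 0 (.b 13) (.c 0 (.b 136) (.s13 (.tw (.s12 (.s13 (.c 0 (.b 13) (.b 138)))))))))))))) (.s13 (.tw (.c 0 (.s13 (.tw (.c 0 (.b 279) (.b 29)))) (.tw (.s13 (.tw (.c 0 (.s13 (.tw (.c 0 (.b 136) (.s13 (.tw (.s12 (.s13 (.c 0 (.b 44) (.b 1))))))))) (.s13 (.tw (.c 0 (.b 320) (.s13 (.tw (.c 0 (.b 5) (.b 5))))))))))))))),
  (.c 0 (.tw (.c 0 (.b 13) (.s13 (.tw (.s12 (.s13 (.c 0 (.b 13) (.c 0 (.b 136) (.s13 (.tw (.s12 (.s13 (.c 0 (.b 13) (.b 138)))))))))))))) (.s13 (.tw (.c 0 (.s13 (.tw (.c 0 (.b 14) (.s13 (.tw (.s12 (.s13 (.c 0 (.b 14) (.c 0 (.b 136) (.b 136)))))))))) (.tw (.s13 (.tw (.c 0 (.s13 (.tw (.c 0 (.b 63) (.s13 (.tw (.s12 (.s13 (.c 0 (.b 63) (.b 24))))))))) (.s13 (.tw (.c 0 (.b 5) (.s13 (.tw (.s12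 (.s13 (.c 0 (.b 5) (.b 63))))))))))))))))),
  (.c 0 (.tw (.c 0 (.b 14) (.s13 (.tw (.s12 (.s13 (.c 0 (.b 14) (.c 0 (.b 304) (.s13 (.tw (.s12 (.s13 (.c 0 (.b 63) (.b 369)))))))))))))) (.s13 (.tw (.c 0 (.s12 (.s13 (.tw (.c 0 (.b 284) (.b 147))))) (.tw (.s12 (.s13 (.tw (.c 0 (.s13 (.tw (.c 0 (.b 136) (.b 713)))) (.s13 (.tw (.c 0 (.b 73) (.s13 (.tw (.c 0 (.b 5) (.b 5)))))))))))))))),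
  (.c 0 (.tw (.c 0 (.b 284) (.s13 (.tw (.s12 (.s13 (.c 0 (.b 63) (.b 93)))))))) (.s13 (.tw (.c 0 (.s12 (.s13 (.tw (.c 0 (.b 279) (.s13 (.tw (.c 0 (.b 384) (.b 465)))))))) (.tw (.s12 (.s13 (.tw (.c 0 (.s13 (.tw (.c 0 (.b 136) (.b 44)))) (.s13 (.tw (.c 0 (.b 387) (.s13 (.tw (.c 0 (.b 384) (.b 5)))))))))))))))),
  (.s13 (.c 0 (.tw (.c 0 (.b 346) (.b 18))) (.s13 (.tw (.c 0 (.s13 (.tw (.c 0 (.b 684) (.b 356)))) (.s12 (.s13 (.tw (.c 0 (.s13 (.tw (.c 0 (.b 136) (.c 0 (.b 136) (.b 136))))) (.tw (.s13 (.s12 (.c 0 (.s13 (.tw (.s12 (.c 0 (.b 63) (.b 381))))) (.s13 (.tw (.c 0 (.b 63) (.b 44))))))))))))))))),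
  (.c 0 (.tw (.c 0 (.b 284) (.s13 (.tw (.s12 (.s13 (.c 0 (.b 63) (.b 93)))))))) (.s13 (.tw (.c 0 (.s12 (.s13 (.tw (.c 0 (.b 136) (.s13 (.tw (.s12 (.s13 (.c 0 (.b 13) (.b 546)))))))))) (.tw (.s12 (.s13 (.tw (.c 0 (.s13 (.tw (.c 0 (.b 304) (.b 44)))) (.s13 (.tw (.c 0 (.tw (.c 0 (.b 63) (.b 136))) (.s13 (.tw (.c 0 (.b 5) (.b 465)))))))))))))))),
  (.tw (.s13 (.c 0 (.s12 (.s13 (.tw (.s12 (.c 0 (.s13 (.tw (.c 0 (.b 443) (.b 16)))) (.b 526)))))) (.s13 (.tw (.s12 (.c 0 (.s13 (.tw (.c 0 (.b 136) (.b 236)))) (.s12 (.s13 (.tw (.c 0 (.s13 (.tw (.s12 (.c 0 (.b 136) (.s13 (.tw (.s12 (.s13 (.c 0 (.b 44) (.b 1)))))))))) (.s13 (.tw (.s13 (.s12 (.c 0 (.b 290) (.s13 (.tw (.s13 (.c 0 (.b 5) (.b 143))))))))))))))))))))),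
  (.c 0 (.tw (.c 0 (.b 416) (.s13 (.tw (.s12 (.s13 (.c 0 (.b 63) (.b 159)))))))) (.s13 (.c 0 (.tw (.c 0 (.s13 (.tw (.c 0 (.b 14) (.s13 (.tw (.s12 (.s13 (.c 0 (.b 63) (.b 536))))))))) (.tw (.s13 (.tw (.c 0 (.s13 (.tw (.c 0 (.b 136) (.s13 (.tw (.s12 (.s13 (.c 0 (.b 44) (.b 1))))))))) (.s13 (.tw (.c 0 (.b 5) (.s13 (.tw (.c 0 (.b 5) (.b 124))))))))))))) (.b 1))))]

theorem good5 : ∀ l ∈ box5, G (l, H, H) := by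
  intro l hl
  have h := G_chkTbl tbl_good (ts := box5.map fun l => (l, H, H)) (ds := dv5) (by decide +kernel)
  exact h _ (List.mem_map.mpr ⟨l, hl, rfl⟩)

def box6 : List (List ℕ) := [
  [10,8,8,7,7,4,4,2,2],
  [10,8,8,7,7,4,4,3,1],
  [10,8,8,7,7,4,4,4],
  [10,8,8,7,7,5,3,1,1,1,1],
  [10,8,8,7,7,5,3,2,1,1],
  [10,8,8,7,7,5,3,2,2],
  [10,8,8,7,7,5,3,3,1],
  [10,8,8,7,7,5,4,1,1,1],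
  [10,8,8,7,7,5,4,2,1],
  [10,8,8,7,7,5,4,3],
  [10,8,8,7,7,5,5,1,1],
  [10,8,8,7,7,5,5,2],
  [10,8,8,7,7,6,1,1,1,1,1,1],
  [10,8,8,7,7,6,2,1,1,1,1],
  [10,8,8,7,7,6,2,2,1,1],
  [10,8,8,7,7,6,2,2,2],
  [10,8,8,7,7,6,3,1,1,1],
  [10,8,8,7,7,6,3,2,1],
  [10,8,8,7,7,6,3,3],
  [10,8,8,7,7,6,4,1,1],
  [10,8,8,7,7,6,4,2],
  [10,8,8,7,7,6,5,1],
  [10,8,8,7,7,6,6],
  [10,8,8,7,7,7,1,1,1,1,1],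
  [10,8,8,7,7,7,2,1,1,1],
  [10,8,8,7,7,7,2,2,1],
  [10,8,8,7,7,7,3,1,1],
  [10,8,8,7,7,7,3,2],
  [10,8,8,7,7,7,4,1],
  [10,8,8,7,7,7,5],
  [10,8,8,8,4,4,4,3,3],
  [10,8,8,8,4,4,4,4,1,1],
  [10,8,8,8,4,4,4,4,2],
  [10,8,8,8,5,4,3,3,3],
  [10,8,8,8,5,4,4,3,1,1],
  [10,8,8,8,5,4,4,3,2],
  [10,8,8,8,5,4,4,4,1],
  [10,8,8,8,5,5,3,3,1,1],
  [10,8,8,8,5,5,3,3,2],
  [10,8,8,8,5,5,4,1,1,1,1],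
  [10,8,8,8,5,5,4,2,1,1],
  [10,8,8,8,5,5,4,2,2],
  [10,8,8,8,5,5,4,3,1],
  [10,8,8,8,5,5,4,4],
  [10,8,8,8,5,5,5,1,1,1],
  [10,8,8,8,5,5,5,2,1],
  [10,8,8,8,5,5,5,3],
  [10,8,8,8,6,3,3,3,3],
  [10,8,8,8,6,4,3,3,1,1],
  [10,8,8,8,6,4,3,3,2],
  [10,8,8,8,6,4,4,1,1,1,1],
  [10,8,8,8,6,4,4,2,1,1],
  [10,8,8,8,6,4,4,2,2],
  [10,8,8,8,6,4,4,3,1],
  [10,8,8,8,6,4,4,4],
  [10,8,8,8,6,5,3,1,1,1,1],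
  [10,8,8,8,6,5,3,2,1,1],
  [10,8,8,8,6,5,3,2,2],
  [10,8,8,8,6,5,3,3,1],
  [10,8,8,8,6,5,4,1,1,1],
  [10,8,8,8,6,5,4,2,1],
  [10,8,8,8,6,5,4,3],
  [10,8,8,8,6,5,5,1,1],
  [10,8,8,8,6,5,5,2],
  [10,8,8,8,6,6,1,1,1,1,1,1],
  [10,8,8,8,6,6,2,1,1,1,1],
  [10,8,8,8,6,6,2,2,1,1],
  [10,8,8,8,6,6,2,2,2],
  [10,8,8,8,6,6,3,1,1,1],
  [10,8,8,8,6,6,3,2,1],
  [10,8,8,8,6,6,3,3],
  [10,8,8,8,6,6,4,1,1],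
  [10,8,8,8,6,6,4,2],
  [10,8,8,8,6,6,5,1],
  [10,8,8,8,6,6,6],
  [10,8,8,8,7,3,3,3,1,1],
  [10,8,8,8,7,3,3,3,2],
  [10,8,8,8,7,4,3,1,1,1,1],
  [10,8,8,8,7,4,3,2,1,1],
  [10,8,8,8,7,4,3,2,2],
  [10,8,8,8,7,4,3,3,1],
  [10,8,8,8,7,4,4,1,1,1],
  [10,8,8,8,7,4,4,2,1],
  [10,8,8,8,7,4,4,3],
  [10,8,8,8,7,5,1,1,1,1,1,1],
  [10,8,8,8,7,5,2,1,1,1,1],
  [10,8,8,8,7,5,2,2,1,1],
  [10,8,8,8,7,5,2,2,2],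
  [10,8,8,8,7,5,3,1,1,1],
  [10,8,8,8,7,5,3,2,1],
  [10,8,8,8,7,5,3,3],
  [10,8,8,8,7,5,4,1,1],
  [10,8,8,8,7,5,4,2],
  [10,8,8,8,7,5,5,1],
  [10,8,8,8,7,6,1,1,1,1,1],
  [10,8,8,8,7,6,2,1,1,1],
  [10,8,8,8,7,6,2,2,1],
  [10,8,8,8,7,6,3,1,1],
  [10,8,8,8,7,6,3,2],
  [10,8,8,8,7,6,4,1],
  [10,8,8,8,7,6,5],
  [10,8,8,8,7,7,1,1,1,1],
  [10,8,8,8,7,7,2,1,1],
  [10,8,8,8,7,7,2,2],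
  [10,8,8,8,7,7,3,1],
  [10,8,8,8,7,7,4],
  [10,8,8,8,8,3,3,1,1,1,1],
  [10,8,8,8,8,3,3,2,1,1],
  [10,8,8,8,8,3,3,2,2],
  [10,8,8,8,8,3,3,3,1],
  [10,8,8,8,8,4,1,1,1,1,1,1],
  [10,8,8,8,8,4,2,1,1,1,1],
  [10,8,8,8,8,4,2,2,1,1],
  [10,8,8,8,8,4,2,2,2],
  [10,8,8,8,8,4,3,1,1,1],
  [10,8,8,8,8,4,3,2,1],
  [10,8,8,8,8,4,3,3],
  [10,8,8,8,8,4,4,1,1],
  [10,8,8,8,8,4,4,2],
  [10,8,8,8,8,5,1,1,1,1,1],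
  [10,8,8,8,8,5,2,1,1,1],
  [10,8,8,8,8,5,2,2,1],
  [10,8,8,8,8,5,3,1,1],
  [10,8,8,8,8,5,3,2],
  [10,8,8,8,8,5,4,1],
  [10,8,8,8,8,5,5],
  [10,8,8,8,8,6,1,1,1,1],
  [10,8,8,8,8,6,2,1,1],
  [10,8,8,8,8,6,2,2],
  [10,8,8,8,8,6,3,1],
  [10,8,8,8,8,6,4],
  [10,8,8,8,8,7,1,1,1],
  [10,8,8,8,8,7,2,1],
  [10,8,8,8,8,7,3],
  [10,8,8,8,8,8,1,1],
  [10,8,8,8,8,8,2],
  [11,6,5,5,5,5,5,5,5],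
  [11,6,6,5,5,5,5,5,4],
  [11,6,6,6,5,5,5,4,4],
  [11,6,6,6,5,5,5,5,3],
  [11,6,6,6,6,5,4,4,4],
  [11,6,6,6,6,5,5,4,3],
  [11,6,6,6,6,5,5,5,1,1],
  [11,6,6,6,6,5,5,5,2],
  [11,6,6,6,6,6,4,4,3],
  [11,6,6,6,6,6,5,3,3],
  [11,6,6,6,6,6,5,4,1,1],
  [11,6,6,6,6,6,5,4,2],
  [11,6,6,6,6,6,5,5,1],
  [11,6,6,6,6,6,6,3,1,1],
  [11,6,6,6,6,6,6,3,2],
  [11,6,6,6,6,6,6,4,1],
  [11,6,6,6,6,6,6,5],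
  [11,7,5,5,5,5,5,5,4],
  [11,7,6,5,5,5,5,4,4],
  [11,7,6,5,5,5,5,5,3],
  [11,7,6,6,5,5,4,4,4],
  [11,7,6,6,5,5,5,4,3],
  [11,7,6,6,5,5,5,5,1,1],
  [11,7,6,6,5,5,5,5,2],
  [11,7,6,6,6,4,4,4,4],
  [11,7,6,6,6,5,4,4,3],
  [11,7,6,6,6,5,5,3,3],
  [11,7,6,6,6,5,5,4,1,1],
  [11,7,6,6,6,5,5,4,2],
  [11,7,6,6,6,5,5,5,1],
  [11,7,6,6,6,6,4,3,3],
  [11,7,6,6,6,6,4,4,1,1],
  [11,7,6,6,6,6,4,4,2],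
  [11,7,6,6,6,6,5,3,1,1],
  [11,7,6,6,6,6,5,3,2],
  [11,7,6,6,6,6,5,4,1],
  [11,7,6,6,6,6,5,5],
  [11,7,6,6,6,6,6,1,1,1,1],
  [11,7,6,6,6,6,6,2,1,1],
  [11,7,6,6,6,6,6,2,2],
  [11,7,6,6,6,6,6,3,1],
  [11,7,6,6,6,6,6,4],
  [11,7,7,5,5,5,4,4,4],
  [11,7,7,5,5,5,5,4,3],
  [11,7,7,5,5,5,5,5,1,1],
  [11,7,7,5,5,5,5,5,2],
  [11,7,7,6,5,4,4,4,4],
  [11,7,7,6,5,5,4,4,3],
  [11,7,7,6,5,5,5,3,3],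
  [11,7,7,6,5,5,5,4,1,1],
  [11,7,7,6,5,5,5,4,2],
  [11,7,7,6,5,5,5,5,1],
  [11,7,7,6,6,4,4,4,3],
  [11,7,7,6,6,5,4,3,3],
  [11,7,7,6,6,5,4,4,1,1],
  [11,7,7,6,6,5,4,4,2],
  [11,7,7,6,6,5,5,3,1,1],
  [11,7,7,6,6,5,5,3,2],
  [11,7,7,6,6,5,5,4,1],
  [11,7,7,6,6,5,5,5],
  [11,7,7,6,6,6,3,3,3],
  [11,7,7,6,6,6,4,3,1,1],
  [11,7,7,6,6,6,4,3,2],
  [11,7,7,6,6,6,4,4,1],
  [11,7,7,6,6,6,5,1,1,1,1],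
  [11,7,7,6,6,6,5,2,1,1],
  [11,7,7,6,6,6,5,2,2],
  [11,7,7,6,6,6,5,3,1],
  [11,7,7,6,6,6,5,4],
  [11,7,7,6,6,6,6,1,1,1],
  [11,7,7,6,6,6,6,2,1],
  [11,7,7,6,6,6,6,3],
  [11,7,7,7,4,4,4,4,4],
  [11,7,7,7,5,4,4,4,3],
  [11,7,7,7,5,5,4,3,3],
  [11,7,7,7,5,5,4,4,1,1],
  [11,7,7,7,5,5,4,4,2],
  [11,7,7,7,5,5,5,3,1,1],
  [11,7,7,7,5,5,5,3,2],
  [11,7,7,7,5,5,5,4,1],
  [11,7,7,7,5,5,5,5],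
  [11,7,7,7,6,4,4,3,3],
  [11,7,7,7,6,4,4,4,1,1],
  [11,7,7,7,6,4,4,4,2],
  [11,7,7,7,6,5,3,3,3],
  [11,7,7,7,6,5,4,3,1,1],
  [11,7,7,7,6,5,4,3,2],
  [11,7,7,7,6,5,4,4,1],
  [11,7,7,7,6,5,5,1,1,1,1],
  [11,7,7,7,6,5,5,2,1,1],
  [11,7,7,7,6,5,5,2,2],
  [11,7,7,7,6,5,5,3,1],
  [11,7,7,7,6,5,5,4],
  [11,7,7,7,6,6,3,3,1,1],
  [11,7,7,7,6,6,3,3,2],
  [11,7,7,7,6,6,4,1,1,1,1],
  [11,7,7,7,6,6,4,2,1,1],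
  [11,7,7,7,6,6,4,2,2],
  [11,7,7,7,6,6,4,3,1],
  [11,7,7,7,6,6,4,4],
  [11,7,7,7,6,6,5,1,1,1],
  [11,7,7,7,6,6,5,2,1],
  [11,7,7,7,6,6,5,3],
  [11,7,7,7,6,6,6,1,1],
  [11,7,7,7,6,6,6,2],
  [11,7,7,7,7,4,3,3,3],
  [11,7,7,7,7,4,4,3,1,1],
  [11,7,7,7,7,4,4,3,2],
  [11,7,7,7,7,4,4,4,1],
  [11,7,7,7,7,5,3,3,1,1],
  [11,7,7,7,7,5,3,3,2],
  [11,7,7,7,7,5,4,1,1,1,1],
  [11,7,7,7,7,5,4,2,1,1],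
  [11,7,7,7,7,5,4,2,2],
  [11,7,7,7,7,5,4,3,1],
  [11,7,7,7,7,5,4,4],
  [11,7,7,7,7,5,5,1,1,1],
  [11,7,7,7,7,5,5,2,1],
  [11,7,7,7,7,5,5,3],
  [11,7,7,7,7,6,3,1,1,1,1],
  [11,7,7,7,7,6,3,2,1,1],
  [11,7,7,7,7,6,3,2,2],
  [11,7,7,7,7,6,3,3,1],
  [11,7,7,7,7,6,4,1,1,1],
  [11,7,7,7,7,6,4,2,1],
  [11,7,7,7,7,6,4,3],
  [11,7,7,7,7,6,5,1,1],
  [11,7,7,7,7,6,5,2],
  [11,7,7,7,7,6,6,1],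
  [11,7,7,7,7,7,1,1,1,1,1,1],
  [11,7,7,7,7,7,2,1,1,1,1],
  [11,7,7,7,7,7,2,2,1,1],
  [11,7,7,7,7,7,2,2,2],
  [11,7,7,7,7,7,3,1,1,1],
  [11,7,7,7,7,7,3,2,1],
  [11,7,7,7,7,7,3,3],
  [11,7,7,7,7,7,4,1,1],
  [11,7,7,7,7,7,4,2],
  [11,7,7,7,7,7,5,1],
  [11,7,7,7,7,7,6],
  [12,5,5,5,5,5,5,5,5],
  [12,6,5,5,5,5,5,5,4],
  [12,6,6,5,5,5,5,4,4],
  [12,6,6,5,5,5,5,5,3],
  [12,6,6,6,5,5,4,4,4],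
  [12,6,6,6,5,5,5,4,3],
  [12,6,6,6,5,5,5,5,1,1],
  [12,6,6,6,5,5,5,5,2],
  [12,6,6,6,6,4,4,4,4],
  [12,6,6,6,6,5,4,4,3],
  [12,6,6,6,6,5,5,3,3],
  [12,6,6,6,6,5,5,4,1,1],
  [12,6,6,6,6,5,5,4,2],
  [12,6,6,6,6,5,5,5,1],
  [12,6,6,6,6,6,4,3,3],
  [12,6,6,6,6,6,4,4,1,1],
  [12,6,6,6,6,6,4,4,2],
  [12,6,6,6,6,6,5,3,1,1],
  [12,6,6,6,6,6,5,3,2],
  [12,6,6,6,6,6,5,4,1],
  [12,6,6,6,6,6,5,5],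
  [12,6,6,6,6,6,6,1,1,1,1],
  [12,6,6,6,6,6,6,2,1,1],
  [12,6,6,6,6,6,6,2,2]]

def dv6 : List Dv := [
  (.c 0 (.tw (.c 0 (.b 13) (.s13 (.tw (.s12 (.s13 (.c 0 (.b 57) (.s13 (.tw (.s12 (.s13 (.c 0 (.b 381) (.b 478))))))))))))) (.s13 (.tw (.c 0 (.s13 (.tw (.c 0 (.b 345) (.b 714)))) (.tw (.s13 (.tw (.c 0 (.s13 (.tw (.c 0 (.b 136) (.s13 (.tw (.s12 (.s13 (.c 0 (.b 44) (.b 1))))))))) (.s13 (.tw (.c 0 (.b 5) (.s13 (.tw (.c 0 (.b 5) (.b 124))))))))))))))),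
  (.c 0 (.tw (.c 0 (.b 284) (.s13 (.tw (.s12 (.s13 (.c 0 (.b 63) (.b 93)))))))) (.s13 (.c 0 (.tw (.c 0 (.s13 (.tw (.c 0 (.b 14) (.s13 (.tw (.s12 (.s13 (.c 0 (.b 63) (.b 536))))))))) (.tw (.s13 (.tw (.c 0 (.s13 (.tw (.c 0 (.b 136) (.s13 (.tw (.s12 (.s13 (.c 0 (.b 44) (.b 1))))))))) (.s13 (.tw (.c 0 (.b 5) (.s13 (.tw (.c 0 (.b 5) (.b 124))))))))))))) (.b 1)))),
  (.c 0 (.tw (.c 0 (.b 13) (.s13 (.tw (.s12 (.s13 (.c 0 (.b 57) (.s13 (.tw (.s12 (.s13 (.c 0 (.b 381) (.b 478))))))))))))) (.s13 (.tw (.c 0 (.s13 (.tw (.c 0 (.b 14) (.s13 (.tw (.s12 (.s13 (.c 0 (.b 63) (.b 536))))))))) (.tw (.s13 (.tw (.c 0 (.s13 (.tw (.c 0 (.b 136) (.s13 (.tw (.s12 (.s13 (.c 0 (.b 44) (.b 1))))))))) (.s13 (.tw (.c 0 (.b 5) (.s13 (.tw (.c 0 (.b 5) (.b 124))))))))))))))),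
  (.tw (.s13 (.c 0 (.s12 (.s13 (.tw (.s12 (.c 0 (.s13 (.tw (.c 0 (.b 443) (.b 16)))) (.b 526)))))) (.s13 (.tw (.s12 (.c 0 (.s13 (.tw (.c 0 (.b 136) (.s13 (.tw (.s12 (.s13 (.c 0 (.b 14) (.b 239))))))))) (.s12 (.s13 (.tw (.c 0 (.s13 (.tw (.c 0 (.b 136) (.b 44)))) (.s13 (.tw (.s13 (.s12 (.c 0 (.b 140) (.s13 (.tw (.s13 (.c 0 (.b 5) (.b 143))))))))))))))))))))),
  (.c 0 (.tw (.c 0 (.b 416) (.s13 (.tw (.s12 (.s13 (.c 0 (.b 63) (.b 159)))))))) (.s13 (.c 0 (.tw (.c 0 (.s13 (.tw (.c 0 (.b 57) (.s13 (.tw (.s12 (.s13 (.c 0 (.b 57) (.b 44))))))))) (.tw (.s13 (.tw (.c 0 (.s13 (.tw (.c 0 (.b 136) (.b 44)))) (.s13 (.tw (.c 0 (.b 5) (.s13 (.tw (.c 0 (.b 5) (.b 124))))))))))))) (.b 1)))),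
  (.c 0 (.tw (.c 0 (.b 284) (.s13 (.tw (.s12 (.s13 (.c 0 (.b 63) (.b 93)))))))) (.s13 (.tw (.c 0 (.s12 (.s13 (.tw (.s12 (.c 0 (.b 279) (.b 207)))))) (.tw (.s12 (.s13 (.tw (.c 0 (.s13 (.tw (.c 0 (.b 136) (.s13 (.tw (.s12 (.s13 (.c 0 (.b 44) (.b 1))))))))) (.s13 (.tw (.c 0 (.tw (.c 0 (.b 63) (.b 136))) (.s13 (.tw (.c 0 (.b 5) (.b 124)))))))))))))))),
  (.c 0 (.tw (.c 0 (.b 284) (.s13 (.tw (.s12 (.s13 (.c 0 (.b 63) (.b 93)))))))) (.s13 (.c 0 (.tw (.c 0 (.s13 (.tw (.c 0 (.b 57) (.s13 (.tw (.s12 (.s13 (.c 0 (.b 57) (.b 44))))))))) (.tw (.s13 (.tw (.c 0 (.s13 (.tw (.c 0 (.b 136) (.b 44)))) (.s13 (.tw (.c 0 (.b 5) (.s13 (.tw (.c 0 (.b 5) (.b 124))))))))))))) (.b 1)))),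
  (.c 0 (.tw (.c 0 (.tw (.s13 (.tw (.c 0 (.b 478) (.b 16))))) (.b 111))) (.s13 (.tw (.c 0 (.s12 (.s13 (.tw (.c 0 (.b 136) (.s13 (.tw (.s12 (.s13 (.c 0 (.b 13) (.b 546)))))))))) (.tw (.s12 (.s13 (.tw (.c 0 (.s13 (.tw (.c 0 (.b 136) (.s13 (.tw (.s12 (.s13 (.c 0 (.b 44) (.b 1))))))))) (.s13 (.tw (.c 0 (.tw (.c 0 (.b 63) (.b 136))) (.s13 (.tw (.c 0 (.b 5) (.b 124)))))))))))))))),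
  (.c 0 (.tw (.c 0 (.b 416) (.s13 (.tw (.s12 (.s13 (.c 0 (.b 63) (.b 159)))))))) (.s13 (.tw (.c 0 (.s12 (.s13 (.tw (.c 0 (.b 136) (.s13 (.tw (.s12 (.s13 (.c 0 (.b 13) (.b 546)))))))))) (.tw (.s12 (.s13 (.tw (.c 0 (.s13 (.tw (.c 0 (.b 136) (.s13 (.tw (.s12 (.s13 (.c 0 (.b 44) (.b 1))))))))) (.s13 (.tw (.c 0 (.tw (.c 0 (.b 63) (.b 136))) (.s13 (.tw (.c 0 (.b 5) (.b 124)))))))))))))))),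
  (.c 0 (.tw (.c 0 (.b 284) (.s13 (.tw (.s12 (.s13 (.c 0 (.b 63) (.b 93)))))))) (.s13 (.tw (.c 0 (.s12 (.s13 (.tw (.c 0 (.b 136) (.s13 (.tw (.s12 (.s13 (.c 0 (.b 13) (.b 546)))))))))) (.tw (.s12 (.s13 (.tw (.c 0 (.s13 (.tw (.c 0 (.b 136) (.s13 (.tw (.s12 (.s13 (.c 0 (.b 44) (.b 1))))))))) (.s13 (.tw (.c 0 (.tw (.c 0 (.b 63) (.b 136))) (.s13 (.tw (.c 0 (.b 5) (.b 124)))))))))))))))),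
  (.c 0 (.tw (.c 0 (.b 13) (.s13 (.tw (.s12 (.s13 (.c 0 (.b 13) (.c 0 (.b 136) (.s13 (.tw (.s12 (.s13 (.c 0 (.b 13) (.b 138)))))))))))))) (.s13 (.tw (.c 0 (.tw (.c 0 (.b 279) (.b 16))) (.tw (.s13 (.tw (.c 0 (.s13 (.tw (.c 0 (.b 136) (.s13 (.tw (.s12 (.s13 (.c 0 (.b 44) (.b 12))))))))) (.s13 (.tw (.c 0 (.b 320) (.s13 (.tw (.c 0 (.b 5) (.b 5))))))))))))))),
  (.c 0 (.tw (.c 0 (.b 13) (.s13 (.tw (.s12 (.s13 (.c 0 (.b 13) (.c 0 (.b 136) (.s13 (.tw (.s12 (.s13 (.c 0 (.b 13) (.b 138)))))))))))))) (.s13 (.tw (.c 0 (.s13 (.tw (.c 0 (.b 304) (.b 147)))) (.s13 (.tw (.c 0 (.s13 (.tw (.c 0 (.b 136) (.b 44)))) (.s13 (.tw (.s12 (.c 0 (.b 320) (.s13 (.tw (.c 0 (.b 5) (.b 5))))))))))))))),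
  (.tw (.s13 (.c 0 (.s12 (.s13 (.tw (.c 0 (.b 348) (.tw (.s13 (.tw (.s13 (.c 0 (.b 43) (.b 388)))))))))) (.tw (.s12 (.c 0 (.s13 (.tw (.s13 (.s12 (.c 0 (.tw (.s12 (.c 0 (.b 67) (.b 247)))) (.b 67)))))) (.s13 (.tw (.c 0 (.tw (.s12 (.s13 (.tw (.c 0 (.b 5) (.b 239)))))) (.s13 (.tw (.s13 (.c 0 (.b 223) (.b 269)))))))))))))),
  (.tw (.s13 (.c 0 (.s12 (.s13 (.tw (.c 0 (.b 348) (.tw (.s13 (.tw (.s13 (.c 0 (.b 43) (.b 388)))))))))) (.tw (.s12 (.c 0 (.s13 (.tw (.c 0 (.b 714) (.b 29)))) (.s13 (.tw (.c 0 (.s13 (.tw (.c 0 (.b 136) (.b 351)))) (.s13 (.tw (.s13 (.c 0 (.tw (.c 0 (.b 136) (.b 136))) (.s13 (.c 0 (.b 42) (.tw (.c 0 (.b 136) (.b 136)))))))))))))))))),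
  (.c 0 (.tw (.c 0 (.b 416) (.s13 (.tw (.s12 (.s13 (.c 0 (.b 63) (.b 159)))))))) (.s13 (.c 0 (.tw (.c 0 (.s13 (.tw (.c 0 (.b 14) (.s13 (.tw (.s12 (.s13 (.c 0 (.b 136) (.s13 (.tw (.s12 (.s13 (.c 0 (.b 13) (.b 200)))))))))))))) (.tw (.s13 (.tw (.c 0 (.s13 (.tw (.c 0 (.b 136) (.b 44)))) (.s13 (.tw (.c 0 (.b 5) (.s13 (.tw (.c 0 (.b 5) (.b 63))))))))))))) (.b 1)))),
  (.c 0 (.tw (.c 0 (.b 19) (.s13 (.tw (.s12 (.s13 (.c 0 (.b 567) (.b 21)))))))) (.s13 (.tw (.c 0 (.s13 (.tw (.c 0 (.b 14) (.s13 (.tw (.s12 (.s13 (.c 0 (.b 136) (.s13 (.tw (.s12 (.s13 (.c 0 (.b 13) (.b 200)))))))))))))) (.tw (.s13 (.tw (.c 0 (.s13 (.tw (.c 0 (.b 136) (.b 44)))) (.s13 (.tw (.c 0 (.b 5) (.s13 (.tw (.c 0 (.b 5) (.b 63))))))))))))))),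
  (.c 0 (.tw (.c 0 (.tw (.s13 (.tw (.c 0 (.b 478) (.b 16))))) (.b 111))) (.s13 (.tw (.c 0 (.s12 (.s13 (.tw (.c 0 (.b 13) (.s13 (.tw (.s12 (.s13 (.c 0 (.b 58) (.c 0 (.b 136) (.b 136))))))))))) (.tw (.s12 (.s13 (.tw (.c 0 (.s13 (.tw (.c 0 (.b 136) (.b 44)))) (.s13 (.tw (.c 0 (.b 387) (.s13 (.tw (.c 0 (.b 384) (.b 5)))))))))))))))),
  (.c 0 (.tw (.c 0 (.b 416) (.s13 (.tw (.s12 (.s13 (.c 0 (.b 63) (.b 159)))))))) (.s13 (.tw (.c 0 (.s12 (.s13 (.tw (.c 0 (.b 13) (.s13 (.tw (.s12 (.s13 (.c 0 (.b 58) (.c 0 (.b 136) (.b 136))))))))))) (.tw (.s12 (.s13 (.tw (.c 0 (.s13 (.tw (.c 0 (.b 136) (.b 44)))) (.s13 (.tw (.c 0 (.b 387) (.s13 (.tw (.c 0 (.b 384) (.b 5)))))))))))))))),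
  (.c 0 (.tw (.c 0 (.b 284) (.s13 (.tw (.s12 (.s13 (.c 0 (.b 63) (.b 93)))))))) (.s13 (.tw (.c 0 (.s12 (.s13 (.tw (.c 0 (.b 13) (.s13 (.tw (.s12 (.s13 (.c 0 (.b 58) (.c 0 (.b 136) (.b 136))))))))))) (.tw (.s12 (.s13 (.tw (.c 0 (.s13 (.tw (.c 0 (.b 136) (.b 44)))) (.s13 (.tw (.c 0 (.b 387) (.s13 (.tw (.c 0 (.b 384) (.b 5)))))))))))))))),
  (.c 0 (.tw (.c 0 (.b 13) (.s13 (.tw (.s12 (.s13 (.c 0 (.b 57) (.s13 (.tw (.s12 (.s13 (.c 0 (.b 381) (.b 478))))))))))))) (.s13 (.tw (.c 0 (.s13 (.tw (.c 0 (.b 58) (.s13 (.tw (.s12 (.s13 (.c 0 (.b 14) (.c 0 (.b 136) (.b 136)))))))))) (.tw (.s13 (.tw (.c 0 (.s13 (.tw (.c 0 (.b 5) (.s13 (.tw (.c 0 (.b 5) (.b 465))))))) (.s13 (.tw (.c 0 (.b 63) (.b 44)))))))))))),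
  (.c 0 (.tw (.c 0 (.b 13) (.s13 (.tw (.s12 (.s13 (.c 0 (.b 57) (.s13 (.tw (.s12 (.s13 (.c 0 (.b 381) (.b 478))))))))))))) (.s13 (.tw (.c 0 (.s13 (.tw (.c 0 (.b 14) (.s13 (.tw (.s12 (.s13 (.c 0 (.b 136) (.s13 (.tw (.s12 (.s13 (.c 0 (.b 13) (.b 200)))))))))))))) (.tw (.s13 (.tw (.c 0 (.s13 (.tw (.c 0 (.b 136) (.b 44)))) (.s13 (.tw (.c 0 (.b 5) (.s13 (.tw (.c 0 (.b 5) (.b 63))))))))))))))),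
  (.c 0 (.tw (.c 0 (.b 13) (.s13 (.tw (.s12 (.s13 (.c 0 (.b 13) (.c 0 (.b 136) (.s13 (.tw (.s12 (.s13 (.c 0 (.b 13) (.b 138)))))))))))))) (.s13 (.tw (.c 0 (.s13 (.tw (.c 0 (.b 58) (.s13 (.tw (.s12 (.s13 (.c 0 (.b 14) (.c 0 (.b 136) (.b 136)))))))))) (.tw (.s13 (.tw (.c 0 (.s13 (.tw (.c 0 (.b 5) (.s13 (.tw (.c 0 (.b 384) (.b 5))))))) (.s13 (.tw (.s12 (.c 0 (.b 44) (.b 12))))))))))))),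
  (.c 0 (.tw (.c 0 (.b 14) (.s13 (.tw (.s12 (.s13 (.c 0 (.b 14) (.c 0 (.b 304) (.s13 (.tw (.s12 (.s13 (.c 0 (.b 63) (.b 369)))))))))))))) (.s13 (.tw (.c 0 (.s13 (.tw (.c 0 (.b 58) (.s13 (.tw (.s12 (.s13 (.c 0 (.b 124) (.b 44))))))))) (.tw (.s12 (.s13 (.tw (.c 0 (.s13 (.tw (.c 0 (.b 63) (.b 44)))) (.s13 (.tw (.c 0 (.b 5) (.c 0 (.b 5) (.b 12)))))))))))))),
  (.tw (.s13 (.c 0 (.s12 (.s13 (.tw (.s12 (.c 0 (.tw (.s13 (.tw (.s12 (.c 0 (.b 13) (.b 207)))))) (.b 111)))))) (.s13 (.tw (.s12 (.c 0 (.s13 (.tw (.c 0 (.b 136) (.s13 (.tw (.s12 (.s13 (.c 0 (.b 63) (.b 369))))))))) (.tw (.s12 (.s13 (.tw (.c 0 (.s13 (.tw (.c 0 (.b 13) (.b 337)))) (.s13 (.tw (.c 0 (.tw (.c 0 (.b 136) (.b 136))) (.s13 (.c 0 (.b 42) (.tw (.c 0 (.b 136) (.b 136)))))))))))))))))))),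
  (.c 0 (.tw (.c 0 (.tw (.s13 (.tw (.c 0 (.b 478) (.b 16))))) (.b 111))) (.s13 (.tw (.c 0 (.s12 (.s13 (.tw (.c 0 (.b 462) (.s13 (.tw (.s13 (.c 0 (.b 13) (.b 225))))))))) (.s13 (.tw (.c 0 (.s13 (.tw (.c 0 (.b 136) (.b 44)))) (.s13 (.tw (.c 0 (.b 5) (.s13 (.tw (.c 0 (.b 5) (.b 63)))))))))))))),
  (.c 0 (.tw (.c 0 (.b 416) (.s13 (.tw (.s12 (.s13 (.c 0 (.b 63) (.b 159)))))))) (.s13 (.tw (.c 0 (.s12 (.s13 (.tw (.c 0 (.b 462) (.s13 (.tw (.s13 (.c 0 (.b 13) (.b 225))))))))) (.s13 (.tw (.c 0 (.s13 (.tw (.c 0 (.b 136) (.b 44)))) (.s13 (.tw (.c 0 (.b 5) (.s13 (.tw (.c 0 (.b 5) (.b 63)))))))))))))),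
  (.c 0 (.tw (.c 0 (.b 284) (.s13 (.tw (.s12 (.s13 (.c 0 (.b 63) (.b 93)))))))) (.s13 (.tw (.c 0 (.s12 (.s13 (.tw (.c 0 (.b 164) (.s13 (.tw (.s12 (.s13 (.c 0 (.b 14) (.c 0 (.b 136) (.b 136))))))))))) (.s13 (.tw (.c 0 (.s13 (.tw (.c 0 (.s13 (.tw (.c 0 (.b 5) (.b 284)))) (.b 5)))) (.s13 (.tw (.c 0 (.b 63) (.b 44))))))))))),
  (.c 0 (.tw (.c 0 (.b 284) (.s13 (.tw (.s12 (.s13 (.c 0 (.b 63) (.b 93)))))))) (.s13 (.tw (.c 0 (.s12 (.s13 (.tw (.c 0 (.b 462) (.s13 (.tw (.s13 (.c 0 (.b 13) (.b 225))))))))) (.s13 (.tw (.c 0 (.s13 (.tw (.c 0 (.b 136) (.b 44)))) (.s13 (.tw (.c 0 (.b 5) (.s13 (.tw (.c 0 (.b 5) (.b 63)))))))))))))),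
  (.c 0 (.s12 (.s13 (.tw (.s12 (.c 0 (.b 13) (.s13 (.tw (.s12 (.s13 (.c 0 (.b 136) (.s13 (.tw (.s12 (.s13 (.c 0 (.b 284) (.b 147)))))))))))))))) (.s13 (.tw (.s12 (.c 0 (.s13 (.tw (.c 0 (.b 14) (.s13 (.tw (.s12 (.s13 (.c 0 (.b 14) (.c 0 (.b 136) (.b 247)))))))))) (.s13 (.tw (.c 0 (.s13 (.tw (.c 0 (.b 5) (.s13 (.tw (.c 0 (.b 5) (.b 63))))))) (.s13 (.tw (.c 0 (.b 63) (.b 44)))))))))))),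
  (.c 0 (.tw (.c 0 (.b 13) (.s13 (.tw (.s12 (.s13 (.c 0 (.b 13) (.c 0 (.b 136) (.s13 (.tw (.s12 (.s13 (.c 0 (.b 13) (.b 138)))))))))))))) (.s13 (.tw (.c 0 (.tw (.s13 (.tw (.c 0 (.b 192) (.s13 (.tw (.s13 (.c 0 (.b 24) (.b 44))))))))) (.tw (.s13 (.tw (.c 0 (.b 348) (.s13 (.tw (.s13 (.c 0 (.b 143) (.s13 (.tw (.c 0 (.b 5) (.b 5)))))))))))))))),
  (.c 0 (.tw (.c 0 (.b 284) (.s13 (.tw (.s12 (.s13 (.c 0 (.b 63) (.b 93)))))))) (.s13 (.c 0 (.tw (.s13 (.c 0 (.tw (.c 0 (.b 12) (.b 137))) (.tw (.s12 (.s13 (.s12 (.c 0 (.s13 (.tw (.s12 (.s13 (.c 0 (.b 24) (.b 136)))))) (.tw (.s12 (.s13 (.tw (.c 0 (.b 381) (.b 41)))))))))))))) (.tw (.c 0 (.b 63) (.c 0 (.b 136) (.c 0 (.b 136) (.b 136)))))))),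
  (.s13 (.c 0 (.tw (.c 0 (.b 348) (.s13 (.tw (.s12 (.s13 (.c 0 (.b 381) (.b 172)))))))) (.s13 (.c 0 (.tw (.c 0 (.s13 (.tw (.c 0 (.b 136) (.b 236)))) (.tw (.s12 (.s13 (.tw (.c 0 (.s13 (.tw (.c 0 (.b 136) (.s13 (.tw (.s12 (.s13 (.c 0 (.b 44) (.b 1))))))))) (.s13 (.tw (.c 0 (.b 296) (.s13 (.tw (.c 0 (.b 5) (.b 5)))))))))))))) (.b 1))))),
  (.c 0 (.tw (.c 0 (.b 13) (.s13 (.tw (.s12 (.s13 (.c 0 (.b 57) (.s13 (.tw (.s12 (.s13 (.c 0 (.b 381) (.b 478))))))))))))) (.s13 (.tw (.c 0 (.tw (.c 0 (.b 726) (.b 136))) (.tw (.s13 (.tw (.c 0 (.s13 (.tw (.c 0 (.b 136) (.b 44)))) (.tw (.s12 (.s13 (.tw (.c 0 (.b 5) (.s13 (.tw (.s12 (.s13 (.c 0 (.b 601) (.b 5))))))))))))))))))),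
  (.c 0 (.tw (.c 0 (.b 284) (.s13 (.tw (.s12 (.s13 (.c 0 (.b 63) (.b 93)))))))) (.s13 (.tw (.c 0 (.s13 (.tw (.s12 (.c 0 (.b 615) (.b 273))))) (.tw (.s12 (.s13 (.tw (.c 0 (.s13 (.tw (.c 0 (.b 136) (.b 44)))) (.s13 (.tw (.c 0 (.s13 (.tw (.c 0 (.b 57) (.b 136)))) (.s13 (.tw (.c 0 (.b 5) (.b 5)))))))))))))))),
  (.s13 (.c 0 (.tw (.c 0 (.b 538) (.s13 (.tw (.s12 (.s13 (.c 0 (.b 381) (.b 172)))))))) (.s13 (.tw (.c 0 (.s13 (.tw (.c 0 (.b 136) (.b 236)))) (.tw (.s12 (.s13 (.tw (.c 0 (.s13 (.tw (.c 0 (.b 136) (.b 462)))) (.s13 (.tw (.c 0 (.s13 (.tw (.c 0 (.b 57) (.b 136)))) (.s13 (.tw (.c 0 (.b 5) (.b 5))))))))))))))))),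
  (.c 0 (.tw (.c 0 (.b 284) (.s13 (.tw (.s12 (.s13 (.c 0 (.b 63) (.b 93)))))))) (.s13 (.tw (.c 0 (.s13 (.tw (.s12 (.c 0 (.b 189) (.b 273))))) (.tw (.s12 (.s13 (.tw (.c 0 (.s13 (.tw (.c 0 (.b 136) (.b 44)))) (.s13 (.tw (.c 0 (.s13 (.tw (.c 0 (.b 57) (.b 136)))) (.s13 (.tw (.c 0 (.b 5) (.b 5)))))))))))))))),
  (.c 0 (.tw (.c 0 (.b 13) (.s13 (.tw (.s12 (.s13 (.c 0 (.b 57) (.s13 (.tw (.s12 (.s13 (.c 0 (.b 381) (.b 478))))))))))))) (.s13 (.tw (.c 0 (.s13 (.tw (.c 0 (.b 13) (.b 462)))) (.tw (.s13 (.tw (.c 0 (.s13 (.tw (.c 0 (.b 304) (.b 44)))) (.s13 (.tw (.c 0 (.s13 (.tw (.c 0 (.b 44) (.b 1)))) (.s13 (.tw (.c 0 (.b 5) (.b 5))))))))))))))),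
  (.s13 (.c 0 (.tw (.c 0 (.b 538) (.s13 (.tw (.s12 (.s13 (.c 0 (.b 63) (.b 21)))))))) (.s13 (.tw (.c 0 (.s13 (.tw (.c 0 (.b 136) (.b 236)))) (.tw (.s12 (.s13 (.tw (.c 0 (.s13 (.tw (.c 0 (.b 136) (.b 462)))) (.s13 (.tw (.c 0 (.s13 (.tw (.c 0 (.b 57) (.b 136)))) (.s13 (.tw (.c 0 (.b 5) (.b 5))))))))))))))))),
  (.c 0 (.tw (.c 0 (.b 284) (.s13 (.tw (.s12 (.s13 (.c 0 (.b 63) (.b 93)))))))) (.s13 (.tw (.c 0 (.s13 (.tw (.s12 (.c 0 (.b 19) (.tw (.s12 (.s13 (.tw (.c 0 (.b 63) (.b 41)))))))))) (.tw (.s12 (.s13 (.tw (.c 0 (.s13 (.tw (.c 0 (.b 136) (.b 44)))) (.s13 (.tw (.c 0 (.s13 (.tw (.c 0 (.b 57) (.b 136)))) (.s13 (.tw (.c 0 (.b 5) (.b 5)))))))))))))))),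
  (.tw (.s13 (.c 0 (.tw (.c 0 (.b 348) (.s13 (.tw (.s12 (.s13 (.c 0 (.b 381) (.b 172)))))))) (.s13 (.c 0 (.tw (.c 0 (.s13 (.tw (.c 0 (.b 14) (.s13 (.tw (.s12 (.s13 (.c 0 (.b 136) (.b 598))))))))) (.tw (.s13 (.tw (.c 0 (.s13 (.tw (.c 0 (.b 136) (.b 44)))) (.tw (.s13 (.tw (.c 0 (.s13 (.tw (.s12 (.c 0 (.b 63) (.b 381))))) (.s13 (.tw (.c 0 (.b 63) (.b 44)))))))))))))) (.b 1)))))),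
  (.c 0 (.tw (.c 0 (.b 416) (.s13 (.tw (.s12 (.s13 (.c 0 (.b 63) (.b 159)))))))) (.s13 (.c 0 (.tw (.c 0 (.s13 (.tw (.c 0 (.b 12) (.b 137)))) (.tw (.s13 (.tw (.c 0 (.s13 (.tw (.c 0 (.b 12) (.b 172)))) (.s13 (.tw (.s12 (.s13 (.c 0 (.b 136) (.b 44)))))))))))) (.tw (.c 0 (.b 460) (.s13 (.tw (.s12 (.s13 (.c 0 (.b 136) (.b 351))))))))))),
  (.c 0 (.tw (.c 0 (.b 19) (.s13 (.tw (.s12 (.s13 (.c 0 (.b 567) (.b 21)))))))) (.s13 (.tw (.c 0 (.s13 (.tw (.c 0 (.b 136) (.b 462)))) (.tw (.s13 (.tw (.c 0 (.s13 (.tw (.c 0 (.b 136) (.b 44)))) (.tw (.s12 (.s13 (.tw (.c 0 (.b 5) (.s13 (.tw (.s12 (.s13 (.c 0 (.b 601) (.b 5))))))))))))))))))),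
  (.c 0 (.tw (.c 0 (.b 284) (.s13 (.tw (.s12 (.s13 (.c 0 (.b 63) (.b 93)))))))) (.s13 (.c 0 (.tw (.c 0 (.s13 (.tw (.c 0 (.b 12) (.b 137)))) (.tw (.s13 (.tw (.c 0 (.s13 (.tw (.c 0 (.b 12) (.b 172)))) (.s13 (.tw (.s12 (.s13 (.c 0 (.b 136) (.b 44)))))))))))) (.tw (.c 0 (.b 460) (.s13 (.tw (.s12 (.s13 (.c 0 (.b 136) (.b 351))))))))))),
  (.c 0 (.tw (.c 0 (.b 13) (.s13 (.tw (.s12 (.s13 (.c 0 (.b 57) (.s13 (.tw (.s12 (.s13 (.c 0 (.b 381) (.b 478))))))))))))) (.s13 (.tw (.c 0 (.s13 (.tw (.c 0 (.b 136) (.b 462)))) (.tw (.s13 (.tw (.c 0 (.s13 (.tw (.c 0 (.b 136) (.b 44)))) (.tw (.s12 (.s13 (.tw (.c 0 (.b 5) (.s13 (.tw (.s12 (.s13 (.c 0 (.b 601) (.b 5))))))))))))))))))),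
  (.c 0 (.tw (.c 0 (.tw (.s13 (.tw (.c 0 (.b 478) (.b 16))))) (.b 111))) (.s13 (.tw (.c 0 (.s12 (.s13 (.tw (.c 0 (.s13 (.tw (.s12 (.s13 (.c 0 (.b 14) (.c 0 (.b 136) (.b 136))))))) (.b 29))))) (.tw (.s12 (.s13 (.tw (.c 0 (.s13 (.tw (.s12 (.c 0 (.b 136) (.b 405))))) (.s13 (.tw (.c 0 (.b 73) (.s13 (.tw (.c 0 (.b 5) (.b 124)))))))))))))))),
  (.c 0 (.tw (.c 0 (.b 416) (.s13 (.tw (.s12 (.s13 (.c 0 (.b 63) (.b 159)))))))) (.s13 (.tw (.c 0 (.s12 (.s13 (.tw (.c 0 (.s13 (.tw (.s12 (.s13 (.c 0 (.b 14) (.c 0 (.b 136) (.b 136))))))) (.b 29))))) (.tw (.s12 (.s13 (.tw (.c 0 (.s13 (.tw (.s12 (.c 0 (.b 136) (.b 405))))) (.s13 (.tw (.c 0 (.b 73) (.s13 (.tw (.c 0 (.b 5) (.b 124)))))))))))))))),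
  (.c 0 (.tw (.c 0 (.b 284) (.s13 (.tw (.s12 (.s13 (.c 0 (.b 63) (.b 93)))))))) (.s13 (.tw (.c 0 (.s12 (.s13 (.tw (.c 0 (.s13 (.tw (.s12 (.s13 (.c 0 (.b 14) (.c 0 (.b 136) (.b 136))))))) (.b 29))))) (.tw (.s12 (.s13 (.tw (.c 0 (.s13 (.tw (.s12 (.c 0 (.b 136) (.b 405))))) (.s13 (.tw (.c 0 (.b 73) (.s13 (.tw (.c 0 (.b 5) (.b 124)))))))))))))))),
  (.c 0 (.tw (.c 0 (.b 284) (.s13 (.tw (.s12 (.s13 (.c 0 (.b 63) (.b 93)))))))) (.s13 (.tw (.c 0 (.tw (.s12 (.s13 (.s12 (.c 0 (.b 15) (.b 526)))))) (.tw (.s12 (.s13 (.tw (.c 0 (.s13 (.tw (.c 0 (.b 136) (.s13 (.tw (.s12 (.s13 (.c 0 (.b 44) (.b 1))))))))) (.s13 (.tw (.c 0 (.tw (.c 0 (.b 63) (.b 136))) (.s13 (.tw (.c 0 (.b 5) (.b 5)))))))))))))))),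
  (.s13 (.c 0 (.tw (.c 0 (.b 346) (.b 18))) (.s13 (.tw (.c 0 (.s13 (.tw (.c 0 (.b 136) (.b 236)))) (.tw (.s12 (.s13 (.tw (.c 0 (.s13 (.tw (.c 0 (.b 136) (.b 462)))) (.s13 (.tw (.c 0 (.tw (.c 0 (.b 136) (.b 136))) (.s13 (.tw (.s12 (.s13 (.c 0 (.b 601) (.b 5))))))))))))))))))),
  (.c 0 (.tw (.c 0 (.b 284) (.s13 (.tw (.s12 (.s13 (.c 0 (.b 63) (.b 93)))))))) (.s13 (.tw (.c 0 (.s12 (.s13 (.tw (.s12 (.c 0 (.b 714) (.b 58)))))) (.tw (.s12 (.s13 (.tw (.c 0 (.s13 (.tw (.c 0 (.b 136) (.s13 (.tw (.s12 (.s13 (.c 0 (.b 44) (.b 1))))))))) (.s13 (.tw (.c 0 (.tw (.c 0 (.b 63) (.b 136))) (.s13 (.tw (.c 0 (.b 5) (.b 5)))))))))))))))),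
  (.tw (.s13 (.c 0 (.s12 (.s13 (.tw (.s12 (.c 0 (.s13 (.tw (.c 0 (.s13 (.tw (.s13 (.c 0 (.b 443) (.b 1))))) (.b 1)))) (.b 526)))))) (.s13 (.tw (.s12 (.c 0 (.s13 (.tw (.c 0 (.b 136) (.b 236)))) (.s12 (.s13 (.tw (.c 0 (.s13 (.tw (.s12 (.c 0 (.b 136) (.s13 (.tw (.s12 (.s13 (.c 0 (.b 44) (.b 1)))))))))) (.s13 (.tw (.s13 (.s12 (.c 0 (.b 290) (.s13 (.tw (.s13 (.c 0 (.b 5) (.b 143))))))))))))))))))))),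
  (.c 0 (.tw (.c 0 (.b 416) (.s13 (.tw (.s12 (.s13 (.c 0 (.b 63) (.b 159)))))))) (.s13 (.c 0 (.tw (.c 0 (.s13 (.tw (.c 0 (.b 12) (.b 137)))) (.tw (.s13 (.tw (.c 0 (.s13 (.tw (.c 0 (.b 12) (.b 172)))) (.s13 (.tw (.s12 (.s13 (.c 0 (.b 136) (.b 44)))))))))))) (.tw (.c 0 (.b 718) (.c 0 (.b 136) (.b 136))))))),
  (.c 0 (.tw (.c 0 (.b 19) (.s13 (.tw (.s12 (.s13 (.c 0 (.b 567) (.b 21)))))))) (.s13 (.tw (.c 0 (.s13 (.tw (.c 0 (.b 13) (.b 462)))) (.tw (.s13 (.tw (.c 0 (.s13 (.tw (.c 0 (.b 136) (.s13 (.tw (.s12 (.s13 (.c 0 (.b 44) (.b 1))))))))) (.s13 (.tw (.c 0 (.s13 (.tw (.c 0 (.b 44) (.b 1)))) (.s13 (.tw (.c 0 (.b 5) (.b 5))))))))))))))),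
  (.c 0 (.tw (.c 0 (.b 284) (.s13 (.tw (.s12 (.s13 (.c 0 (.b 63) (.b 93)))))))) (.s13 (.c 0 (.tw (.c 0 (.s13 (.tw (.c 0 (.b 12) (.b 137)))) (.tw (.s13 (.tw (.c 0 (.s13 (.tw (.c 0 (.b 12) (.b 172)))) (.s13 (.tw (.s12 (.s13 (.c 0 (.b 136) (.b 44)))))))))))) (.tw (.c 0 (.b 718) (.c 0 (.b 136) (.b 136))))))),
  (.c 0 (.tw (.c 0 (.b 13) (.s13 (.tw (.s12 (.s13 (.c 0 (.b 57) (.s13 (.tw (.s12 (.s13 (.c 0 (.b 381) (.b 478))))))))))))) (.s13 (.tw (.c 0 (.s13 (.tw (.c 0 (.b 13) (.b 462)))) (.tw (.s13 (.tw (.c 0 (.s13 (.tw (.c 0 (.b 136) (.s13 (.tw (.s12 (.s13 (.c 0 (.b 44) (.b 1))))))))) (.s13 (.tw (.c 0 (.s13 (.tw (.c 0 (.b 44) (.b 1)))) (.s13 (.tw (.c 0 (.b 5) (.b 5))))))))))))))),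
  (.tw (.s13 (.c 0 (.s12 (.s13 (.tw (.s12 (.c 0 (.s13 (.tw (.c 0 (.s13 (.tw (.s13 (.c 0 (.b 443) (.b 1))))) (.b 1)))) (.b 526)))))) (.s13 (.tw (.s12 (.c 0 (.s13 (.tw (.c 0 (.b 136) (.s13 (.tw (.s12 (.s13 (.c 0 (.b 14) (.b 239))))))))) (.s12 (.s13 (.tw (.c 0 (.s13 (.tw (.c 0 (.b 136) (.b 44)))) (.s13 (.tw (.s13 (.s12 (.c 0 (.b 140) (.s13 (.tw (.s13 (.c 0 (.b 5) (.b 143))))))))))))))))))))),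
  (.c 0 (.tw (.c 0 (.b 416) (.s13 (.tw (.s12 (.s13 (.c 0 (.b 63) (.b 159)))))))) (.s13 (.c 0 (.tw (.c 0 (.s13 (.tw (.c 0 (.b 13) (.b 236)))) (.tw (.s13 (.tw (.c 0 (.s13 (.tw (.c 0 (.b 136) (.s13 (.tw (.s12 (.s13 (.c 0 (.b 44) (.b 1))))))))) (.s13 (.tw (.c 0 (.s13 (.tw (.c 0 (.b 44) (.b 1)))) (.s13 (.tw (.c 0 (.b 5) (.b 5))))))))))))) (.b 1)))),
  (.c 0 (.tw (.c 0 (.b 284) (.s13 (.tw (.s12 (.s13 (.c 0 (.b 63) (.b 93)))))))) (.s13 (.tw (.c 0 (.s12 (.s13 (.tw (.s12 (.c 0 (.b 279) (.b 529)))))) (.tw (.s12 (.s13 (.tw (.c 0 (.s13 (.tw (.c 0 (.b 136) (.s13 (.tw (.s12 (.s13 (.c 0 (.b 44) (.b 1))))))))) (.s13 (.tw (.c 0 (.tw (.c 0 (.b 63) (.b 136))) (.s13 (.tw (.c 0 (.b 5) (.b 5)))))))))))))))),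
  (.c 0 (.tw (.c 0 (.b 284) (.s13 (.tw (.s12 (.s13 (.c 0 (.b 63) (.b 93)))))))) (.s13 (.c 0 (.tw (.c 0 (.s13 (.tw (.c 0 (.b 13) (.b 236)))) (.tw (.s13 (.tw (.c 0 (.s13 (.tw (.c 0 (.b 136) (.s13 (.tw (.s12 (.s13 (.c 0 (.b 44) (.b 1))))))))) (.s13 (.tw (.c 0 (.s13 (.tw (.c 0 (.b 44) (.b 1)))) (.s13 (.tw (.c 0 (.b 5) (.b 5))))))))))))) (.b 1)))),
  (.c 0 (.tw (.c 0 (.tw (.s13 (.tw (.c 0 (.b 478) (.b 16))))) (.b 111))) (.s13 (.tw (.c 0 (.s12 (.s13 (.tw (.c 0 (.b 13) (.s13 (.tw (.s12 (.s13 (.c 0 (.b 13) (.b 337)))))))))) (.tw (.s12 (.s13 (.tw (.c 0 (.s13 (.tw (.c 0 (.b 136) (.s13 (.tw (.s12 (.s13 (.c 0 (.b 44) (.b 1))))))))) (.s13 (.tw (.c 0 (.tw (.c 0 (.b 63) (.b 136))) (.s13 (.tw (.c 0 (.b 5) (.b 5)))))))))))))))),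
  (.c 0 (.tw (.c 0 (.b 416) (.s13 (.tw (.s12 (.s13 (.c 0 (.b 63) (.b 159)))))))) (.s13 (.tw (.c 0 (.s12 (.s13 (.tw (.c 0 (.b 13) (.s13 (.tw (.s12 (.s13 (.c 0 (.b 13) (.b 337)))))))))) (.tw (.s12 (.s13 (.tw (.c 0 (.s13 (.tw (.c 0 (.b 136) (.s13 (.tw (.s12 (.s13 (.c 0 (.b 44) (.b 1))))))))) (.s13 (.tw (.c 0 (.tw (.c 0 (.b 63) (.b 136))) (.s13 (.tw (.c 0 (.b 5) (.b 5)))))))))))))))),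
  (.c 0 (.tw (.c 0 (.b 284) (.s13 (.tw (.s12 (.s13 (.c 0 (.b 63) (.b 93)))))))) (.s13 (.tw (.c 0 (.s12 (.s13 (.tw (.c 0 (.b 13) (.s13 (.tw (.s12 (.s13 (.c 0 (.b 13) (.b 337)))))))))) (.tw (.s12 (.s13 (.tw (.c 0 (.s13 (.tw (.c 0 (.b 136) (.s13 (.tw (.s12 (.s13 (.c 0 (.b 44) (.b 1))))))))) (.s13 (.tw (.c 0 (.tw (.c 0 (.b 63) (.b 136))) (.s13 (.tw (.c 0 (.b 5) (.b 5)))))))))))))))),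
  (.c 0 (.tw (.c 0 (.b 13) (.s13 (.tw (.s12 (.s13 (.c 0 (.b 13) (.c 0 (.b 136) (.s13 (.tw (.s12 (.s13 (.c 0 (.b 13) (.b 138)))))))))))))) (.s13 (.tw (.c 0 (.s12 (.s13 (.tw (.s12 (.c 0 (.b 13) (.b 501)))))) (.tw (.s12 (.s13 (.tw (.c 0 (.tw (.s12 (.s13 (.tw (.c 0 (.b 67) (.s13 (.tw (.s13 (.c 0 (.b 14) (.b 44)))))))))) (.s13 (.tw (.c 0 (.b 5) (.s13 (.tw (.c 0 (.b 5) (.b 5)))))))))))))))),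
  (.c 0 (.tw (.c 0 (.b 13) (.s13 (.tw (.s12 (.s13 (.c 0 (.b 13) (.c 0 (.b 136) (.s13 (.tw (.s12 (.s13 (.c 0 (.b 13) (.b 138)))))))))))))) (.s13 (.tw (.c 0 (.s12 (.s13 (.tw (.c 0 (.b 13) (.b 604))))) (.tw (.s12 (.s13 (.tw (.c 0 (.tw (.s12 (.s13 (.tw (.c 0 (.b 67) (.s13 (.tw (.s13 (.c 0 (.b 14) (.b 44)))))))))) (.s13 (.tw (.c 0 (.b 5) (.s13 (.tw (.c 0 (.b 5) (.b 5)))))))))))))))),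
  (.tw (.s13 (.c 0 (.s12 (.s13 (.tw (.c 0 (.tw (.s12 (.s13 (.tw (.c 0 (.tw (.s12 (.s13 (.tw (.c 0 (.b 63) (.b 137)))))) (.b 58)))))) (.b 16))))) (.tw (.s12 (.c 0 (.s13 (.tw (.s13 (.s12 (.c 0 (.tw (.s12 (.c 0 (.b 67) (.b 247)))) (.b 67)))))) (.s13 (.tw (.c 0 (.tw (.s12 (.s13 (.tw (.c 0 (.b 5) (.b 239)))))) (.s13 (.tw (.s13 (.c 0 (.b 223) (.b 269)))))))))))))),
  (.tw (.s13 (.c 0 (.s12 (.s13 (.tw (.c 0 (.tw (.s12 (.s13 (.tw (.c 0 (.tw (.s12 (.s13 (.tw (.c 0 (.b 63) (.b 137)))))) (.b 58)))))) (.b 16))))) (.tw (.s12 (.c 0 (.s13 (.tw (.c 0 (.b 714) (.b 29)))) (.s13 (.tw (.c 0 (.s13 (.tw (.c 0 (.b 136) (.b 351)))) (.s13 (.tw (.s13 (.c 0 (.tw (.c 0 (.b 136) (.b 136))) (.s13 (.c 0 (.b 42) (.tw (.c 0 (.b 136) (.b 136)))))))))))))))))),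
  (.c 0 (.tw (.c 0 (.b 416) (.s13 (.tw (.s12 (.s13 (.c 0 (.b 63) (.b 159)))))))) (.s13 (.c 0 (.tw (.c 0 (.s13 (.tw (.c 0 (.b 136) (.s13 (.tw (.s12 (.s13 (.c 0 (.b 13) (.b 139))))))))) (.tw (.s13 (.tw (.c 0 (.s13 (.tw (.c 0 (.b 136) (.b 44)))) (.s13 (.tw (.c 0 (.b 5) (.s13 (.tw (.c 0 (.b 384) (.b 5))))))))))))) (.b 1)))),
  (.c 0 (.tw (.c 0 (.b 19) (.s13 (.tw (.s12 (.s13 (.c 0 (.b 567) (.b 21)))))))) (.s13 (.tw (.c 0 (.s13 (.tw (.c 0 (.b 136) (.s13 (.tw (.s12 (.s13 (.c 0 (.b 13) (.b 139))))))))) (.tw (.s13 (.tw (.c 0 (.s13 (.tw (.c 0 (.b 136) (.b 44)))) (.s13 (.tw (.c 0 (.b 5) (.s13 (.tw (.c 0 (.b 384) (.b 5))))))))))))))),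
  (.c 0 (.tw (.c 0 (.tw (.s13 (.tw (.c 0 (.b 478) (.b 16))))) (.b 111))) (.s13 (.tw (.c 0 (.s12 (.s13 (.tw (.c 0 (.b 13) (.s13 (.tw (.s12 (.s13 (.c 0 (.b 13) (.b 546)))))))))) (.tw (.s12 (.s13 (.tw (.c 0 (.s13 (.tw (.c 0 (.b 136) (.s13 (.tw (.s12 (.s13 (.c 0 (.b 44) (.b 1))))))))) (.s13 (.tw (.c 0 (.tw (.c 0 (.b 63) (.b 136))) (.s13 (.tw (.c 0 (.b 5) (.b 5)))))))))))))))),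
  (.c 0 (.tw (.c 0 (.b 416) (.s13 (.tw (.s12 (.s13 (.c 0 (.b 63) (.b 159)))))))) (.s13 (.tw (.c 0 (.s12 (.s13 (.tw (.c 0 (.b 13) (.s13 (.tw (.s12 (.s13 (.c 0 (.b 13) (.b 546)))))))))) (.tw (.s12 (.s13 (.tw (.c 0 (.s13 (.tw (.c 0 (.b 136) (.s13 (.tw (.s12 (.s13 (.c 0 (.b 44) (.b 1))))))))) (.s13 (.tw (.c 0 (.tw (.c 0 (.b 63) (.b 136))) (.s13 (.tw (.c 0 (.b 5) (.b 5)))))))))))))))),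
  (.c 0 (.tw (.c 0 (.b 284) (.s13 (.tw (.s12 (.s13 (.c 0 (.b 63) (.b 93)))))))) (.s13 (.tw (.c 0 (.s12 (.s13 (.tw (.c 0 (.b 13) (.s13 (.tw (.s12 (.s13 (.c 0 (.b 13) (.b 546)))))))))) (.tw (.s12 (.s13 (.tw (.c 0 (.s13 (.tw (.c 0 (.b 136) (.s13 (.tw (.s12 (.s13 (.c 0 (.b 44) (.b 1))))))))) (.s13 (.tw (.c 0 (.tw (.c 0 (.b 63) (.b 136))) (.s13 (.tw (.c 0 (.b 5) (.b 5)))))))))))))))),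
  (.c 0 (.tw (.c 0 (.b 13) (.s13 (.tw (.s12 (.s13 (.c 0 (.b 57) (.s13 (.tw (.s12 (.s13 (.c 0 (.b 381) (.b 478))))))))))))) (.s13 (.tw (.c 0 (.s13 (.tw (.c 0 (.b 279) (.b 29)))) (.tw (.s13 (.tw (.c 0 (.s13 (.tw (.c 0 (.b 136) (.s13 (.tw (.s12 (.s13 (.c 0 (.b 44) (.b 1))))))))) (.s13 (.tw (.c 0 (.s13 (.tw (.c 0 (.b 44) (.b 1)))) (.s13 (.tw (.c 0 (.b 5) (.b 5))))))))))))))),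
  (.c 0 (.tw (.c 0 (.b 13) (.s13 (.tw (.s12 (.s13 (.c 0 (.b 57) (.s13 (.tw (.s12 (.s13 (.c 0 (.b 381) (.b 478))))))))))))) (.s13 (.tw (.c 0 (.s13 (.tw (.c 0 (.b 136) (.s13 (.tw (.s12 (.s13 (.c 0 (.b 13) (.b 139))))))))) (.tw (.s13 (.tw (.c 0 (.s13 (.tw (.c 0 (.b 136) (.b 44)))) (.s13 (.tw (.c 0 (.b 5) (.s13 (.tw (.c 0 (.b 384) (.b 5))))))))))))))),
  (.c 0 (.tw (.c 0 (.b 13) (.s13 (.tw (.s12 (.s13 (.c 0 (.b 13) (.c 0 (.b 136) (.s13 (.tw (.s12 (.s13 (.c 0 (.b 13) (.b 138)))))))))))))) (.s13 (.tw (.c 0 (.s12 (.s13 (.tw (.c 0 (.b 63) (.b 147))))) (.tw (.s12 (.s13 (.tw (.c 0 (.tw (.s12 (.s13 (.tw (.c 0 (.b 67) (.s13 (.tw (.s13 (.c 0 (.b 14) (.b 44)))))))))) (.s13 (.tw (.c 0 (.b 5) (.s13 (.tw (.c 0 (.b 5) (.b 5)))))))))))))))),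
  (.c 0 (.tw (.c 0 (.b 14) (.s13 (.tw (.s12 (.s13 (.c 0 (.b 14) (.c 0 (.b 304) (.s13 (.tw (.s12 (.s13 (.c 0 (.b 63) (.b 369)))))))))))))) (.s13 (.tw (.c 0 (.tw (.s13 (.tw (.c 0 (.b 67) (.s13 (.tw (.s13 (.c 0 (.b 14) (.b 44))))))))) (.tw (.s12 (.s13 (.tw (.c 0 (.s13 (.tw (.c 0 (.b 5) (.b 5)))) (.s13 (.tw (.c 0 (.b 272) (.b 44))))))))))))),
  (.s13 (.c 0 (.s12 (.s13 (.tw (.s12 (.c 0 (.b 312) (.s13 (.tw (.s13 (.c 0 (.b 478) (.b 29)))))))))) (.s13 (.tw (.s12 (.c 0 (.s12 (.s13 (.tw (.c 0 (.b 14) (.s13 (.tw (.s12 (.s13 (.c 0 (.b 381) (.b 136)))))))))) (.s12 (.s13 (.tw (.c 0 (.s13 (.tw (.c 0 (.b 63) (.c 0 (.b 136) (.b 136))))) (.s13 (.tw (.s12 (.c 0 (.b 296) (.s13 (.tw (.c 0 (.b 5) (.b 5)))))))))))))))))),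
  (.c 0 (.tw (.c 0 (.b 284) (.s13 (.tw (.s12 (.s13 (.c 0 (.b 63) (.b 93)))))))) (.s13 (.tw (.c 0 (.tw (.s12 (.s13 (.s12 (.c 0 (.b 14) (.b 526)))))) (.tw (.s12 (.s13 (.tw (.c 0 (.tw (.s12 (.s13 (.tw (.c 0 (.b 67) (.s13 (.tw (.s13 (.c 0 (.b 14) (.b 44)))))))))) (.s13 (.tw (.c 0 (.tw (.c 0 (.b 63) (.b 136))) (.s13 (.tw (.c 0 (.b 5) (.b 5)))))))))))))))),
  (.tw (.s13 (.c 0 (.s12 (.s13 (.tw (.c 0 (.tw (.s13 (.tw (.s13 (.c 0 (.b 43) (.tw (.s12 (.s13 (.c 0 (.b 14) (.b 536)))))))))) (.b 13))))) (.tw (.s12 (.c 0 (.s13 (.tw (.c 0 (.b 714) (.b 29)))) (.s13 (.tw (.c 0 (.s13 (.tw (.c 0 (.b 136) (.b 180)))) (.s13 (.tw (.s13 (.c 0 (.tw (.c 0 (.b 136) (.b 136))) (.s13 (.c 0 (.b 42) (.tw (.c 0 (.b 136) (.b 136)))))))))))))))))),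
  (.c 0 (.tw (.c 0 (.b 416) (.s13 (.tw (.s12 (.s13 (.c 0 (.b 63) (.b 159)))))))) (.s13 (.c 0 (.tw (.c 0 (.s12 (.s13 (.tw (.s12 (.c 0 (.b 136) (.b 29)))))) (.tw (.s12 (.s13 (.tw (.c 0 (.tw (.s12 (.s13 (.tw (.c 0 (.b 67) (.s13 (.tw (.s13 (.c 0 (.b 14) (.b 44)))))))))) (.s13 (.tw (.c 0 (.s13 (.tw (.c 0 (.b 44) (.b 1)))) (.s13 (.tw (.c 0 (.b 5) (.b 5)))))))))))))) (.b 1)))),
  (.c 0 (.tw (.c 0 (.b 284) (.s13 (.tw (.s12 (.s13 (.c 0 (.b 63) (.b 93)))))))) (.s13 (.tw (.c 0 (.s12 (.s13 (.tw (.s12 (.c 0 (.b 58) (.b 546)))))) (.tw (.s12 (.s13 (.tw (.c 0 (.tw (.s12 (.s13 (.tw (.c 0 (.b 67) (.s13 (.tw (.s13 (.c 0 (.b 14) (.b 44)))))))))) (.s13 (.tw (.c 0 (.tw (.c 0 (.b 63) (.b 136))) (.s13 (.tw (.c 0 (.b 5) (.b 5)))))))))))))))),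
  (.c 0 (.tw (.c 0 (.b 284) (.s13 (.tw (.s12 (.s13 (.c 0 (.b 63) (.b 93)))))))) (.s13 (.c 0 (.tw (.c 0 (.s12 (.s13 (.tw (.s12 (.c 0 (.b 136) (.b 29)))))) (.tw (.s12 (.s13 (.tw (.c 0 (.tw (.s12 (.s13 (.tw (.c 0 (.b 67) (.s13 (.tw (.s13 (.c 0 (.b 14) (.b 44)))))))))) (.s13 (.tw (.c 0 (.s13 (.tw (.c 0 (.b 44) (.b 1)))) (.s13 (.tw (.c 0 (.b 5) (.b 5)))))))))))))) (.b 1)))),
  (.c 0 (.tw (.c 0 (.tw (.s13 (.tw (.c 0 (.b 478) (.b 16))))) (.b 111))) (.s13 (.tw (.c 0 (.s12 (.s13 (.tw (.c 0 (.b 136) (.s13 (.tw (.s12 (.s13 (.c 0 (.b 13) (.b 546)))))))))) (.tw (.s12 (.s13 (.tw (.c 0 (.s13 (.tw (.c 0 (.b 136) (.b 44)))) (.tw (.s12 (.s13 (.tw (.c 0 (.tw (.c 0 (.b 63) (.b 136))) (.s13 (.tw (.c 0 (.b 176) (.b 5)))))))))))))))))),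
  (.c 0 (.tw (.c 0 (.b 416) (.s13 (.tw (.s12 (.s13 (.c 0 (.b 63) (.b 159)))))))) (.s13 (.tw (.c 0 (.s12 (.s13 (.tw (.c 0 (.b 136) (.s13 (.tw (.s12 (.s13 (.c 0 (.b 13) (.b 546)))))))))) (.tw (.s12 (.s13 (.tw (.c 0 (.s13 (.tw (.c 0 (.b 136) (.b 44)))) (.tw (.s12 (.s13 (.tw (.c 0 (.tw (.c 0 (.b 63) (.b 136))) (.s13 (.tw (.c 0 (.b 176) (.b 5)))))))))))))))))),
  (.c 0 (.tw (.c 0 (.b 284) (.s13 (.tw (.s12 (.s13 (.c 0 (.b 63) (.b 93)))))))) (.s13 (.tw (.c 0 (.s12 (.s13 (.tw (.c 0 (.b 136) (.s13 (.tw (.s12 (.s13 (.c 0 (.b 13) (.b 546)))))))))) (.tw (.s12 (.s13 (.tw (.c 0 (.s13 (.tw (.c 0 (.b 136) (.b 44)))) (.tw (.s12 (.s13 (.tw (.c 0 (.tw (.c 0 (.b 63) (.b 136))) (.s13 (.tw (.c 0 (.b 176) (.b 5)))))))))))))))))),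
  (.tw (.s13 (.c 0 (.s12 (.s13 (.tw (.c 0 (.tw (.s13 (.tw (.s13 (.c 0 (.b 43) (.tw (.s12 (.s13 (.c 0 (.b 14) (.b 536)))))))))) (.b 13))))) (.tw (.s12 (.c 0 (.s13 (.tw (.s13 (.s12 (.c 0 (.tw (.s12 (.c 0 (.b 67) (.b 247)))) (.b 67)))))) (.s13 (.tw (.c 0 (.tw (.s12 (.s13 (.tw (.c 0 (.b 5) (.b 239)))))) (.s13 (.tw (.s13 (.c 0 (.b 223) (.b 269)))))))))))))),
  (.tw (.s13 (.c 0 (.s12 (.s13 (.tw (.c 0 (.tw (.s13 (.tw (.s13 (.c 0 (.b 43) (.tw (.s12 (.s13 (.c 0 (.b 14) (.b 536)))))))))) (.b 13))))) (.tw (.s12 (.c 0 (.s13 (.tw (.c 0 (.b 714) (.b 29)))) (.s13 (.tw (.c 0 (.s13 (.tw (.c 0 (.b 136) (.b 351)))) (.s13 (.tw (.s13 (.c 0 (.tw (.c 0 (.b 136) (.b 136))) (.s13 (.c 0 (.b 42) (.tw (.c 0 (.b 136) (.b 136)))))))))))))))))),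
  (.c 0 (.tw (.c 0 (.b 416) (.s13 (.tw (.s12 (.s13 (.c 0 (.b 63) (.b 159)))))))) (.s13 (.c 0 (.tw (.c 0 (.s13 (.tw (.c 0 (.b 57) (.s13 (.tw (.s12 (.s13 (.c 0 (.b 57) (.b 44))))))))) (.tw (.s13 (.tw (.c 0 (.s13 (.tw (.c 0 (.b 136) (.b 44)))) (.s13 (.tw (.c 0 (.b 5) (.s13 (.tw (.c 0 (.b 384) (.b 5))))))))))))) (.b 1)))),
  (.c 0 (.tw (.c 0 (.b 19) (.s13 (.tw (.s12 (.s13 (.c 0 (.b 567) (.b 21)))))))) (.s13 (.tw (.c 0 (.s13 (.tw (.c 0 (.b 57) (.s13 (.tw (.s12 (.s13 (.c 0 (.b 57) (.b 44))))))))) (.tw (.s13 (.tw (.c 0 (.s13 (.tw (.c 0 (.b 136) (.b 44)))) (.s13 (.tw (.c 0 (.b 5) (.s13 (.tw (.c 0 (.b 384) (.b 5))))))))))))))),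
  (.c 0 (.tw (.c 0 (.tw (.s13 (.tw (.c 0 (.b 478) (.b 16))))) (.b 111))) (.s13 (.tw (.c 0 (.s12 (.s13 (.tw (.s12 (.c 0 (.b 136) (.b 147)))))) (.tw (.s12 (.s13 (.tw (.c 0 (.tw (.s12 (.s13 (.tw (.c 0 (.b 67) (.s13 (.tw (.s13 (.c 0 (.b 14) (.b 44)))))))))) (.s13 (.tw (.c 0 (.tw (.c 0 (.b 63) (.b 136))) (.s13 (.tw (.c 0 (.b 5) (.b 5)))))))))))))))),
  (.c 0 (.tw (.c 0 (.b 416) (.s13 (.tw (.s12 (.s13 (.c 0 (.b 63) (.b 159)))))))) (.s13 (.tw (.c 0 (.s12 (.s13 (.tw (.s12 (.c 0 (.b 136) (.b 147)))))) (.tw (.s12 (.s13 (.tw (.c 0 (.tw (.s12 (.s13 (.tw (.c 0 (.b 67) (.s13 (.tw (.s13 (.c 0 (.b 14) (.b 44)))))))))) (.s13 (.tw (.c 0 (.tw (.c 0 (.b 63) (.b 136))) (.s13 (.tw (.c 0 (.b 5) (.b 5)))))))))))))))),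
  (.c 0 (.tw (.c 0 (.b 284) (.s13 (.tw (.s12 (.s13 (.c 0 (.b 63) (.b 93)))))))) (.s13 (.tw (.c 0 (.s12 (.s13 (.tw (.s12 (.c 0 (.b 136) (.b 147)))))) (.tw (.s12 (.s13 (.tw (.c 0 (.tw (.s12 (.s13 (.tw (.c 0 (.b 67) (.s13 (.tw (.s13 (.c 0 (.b 14) (.b 44)))))))))) (.s13 (.tw (.c 0 (.tw (.c 0 (.b 63) (.b 136))) (.s13 (.tw (.c 0 (.b 5) (.b 5)))))))))))))))),
  (.c 0 (.tw (.c 0 (.b 13) (.s13 (.tw (.s12 (.s13 (.c 0 (.b 57) (.s13 (.tw (.s12 (.s13 (.c 0 (.b 381) (.b 478))))))))))))) (.s13 (.tw (.c 0 (.s12 (.s13 (.tw (.s12 (.c 0 (.b 13) (.b 546)))))) (.tw (.s12 (.s13 (.tw (.c 0 (.tw (.s12 (.s13 (.tw (.c 0 (.b 67) (.s13 (.tw (.s13 (.c 0 (.b 14) (.b 44)))))))))) (.s13 (.tw (.c 0 (.s13 (.tw (.c 0 (.b 44) (.b 1)))) (.s13 (.tw (.c 0 (.b 5) (.b 5)))))))))))))))),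
  (.c 0 (.tw (.c 0 (.b 13) (.s13 (.tw (.s12 (.s13 (.c 0 (.b 57) (.s13 (.tw (.s12 (.s13 (.c 0 (.b 381) (.b 478))))))))))))) (.s13 (.tw (.c 0 (.s13 (.tw (.c 0 (.b 57) (.s13 (.tw (.s12 (.s13 (.c 0 (.b 57) (.b 44))))))))) (.tw (.s13 (.tw (.c 0 (.s13 (.tw (.c 0 (.b 136) (.b 44)))) (.s13 (.tw (.c 0 (.b 5) (.s13 (.tw (.c 0 (.b 384) (.b 5))))))))))))))),
  (.c 0 (.tw (.c 0 (.b 13) (.s13 (.tw (.s12 (.s13 (.c 0 (.b 13) (.c 0 (.b 136) (.s13 (.tw (.s12 (.s13 (.c 0 (.b 13) (.b 138)))))))))))))) (.s13 (.tw (.c 0 (.s13 (.tw (.c 0 (.b 14) (.s13 (.tw (.s12 (.s13 (.c 0 (.b 13) (.s13 (.tw (.s12 (.s13 (.c 0 (.b 44) (.b 12)))))))))))))) (.tw (.s13 (.tw (.c 0 (.s13 (.tw (.c 0 (.b 136) (.b 44)))) (.s13 (.tw (.s12 (.s13 (.c 0 (.b 5) (.s13 (.tw (.c 0 (.b 5) (.b 26))))))))))))))))),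
  (.tw (.s13 (.c 0 (.s12 (.s13 (.tw (.s12 (.c 0 (.tw (.s13 (.tw (.s12 (.c 0 (.b 13) (.b 207)))))) (.b 111)))))) (.s13 (.tw (.s12 (.c 0 (.s13 (.tw (.c 0 (.b 136) (.s13 (.tw (.s12 (.s13 (.c 0 (.b 13) (.b 546))))))))) (.tw (.s12 (.s13 (.tw (.c 0 (.s13 (.tw (.s12 (.c 0 (.b 136) (.b 29))))) (.s13 (.tw (.c 0 (.tw (.c 0 (.b 136) (.b 136))) (.s13 (.c 0 (.b 42) (.tw (.c 0 (.b 136) (.b 136)))))))))))))))))))),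
  (.c 0 (.tw (.c 0 (.tw (.s13 (.tw (.c 0 (.b 478) (.b 16))))) (.b 111))) (.s13 (.tw (.c 0 (.s13 (.tw (.c 0 (.b 13) (.s13 (.tw (.s12 (.s13 (.c 0 (.b 13) (.c 0 (.b 136) (.b 249)))))))))) (.tw (.s13 (.tw (.c 0 (.s13 (.tw (.c 0 (.b 136) (.b 44)))) (.s13 (.tw (.c 0 (.b 5) (.s13 (.tw (.c 0 (.b 384) (.b 5))))))))))))))),
  (.c 0 (.tw (.c 0 (.b 416) (.s13 (.tw (.s12 (.s13 (.c 0 (.b 63) (.b 159)))))))) (.s13 (.tw (.c 0 (.s13 (.tw (.c 0 (.b 13) (.s13 (.tw (.s12 (.s13 (.c 0 (.b 13) (.c 0 (.b 136) (.b 249)))))))))) (.tw (.s13 (.tw (.c 0 (.s13 (.tw (.c 0 (.b 136) (.b 44)))) (.s13 (.tw (.c 0 (.b 5) (.s13 (.tw (.c 0 (.b 384) (.b 5))))))))))))))),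
  (.c 0 (.tw (.c 0 (.b 284) (.s13 (.tw (.s12 (.s13 (.c 0 (.b 63) (.b 93)))))))) (.s13 (.c 0 (.tw (.c 0 (.s13 (.tw (.c 0 (.b 58) (.s13 (.tw (.s12 (.s13 (.c 0 (.b 14) (.c 0 (.b 136) (.b 136)))))))))) (.tw (.s13 (.tw (.c 0 (.s13 (.tw (.c 0 (.b 136) (.b 44)))) (.tw (.s12 (.s13 (.tw (.c 0 (.b 5) (.s13 (.tw (.s12 (.s13 (.c 0 (.b 5) (.b 63))))))))))))))))) (.b 1)))),
  (.c 0 (.tw (.c 0 (.b 284) (.s13 (.tw (.s12 (.s13 (.c 0 (.b 63) (.b 93)))))))) (.s13 (.tw (.c 0 (.s13 (.tw (.c 0 (.b 13) (.s13 (.tw (.s12 (.s13 (.c 0 (.b 13) (.c 0 (.b 136) (.b 249)))))))))) (.tw (.s13 (.tw (.c 0 (.s13 (.tw (.c 0 (.b 136) (.b 44)))) (.s13 (.tw (.c 0 (.b 5) (.s13 (.tw (.c 0 (.b 384) (.b 5))))))))))))))),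
  (.c 0 (.tw (.c 0 (.b 13) (.s13 (.tw (.s12 (.s13 (.c 0 (.b 57) (.s13 (.tw (.s12 (.s13 (.c 0 (.b 381) (.b 478))))))))))))) (.s13 (.tw (.c 0 (.s13 (.tw (.c 0 (.b 58) (.s13 (.tw (.s12 (.s13 (.c 0 (.b 14) (.c 0 (.b 136) (.b 136)))))))))) (.tw (.s13 (.tw (.c 0 (.s13 (.tw (.c 0 (.b 136) (.b 44)))) (.tw (.s12 (.s13 (.tw (.c 0 (.b 5) (.s13 (.tw (.s12 (.s13 (.c 0 (.b 5) (.b 63))))))))))))))))))),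
  (.c 0 (.tw (.c 0 (.b 13) (.s13 (.tw (.s12 (.s13 (.c 0 (.b 13) (.c 0 (.b 136) (.s13 (.tw (.s12 (.s13 (.c 0 (.b 13) (.b 138)))))))))))))) (.s13 (.tw (.c 0 (.tw (.s13 (.tw (.c 0 (.b 192) (.s13 (.tw (.s13 (.c 0 (.b 24) (.b 44))))))))) (.tw (.s13 (.tw (.c 0 (.s13 (.tw (.s12 (.c 0 (.b 44) (.b 12))))) (.tw (.s12 (.s13 (.tw (.c 0 (.b 176) (.s13 (.tw (.c 0 (.b 5) (.b 26))))))))))))))))),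
  (.c 0 (.tw (.c 0 (.tw (.s13 (.tw (.c 0 (.b 478) (.b 16))))) (.b 111))) (.s13 (.tw (.c 0 (.s12 (.s13 (.tw (.c 0 (.b 164) (.s13 (.tw (.s12 (.s13 (.c 0 (.b 14) (.c 0 (.b 136) (.b 136))))))))))) (.s13 (.tw (.c 0 (.s13 (.tw (.c 0 (.b 136) (.b 44)))) (.s13 (.tw (.s13 (.c 0 (.b 5) (.s13 (.tw (.c 0 (.b 5) (.b 63))))))))))))))),
  (.c 0 (.tw (.c 0 (.b 416) (.s13 (.tw (.s12 (.s13 (.c 0 (.b 63) (.b 159)))))))) (.s13 (.tw (.c 0 (.s12 (.s13 (.tw (.c 0 (.b 164) (.s13 (.tw (.s12 (.s13 (.c 0 (.b 14) (.c 0 (.b 136) (.b 136))))))))))) (.s13 (.tw (.c 0 (.s13 (.tw (.c 0 (.b 136) (.b 44)))) (.s13 (.tw (.s13 (.c 0 (.b 5) (.s13 (.tw (.c 0 (.b 5) (.b 63))))))))))))))),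
  (.c 0 (.s12 (.s13 (.tw (.s12 (.c 0 (.s13 (.tw (.s13 (.c 0 (.tw (.s12 (.c 0 (.b 14) (.s13 (.tw (.s13 (.s12 (.c 0 (.b 381) (.b 381))))))))) (.b 12))))) (.b 12)))))) (.tw (.s12 (.c 0 (.s13 (.tw (.c 0 (.b 345) (.s13 (.tw (.s12 (.s13 (.c 0 (.b 13) (.b 603))))))))) (.s13 (.tw (.c 0 (.s13 (.tw (.c 0 (.b 136) (.b 44)))) (.s13 (.tw (.s13 (.c 0 (.b 5) (.c 0 (.b 5) (.b 26))))))))))))),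
  (.c 0 (.tw (.c 0 (.b 284) (.s13 (.tw (.s12 (.s13 (.c 0 (.b 63) (.b 93)))))))) (.s13 (.tw (.c 0 (.s12 (.s13 (.tw (.c 0 (.b 164) (.s13 (.tw (.s12 (.s13 (.c 0 (.b 14) (.c 0 (.b 136) (.b 136))))))))))) (.s13 (.tw (.c 0 (.s13 (.tw (.c 0 (.b 136) (.b 44)))) (.s13 (.tw (.s13 (.c 0 (.b 5) (.s13 (.tw (.c 0 (.b 5) (.b 63))))))))))))))),
  (.c 0 (.s12 (.s13 (.tw (.s12 (.c 0 (.b 13) (.s13 (.tw (.s12 (.s13 (.c 0 (.b 136) (.s13 (.tw (.s12 (.s13 (.c 0 (.b 284) (.b 147)))))))))))))))) (.s13 (.tw (.s13 (.s12 (.c 0 (.s13 (.tw (.s12 (.c 0 (.b 14) (.s13 (.tw (.s12 (.s13 (.c 0 (.b 136) (.tw (.s12 (.s13 (.tw (.c 0 (.b 44) (.b 12))))))))))))))) (.s13 (.tw (.s12 (.c 0 (.s13 (.tw (.c 0 (.b 63) (.b 44)))) (.s13 (.tw (.s12 (.c 0 (.b 5) (.c 0 (.b 5) (.b 26)))))))))))))))),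
  (.tw (.s13 (.c 0 (.s12 (.s13 (.tw (.s12 (.c 0 (.tw (.s13 (.tw (.c 0 (.b 381) (.b 29))))) (.s13 (.tw (.s13 (.c 0 (.b 1) (.b 21)))))))))) (.tw (.s12 (.c 0 (.s13 (.tw (.c 0 (.b 57) (.s13 (.tw (.s12 (.s13 (.c 0 (.b 136) (.b 351))))))))) (.s13 (.tw (.c 0 (.s13 (.tw (.c 0 (.b 14) (.c 0 (.b 136) (.b 136))))) (.tw (.s12 (.s13 (.tw (.c 0 (.s13 (.tw (.c 0 (.tw (.c 0 (.b 63) (.b 136))) (.b 5)))) (.b 23))))))))))))))),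
  (.c 0 (.tw (.c 0 (.b 416) (.s13 (.tw (.s12 (.s13 (.c 0 (.b 63) (.b 159)))))))) (.s13 (.c 0 (.tw (.c 0 (.s13 (.tw (.c 0 (.b 136) (.s13 (.tw (.s12 (.s13 (.c 0 (.b 13) (.b 138))))))))) (.tw (.s13 (.tw (.c 0 (.s13 (.tw (.c 0 (.b 136) (.b 44)))) (.s13 (.tw (.c 0 (.b 5) (.s13 (.tw (.c 0 (.b 82) (.b 5))))))))))))) (.b 1)))),
  (.c 0 (.tw (.c 0 (.b 284) (.s13 (.tw (.s12 (.s13 (.c 0 (.b 63) (.b 93)))))))) (.s13 (.tw (.c 0 (.tw (.c 0 (.b 13) (.b 172))) (.s12 (.s13 (.tw (.c 0 (.s13 (.tw (.s12 (.c 0 (.b 284) (.c 0 (.b 136) (.b 136)))))) (.s13 (.tw (.s12 (.c 0 (.s13 (.tw (.c 0 (.b 14) (.b 44)))) (.s13 (.tw (.c 0 (.b 5) (.b 5)))))))))))))))),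
  (.c 0 (.tw (.c 0 (.b 284) (.s13 (.tw (.s12 (.s13 (.c 0 (.b 63) (.b 93)))))))) (.s13 (.c 0 (.tw (.c 0 (.s13 (.tw (.c 0 (.b 136) (.s13 (.tw (.s12 (.s13 (.c 0 (.b 13) (.b 138))))))))) (.tw (.s13 (.tw (.c 0 (.s13 (.tw (.c 0 (.b 136) (.b 44)))) (.s13 (.tw (.c 0 (.b 5) (.s13 (.tw (.c 0 (.b 82) (.b 5))))))))))))) (.b 1)))),
  (.tw (.s13 (.c 0 (.s12 (.s13 (.tw (.s12 (.c 0 (.tw (.s13 (.tw (.s12 (.c 0 (.b 13) (.b 207)))))) (.b 111)))))) (.tw (.s12 (.c 0 (.s13 (.tw (.c 0 (.b 14) (.s13 (.tw (.s12 (.s13 (.c 0 (.b 136) (.b 351))))))))) (.s13 (.tw (.c 0 (.s13 (.tw (.c 0 (.b 14) (.c 0 (.b 14) (.b 76))))) (.s12 (.s13 (.tw (.c 0 (.tw (.c 0 (.b 136) (.b 136))) (.s13 (.tw (.c 0 (.b 63) (.b 44))))))))))))))))),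
  (.tw (.s13 (.c 0 (.s12 (.s13 (.tw (.s12 (.c 0 (.tw (.s13 (.tw (.s12 (.c 0 (.b 13) (.b 207)))))) (.b 111)))))) (.tw (.s12 (.c 0 (.s13 (.tw (.c 0 (.b 57) (.s13 (.tw (.s12 (.s13 (.c 0 (.b 136) (.b 351))))))))) (.s13 (.tw (.c 0 (.s13 (.tw (.c 0 (.b 14) (.c 0 (.b 136) (.b 136))))) (.tw (.s12 (.s13 (.tw (.c 0 (.s13 (.tw (.c 0 (.tw (.c 0 (.b 63) (.b 136))) (.b 5)))) (.b 23))))))))))))))),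
  (.c 0 (.tw (.c 0 (.b 416) (.s13 (.tw (.s12 (.s13 (.c 0 (.b 63) (.b 159)))))))) (.s13 (.c 0 (.tw (.c 0 (.s13 (.tw (.c 0 (.b 57) (.s13 (.tw (.s12 (.s13 (.c 0 (.b 63) (.b 663))))))))) (.tw (.s13 (.tw (.c 0 (.s13 (.tw (.c 0 (.b 136) (.b 44)))) (.s13 (.tw (.c 0 (.b 5) (.s13 (.tw (.c 0 (.b 384) (.b 5))))))))))))) (.b 1)))),
  (.c 0 (.tw (.c 0 (.b 13) (.s13 (.tw (.s12 (.s13 (.c 0 (.b 57) (.s13 (.tw (.s12 (.s13 (.c 0 (.b 381) (.b 478))))))))))))) (.s13 (.tw (.c 0 (.s13 (.tw (.c 0 (.b 19) (.tw (.s12 (.s13 (.tw (.c 0 (.b 13) (.c 0 (.b 239) (.b 1)))))))))) (.tw (.s13 (.tw (.c 0 (.s13 (.tw (.c 0 (.b 136) (.b 44)))) (.s13 (.tw (.c 0 (.b 5) (.s13 (.tw (.c 0 (.b 384) (.b 5))))))))))))))),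
  (.c 0 (.tw (.c 0 (.tw (.s13 (.tw (.c 0 (.b 478) (.b 16))))) (.b 111))) (.s13 (.tw (.c 0 (.s12 (.s13 (.tw (.c 0 (.b 13) (.s13 (.tw (.s12 (.s13 (.c 0 (.b 136) (.b 581)))))))))) (.tw (.s12 (.s13 (.tw (.c 0 (.s13 (.tw (.c 0 (.b 136) (.b 44)))) (.s13 (.tw (.c 0 (.tw (.c 0 (.b 63) (.b 136))) (.s13 (.tw (.c 0 (.b 384) (.b 5)))))))))))))))),
  (.c 0 (.tw (.c 0 (.b 416) (.s13 (.tw (.s12 (.s13 (.c 0 (.b 63) (.b 159)))))))) (.s13 (.tw (.c 0 (.s12 (.s13 (.tw (.c 0 (.b 13) (.s13 (.tw (.s12 (.s13 (.c 0 (.b 136) (.b 581)))))))))) (.tw (.s12 (.s13 (.tw (.c 0 (.s13 (.tw (.c 0 (.b 136) (.b 44)))) (.s13 (.tw (.c 0 (.tw (.c 0 (.b 63) (.b 136))) (.s13 (.tw (.c 0 (.b 384) (.b 5)))))))))))))))),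
  (.c 0 (.tw (.c 0 (.b 284) (.s13 (.tw (.s12 (.s13 (.c 0 (.b 63) (.b 93)))))))) (.s13 (.tw (.c 0 (.s12 (.s13 (.tw (.c 0 (.b 13) (.s13 (.tw (.s12 (.s13 (.c 0 (.b 136) (.b 581)))))))))) (.tw (.s12 (.s13 (.tw (.c 0 (.s13 (.tw (.c 0 (.b 136) (.b 44)))) (.s13 (.tw (.c 0 (.tw (.c 0 (.b 63) (.b 136))) (.s13 (.tw (.c 0 (.b 384) (.b 5)))))))))))))))),
  (.c 0 (.tw (.c 0 (.b 13) (.s13 (.tw (.s12 (.s13 (.c 0 (.b 57) (.s13 (.tw (.s12 (.s13 (.c 0 (.b 381) (.b 478))))))))))))) (.s13 (.tw (.c 0 (.b 107) (.s12 (.s13 (.tw (.c 0 (.s13 (.tw (.s12 (.c 0 (.b 136) (.s13 (.tw (.s12 (.s13 (.c 0 (.b 44) (.b 12)))))))))) (.s13 (.tw (.s12 (.c 0 (.s13 (.tw (.c 0 (.b 14) (.b 44)))) (.s13 (.tw (.c 0 (.b 5) (.b 5)))))))))))))))),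
  (.c 0 (.tw (.c 0 (.b 13) (.s13 (.tw (.s12 (.s13 (.c 0 (.b 57) (.s13 (.tw (.s12 (.s13 (.c 0 (.b 381) (.b 478))))))))))))) (.s13 (.tw (.c 0 (.s13 (.tw (.c 0 (.b 57) (.s13 (.tw (.s12 (.s13 (.c 0 (.b 63) (.b 663))))))))) (.tw (.s13 (.tw (.c 0 (.s13 (.tw (.c 0 (.b 136) (.b 44)))) (.s13 (.tw (.c 0 (.b 5) (.s13 (.tw (.c 0 (.b 384) (.b 5))))))))))))))),
  (.tw (.s13 (.c 0 (.s12 (.s13 (.tw (.s12 (.c 0 (.tw (.s13 (.tw (.s12 (.c 0 (.b 13) (.b 207)))))) (.b 111)))))) (.tw (.s12 (.c 0 (.s13 (.tw (.c 0 (.b 14) (.s13 (.tw (.s12 (.s13 (.c 0 (.b 136) (.b 351))))))))) (.s13 (.tw (.c 0 (.s13 (.tw (.c 0 (.b 14) (.c 0 (.b 136) (.b 136))))) (.tw (.s12 (.s13 (.tw (.c 0 (.tw (.c 0 (.b 136) (.b 136))) (.s12 (.s13 (.tw (.c 0 (.b 15) (.b 247))))))))))))))))))),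
  (.c 0 (.tw (.c 0 (.tw (.s13 (.tw (.c 0 (.b 478) (.b 16))))) (.b 111))) (.s13 (.tw (.c 0 (.s13 (.tw (.c 0 (.b 13) (.s13 (.tw (.s12 (.s13 (.c 0 (.b 13) (.c 0 (.b 136) (.b 478)))))))))) (.tw (.s13 (.tw (.c 0 (.s13 (.tw (.c 0 (.b 136) (.b 44)))) (.s13 (.tw (.c 0 (.b 5) (.s13 (.tw (.c 0 (.b 384) (.b 5))))))))))))))),
  (.c 0 (.tw (.c 0 (.b 416) (.s13 (.tw (.s12 (.s13 (.c 0 (.b 63) (.b 159)))))))) (.s13 (.tw (.c 0 (.s13 (.tw (.c 0 (.b 13) (.s13 (.tw (.s12 (.s13 (.c 0 (.b 13) (.c 0 (.b 136) (.b 478)))))))))) (.tw (.s13 (.tw (.c 0 (.s13 (.tw (.c 0 (.b 136) (.b 44)))) (.s13 (.tw (.c 0 (.b 5) (.s13 (.tw (.c 0 (.b 384) (.b 5))))))))))))))),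
  (.c 0 (.tw (.c 0 (.b 284) (.s13 (.tw (.s12 (.s13 (.c 0 (.b 63) (.b 93)))))))) (.s13 (.c 0 (.tw (.c 0 (.s13 (.tw (.c 0 (.b 304) (.s13 (.tw (.s12 (.s13 (.c 0 (.b 63) (.b 400))))))))) (.tw (.s13 (.tw (.c 0 (.s13 (.tw (.c 0 (.b 136) (.b 44)))) (.tw (.s12 (.s13 (.tw (.c 0 (.b 5) (.s13 (.tw (.s12 (.s13 (.c 0 (.b 5) (.b 63))))))))))))))))) (.b 1)))),
  (.c 0 (.tw (.c 0 (.b 284) (.s13 (.tw (.s12 (.s13 (.c 0 (.b 63) (.b 93)))))))) (.s13 (.tw (.c 0 (.s13 (.tw (.c 0 (.b 13) (.s13 (.tw (.s12 (.s13 (.c 0 (.b 13) (.c 0 (.b 136) (.b 478)))))))))) (.tw (.s13 (.tw (.c 0 (.s13 (.tw (.c 0 (.b 136) (.b 44)))) (.s13 (.tw (.c 0 (.b 5) (.s13 (.tw (.c 0 (.b 384) (.b 5))))))))))))))),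
  (.c 0 (.tw (.c 0 (.b 13) (.s13 (.tw (.s12 (.s13 (.c 0 (.b 57) (.s13 (.tw (.s12 (.s13 (.c 0 (.b 381) (.b 478))))))))))))) (.s13 (.tw (.c 0 (.s13 (.tw (.c 0 (.b 304) (.s13 (.tw (.s12 (.s13 (.c 0 (.b 63) (.b 400))))))))) (.tw (.s13 (.tw (.c 0 (.s13 (.tw (.c 0 (.b 136) (.b 44)))) (.tw (.s12 (.s13 (.tw (.c 0 (.b 5) (.s13 (.tw (.s12 (.s13 (.c 0 (.b 5) (.b 63))))))))))))))))))),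
  (.c 0 (.tw (.c 0 (.b 13) (.s13 (.tw (.s12 (.s13 (.c 0 (.b 13) (.c 0 (.b 136) (.s13 (.tw (.s12 (.s13 (.c 0 (.b 13) (.b 138)))))))))))))) (.tw (.c 0 (.s12 (.s13 (.tw (.c 0 (.b 58) (.s13 (.tw (.s12 (.s13 (.c 0 (.b 136) (.b 44)))))))))) (.s13 (.tw (.c 0 (.s13 (.tw (.c 0 (.b 57) (.b 44)))) (.s13 (.tw (.s13 (.c 0 (.b 5) (.c 0 (.b 5) (.b 63)))))))))))),
  (.c 0 (.tw (.c 0 (.tw (.s13 (.tw (.c 0 (.b 478) (.b 16))))) (.b 111))) (.s13 (.c 0 (.tw (.c 0 (.s13 (.tw (.c 0 (.b 14) (.s13 (.tw (.s12 (.s13 (.c 0 (.b 136) (.s13 (.tw (.s12 (.s13 (.c 0 (.b 44) (.b 12)))))))))))))) (.s13 (.tw (.c 0 (.s13 (.tw (.c 0 (.b 63) (.b 44)))) (.s13 (.tw (.s12 (.c 0 (.b 5) (.c 0 (.b 5) (.b 26))))))))))) (.b 1)))),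
  (.c 0 (.tw (.c 0 (.b 416) (.s13 (.tw (.s12 (.s13 (.c 0 (.b 63) (.b 159)))))))) (.s13 (.c 0 (.tw (.c 0 (.s13 (.tw (.c 0 (.b 14) (.s13 (.tw (.s12 (.s13 (.c 0 (.b 136) (.s13 (.tw (.s12 (.s13 (.c 0 (.b 44) (.b 12)))))))))))))) (.s13 (.tw (.c 0 (.s13 (.tw (.c 0 (.b 63) (.b 44)))) (.s13 (.tw (.s12 (.c 0 (.b 5) (.c 0 (.b 5) (.b 26))))))))))) (.b 1)))),
  (.c 0 (.tw (.c 0 (.b 19) (.s13 (.tw (.s12 (.s13 (.c 0 (.b 567) (.b 21)))))))) (.s13 (.tw (.c 0 (.s13 (.tw (.c 0 (.b 14) (.s13 (.tw (.s12 (.s13 (.c 0 (.b 136) (.s13 (.tw (.s12 (.s13 (.c 0 (.b 44) (.b 12)))))))))))))) (.s13 (.tw (.c 0 (.s13 (.tw (.c 0 (.b 63) (.b 44)))) (.s13 (.tw (.s12 (.c 0 (.b 5) (.c 0 (.b 5) (.b 26))))))))))))),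
  (.c 0 (.tw (.c 0 (.b 284) (.s13 (.tw (.s12 (.s13 (.c 0 (.b 63) (.b 93)))))))) (.s13 (.c 0 (.tw (.c 0 (.s13 (.tw (.c 0 (.b 14) (.s13 (.tw (.s12 (.s13 (.c 0 (.b 136) (.s13 (.tw (.s12 (.s13 (.c 0 (.b 44) (.b 12)))))))))))))) (.s13 (.tw (.c 0 (.s13 (.tw (.c 0 (.b 63) (.b 44)))) (.s13 (.tw (.s12 (.c 0 (.b 5) (.c 0 (.b 5) (.b 26))))))))))) (.b 1)))),
  (.c 0 (.tw (.c 0 (.b 13) (.s13 (.tw (.s12 (.s13 (.c 0 (.b 57) (.s13 (.tw (.s12 (.s13 (.c 0 (.b 381) (.b 478))))))))))))) (.s13 (.tw (.c 0 (.s13 (.tw (.c 0 (.b 14) (.s13 (.tw (.s12 (.s13 (.c 0 (.b 136) (.s13 (.tw (.s12 (.s13 (.c 0 (.b 44) (.b 12)))))))))))))) (.s13 (.tw (.c 0 (.s13 (.tw (.c 0 (.b 63) (.b 44)))) (.s13 (.tw (.s12 (.c 0 (.b 5) (.c 0 (.b 5) (.b 26))))))))))))),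
  (.c 0 (.tw (.c 0 (.tw (.s13 (.tw (.c 0 (.b 478) (.b 16))))) (.b 111))) (.tw (.c 0 (.s13 (.tw (.c 0 (.b 304) (.s13 (.tw (.s12 (.s13 (.c 0 (.b 63) (.b 44))))))))) (.tw (.s12 (.s13 (.tw (.c 0 (.s13 (.tw (.s12 (.c 0 (.b 14) (.c 0 (.b 136) (.b 124)))))) (.s13 (.tw (.c 0 (.b 5) (.c 0 (.b 5) (.b 26))))))))))))),
  (.c 0 (.tw (.c 0 (.b 416) (.s13 (.tw (.s12 (.s13 (.c 0 (.b 63) (.b 159)))))))) (.tw (.c 0 (.s13 (.tw (.c 0 (.b 304) (.s13 (.tw (.s12 (.s13 (.c 0 (.b 63) (.b 44))))))))) (.tw (.s12 (.s13 (.tw (.c 0 (.s13 (.tw (.s12 (.c 0 (.b 14) (.c 0 (.b 136) (.b 124)))))) (.s13 (.tw (.c 0 (.b 5) (.c 0 (.b 5) (.b 26))))))))))))),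
  (.c 0 (.tw (.c 0 (.b 284) (.s13 (.tw (.s12 (.s13 (.c 0 (.b 63) (.b 93)))))))) (.tw (.c 0 (.s13 (.tw (.c 0 (.b 304) (.s13 (.tw (.s12 (.s13 (.c 0 (.b 63) (.b 44))))))))) (.tw (.s12 (.s13 (.tw (.c 0 (.s13 (.tw (.s12 (.c 0 (.b 14) (.c 0 (.b 136) (.b 124)))))) (.s13 (.tw (.c 0 (.b 5) (.c 0 (.b 5) (.b 26))))))))))))),
  (.c 0 (.tw (.c 0 (.b 14) (.s13 (.tw (.s12 (.s13 (.c 0 (.b 14) (.c 0 (.b 304) (.s13 (.tw (.s12 (.s13 (.c 0 (.b 63) (.b 44)))))))))))))) (.s13 (.c 0 (.tw (.c 0 (.tw (.s13 (.tw (.c 0 (.b 152) (.tw (.s12 (.s13 (.tw (.c 0 (.b 24) (.b 536)))))))))) (.s13 (.tw (.c 0 (.s13 (.tw (.c 0 (.b 24) (.b 24)))) (.s13 (.tw (.c 0 (.b 24) (.b 24))))))))) (.b 14)))),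
  (.c 0 (.tw (.c 0 (.b 14) (.s13 (.tw (.s12 (.s13 (.c 0 (.b 14) (.c 0 (.b 304) (.s13 (.tw (.s12 (.s13 (.c 0 (.b 63) (.b 44)))))))))))))) (.s13 (.tw (.c 0 (.tw (.s13 (.tw (.c 0 (.b 152) (.s13 (.tw (.s12 (.s13 (.c 0 (.b 24) (.b 405)))))))))) (.s13 (.tw (.c 0 (.s13 (.tw (.c 0 (.b 82) (.b 200)))) (.s13 (.tw (.c 0 (.b 24) (.b 24))))))))))),
  (.c 0 (.tw (.c 0 (.b 478) (.s13 (.tw (.s12 (.s13 (.c 0 (.b 381) (.c 0 (.b 136) (.b 136))))))))) (.tw (.s12 (.s13 (.s12 (.c 0 (.tw (.c 0 (.b 14) (.c 0 (.b 136) (.c 0 (.b 136) (.b 136))))) (.tw (.c 0 (.b 313) (.tw (.s12 (.s13 (.tw (.c 0 (.b 693) (.s13 (.tw (.c 0 (.b 272) (.b 26))))))))))))))))),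
  (.c 0 (.tw (.c 0 (.b 478) (.s13 (.tw (.s12 (.s13 (.c 0 (.b 381) (.c 0 (.b 136) (.b 136))))))))) (.s13 (.tw (.c 0 (.s12 (.s13 (.tw (.s12 (.c 0 (.b 136) (.b 536)))))) (.s13 (.tw (.s12 (.s13 (.c 0 (.s13 (.tw (.c 0 (.b 387) (.tw (.s12 (.s13 (.tw (.c 0 (.b 63) (.b 139))))))))) (.s13 (.tw (.c 0 (.b 14) (.c 0 (.b 136) (.b 136)))))))))))))),
  (.c 0 (.tw (.c 0 (.b 478) (.s13 (.tw (.s12 (.s13 (.c 0 (.b 381) (.c 0 (.b 136) (.b 136))))))))) (.s13 (.tw (.c 0 (.s12 (.s13 (.tw (.c 0 (.b 136) (.b 270))))) (.s13 (.tw (.s12 (.s13 (.c 0 (.s13 (.tw (.s12 (.c 0 (.b 202) (.s12 (.s13 (.tw (.c 0 (.b 58) (.b 247))))))))) (.s13 (.tw (.c 0 (.b 58) (.c 0 (.b 136) (.b 136)))))))))))))),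
  (.c 0 (.tw (.c 0 (.b 478) (.s13 (.tw (.s12 (.s13 (.c 0 (.b 381) (.c 0 (.b 136) (.b 136))))))))) (.s13 (.c 0 (.tw (.c 0 (.tw (.s12 (.s13 (.tw (.c 0 (.b 348) (.s13 (.tw (.c 0 (.b 5) (.b 5))))))))) (.tw (.s13 (.tw (.c 0 (.b 348) (.s13 (.tw (.c 0 (.b 5) (.b 5)))))))))) (.b 63)))),
  (.c 0 (.tw (.c 0 (.b 478) (.s13 (.tw (.s12 (.s13 (.c 0 (.b 381) (.c 0 (.b 136) (.b 136))))))))) (.s13 (.tw (.c 0 (.s12 (.s13 (.tw (.c 0 (.b 136) (.b 270))))) (.s13 (.tw (.s12 (.s13 (.c 0 (.s13 (.tw (.c 0 (.s12 (.s13 (.tw (.c 0 (.b 180) (.b 12))))) (.s13 (.tw (.c 0 (.b 24) (.b 24))))))) (.s13 (.tw (.c 0 (.b 14) (.c 0 (.b 136) (.b 136)))))))))))))),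
  (.c 0 (.tw (.c 0 (.b 478) (.s13 (.tw (.s12 (.s13 (.c 0 (.b 381) (.c 0 (.b 136) (.b 136))))))))) (.s13 (.tw (.c 0 (.s12 (.s13 (.tw (.c 0 (.b 136) (.b 270))))) (.s13 (.tw (.s12 (.s13 (.c 0 (.s13 (.tw (.s12 (.c 0 (.b 202) (.s12 (.s13 (.tw (.c 0 (.b 58) (.b 247))))))))) (.s13 (.tw (.c 0 (.b 136) (.s13 (.tw (.s12 (.s13 (.c 0 (.b 13) (.b 200)))))))))))))))))),
  (.s13 (.c 0 (.s12 (.s13 (.tw (.s12 (.c 0 (.tw (.s13 (.tw (.s12 (.c 0 (.b 13) (.b 207)))))) (.b 111)))))) (.tw (.s12 (.c 0 (.s13 (.tw (.c 0 (.b 14) (.s13 (.tw (.s12 (.s13 (.c 0 (.b 136) (.b 351))))))))) (.s13 (.tw (.c 0 (.s13 (.tw (.c 0 (.b 14) (.c 0 (.b 136) (.b 136))))) (.tw (.s12 (.s13 (.tw (.c 0 (.tw (.c 0 (.b 136) (.b 136))) (.s12 (.s13 (.tw (.c 0 (.b 15) (.b 247)))))))))))))))))),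
  (.c 0 (.tw (.c 0 (.b 478) (.s13 (.tw (.s12 (.s13 (.c 0 (.b 381) (.c 0 (.b 136) (.b 136))))))))) (.s13 (.tw (.c 0 (.s12 (.s13 (.tw (.s12 (.c 0 (.b 136) (.b 536)))))) (.s13 (.tw (.s12 (.s13 (.c 0 (.tw (.s12 (.c 0 (.b 13) (.b 462)))) (.s13 (.tw (.c 0 (.b 345) (.s13 (.tw (.c 0 (.b 5) (.b 5)))))))))))))))),
  (.c 0 (.tw (.c 0 (.b 478) (.s13 (.tw (.s12 (.s13 (.c 0 (.b 381) (.c 0 (.b 136) (.b 136))))))))) (.s13 (.tw (.c 0 (.s12 (.s13 (.tw (.c 0 (.b 136) (.b 270))))) (.s13 (.tw (.s12 (.s13 (.c 0 (.tw (.s12 (.c 0 (.b 13) (.b 236)))) (.s13 (.tw (.c 0 (.b 202) (.s13 (.tw (.c 0 (.b 5) (.b 5)))))))))))))))),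
  (.c 0 (.tw (.c 0 (.tw (.s12 (.s13 (.tw (.c 0 (.b 23) (.s13 (.tw (.s12 (.s13 (.c 0 (.b 136) (.b 44))))))))))) (.b 55))) (.s13 (.tw (.c 0 (.s12 (.s13 (.tw (.c 0 (.b 136) (.s13 (.tw (.s12 (.s13 (.c 0 (.b 24) (.b 136)))))))))) (.tw (.s12 (.s13 (.tw (.c 0 (.tw (.c 0 (.b 136) (.b 136))) (.s12 (.s13 (.tw (.c 0 (.s13 (.tw (.c 0 (.b 24) (.b 136)))) (.s13 (.tw (.s12 (.c 0 (.b 13) (.b 400)))))))))))))))))),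
  (.s13 (.c 0 (.s12 (.s13 (.tw (.s12 (.c 0 (.tw (.s13 (.tw (.s12 (.c 0 (.b 13) (.b 207)))))) (.b 111)))))) (.s13 (.tw (.s12 (.c 0 (.s13 (.tw (.c 0 (.b 136) (.s13 (.tw (.s12 (.s13 (.c 0 (.b 13) (.b 546))))))))) (.tw (.s12 (.s13 (.tw (.c 0 (.s13 (.tw (.s12 (.c 0 (.b 136) (.b 29))))) (.s13 (.tw (.c 0 (.tw (.c 0 (.b 136) (.b 136))) (.s13 (.c 0 (.b 42) (.tw (.c 0 (.b 136) (.b 136))))))))))))))))))),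
  (.c 0 (.tw (.c 0 (.tw (.s12 (.s13 (.tw (.c 0 (.b 63) (.b 159)))))) (.tw (.s12 (.s13 (.tw (.c 0 (.b 63) (.c 0 (.b 239) (.b 1))))))))) (.s13 (.tw (.c 0 (.s12 (.s13 (.tw (.c 0 (.b 136) (.s13 (.tw (.s12 (.s13 (.c 0 (.b 24) (.b 136)))))))))) (.tw (.s12 (.s13 (.tw (.c 0 (.tw (.c 0 (.b 136) (.b 136))) (.s12 (.s13 (.tw (.c 0 (.s13 (.tw (.c 0 (.b 24) (.b 136)))) (.s13 (.tw (.s12 (.c 0 (.b 13) (.b 400)))))))))))))))))),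
  (.c 0 (.tw (.c 0 (.tw (.s12 (.s13 (.tw (.c 0 (.b 63) (.b 159)))))) (.s13 (.tw (.s12 (.s13 (.c 0 (.b 63) (.c 0 (.b 63) (.b 381))))))))) (.s13 (.tw (.c 0 (.s12 (.s13 (.tw (.c 0 (.b 136) (.s13 (.tw (.s12 (.s13 (.c 0 (.b 24) (.b 136)))))))))) (.tw (.s12 (.s13 (.tw (.c 0 (.tw (.c 0 (.b 136) (.b 136))) (.s12 (.s13 (.tw (.c 0 (.s13 (.tw (.c 0 (.b 24) (.b 136)))) (.s13 (.tw (.s12 (.c 0 (.b 13) (.b 400)))))))))))))))))),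
  (.s13 (.c 0 (.s12 (.s13 (.tw (.s12 (.c 0 (.tw (.s13 (.tw (.s12 (.c 0 (.b 13) (.b 207)))))) (.b 111)))))) (.s13 (.tw (.s12 (.c 0 (.s13 (.tw (.c 0 (.b 136) (.s13 (.tw (.s12 (.s13 (.c 0 (.b 63) (.b 369))))))))) (.tw (.s12 (.s13 (.tw (.c 0 (.s13 (.tw (.c 0 (.b 13) (.b 337)))) (.s13 (.tw (.c 0 (.tw (.c 0 (.b 136) (.b 136))) (.s13 (.c 0 (.b 42) (.tw (.c 0 (.b 136) (.b 136))))))))))))))))))),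
  (.c 0 (.tw (.c 0 (.s13 (.tw (.c 0 (.b 381) (.b 27)))) (.s13 (.tw (.s12 (.s13 (.c 0 (.b 348) (.b 546)))))))) (.s13 (.tw (.c 0 (.tw (.s13 (.c 0 (.b 70) (.b 45)))) (.s13 (.c 0 (.tw (.s13 (.tw (.s13 (.c 0 (.b 67) (.s13 (.tw (.s13 (.c 0 (.b 14) (.b 44)))))))))) (.tw (.s12 (.s13 (.s12 (.c 0 (.b 67) (.s13 (.tw (.s13 (.c 0 (.b 14) (.b 44)))))))))))))))),
  (.c 0 (.tw (.c 0 (.tw (.s13 (.tw (.c 0 (.b 381) (.b 26))))) (.s13 (.tw (.s12 (.s13 (.c 0 (.b 63) (.b 9)))))))) (.s13 (.tw (.c 0 (.tw (.s13 (.c 0 (.b 70) (.b 45)))) (.s13 (.c 0 (.tw (.s13 (.tw (.s13 (.c 0 (.b 67) (.s13 (.tw (.s13 (.c 0 (.b 14) (.b 44)))))))))) (.tw (.s12 (.s13 (.s12 (.c 0 (.b 67) (.s13 (.tw (.s13 (.c 0 (.b 14) (.b 44)))))))))))))))),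
  (.c 0 (.tw (.c 0 (.b 478) (.s13 (.tw (.s12 (.s13 (.c 0 (.b 381) (.c 0 (.b 136) (.b 136))))))))) (.s13 (.tw (.c 0 (.s12 (.s13 (.tw (.c 0 (.b 136) (.s13 (.tw (.s12 (.s13 (.c 0 (.b 24) (.b 136)))))))))) (.tw (.s12 (.s13 (.tw (.c 0 (.tw (.c 0 (.b 136) (.b 136))) (.s12 (.s13 (.tw (.c 0 (.s13 (.tw (.c 0 (.b 24) (.b 136)))) (.s13 (.tw (.s12 (.c 0 (.b 13) (.b 400)))))))))))))))))),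
  (.c 0 (.s12 (.s13 (.tw (.s12 (.c 0 (.b 14) (.s13 (.tw (.s12 (.s13 (.c 0 (.b 304) (.s13 (.tw (.s12 (.s13 (.c 0 (.b 63) (.s13 (.tw (.s12 (.s13 (.c 0 (.b 44) (.b 12))))))))))))))))))))) (.s13 (.tw (.s13 (.s12 (.c 0 (.tw (.c 0 (.b 136) (.b 351))) (.s13 (.tw (.s13 (.c 0 (.s13 (.tw (.s12 (.c 0 (.b 313) (.s12 (.s13 (.tw (.c 0 (.b 58) (.b 247))))))))) (.s13 (.tw (.c 0 (.b 14) (.c 0 (.b 136) (.b 136))))))))))))))),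
  (.c 0 (.tw (.c 0 (.b 478) (.s13 (.tw (.s12 (.s13 (.c 0 (.b 381) (.c 0 (.b 136) (.b 136))))))))) (.s13 (.tw (.c 0 (.tw (.s12 (.s13 (.tw (.c 0 (.b 13) (.s13 (.tw (.s13 (.s12 (.c 0 (.b 381) (.b 381))))))))))) (.s12 (.s13 (.tw (.s12 (.c 0 (.tw (.s12 (.s13 (.s12 (.c 0 (.b 67) (.s13 (.tw (.s13 (.c 0 (.b 14) (.b 44)))))))))) (.s12 (.s13 (.tw (.s12 (.c 0 (.b 460) (.tw (.s12 (.s13 (.tw (.c 0 (.b 44) (.b 12)))))))))))))))))))),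
  (.c 0 (.tw (.c 0 (.b 478) (.s13 (.tw (.s12 (.s13 (.c 0 (.b 381) (.c 0 (.b 136) (.b 136))))))))) (.s13 (.tw (.c 0 (.tw (.s12 (.s13 (.tw (.c 0 (.b 13) (.s13 (.tw (.s13 (.s12 (.c 0 (.b 381) (.b 381))))))))))) (.s12 (.s13 (.tw (.s12 (.c 0 (.tw (.s12 (.s13 (.s12 (.c 0 (.b 67) (.s13 (.tw (.s13 (.c 0 (.b 14) (.b 44)))))))))) (.s12 (.s13 (.tw (.s12 (.c 0 (.tw (.s12 (.s13 (.tw (.c 0 (.b 136) (.b 200)))))) (.b 136))))))))))))))),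
  (.c 0 (.tw (.c 0 (.b 478) (.s13 (.tw (.s12 (.s13 (.c 0 (.b 381) (.c 0 (.b 136) (.b 136))))))))) (.s13 (.tw (.c 0 (.s12 (.s13 (.tw (.c 0 (.b 13) (.s13 (.tw (.s12 (.s13 (.c 0 (.b 13) (.b 337)))))))))) (.s12 (.s13 (.s12 (.c 0 (.s13 (.tw (.s12 (.c 0 (.b 586) (.s13 (.tw (.c 0 (.b 5) (.b 5)))))))) (.tw (.c 0 (.b 136) (.b 136))))))))))),
  (.c 0 (.tw (.c 0 (.b 478) (.s13 (.tw (.s12 (.s13 (.c 0 (.b 381) (.c 0 (.b 136) (.b 136))))))))) (.s13 (.c 0 (.tw (.c 0 (.tw (.s12 (.s13 (.tw (.c 0 (.b 348) (.s13 (.tw (.c 0 (.b 5) (.b 5))))))))) (.tw (.s13 (.tw (.c 0 (.s13 (.tw (.c 0 (.b 14) (.b 44)))) (.s12 (.s13 (.tw (.c 0 (.b 14) (.b 247))))))))))) (.b 63)))),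
  (.s13 (.c 0 (.s12 (.s13 (.tw (.s12 (.c 0 (.tw (.s13 (.tw (.s12 (.c 0 (.b 13) (.b 207)))))) (.b 111)))))) (.tw (.s12 (.c 0 (.s13 (.tw (.c 0 (.b 57) (.s13 (.tw (.s12 (.s13 (.c 0 (.b 136) (.b 351))))))))) (.s13 (.tw (.c 0 (.s13 (.tw (.c 0 (.b 14) (.c 0 (.b 136) (.b 136))))) (.tw (.s12 (.s13 (.tw (.c 0 (.s13 (.tw (.c 0 (.tw (.c 0 (.b 63) (.b 136))) (.b 5)))) (.b 23)))))))))))))),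
  (.c 0 (.tw (.c 0 (.b 478) (.s13 (.tw (.s12 (.s13 (.c 0 (.b 381) (.c 0 (.b 136) (.b 136))))))))) (.s13 (.tw (.c 0 (.tw (.s12 (.s13 (.tw (.c 0 (.b 13) (.s13 (.tw (.s13 (.s12 (.c 0 (.b 381) (.b 381))))))))))) (.s12 (.s13 (.tw (.s12 (.c 0 (.s12 (.s13 (.tw (.s12 (.c 0 (.b 136) (.s13 (.tw (.s12 (.s13 (.c 0 (.b 24) (.b 136))))))))))) (.tw (.s12 (.s13 (.s12 (.c 0 (.s13 (.tw (.s13 (.s12 (.c 0 (.b 58) (.b 44)))))) (.b 67))))))))))))))),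
  (.c 0 (.tw (.c 0 (.b 13) (.s13 (.tw (.s12 (.s13 (.c 0 (.b 136) (.c 0 (.b 260) (.b 147))))))))) (.s13 (.tw (.c 0 (.tw (.s13 (.c 0 (.b 38) (.tw (.c 0 (.b 13) (.b 247)))))) (.s13 (.c 0 (.tw (.c 0 (.b 304) (.tw (.s12 (.s13 (.tw (.c 0 (.b 44) (.b 12)))))))) (.s13 (.tw (.s13 (.c 0 (.b 70) (.b 45))))))))))),
  (.c 0 (.s12 (.s13 (.tw (.s12 (.c 0 (.b 284) (.s13 (.tw (.s12 (.s13 (.c 0 (.b 63) (.s13 (.tw (.s12 (.s13 (.c 0 (.b 284) (.b 27)))))))))))))))) (.s13 (.tw (.s12 (.c 0 (.tw (.s13 (.c 0 (.b 70) (.b 45)))) (.tw (.s12 (.s13 (.tw (.c 0 (.tw (.c 0 (.b 136) (.b 462))) (.s13 (.tw (.c 0 (.b 693) (.s13 (.tw (.c 0 (.b 5) (.b 465))))))))))))))))),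
  (.c 0 (.s12 (.s13 (.tw (.s12 (.c 0 (.b 284) (.s13 (.tw (.s12 (.s13 (.c 0 (.b 63) (.s13 (.tw (.s12 (.s13 (.c 0 (.b 284) (.b 27)))))))))))))))) (.s13 (.tw (.s12 (.c 0 (.s13 (.tw (.c 0 (.b 14) (.s13 (.tw (.s12 (.s13 (.c 0 (.b 136) (.b 351))))))))) (.s12 (.s13 (.c 0 (.tw (.c 0 (.b 693) (.tw (.s12 (.s13 (.tw (.c 0 (.b 63) (.b 272)))))))) (.s13 (.tw (.s13 (.c 0 (.b 70) (.b 45))))))))))))),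
  (.s13 (.c 0 (.s12 (.s13 (.tw (.c 0 (.tw (.s13 (.tw (.s13 (.c 0 (.b 43) (.tw (.s12 (.s13 (.c 0 (.b 14) (.b 536)))))))))) (.b 13))))) (.tw (.s12 (.c 0 (.s13 (.tw (.c 0 (.b 714) (.b 29)))) (.s13 (.tw (.c 0 (.s13 (.tw (.c 0 (.b 136) (.b 351)))) (.s13 (.tw (.s13 (.c 0 (.tw (.c 0 (.b 136) (.b 136))) (.s13 (.c 0 (.b 42) (.tw (.c 0 (.b 136) (.b 136))))))))))))))))),
  (.c 0 (.tw (.c 0 (.tw (.s12 (.s13 (.tw (.c 0 (.b 63) (.b 159)))))) (.tw (.s12 (.s13 (.tw (.c 0 (.b 63) (.c 0 (.b 239) (.b 1))))))))) (.s13 (.tw (.c 0 (.s12 (.s13 (.tw (.s12 (.c 0 (.b 136) (.b 536)))))) (.tw (.s12 (.s13 (.tw (.c 0 (.s12 (.s13 (.tw (.s12 (.c 0 (.b 13) (.b 598)))))) (.s13 (.tw (.c 0 (.b 296) (.s13 (.tw (.c 0 (.b 5) (.b 5)))))))))))))))),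
  (.c 0 (.tw (.c 0 (.tw (.s12 (.s13 (.tw (.c 0 (.b 63) (.b 159)))))) (.s13 (.tw (.s12 (.s13 (.c 0 (.b 63) (.c 0 (.b 63) (.b 381))))))))) (.s13 (.tw (.c 0 (.s12 (.s13 (.tw (.s12 (.c 0 (.b 136) (.b 536)))))) (.tw (.s12 (.s13 (.tw (.c 0 (.s12 (.s13 (.tw (.s12 (.c 0 (.b 13) (.b 598)))))) (.s13 (.tw (.c 0 (.b 296) (.s13 (.tw (.c 0 (.b 5) (.b 5)))))))))))))))),
  (.c 0 (.s12 (.s13 (.tw (.s12 (.c 0 (.b 284) (.s13 (.tw (.s12 (.s13 (.c 0 (.b 63) (.s13 (.tw (.s12 (.s13 (.c 0 (.b 284) (.b 27)))))))))))))))) (.s13 (.tw (.s12 (.c 0 (.s13 (.tw (.c 0 (.b 14) (.s13 (.tw (.s12 (.s13 (.c 0 (.b 14) (.c 0 (.b 136) (.b 136)))))))))) (.tw (.s12 (.s13 (.tw (.c 0 (.s12 (.s13 (.tw (.c 0 (.b 136) (.tw (.s12 (.s13 (.tw (.c 0 (.b 63) (.b 381)))))))))) (.s13 (.tw (.s12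 (.c 0 (.b 5) (.tw (.s12 (.s13 (.tw (.c 0 (.b 58) (.b 247)))))))))))))))))))),
  (.s13 (.c 0 (.s12 (.s13 (.tw (.c 0 (.tw (.s12 (.s13 (.tw (.c 0 (.tw (.s12 (.s13 (.tw (.c 0 (.b 63) (.b 137)))))) (.b 58)))))) (.b 16))))) (.tw (.s12 (.c 0 (.s13 (.tw (.c 0 (.b 714) (.b 29)))) (.s13 (.tw (.c 0 (.s13 (.tw (.c 0 (.b 136) (.b 351)))) (.s13 (.tw (.s13 (.c 0 (.tw (.c 0 (.b 136) (.b 136))) (.s13 (.c 0 (.b 42) (.tw (.c 0 (.b 136) (.b 136))))))))))))))))),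
  (.c 0 (.tw (.c 0 (.b 13) (.s13 (.tw (.s12 (.s13 (.c 0 (.b 136) (.c 0 (.b 260) (.b 147))))))))) (.s13 (.tw (.c 0 (.s13 (.tw (.c 0 (.b 684) (.b 356)))) (.s13 (.c 0 (.tw (.c 0 (.b 304) (.tw (.s12 (.s13 (.tw (.c 0 (.b 44) (.b 12)))))))) (.s13 (.tw (.s13 (.c 0 (.b 70) (.b 45))))))))))),
  (.s13 (.c 0 (.s12 (.s13 (.tw (.c 0 (.b 348) (.tw (.s13 (.tw (.s13 (.c 0 (.b 43) (.b 388)))))))))) (.tw (.s12 (.c 0 (.s13 (.tw (.c 0 (.b 714) (.b 29)))) (.s13 (.tw (.c 0 (.s13 (.tw (.c 0 (.b 136) (.b 351)))) (.s13 (.tw (.s13 (.c 0 (.tw (.c 0 (.b 136) (.b 136))) (.s13 (.c 0 (.b 42) (.tw (.c 0 (.b 136) (.b 136))))))))))))))))),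
  (.c 0 (.s12 (.s13 (.tw (.s12 (.c 0 (.b 284) (.s13 (.tw (.s12 (.s13 (.c 0 (.b 63) (.s13 (.tw (.s12 (.s13 (.c 0 (.b 284) (.b 27)))))))))))))))) (.s13 (.tw (.s12 (.c 0 (.s13 (.tw (.c 0 (.b 14) (.s13 (.tw (.s12 (.s13 (.c 0 (.b 136) (.b 351))))))))) (.s12 (.s13 (.c 0 (.tw (.c 0 (.b 693) (.tw (.s12 (.s13 (.tw (.c 0 (.b 44) (.b 26)))))))) (.s13 (.tw (.s13 (.c 0 (.b 70) (.b 45))))))))))))),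
  (.c 0 (.tw (.c 0 (.b 13) (.s13 (.tw (.s12 (.s13 (.c 0 (.b 136) (.c 0 (.b 260) (.b 147))))))))) (.s13 (.tw (.c 0 (.s13 (.tw (.c 0 (.b 684) (.b 185)))) (.s13 (.c 0 (.tw (.c 0 (.b 304) (.tw (.s12 (.s13 (.tw (.c 0 (.b 44) (.b 12)))))))) (.s13 (.tw (.s13 (.c 0 (.b 70) (.b 45))))))))))),
  (.c 0 (.tw (.c 0 (.b 478) (.s13 (.tw (.s12 (.s13 (.c 0 (.b 381) (.c 0 (.b 136) (.b 136))))))))) (.s13 (.tw (.c 0 (.s12 (.s13 (.tw (.s12 (.c 0 (.b 136) (.b 536)))))) (.tw (.s12 (.s13 (.tw (.c 0 (.s12 (.s13 (.tw (.s12 (.c 0 (.b 13) (.b 598)))))) (.s13 (.tw (.c 0 (.b 296) (.s13 (.tw (.c 0 (.b 5) (.b 5)))))))))))))))),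
  (.tw (.s13 (.c 0 (.tw (.c 0 (.tw (.s12 (.s13 (.tw (.c 0 (.b 23) (.b 21)))))) (.b 147))) (.s13 (.tw (.c 0 (.s12 (.s13 (.tw (.c 0 (.b 136) (.s13 (.tw (.s12 (.s13 (.c 0 (.b 63) (.b 369)))))))))) (.s12 (.s13 (.c 0 (.s12 (.s13 (.tw (.s12 (.c 0 (.b 693) (.s13 (.tw (.s12 (.s13 (.c 0 (.b 136) (.b 44))))))))))) (.tw (.c 0 (.b 14) (.s13 (.tw (.s12 (.s13 (.c 0 (.b 14) (.c 0 (.b 136) (.b 136)))))))))))))))))),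
  (.s13 (.c 0 (.s12 (.s13 (.tw (.s12 (.c 0 (.tw (.s13 (.tw (.s12 (.c 0 (.b 13) (.b 207)))))) (.b 111)))))) (.s13 (.tw (.s12 (.c 0 (.s13 (.tw (.c 0 (.b 136) (.s13 (.tw (.s12 (.s13 (.c 0 (.b 63) (.b 369))))))))) (.tw (.s12 (.s13 (.tw (.c 0 (.s13 (.tw (.c 0 (.b 13) (.b 546)))) (.s13 (.tw (.c 0 (.tw (.c 0 (.b 136) (.b 136))) (.s13 (.c 0 (.b 42) (.tw (.c 0 (.b 136) (.b 136))))))))))))))))))),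
  (.c 0 (.tw (.c 0 (.s13 (.tw (.s12 (.s13 (.c 0 (.s12 (.s13 (.tw (.c 0 (.b 14) (.s13 (.tw (.s13 (.s12 (.c 0 (.b 381) (.b 381)))))))))) (.b 29)))))) (.b 12))) (.s13 (.tw (.c 0 (.tw (.s13 (.tw (.c 0 (.b 67) (.s13 (.tw (.s13 (.c 0 (.b 14) (.b 44))))))))) (.s12 (.s13 (.c 0 (.tw (.c 0 (.b 14) (.s13 (.tw (.s12 (.s13 (.c 0 (.b 63) (.c 0 (.b 136) (.b 136))))))))) (.s13 (.tw (.s13 (.c 0 (.b 70) (.b 45)))))))))))),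
  (.c 0 (.s12 (.s13 (.tw (.s12 (.c 0 (.b 284) (.s13 (.tw (.s12 (.s13 (.c 0 (.b 63) (.s13 (.tw (.s12 (.s13 (.c 0 (.b 284) (.b 27)))))))))))))))) (.s13 (.tw (.s12 (.c 0 (.s13 (.tw (.c 0 (.b 14) (.s13 (.tw (.s12 (.s13 (.c 0 (.b 14) (.c 0 (.b 136) (.b 136)))))))))) (.s12 (.s13 (.c 0 (.s12 (.s13 (.tw (.s12 (.c 0 (.b 460) (.s13 (.tw (.s12 (.s13 (.c 0 (.b 63) (.b 44))))))))))) (.s13 (.tw (.s13 (.c 0 (.b 70) (.b 45))))))))))))),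
  (.c 0 (.tw (.c 0 (.b 13) (.s13 (.tw (.s12 (.s13 (.c 0 (.b 136) (.c 0 (.b 260) (.b 147))))))))) (.s13 (.tw (.c 0 (.s13 (.tw (.c 0 (.b 14) (.s13 (.tw (.s12 (.s13 (.c 0 (.b 14) (.c 0 (.b 136) (.b 136)))))))))) (.s13 (.c 0 (.tw (.c 0 (.b 304) (.tw (.s12 (.s13 (.tw (.c 0 (.b 44) (.b 12)))))))) (.s13 (.tw (.s13 (.c 0 (.b 70) (.b 45))))))))))),
  (.c 0 (.tw (.c 0 (.b 13) (.s13 (.tw (.s12 (.s13 (.c 0 (.b 136) (.c 0 (.b 260) (.b 147))))))))) (.s13 (.tw (.c 0 (.s13 (.tw (.c 0 (.b 693) (.s13 (.tw (.c 0 (.b 5) (.b 465))))))) (.tw (.s12 (.s13 (.tw (.c 0 (.tw (.s13 (.s12 (.c 0 (.b 67) (.b 247))))) (.s13 (.tw (.c 0 (.b 136) (.s13 (.tw (.s12 (.s13 (.c 0 (.b 44) (.b 1)))))))))))))))))),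
  (.c 0 (.tw (.c 0 (.b 13) (.s13 (.tw (.s12 (.s13 (.c 0 (.b 136) (.c 0 (.b 260) (.b 147))))))))) (.s13 (.tw (.c 0 (.tw (.s13 (.tw (.c 0 (.tw (.s12 (.c 0 (.b 176) (.b 12)))) (.s13 (.tw (.c 0 (.b 381) (.b 44)))))))) (.tw (.s12 (.s13 (.tw (.c 0 (.s13 (.tw (.c 0 (.b 136) (.b 44)))) (.tw (.s13 (.s12 (.c 0 (.b 67) (.b 247)))))))))))))),
  (.s13 (.c 0 (.s12 (.s13 (.tw (.s12 (.c 0 (.tw (.s13 (.tw (.c 0 (.b 381) (.b 29))))) (.s13 (.tw (.s13 (.c 0 (.b 1) (.b 21)))))))))) (.tw (.s12 (.c 0 (.s13 (.tw (.c 0 (.b 57) (.s13 (.tw (.s12 (.s13 (.c 0 (.b 136) (.b 351))))))))) (.s13 (.tw (.c 0 (.s13 (.tw (.c 0 (.b 14) (.c 0 (.b 136) (.b 136))))) (.tw (.s12 (.s13 (.tw (.c 0 (.s13 (.tw (.c 0 (.tw (.c 0 (.b 63) (.b 136))) (.b 5)))) (.b 23)))))))))))))),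
  (.c 0 (.tw (.c 0 (.b 345) (.s13 (.tw (.s12 (.s13 (.c 0 (.b 334) (.c 0 (.b 136) (.b 478))))))))) (.s13 (.tw (.c 0 (.s12 (.s13 (.tw (.c 0 (.b 14) (.c 0 (.b 136) (.b 136)))))) (.s13 (.tw (.s12 (.s13 (.c 0 (.s12 (.s13 (.tw (.c 0 (.b 136) (.b 41))))) (.tw (.s12 (.s13 (.tw (.c 0 (.b 348) (.s13 (.tw (.c 0 (.b 5) (.b 5)))))))))))))))))),
  (.c 0 (.tw (.c 0 (.b 13) (.s13 (.tw (.s12 (.s13 (.c 0 (.b 136) (.c 0 (.b 260) (.b 147))))))))) (.s13 (.tw (.c 0 (.tw (.s13 (.c 0 (.b 38) (.tw (.c 0 (.b 13) (.b 247)))))) (.tw (.s13 (.tw (.c 0 (.s13 (.tw (.c 0 (.b 136) (.b 536)))) (.tw (.s13 (.tw (.c 0 (.s13 (.tw (.s12 (.c 0 (.b 63) (.b 381))))) (.s13 (.tw (.s12 (.c 0 (.b 44) (.b 12))))))))))))))))),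
  (.c 0 (.s12 (.s13 (.tw (.s12 (.c 0 (.b 284) (.s13 (.tw (.s12 (.s13 (.c 0 (.b 63) (.s13 (.tw (.s12 (.s13 (.c 0 (.b 284) (.b 27)))))))))))))))) (.s13 (.tw (.s12 (.c 0 (.s13 (.tw (.c 0 (.b 304) (.tw (.s12 (.s13 (.tw (.c 0 (.b 63) (.b 381))))))))) (.tw (.s12 (.s13 (.tw (.c 0 (.tw (.c 0 (.b 136) (.b 462))) (.s13 (.tw (.c 0 (.b 693) (.s13 (.tw (.c 0 (.b 5) (.b 465))))))))))))))))),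
  (.c 0 (.s12 (.s13 (.tw (.s12 (.c 0 (.b 284) (.s13 (.tw (.s12 (.s13 (.c 0 (.b 63) (.s13 (.tw (.s12 (.s13 (.c 0 (.b 284) (.b 27)))))))))))))))) (.s13 (.tw (.s12 (.c 0 (.s13 (.tw (.c 0 (.b 14) (.s13 (.tw (.s12 (.s13 (.c 0 (.b 136) (.b 351))))))))) (.tw (.s12 (.s13 (.tw (.c 0 (.s13 (.tw (.c 0 (.s13 (.tw (.c 0 (.b 124) (.b 247)))) (.s13 (.tw (.c 0 (.b 63) (.b 381))))))) (.s13 (.tw (.c 0 (.b 136) (.b 536)))))))))))))),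
  (.s13 (.c 0 (.s12 (.s13 (.tw (.c 0 (.tw (.s13 (.tw (.s13 (.c 0 (.b 43) (.tw (.s12 (.s13 (.c 0 (.b 14) (.b 536)))))))))) (.b 13))))) (.tw (.s12 (.c 0 (.s13 (.tw (.c 0 (.b 714) (.b 29)))) (.s13 (.tw (.c 0 (.s13 (.tw (.c 0 (.b 136) (.b 180)))) (.s13 (.tw (.s13 (.c 0 (.tw (.c 0 (.b 136) (.b 136))) (.s13 (.c 0 (.b 42) (.tw (.c 0 (.b 136) (.b 136))))))))))))))))),
  (.c 0 (.tw (.c 0 (.b 13) (.s13 (.tw (.s12 (.s13 (.c 0 (.b 136) (.c 0 (.b 260) (.b 147))))))))) (.s13 (.tw (.c 0 (.s13 (.tw (.c 0 (.tw (.s13 (.tw (.c 0 (.b 136) (.b 247))))) (.b 14)))) (.tw (.s13 (.tw (.c 0 (.s13 (.tw (.c 0 (.b 136) (.b 536)))) (.s12 (.s13 (.tw (.c 0 (.s13 (.tw (.s12 (.c 0 (.b 239) (.b 1))))) (.s13 (.tw (.c 0 (.b 44) (.b 12)))))))))))))))),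
  (.c 0 (.tw (.c 0 (.tw (.s12 (.s13 (.tw (.c 0 (.b 63) (.b 159)))))) (.s13 (.tw (.s12 (.s13 (.c 0 (.b 63) (.c 0 (.b 63) (.b 381))))))))) (.s13 (.tw (.c 0 (.s12 (.s13 (.tw (.s12 (.c 0 (.b 136) (.b 536)))))) (.tw (.s12 (.s13 (.tw (.c 0 (.s12 (.s13 (.tw (.c 0 (.b 136) (.b 29))))) (.s12 (.s13 (.tw (.c 0 (.s13 (.tw (.s12 (.c 0 (.b 14) (.s13 (.tw (.s12 (.s13 (.c 0 (.b 44) (.b 1)))))))))) (.s13 (.tw (.c 0 (.b 63) (.b 44))))))))))))))))),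
  (.c 0 (.tw (.c 0 (.b 13) (.s13 (.tw (.s12 (.s13 (.c 0 (.b 136) (.c 0 (.b 1) (.s13 (.tw (.s13 (.c 0 (.b 1) (.b 21))))))))))))) (.s13 (.tw (.c 0 (.tw (.s13 (.c 0 (.b 45) (.s12 (.s13 (.tw (.c 0 (.b 44) (.b 12)))))))) (.tw (.s13 (.tw (.c 0 (.s13 (.tw (.c 0 (.b 136) (.b 44)))) (.tw (.s12 (.s13 (.tw (.c 0 (.b 95) (.s13 (.tw (.c 0 (.b 44) (.b 12))))))))))))))))),
  (.c 0 (.tw (.c 0 (.b 13) (.s13 (.tw (.s12 (.s13 (.c 0 (.b 136) (.c 0 (.b 1) (.s13 (.tw (.s13 (.c 0 (.b 1) (.b 21))))))))))))) (.s13 (.tw (.c 0 (.s13 (.tw (.c 0 (.b 693) (.s13 (.tw (.c 0 (.b 82) (.b 26))))))) (.tw (.s13 (.tw (.c 0 (.s13 (.tw (.c 0 (.b 136) (.b 44)))) (.tw (.s12 (.s13 (.tw (.c 0 (.b 95) (.s13 (.tw (.c 0 (.b 44) (.b 12))))))))))))))))),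
  (.s13 (.c 0 (.s12 (.s13 (.tw (.s12 (.c 0 (.s13 (.tw (.c 0 (.s13 (.tw (.s13 (.c 0 (.b 443) (.b 1))))) (.b 1)))) (.b 526)))))) (.s13 (.tw (.s12 (.c 0 (.s13 (.tw (.c 0 (.b 136) (.s13 (.tw (.s12 (.s13 (.c 0 (.b 14) (.b 239))))))))) (.s12 (.s13 (.tw (.c 0 (.s13 (.tw (.c 0 (.b 136) (.b 44)))) (.s13 (.tw (.s13 (.s12 (.c 0 (.b 140) (.s13 (.tw (.s13 (.c 0 (.b 5) (.b 143)))))))))))))))))))),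
  (.c 0 (.tw (.c 0 (.b 13) (.s13 (.tw (.s12 (.s13 (.c 0 (.b 136) (.c 0 (.b 260) (.b 147))))))))) (.s13 (.tw (.c 0 (.s13 (.tw (.c 0 (.b 684) (.b 356)))) (.tw (.s13 (.tw (.c 0 (.s13 (.tw (.c 0 (.b 136) (.b 536)))) (.tw (.s13 (.tw (.c 0 (.s13 (.tw (.s12 (.c 0 (.b 63) (.b 381))))) (.s13 (.tw (.s12 (.c 0 (.b 44) (.b 12))))))))))))))))),
  (.s13 (.c 0 (.s12 (.s13 (.tw (.s12 (.c 0 (.s13 (.tw (.c 0 (.b 443) (.b 16)))) (.b 526)))))) (.s13 (.tw (.s12 (.c 0 (.s13 (.tw (.c 0 (.b 136) (.s13 (.tw (.s12 (.s13 (.c 0 (.b 14) (.b 239))))))))) (.s12 (.s13 (.tw (.c 0 (.s13 (.tw (.c 0 (.b 136) (.b 44)))) (.s13 (.tw (.s13 (.s12 (.c 0 (.b 140) (.s13 (.tw (.s13 (.c 0 (.b 5) (.b 143)))))))))))))))))))),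
  (.c 0 (.tw (.c 0 (.b 13) (.s13 (.tw (.s12 (.s13 (.c 0 (.b 136) (.c 0 (.b 1) (.s13 (.tw (.s13 (.c 0 (.b 1) (.b 21))))))))))))) (.tw (.s13 (.s12 (.c 0 (.s13 (.tw (.s12 (.c 0 (.b 136) (.s13 (.tw (.s12 (.s13 (.c 0 (.b 136) (.tw (.s12 (.s13 (.tw (.c 0 (.b 63) (.b 381))))))))))))))) (.s13 (.tw (.s12 (.c 0 (.tw (.s12 (.s13 (.tw (.c 0 (.b 82) (.b 239)))))) (.tw (.s12 (.s13 (.tw (.c 0 (.b 5) (.b 247))))))))))))))),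
  (.c 0 (.tw (.c 0 (.b 13) (.s13 (.tw (.s12 (.s13 (.c 0 (.b 136) (.c 0 (.b 260) (.b 147))))))))) (.s13 (.tw (.c 0 (.s13 (.tw (.c 0 (.b 684) (.b 185)))) (.tw (.s13 (.tw (.c 0 (.s13 (.tw (.c 0 (.b 136) (.b 536)))) (.tw (.s13 (.tw (.c 0 (.s13 (.tw (.s12 (.c 0 (.b 63) (.b 381))))) (.s13 (.tw (.s12 (.c 0 (.b 44) (.b 12))))))))))))))))),
  (.c 0 (.tw (.c 0 (.b 478) (.s13 (.tw (.s12 (.s13 (.c 0 (.b 381) (.c 0 (.b 136) (.b 136))))))))) (.s13 (.tw (.c 0 (.s12 (.s13 (.tw (.s12 (.c 0 (.b 136) (.b 536)))))) (.tw (.s12 (.s13 (.tw (.c 0 (.s12 (.s13 (.tw (.c 0 (.b 136) (.b 29))))) (.s12 (.s13 (.tw (.c 0 (.s13 (.tw (.s12 (.c 0 (.b 14) (.s13 (.tw (.s12 (.s13 (.c 0 (.b 44) (.b 1)))))))))) (.s13 (.tw (.c 0 (.b 63) (.b 44))))))))))))))))),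
  (.c 0 (.s12 (.s13 (.tw (.s12 (.c 0 (.b 284) (.s13 (.tw (.s12 (.s13 (.c 0 (.b 63) (.s13 (.tw (.s12 (.s13 (.c 0 (.b 284) (.b 27)))))))))))))))) (.s13 (.tw (.s12 (.c 0 (.s13 (.tw (.c 0 (.b 14) (.s13 (.tw (.s12 (.s13 (.c 0 (.b 14) (.c 0 (.b 136) (.b 136)))))))))) (.tw (.s12 (.s13 (.tw (.c 0 (.tw (.s13 (.c 0 (.b 70) (.b 45)))) (.s13 (.tw (.s12 (.c 0 (.b 5) (.s13 (.tw (.c 0 (.b 63) (.b 200)))))))))))))))))),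
  (.s13 (.c 0 (.s12 (.s13 (.tw (.s12 (.c 0 (.tw (.s13 (.tw (.c 0 (.b 478) (.b 16))))) (.s13 (.tw (.s13 (.c 0 (.b 381) (.b 29)))))))))) (.s13 (.tw (.s12 (.c 0 (.s13 (.tw (.c 0 (.b 136) (.s13 (.tw (.s12 (.s13 (.c 0 (.b 14) (.b 239))))))))) (.s12 (.s13 (.tw (.c 0 (.s13 (.tw (.c 0 (.b 136) (.b 44)))) (.s13 (.tw (.s13 (.s12 (.c 0 (.b 140) (.s13 (.tw (.s13 (.c 0 (.b 5) (.b 143)))))))))))))))))))),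
  (.c 0 (.tw (.c 0 (.b 13) (.s13 (.tw (.s12 (.s13 (.c 0 (.b 136) (.c 0 (.b 1) (.s13 (.tw (.s13 (.c 0 (.b 1) (.b 21))))))))))))) (.s13 (.tw (.c 0 (.tw (.s13 (.c 0 (.b 70) (.b 45)))) (.tw (.s13 (.tw (.c 0 (.s12 (.s13 (.tw (.c 0 (.s13 (.tw (.s12 (.c 0 (.b 239) (.b 1))))) (.s13 (.tw (.c 0 (.b 124) (.b 200)))))))) (.s13 (.tw (.c 0 (.b 136) (.b 44)))))))))))),
  (.c 0 (.tw (.c 0 (.b 13) (.s13 (.tw (.s12 (.s13 (.c 0 (.b 136) (.c 0 (.b 260) (.b 147))))))))) (.s13 (.tw (.c 0 (.s13 (.tw (.c 0 (.b 684) (.b 304)))) (.tw (.s13 (.tw (.c 0 (.s13 (.tw (.c 0 (.b 136) (.b 536)))) (.s12 (.s13 (.tw (.c 0 (.s13 (.tw (.s12 (.c 0 (.b 14) (.b 239))))) (.s13 (.tw (.c 0 (.b 44) (.b 12)))))))))))))))),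
  (.tw (.s13 (.c 0 (.tw (.c 0 (.tw (.s12 (.s13 (.tw (.c 0 (.b 13) (.b 138)))))) (.b 294))) (.s13 (.tw (.c 0 (.s12 (.s13 (.tw (.c 0 (.b 136) (.s13 (.tw (.s12 (.s13 (.c 0 (.b 63) (.b 369)))))))))) (.s12 (.s13 (.c 0 (.s12 (.s13 (.tw (.s12 (.c 0 (.b 693) (.s13 (.tw (.s12 (.s13 (.c 0 (.b 136) (.b 44))))))))))) (.tw (.c 0 (.b 14) (.s13 (.tw (.s12 (.s13 (.c 0 (.b 14) (.c 0 (.b 136) (.b 136)))))))))))))))))),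
  (.s13 (.c 0 (.s12 (.s13 (.tw (.s12 (.c 0 (.s13 (.tw (.c 0 (.b 478) (.b 16)))) (.s13 (.tw (.s12 (.s13 (.c 0 (.b 63) (.b 159))))))))))) (.s13 (.tw (.s12 (.c 0 (.s13 (.tw (.c 0 (.b 136) (.s13 (.tw (.s12 (.s13 (.c 0 (.b 14) (.b 239))))))))) (.s12 (.s13 (.tw (.c 0 (.s13 (.tw (.c 0 (.b 136) (.b 44)))) (.s13 (.tw (.s13 (.s12 (.c 0 (.b 140) (.s13 (.tw (.s13 (.c 0 (.b 5) (.b 143)))))))))))))))))))),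
  (.c 0 (.tw (.c 0 (.s13 (.tw (.s12 (.s13 (.c 0 (.s12 (.s13 (.tw (.c 0 (.b 14) (.s13 (.tw (.s13 (.s12 (.c 0 (.b 381) (.b 381)))))))))) (.b 29)))))) (.b 12))) (.s13 (.tw (.c 0 (.s12 (.s13 (.tw (.c 0 (.b 14) (.s13 (.tw (.s12 (.s13 (.c 0 (.b 136) (.b 351)))))))))) (.s12 (.s13 (.c 0 (.s12 (.s13 (.tw (.s12 (.c 0 (.b 58) (.s13 (.tw (.s12 (.s13 (.c 0 (.b 136) (.b 44))))))))))) (.s12 (.s13 (.tw (.s12 (.c 0 (.b 304) (.tw (.s12 (.s13 (.tw (.c 0 (.b 381) (.b 136)))))))))))))))))),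
  (.c 0 (.s12 (.s13 (.tw (.s12 (.c 0 (.b 284) (.s13 (.tw (.s12 (.s13 (.c 0 (.b 63) (.s13 (.tw (.s12 (.s13 (.c 0 (.b 284) (.b 27)))))))))))))))) (.s13 (.tw (.s12 (.c 0 (.s13 (.tw (.c 0 (.b 136) (.tw (.s12 (.s13 (.tw (.c 0 (.b 63) (.b 381))))))))) (.tw (.s12 (.s13 (.tw (.c 0 (.tw (.s12 (.s13 (.tw (.c 0 (.tw (.s13 (.s12 (.c 0 (.b 58) (.b 247))))) (.s13 (.tw (.c 0 (.b 44) (.b 12))))))))) (.s13 (.tw (.c 0 (.b 136) (.b 536)))))))))))))),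
  (.c 0 (.tw (.c 0 (.b 13) (.s13 (.tw (.s12 (.s13 (.c 0 (.b 136) (.c 0 (.b 260) (.b 147))))))))) (.s13 (.tw (.c 0 (.s13 (.tw (.c 0 (.b 14) (.s13 (.tw (.s12 (.s13 (.c 0 (.b 14) (.c 0 (.b 136) (.b 136)))))))))) (.tw (.s13 (.tw (.c 0 (.s13 (.tw (.c 0 (.b 136) (.b 536)))) (.tw (.s13 (.tw (.c 0 (.s13 (.tw (.s12 (.c 0 (.b 63) (.b 381))))) (.s13 (.tw (.s12 (.c 0 (.b 44) (.b 12))))))))))))))))),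
  (.c 0 (.s12 (.s13 (.tw (.s12 (.c 0 (.tw (.s13 (.tw (.c 0 (.b 478) (.b 16))))) (.s13 (.tw (.s13 (.c 0 (.b 1) (.b 21)))))))))) (.s13 (.tw (.s12 (.c 0 (.s13 (.tw (.c 0 (.b 14) (.s13 (.tw (.s12 (.s13 (.c 0 (.b 14) (.c 0 (.b 136) (.b 136)))))))))) (.s12 (.s13 (.c 0 (.s12 (.s13 (.tw (.s12 (.c 0 (.b 136) (.s13 (.tw (.s12 (.s13 (.c 0 (.b 136) (.b 44))))))))))) (.s13 (.tw (.s13 (.c 0 (.b 70) (.b 45))))))))))))),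
  (.c 0 (.s12 (.s13 (.tw (.s12 (.c 0 (.b 416) (.c 0 (.b 478) (.b 29))))))) (.s13 (.tw (.s12 (.c 0 (.s13 (.tw (.c 0 (.b 14) (.s13 (.tw (.s12 (.s13 (.c 0 (.b 14) (.c 0 (.b 136) (.b 136)))))))))) (.s12 (.s13 (.c 0 (.s12 (.s13 (.tw (.s12 (.c 0 (.b 136) (.s13 (.tw (.s12 (.s13 (.c 0 (.b 136) (.b 44))))))))))) (.s13 (.tw (.s13 (.c 0 (.b 70) (.b 45))))))))))))),
  (.c 0 (.s12 (.s13 (.tw (.s12 (.c 0 (.b 284) (.s13 (.tw (.s12 (.s13 (.c 0 (.b 63) (.s13 (.tw (.s12 (.s13 (.c 0 (.b 284) (.b 27)))))))))))))))) (.s13 (.tw (.s12 (.c 0 (.s13 (.tw (.c 0 (.b 14) (.s13 (.tw (.s12 (.s13 (.c 0 (.b 14) (.c 0 (.b 136) (.b 136)))))))))) (.s12 (.s13 (.c 0 (.s12 (.s13 (.tw (.s12 (.c 0 (.b 136) (.s13 (.tw (.s12 (.s13 (.c 0 (.b 136) (.b 44))))))))))) (.s13 (.tw (.s13 (.c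 0 (.b 70) (.b 45))))))))))))),
  (.c 0 (.tw (.c 0 (.b 13) (.s13 (.tw (.s12 (.s13 (.c 0 (.b 136) (.c 0 (.b 260) (.b 147))))))))) (.s13 (.tw (.c 0 (.s13 (.tw (.c 0 (.s13 (.tw (.c 0 (.b 63) (.b 381)))) (.s13 (.tw (.c 0 (.b 465) (.b 124))))))) (.tw (.s13 (.c 0 (.tw (.c 0 (.b 273) (.s13 (.tw (.s12 (.s13 (.c 0 (.b 24) (.b 136)))))))) (.tw (.c 0 (.b 136) (.b 136)))))))))),
  (.c 0 (.tw (.c 0 (.b 13) (.s13 (.tw (.s12 (.s13 (.c 0 (.b 136) (.c 0 (.b 1) (.s13 (.tw (.s13 (.c 0 (.b 1) (.b 21))))))))))))) (.s13 (.tw (.c 0 (.s13 (.tw (.c 0 (.s13 (.tw (.c 0 (.b 63) (.b 381)))) (.s13 (.tw (.c 0 (.b 124) (.b 200))))))) (.tw (.s13 (.c 0 (.tw (.c 0 (.b 273) (.s13 (.tw (.s12 (.s13 (.c 0 (.b 24) (.b 136)))))))) (.tw (.c 0 (.b 136) (.b 136)))))))))),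
  (.c 0 (.tw (.c 0 (.b 13) (.s13 (.tw (.s12 (.s13 (.c 0 (.b 136) (.c 0 (.b 1) (.s13 (.tw (.s13 (.c 0 (.b 1) (.b 21))))))))))))) (.s13 (.tw (.c 0 (.s13 (.tw (.c 0 (.b 693) (.s13 (.tw (.c 0 (.b 124) (.b 200))))))) (.tw (.s13 (.tw (.c 0 (.s13 (.tw (.c 0 (.b 136) (.b 536)))) (.s13 (.tw (.c 0 (.b 313) (.s13 (.tw (.c 0 (.b 44) (.b 1))))))))))))))),
  (.s13 (.c 0 (.s12 (.s13 (.tw (.s12 (.c 0 (.s13 (.tw (.c 0 (.s13 (.tw (.s13 (.c 0 (.b 443) (.b 1))))) (.b 1)))) (.b 526)))))) (.s13 (.tw (.s12 (.c 0 (.s13 (.tw (.c 0 (.b 136) (.b 236)))) (.s12 (.s13 (.tw (.c 0 (.s13 (.tw (.s12 (.c 0 (.b 136) (.s13 (.tw (.s12 (.s13 (.c 0 (.b 44) (.b 1)))))))))) (.s13 (.tw (.s13 (.s12 (.c 0 (.b 290) (.s13 (.tw (.s13 (.c 0 (.b 5) (.b 143)))))))))))))))))))),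
  (.c 0 (.tw (.c 0 (.b 13) (.s13 (.tw (.s12 (.s13 (.c 0 (.b 136) (.c 0 (.b 260) (.b 147))))))))) (.s13 (.tw (.c 0 (.s13 (.tw (.c 0 (.tw (.s13 (.tw (.c 0 (.b 136) (.b 247))))) (.b 14)))) (.tw (.s13 (.tw (.c 0 (.s13 (.tw (.c 0 (.b 136) (.s13 (.tw (.s12 (.s13 (.c 0 (.b 44) (.b 1))))))))) (.s13 (.tw (.c 0 (.b 5) (.s13 (.tw (.c 0 (.b 124) (.b 124))))))))))))))),
  (.s13 (.c 0 (.s12 (.s13 (.tw (.s12 (.c 0 (.s13 (.tw (.c 0 (.b 443) (.b 16)))) (.b 526)))))) (.s13 (.tw (.s12 (.c 0 (.s13 (.tw (.c 0 (.b 136) (.b 236)))) (.s12 (.s13 (.tw (.c 0 (.s13 (.tw (.s12 (.c 0 (.b 136) (.s13 (.tw (.s12 (.s13 (.c 0 (.b 44) (.b 1)))))))))) (.s13 (.tw (.s13 (.s12 (.c 0 (.b 290) (.s13 (.tw (.s13 (.c 0 (.b 5) (.b 143)))))))))))))))))))),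
  (.c 0 (.s12 (.s13 (.tw (.s12 (.c 0 (.b 284) (.s13 (.tw (.s12 (.s13 (.c 0 (.b 63) (.s13 (.tw (.s12 (.s13 (.c 0 (.b 284) (.b 27)))))))))))))))) (.s13 (.tw (.s12 (.c 0 (.s13 (.tw (.c 0 (.tw (.s13 (.tw (.c 0 (.b 136) (.b 247))))) (.b 14)))) (.s12 (.s13 (.tw (.c 0 (.s13 (.tw (.c 0 (.b 136) (.b 44)))) (.tw (.s12 (.c 0 (.s13 (.tw (.c 0 (.b 44) (.b 12)))) (.s13 (.tw (.s12 (.c 0 (.b 13) (.b 239))))))))))))))))),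
  (.c 0 (.tw (.c 0 (.b 13) (.s13 (.tw (.s12 (.s13 (.c 0 (.b 136) (.c 0 (.b 260) (.b 147))))))))) (.s13 (.tw (.c 0 (.s13 (.tw (.c 0 (.b 14) (.s13 (.tw (.s12 (.s13 (.c 0 (.b 136) (.b 536))))))))) (.tw (.s13 (.tw (.c 0 (.s12 (.s13 (.tw (.c 0 (.s13 (.tw (.c 0 (.b 334) (.b 26)))) (.s13 (.tw (.c 0 (.b 44) (.b 12)))))))) (.s13 (.tw (.c 0 (.b 136) (.b 536)))))))))))),
  (.c 0 (.tw (.c 0 (.b 14) (.s13 (.tw (.s12 (.s13 (.c 0 (.b 136) (.c 0 (.b 666) (.b 666))))))))) (.s13 (.tw (.c 0 (.s12 (.s13 (.tw (.c 0 (.b 14) (.c 0 (.b 136) (.b 136)))))) (.s13 (.tw (.s12 (.s13 (.c 0 (.s12 (.s13 (.tw (.c 0 (.b 136) (.b 41))))) (.tw (.s12 (.s13 (.tw (.c 0 (.b 348) (.s13 (.tw (.c 0 (.b 5) (.b 5)))))))))))))))))),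
  (.c 0 (.tw (.c 0 (.b 13) (.s13 (.tw (.s12 (.s13 (.c 0 (.b 136) (.c 0 (.b 1) (.s13 (.tw (.s13 (.c 0 (.b 1) (.b 21))))))))))))) (.s13 (.tw (.c 0 (.s13 (.tw (.c 0 (.b 693) (.tw (.s12 (.s13 (.tw (.c 0 (.b 227) (.b 26))))))))) (.tw (.s13 (.tw (.c 0 (.s13 (.tw (.c 0 (.b 136) (.b 44)))) (.tw (.s12 (.s13 (.tw (.c 0 (.b 95) (.s13 (.tw (.c 0 (.b 44) (.b 12))))))))))))))))),
  (.s13 (.c 0 (.tw (.c 0 (.b 348) (.s13 (.tw (.s12 (.s13 (.c 0 (.b 381) (.b 172)))))))) (.s13 (.c 0 (.tw (.c 0 (.s13 (.tw (.c 0 (.b 14) (.s13 (.tw (.s12 (.s13 (.c 0 (.b 136) (.b 598))))))))) (.tw (.s13 (.tw (.c 0 (.s13 (.tw (.c 0 (.b 136) (.b 44)))) (.tw (.s13 (.tw (.c 0 (.s13 (.tw (.s12 (.c 0 (.b 63) (.b 381))))) (.s13 (.tw (.c 0 (.b 63) (.b 44)))))))))))))) (.b 1))))),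
  (.c 0 (.tw (.c 0 (.b 13) (.s13 (.tw (.s12 (.s13 (.c 0 (.b 136) (.c 0 (.b 260) (.b 147))))))))) (.s13 (.tw (.c 0 (.s13 (.tw (.c 0 (.b 381) (.tw (.s12 (.s13 (.tw (.c 0 (.b 63) (.b 381))))))))) (.tw (.s13 (.tw (.c 0 (.tw (.s12 (.s13 (.tw (.c 0 (.tw (.s12 (.c 0 (.b 24) (.b 26)))) (.s13 (.tw (.c 0 (.b 63) (.b 44))))))))) (.s13 (.tw (.c 0 (.b 136) (.b 44)))))))))))),
  (.c 0 (.tw (.c 0 (.b 13) (.s13 (.tw (.s12 (.s13 (.c 0 (.b 136) (.c 0 (.b 1) (.s13 (.tw (.s13 (.c 0 (.b 1) (.b 21))))))))))))) (.s13 (.tw (.c 0 (.s13 (.tw (.c 0 (.b 693) (.s13 (.tw (.c 0 (.b 124) (.b 200))))))) (.tw (.s13 (.tw (.c 0 (.s13 (.tw (.c 0 (.b 136) (.s13 (.tw (.s12 (.s13 (.c 0 (.b 44) (.b 1))))))))) (.s13 (.tw (.s12 (.c 0 (.b 5) (.b 247))))))))))))),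
  (.s13 (.c 0 (.tw (.c 0 (.b 348) (.s13 (.tw (.s12 (.s13 (.c 0 (.b 63) (.b 21)))))))) (.s13 (.c 0 (.tw (.c 0 (.s13 (.tw (.c 0 (.b 14) (.s13 (.tw (.s12 (.s13 (.c 0 (.b 136) (.b 598))))))))) (.tw (.s13 (.tw (.c 0 (.s13 (.tw (.c 0 (.b 136) (.b 44)))) (.tw (.s13 (.tw (.c 0 (.s13 (.tw (.s12 (.c 0 (.b 63) (.b 381))))) (.s13 (.tw (.c 0 (.b 63) (.b 44)))))))))))))) (.b 1))))),
  (.c 0 (.tw (.c 0 (.b 13) (.s13 (.tw (.s12 (.s13 (.c 0 (.b 136) (.c 0 (.b 1) (.s13 (.tw (.s13 (.c 0 (.b 1) (.b 21))))))))))))) (.s13 (.tw (.c 0 (.s13 (.tw (.c 0 (.b 136) (.tw (.s12 (.s13 (.tw (.c 0 (.b 63) (.b 381))))))))) (.tw (.s13 (.tw (.c 0 (.tw (.s12 (.s13 (.tw (.c 0 (.s13 (.tw (.s13 (.s12 (.c 0 (.b 13) (.b 272)))))) (.s13 (.tw (.c 0 (.b 63) (.b 44))))))))) (.s13 (.tw (.c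 0 (.b 136) (.b 44)))))))))))),
  (.c 0 (.tw (.c 0 (.b 13) (.s13 (.tw (.s12 (.s13 (.c 0 (.b 136) (.c 0 (.b 260) (.b 147))))))))) (.s13 (.tw (.c 0 (.s13 (.tw (.c 0 (.b 684) (.b 304)))) (.tw (.s13 (.tw (.c 0 (.s13 (.tw (.c 0 (.b 136) (.s13 (.tw (.s12 (.s13 (.c 0 (.b 44) (.b 1))))))))) (.s13 (.tw (.c 0 (.s13 (.tw (.c 0 (.b 44) (.b 1)))) (.s13 (.tw (.c 0 (.b 124) (.b 124))))))))))))))),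
  (.tw (.s13 (.c 0 (.tw (.c 0 (.b 345) (.s13 (.tw (.s12 (.s13 (.c 0 (.b 13) (.b 18)))))))) (.s13 (.tw (.c 0 (.s12 (.s13 (.tw (.c 0 (.b 136) (.s13 (.tw (.s12 (.s13 (.c 0 (.b 63) (.b 369)))))))))) (.s12 (.s13 (.c 0 (.s12 (.s13 (.tw (.s12 (.c 0 (.b 693) (.s13 (.tw (.s12 (.s13 (.c 0 (.b 136) (.b 44))))))))))) (.tw (.c 0 (.b 14) (.s13 (.tw (.s12 (.s13 (.c 0 (.b 14) (.c 0 (.b 136) (.b 136)))))))))))))))))),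
  (.s13 (.c 0 (.tw (.c 0 (.b 279) (.s13 (.tw (.s12 (.s13 (.c 0 (.b 63) (.b 138)))))))) (.s13 (.c 0 (.tw (.c 0 (.s13 (.tw (.c 0 (.b 14) (.s13 (.tw (.s12 (.s13 (.c 0 (.b 136) (.b 598))))))))) (.tw (.s13 (.tw (.c 0 (.s13 (.tw (.c 0 (.b 136) (.b 44)))) (.tw (.s13 (.tw (.c 0 (.s13 (.tw (.s12 (.c 0 (.b 63) (.b 381))))) (.s13 (.tw (.c 0 (.b 63) (.b 44)))))))))))))) (.b 1))))),
  (.c 0 (.tw (.c 0 (.s13 (.tw (.s12 (.s13 (.c 0 (.s12 (.s13 (.tw (.c 0 (.b 14) (.s13 (.tw (.s13 (.s12 (.c 0 (.b 381) (.b 381)))))))))) (.b 29)))))) (.b 12))) (.s13 (.tw (.c 0 (.s12 (.s13 (.tw (.c 0 (.b 14) (.s13 (.tw (.s12 (.s13 (.c 0 (.b 136) (.b 351)))))))))) (.tw (.s12 (.s13 (.tw (.c 0 (.s13 (.tw (.c 0 (.b 136) (.b 44)))) (.s12 (.s13 (.tw (.c 0 (.s13 (.tw (.s12 (.c 0 (.b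 13) (.b 405))))) (.s13 (.tw (.c 0 (.b 44) (.b 12))))))))))))))))),
  (.c 0 (.tw (.c 0 (.b 13) (.s13 (.tw (.s12 (.s13 (.c 0 (.b 136) (.c 0 (.b 1) (.s13 (.tw (.s13 (.c 0 (.b 1) (.b 21))))))))))))) (.tw (.s13 (.s12 (.c 0 (.s13 (.tw (.s12 (.c 0 (.b 136) (.s13 (.tw (.s12 (.s13 (.c 0 (.b 136) (.s13 (.tw (.s12 (.s13 (.c 0 (.b 44) (.b 1))))))))))))))) (.s13 (.tw (.s12 (.c 0 (.tw (.s12 (.s13 (.tw (.c 0 (.b 82) (.b 239)))))) (.tw (.s12 (.s13 (.tw (.c 0 (.b 5) (.b 247))))))))))))))),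
  (.c 0 (.tw (.c 0 (.b 13) (.s13 (.tw (.s12 (.s13 (.c 0 (.b 136) (.c 0 (.b 260) (.b 147))))))))) (.s13 (.tw (.c 0 (.s13 (.tw (.c 0 (.b 14) (.s13 (.tw (.s12 (.s13 (.c 0 (.b 136) (.b 536))))))))) (.tw (.s13 (.tw (.c 0 (.s13 (.tw (.c 0 (.b 136) (.b 536)))) (.s12 (.s13 (.tw (.c 0 (.s13 (.tw (.s12 (.c 0 (.b 239) (.b 1))))) (.s13 (.tw (.c 0 (.b 44) (.b 12)))))))))))))))),
  (.s13 (.c 0 (.tw (.c 0 (.b 416) (.c 0 (.b 381) (.b 26)))) (.s13 (.c 0 (.tw (.c 0 (.s13 (.tw (.c 0 (.b 14) (.s13 (.tw (.s12 (.s13 (.c 0 (.b 136) (.b 598))))))))) (.tw (.s13 (.tw (.c 0 (.s13 (.tw (.c 0 (.b 136) (.b 44)))) (.tw (.s13 (.tw (.c 0 (.s13 (.tw (.s12 (.c 0 (.b 63) (.b 381))))) (.s13 (.tw (.c 0 (.b 63) (.b 44)))))))))))))) (.b 1))))),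
  (.c 0 (.tw (.c 0 (.b 13) (.s13 (.tw (.s12 (.s13 (.c 0 (.b 136) (.c 0 (.b 1) (.s13 (.tw (.s13 (.c 0 (.b 1) (.b 21))))))))))))) (.s13 (.tw (.c 0 (.tw (.s13 (.c 0 (.b 70) (.b 45)))) (.tw (.s13 (.tw (.c 0 (.tw (.s12 (.s13 (.tw (.c 0 (.b 5) (.s13 (.tw (.s12 (.c 0 (.b 124) (.b 139)))))))))) (.s13 (.tw (.c 0 (.b 136) (.b 44)))))))))))),
  (.s13 (.c 0 (.tw (.c 0 (.tw (.s12 (.s13 (.tw (.c 0 (.b 13) (.b 138)))))) (.b 581))) (.s13 (.c 0 (.tw (.c 0 (.s13 (.tw (.c 0 (.b 14) (.s13 (.tw (.s12 (.s13 (.c 0 (.b 136) (.b 598))))))))) (.tw (.s13 (.tw (.c 0 (.s13 (.tw (.c 0 (.b 136) (.b 44)))) (.tw (.s13 (.tw (.c 0 (.s13 (.tw (.s12 (.c 0 (.b 63) (.b 381))))) (.s13 (.tw (.c 0 (.b 63) (.b 44)))))))))))))) (.b 1))))),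
  (.c 0 (.tw (.c 0 (.b 567) (.s13 (.tw (.s12 (.s13 (.c 0 (.b 13) (.c 0 (.b 1) (.b 21))))))))) (.s13 (.tw (.c 0 (.tw (.s13 (.c 0 (.b 70) (.b 45)))) (.tw (.s13 (.tw (.c 0 (.s12 (.s13 (.tw (.c 0 (.s13 (.tw (.s12 (.c 0 (.b 239) (.b 1))))) (.s13 (.tw (.c 0 (.b 58) (.b 44)))))))) (.s13 (.tw (.c 0 (.b 136) (.b 44)))))))))))),
  (.c 0 (.tw (.c 0 (.s13 (.tw (.s12 (.s13 (.c 0 (.s12 (.s13 (.tw (.c 0 (.b 14) (.s13 (.tw (.s13 (.s12 (.c 0 (.b 381) (.b 381)))))))))) (.b 29)))))) (.b 12))) (.s13 (.tw (.c 0 (.s12 (.s13 (.tw (.c 0 (.b 136) (.b 536))))) (.tw (.s12 (.s13 (.tw (.c 0 (.s13 (.tw (.c 0 (.b 136) (.s13 (.tw (.s12 (.s13 (.c 0 (.b 44) (.b 12))))))))) (.tw (.s12 (.s13 (.tw (.c 0 (.tw (.c 0 (.b 63) (.b 24))) (.s13 (.tw (.c 0 (.b 44) (.b 12)))))))))))))))))),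
  (.c 0 (.tw (.c 0 (.b 13) (.s13 (.tw (.s12 (.s13 (.c 0 (.b 136) (.c 0 (.b 1) (.s13 (.tw (.s13 (.c 0 (.b 1) (.b 21))))))))))))) (.s13 (.tw (.c 0 (.tw (.s13 (.c 0 (.b 70) (.b 45)))) (.tw (.s13 (.tw (.c 0 (.s12 (.s13 (.tw (.c 0 (.s13 (.tw (.s12 (.c 0 (.b 239) (.b 1))))) (.s13 (.tw (.c 0 (.b 58) (.b 44)))))))) (.s13 (.tw (.c 0 (.b 136) (.b 44)))))))))))),
  (.c 0 (.tw (.c 0 (.b 13) (.s13 (.tw (.s12 (.s13 (.c 0 (.b 136) (.c 0 (.b 260) (.b 147))))))))) (.s13 (.tw (.c 0 (.s13 (.tw (.c 0 (.b 304) (.tw (.s12 (.s13 (.tw (.c 0 (.b 44) (.b 12))))))))) (.tw (.s13 (.tw (.c 0 (.s13 (.tw (.c 0 (.b 136) (.s13 (.tw (.s12 (.s13 (.c 0 (.b 63) (.b 381))))))))) (.s13 (.tw (.c 0 (.b 313) (.s13 (.tw (.c 0 (.b 44) (.b 1))))))))))))))),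
  (.c 0 (.s12 (.s13 (.tw (.s12 (.c 0 (.tw (.s13 (.tw (.c 0 (.b 478) (.b 16))))) (.s13 (.tw (.s13 (.c 0 (.b 1) (.b 21)))))))))) (.s13 (.tw (.s12 (.c 0 (.s13 (.tw (.c 0 (.b 14) (.s13 (.tw (.s12 (.s13 (.c 0 (.b 14) (.c 0 (.b 136) (.b 136)))))))))) (.s12 (.s13 (.tw (.c 0 (.s13 (.tw (.c 0 (.b 63) (.c 0 (.b 136) (.b 136))))) (.tw (.s13 (.s12 (.c 0 (.s13 (.tw (.s12 (.c 0 (.b 63) (.b 381))))) (.s13 (.tw (.s12 (.c 0 (.b 44) (.b 12)))))))))))))))))),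
  (.c 0 (.s12 (.s13 (.tw (.s12 (.c 0 (.b 416) (.c 0 (.b 478) (.b 29))))))) (.s13 (.tw (.s12 (.c 0 (.s13 (.tw (.c 0 (.b 14) (.s13 (.tw (.s12 (.s13 (.c 0 (.b 14) (.c 0 (.b 136) (.b 136)))))))))) (.s12 (.s13 (.tw (.c 0 (.s13 (.tw (.c 0 (.b 63) (.c 0 (.b 136) (.b 136))))) (.tw (.s13 (.s12 (.c 0 (.s13 (.tw (.s12 (.c 0 (.b 63) (.b 381))))) (.s13 (.tw (.s12 (.c 0 (.b 44) (.b 12)))))))))))))))))),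
  (.c 0 (.s12 (.s13 (.tw (.s12 (.c 0 (.b 284) (.s13 (.tw (.s12 (.s13 (.c 0 (.b 63) (.s13 (.tw (.s12 (.s13 (.c 0 (.b 284) (.b 27)))))))))))))))) (.s13 (.tw (.s12 (.c 0 (.s13 (.tw (.c 0 (.b 14) (.s13 (.tw (.s12 (.s13 (.c 0 (.b 14) (.c 0 (.b 136) (.b 136)))))))))) (.s12 (.s13 (.tw (.c 0 (.s13 (.tw (.c 0 (.b 63) (.c 0 (.b 136) (.b 136))))) (.tw (.s13 (.s12 (.c 0 (.s13 (.tw (.s12 (.c 0 (.b 63) (.b 381))))) (.s13 (.tw (.s12 (.c 0 (.b 44) (.b 12)))))))))))))))))),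
  (.c 0 (.tw (.c 0 (.b 478) (.s13 (.tw (.s12 (.s13 (.c 0 (.b 381) (.c 0 (.b 136) (.b 136))))))))) (.s13 (.c 0 (.s13 (.tw (.s13 (.s12 (.c 0 (.s13 (.tw (.s12 (.c 0 (.b 247) (.s13 (.tw (.s12 (.s13 (.c 0 (.b 63) (.b 44)))))))))) (.s13 (.tw (.s12 (.c 0 (.s13 (.tw (.s13 (.c 0 (.b 320) (.b 267))))) (.s13 (.tw (.c 0 (.b 24) (.b 24))))))))))))) (.b 14)))),
  (.c 0 (.tw (.c 0 (.b 478) (.s13 (.tw (.s12 (.s13 (.c 0 (.b 381) (.c 0 (.b 136) (.b 136))))))))) (.s13 (.tw (.c 0 (.s12 (.s13 (.tw (.c 0 (.b 136) (.s13 (.tw (.s12 (.s13 (.c 0 (.b 24) (.b 136)))))))))) (.tw (.s12 (.s13 (.tw (.c 0 (.tw (.s12 (.s13 (.tw (.c 0 (.b 320) (.b 67)))))) (.s13 (.tw (.c 0 (.b 5) (.s13 (.tw (.s12 (.s13 (.c 0 (.b 180) (.b 12)))))))))))))))))),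
  (.c 0 (.tw (.c 0 (.b 13) (.s13 (.tw (.s12 (.s13 (.c 0 (.b 136) (.c 0 (.b 1) (.s13 (.tw (.s13 (.c 0 (.b 1) (.b 21))))))))))))) (.tw (.s13 (.s12 (.c 0 (.s13 (.tw (.s12 (.c 0 (.b 337) (.s13 (.tw (.s12 (.s13 (.c 0 (.b 136) (.b 44)))))))))) (.s13 (.tw (.s12 (.c 0 (.tw (.s12 (.s13 (.tw (.c 0 (.b 202) (.b 247)))))) (.tw (.s12 (.s13 (.tw (.c 0 (.b 5) (.b 239))))))))))))))),
  (.s13 (.c 0 (.tw (.c 0 (.b 538) (.s13 (.tw (.s12 (.s13 (.c 0 (.b 381) (.b 172)))))))) (.s13 (.tw (.c 0 (.s12 (.s13 (.tw (.c 0 (.b 136) (.s13 (.tw (.s12 (.s13 (.c 0 (.b 63) (.b 369)))))))))) (.s12 (.s13 (.c 0 (.s12 (.s13 (.tw (.s12 (.c 0 (.b 693) (.s13 (.tw (.s12 (.s13 (.c 0 (.b 136) (.b 44))))))))))) (.tw (.c 0 (.b 14) (.s13 (.tw (.s12 (.s13 (.c 0 (.b 14) (.c 0 (.b 136) (.b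 136))))))))))))))))),
  (.c 0 (.tw (.c 0 (.b 13) (.s13 (.tw (.s12 (.s13 (.c 0 (.b 136) (.c 0 (.b 1) (.s13 (.tw (.s13 (.c 0 (.b 1) (.b 21))))))))))))) (.s13 (.tw (.c 0 (.s13 (.tw (.c 0 (.b 136) (.s13 (.tw (.s12 (.s13 (.c 0 (.b 63) (.b 369))))))))) (.tw (.s13 (.tw (.c 0 (.tw (.s12 (.s13 (.tw (.c 0 (.s13 (.tw (.s13 (.s12 (.c 0 (.b 13) (.b 272)))))) (.s13 (.tw (.c 0 (.b 63) (.b 44))))))))) (.s13 (.tw (.c 0 (.b 136) (.b 44)))))))))))),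
  (.c 0 (.tw (.c 0 (.b 13) (.s13 (.tw (.s12 (.s13 (.c 0 (.b 136) (.c 0 (.b 260) (.b 147))))))))) (.s13 (.tw (.c 0 (.s13 (.tw (.c 0 (.b 684) (.b 666)))) (.tw (.s13 (.tw (.c 0 (.s13 (.tw (.c 0 (.b 136) (.s13 (.tw (.s12 (.s13 (.c 0 (.b 44) (.b 1))))))))) (.s13 (.tw (.c 0 (.b 5) (.s13 (.tw (.c 0 (.b 124) (.b 124))))))))))))))),
  (.s13 (.c 0 (.tw (.c 0 (.b 538) (.s13 (.tw (.s12 (.s13 (.c 0 (.b 63) (.b 21)))))))) (.s13 (.tw (.c 0 (.s12 (.s13 (.tw (.c 0 (.b 136) (.s13 (.tw (.s12 (.s13 (.c 0 (.b 63) (.b 369)))))))))) (.s12 (.s13 (.c 0 (.s12 (.s13 (.tw (.s12 (.c 0 (.b 693) (.s13 (.tw (.s12 (.s13 (.c 0 (.b 136) (.b 44))))))))))) (.tw (.c 0 (.b 14) (.s13 (.tw (.s12 (.s13 (.c 0 (.b 14) (.c 0 (.b 136) (.b 136))))))))))))))))),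
  (.c 0 (.tw (.c 0 (.b 13) (.s13 (.tw (.s12 (.s13 (.c 0 (.b 136) (.c 0 (.b 1) (.s13 (.tw (.s13 (.c 0 (.b 1) (.b 21))))))))))))) (.s13 (.tw (.c 0 (.s13 (.tw (.c 0 (.b 14) (.s13 (.tw (.s12 (.s13 (.c 0 (.b 136) (.b 536))))))))) (.tw (.s13 (.tw (.c 0 (.s13 (.tw (.c 0 (.b 304) (.b 44)))) (.s13 (.tw (.c 0 (.b 5) (.s13 (.tw (.c 0 (.b 124) (.b 200))))))))))))))),
  (.s13 (.c 0 (.tw (.c 0 (.b 345) (.s13 (.tw (.s12 (.s13 (.c 0 (.b 13) (.b 18)))))))) (.s13 (.tw (.c 0 (.s12 (.s13 (.tw (.c 0 (.b 136) (.s13 (.tw (.s12 (.s13 (.c 0 (.b 63) (.b 369)))))))))) (.s12 (.s13 (.c 0 (.s12 (.s13 (.tw (.s12 (.c 0 (.b 693) (.s13 (.tw (.s12 (.s13 (.c 0 (.b 136) (.b 44))))))))))) (.tw (.c 0 (.b 14) (.s13 (.tw (.s12 (.s13 (.c 0 (.b 14) (.c 0 (.b 136) (.b 136))))))))))))))))),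
  (.c 0 (.tw (.c 0 (.b 567) (.s13 (.tw (.s12 (.s13 (.c 0 (.b 13) (.c 0 (.b 1) (.b 21))))))))) (.s13 (.tw (.c 0 (.s13 (.tw (.c 0 (.b 14) (.s13 (.tw (.s12 (.s13 (.c 0 (.b 136) (.b 536))))))))) (.tw (.s13 (.tw (.c 0 (.s13 (.tw (.c 0 (.b 5) (.s13 (.tw (.c 0 (.b 124) (.b 200))))))) (.s13 (.tw (.c 0 (.b 136) (.s13 (.tw (.s12 (.s13 (.c 0 (.b 44) (.b 1))))))))))))))))),
  (.c 0 (.tw (.c 0 (.s13 (.tw (.s12 (.s13 (.c 0 (.s12 (.s13 (.tw (.c 0 (.b 14) (.s13 (.tw (.s13 (.s12 (.c 0 (.b 381) (.b 381)))))))))) (.b 29)))))) (.b 12))) (.s13 (.tw (.c 0 (.s12 (.s13 (.tw (.c 0 (.b 136) (.s13 (.tw (.s12 (.s13 (.c 0 (.b 63) (.b 369)))))))))) (.tw (.s12 (.s13 (.tw (.c 0 (.s13 (.tw (.c 0 (.b 136) (.b 44)))) (.s12 (.s13 (.tw (.c 0 (.s13 (.tw (.s12 (.c 0 (.b 13) (.b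 598))))) (.s13 (.tw (.c 0 (.b 44) (.b 12))))))))))))))))),
  (.c 0 (.tw (.c 0 (.b 13) (.s13 (.tw (.s12 (.s13 (.c 0 (.b 136) (.c 0 (.b 1) (.s13 (.tw (.s13 (.c 0 (.b 1) (.b 21))))))))))))) (.s13 (.tw (.c 0 (.s13 (.tw (.c 0 (.b 14) (.s13 (.tw (.s12 (.s13 (.c 0 (.b 136) (.b 536))))))))) (.tw (.s13 (.tw (.c 0 (.s13 (.tw (.c 0 (.b 5) (.s13 (.tw (.c 0 (.b 124) (.b 200))))))) (.s13 (.tw (.c 0 (.b 136) (.s13 (.tw (.s12 (.s13 (.c 0 (.b 44) (.b 1))))))))))))))))),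
  (.c 0 (.tw (.c 0 (.b 13) (.s13 (.tw (.s12 (.s13 (.c 0 (.b 136) (.c 0 (.b 260) (.b 147))))))))) (.s13 (.tw (.c 0 (.s13 (.tw (.c 0 (.b 14) (.s13 (.tw (.s12 (.s13 (.c 0 (.b 136) (.b 536))))))))) (.tw (.s13 (.tw (.c 0 (.s13 (.tw (.c 0 (.b 136) (.s13 (.tw (.s12 (.s13 (.c 0 (.b 44) (.b 1))))))))) (.s13 (.tw (.c 0 (.b 5) (.s13 (.tw (.c 0 (.b 124) (.b 124))))))))))))))),
  (.c 0 (.s12 (.s13 (.tw (.s12 (.c 0 (.tw (.s13 (.tw (.c 0 (.b 478) (.b 16))))) (.s13 (.tw (.s13 (.c 0 (.b 1) (.b 21)))))))))) (.s13 (.tw (.s12 (.c 0 (.s13 (.tw (.c 0 (.b 14) (.s13 (.tw (.s12 (.s13 (.c 0 (.b 136) (.b 536))))))))) (.s12 (.s13 (.tw (.c 0 (.s13 (.tw (.c 0 (.b 136) (.b 44)))) (.tw (.s12 (.c 0 (.s13 (.tw (.c 0 (.b 44) (.b 12)))) (.s13 (.tw (.s12 (.c 0 (.b 13) (.b 239))))))))))))))))),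
  (.c 0 (.s12 (.s13 (.tw (.s12 (.c 0 (.b 416) (.c 0 (.b 478) (.b 29))))))) (.s13 (.tw (.s12 (.c 0 (.s13 (.tw (.c 0 (.b 14) (.s13 (.tw (.s12 (.s13 (.c 0 (.b 136) (.b 536))))))))) (.s12 (.s13 (.tw (.c 0 (.s13 (.tw (.c 0 (.b 136) (.b 44)))) (.tw (.s12 (.c 0 (.s13 (.tw (.c 0 (.b 44) (.b 12)))) (.s13 (.tw (.s12 (.c 0 (.b 13) (.b 239))))))))))))))))),
  (.c 0 (.s12 (.s13 (.tw (.s12 (.c 0 (.b 284) (.s13 (.tw (.s12 (.s13 (.c 0 (.b 63) (.s13 (.tw (.s12 (.s13 (.c 0 (.b 284) (.b 27)))))))))))))))) (.s13 (.tw (.s12 (.c 0 (.s13 (.tw (.c 0 (.b 14) (.s13 (.tw (.s12 (.s13 (.c 0 (.b 136) (.b 536))))))))) (.s12 (.s13 (.tw (.c 0 (.s13 (.tw (.c 0 (.b 136) (.b 44)))) (.tw (.s12 (.c 0 (.s13 (.tw (.c 0 (.b 44) (.b 12)))) (.s13 (.tw (.s12 (.c 0 (.b 13) (.b 239))))))))))))))))),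
  (.s13 (.c 0 (.tw (.c 0 (.tw (.s12 (.s13 (.tw (.c 0 (.b 13) (.b 138)))))) (.b 294))) (.s13 (.tw (.c 0 (.s12 (.s13 (.tw (.c 0 (.b 136) (.s13 (.tw (.s12 (.s13 (.c 0 (.b 63) (.b 369)))))))))) (.s12 (.s13 (.c 0 (.s12 (.s13 (.tw (.s12 (.c 0 (.b 693) (.s13 (.tw (.s12 (.s13 (.c 0 (.b 136) (.b 44))))))))))) (.tw (.c 0 (.b 14) (.s13 (.tw (.s12 (.s13 (.c 0 (.b 14) (.c 0 (.b 136) (.b 136))))))))))))))))),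
  (.c 0 (.tw (.c 0 (.b 567) (.s13 (.tw (.s12 (.s13 (.c 0 (.b 13) (.c 0 (.b 1) (.b 21))))))))) (.s13 (.tw (.c 0 (.s13 (.tw (.c 0 (.b 58) (.s13 (.tw (.s12 (.s13 (.c 0 (.b 14) (.c 0 (.b 136) (.b 136)))))))))) (.tw (.s13 (.tw (.c 0 (.s13 (.tw (.c 0 (.b 5) (.s13 (.tw (.c 0 (.b 124) (.b 200))))))) (.s13 (.tw (.c 0 (.b 136) (.b 44)))))))))))),
  (.c 0 (.tw (.c 0 (.b 13) (.s13 (.tw (.s12 (.s13 (.c 0 (.b 136) (.c 0 (.b 1) (.s13 (.tw (.s13 (.c 0 (.b 1) (.b 21))))))))))))) (.s13 (.tw (.c 0 (.s13 (.tw (.c 0 (.b 202) (.s13 (.tw (.s12 (.s13 (.c 0 (.b 220) (.b 44))))))))) (.s13 (.tw (.c 0 (.s13 (.tw (.c 0 (.b 136) (.b 44)))) (.s13 (.tw (.c 0 (.b 5) (.b 247))))))))))),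
  (.c 0 (.tw (.c 0 (.b 13) (.s13 (.tw (.s12 (.s13 (.c 0 (.b 136) (.c 0 (.b 1) (.s13 (.tw (.s13 (.c 0 (.b 1) (.b 21))))))))))))) (.s13 (.tw (.c 0 (.s13 (.tw (.c 0 (.b 58) (.s13 (.tw (.s12 (.s13 (.c 0 (.b 14) (.c 0 (.b 136) (.b 136)))))))))) (.tw (.s13 (.tw (.c 0 (.s13 (.tw (.c 0 (.b 5) (.s13 (.tw (.c 0 (.b 124) (.b 200))))))) (.s13 (.tw (.c 0 (.b 136) (.b 44)))))))))))),
  (.c 0 (.s12 (.s13 (.tw (.s12 (.c 0 (.tw (.s13 (.tw (.c 0 (.b 478) (.b 16))))) (.s13 (.tw (.s13 (.c 0 (.b 1) (.b 21)))))))))) (.s13 (.tw (.s12 (.c 0 (.s13 (.tw (.c 0 (.b 57) (.s13 (.tw (.s12 (.s13 (.c 0 (.b 14) (.c 0 (.b 136) (.b 136)))))))))) (.tw (.s13 (.tw (.c 0 (.s13 (.tw (.c 0 (.b 136) (.b 44)))) (.tw (.s13 (.tw (.c 0 (.s13 (.tw (.s12 (.c 0 (.b 63) (.b 381))))) (.s13 (.tw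 (.s12 (.c 0 (.b 44) (.b 12)))))))))))))))))),
  (.c 0 (.s12 (.s13 (.tw (.s12 (.c 0 (.b 416) (.c 0 (.b 478) (.b 29))))))) (.s13 (.tw (.s12 (.c 0 (.s13 (.tw (.c 0 (.b 57) (.s13 (.tw (.s12 (.s13 (.c 0 (.b 14) (.c 0 (.b 136) (.b 136)))))))))) (.tw (.s13 (.tw (.c 0 (.s13 (.tw (.c 0 (.b 136) (.b 44)))) (.tw (.s13 (.tw (.c 0 (.s13 (.tw (.s12 (.c 0 (.b 63) (.b 381))))) (.s13 (.tw (.s12 (.c 0 (.b 44) (.b 12)))))))))))))))))),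
  (.c 0 (.s12 (.s13 (.tw (.s12 (.c 0 (.b 284) (.s13 (.tw (.s12 (.s13 (.c 0 (.b 63) (.s13 (.tw (.s12 (.s13 (.c 0 (.b 284) (.b 27)))))))))))))))) (.s13 (.tw (.s12 (.c 0 (.s13 (.tw (.c 0 (.b 57) (.s13 (.tw (.s12 (.s13 (.c 0 (.b 14) (.c 0 (.b 136) (.b 136)))))))))) (.tw (.s13 (.tw (.c 0 (.s13 (.tw (.c 0 (.b 136) (.b 44)))) (.tw (.s13 (.tw (.c 0 (.s13 (.tw (.s12 (.c 0 (.b 63) (.b 381))))) (.s13 (.tw (.s12 (.c 0 (.b 44) (.b 12)))))))))))))))))),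
  (.c 0 (.tw (.c 0 (.tw (.s12 (.s13 (.tw (.c 0 (.b 63) (.b 159)))))) (.s13 (.tw (.s12 (.s13 (.c 0 (.b 63) (.c 0 (.b 63) (.b 381))))))))) (.s13 (.c 0 (.tw (.c 0 (.s13 (.tw (.c 0 (.b 58) (.s13 (.tw (.s12 (.s13 (.c 0 (.b 124) (.b 44))))))))) (.tw (.s12 (.s13 (.tw (.c 0 (.s13 (.tw (.c 0 (.b 63) (.b 44)))) (.s13 (.tw (.c 0 (.b 5) (.b 272))))))))))) (.b 1)))),
  (.c 0 (.tw (.c 0 (.b 478) (.s13 (.tw (.s12 (.s13 (.c 0 (.b 381) (.c 0 (.b 136) (.b 136))))))))) (.s13 (.tw (.c 0 (.s13 (.tw (.c 0 (.b 642) (.b 273)))) (.tw (.s12 (.s13 (.tw (.c 0 (.s13 (.tw (.c 0 (.tw (.c 0 (.b 63) (.b 136))) (.s13 (.tw (.s13 (.c 0 (.b 24) (.b 29)))))))) (.s13 (.tw (.c 0 (.b 63) (.b 44))))))))))))),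
  (.c 0 (.tw (.c 0 (.b 478) (.s13 (.tw (.s12 (.s13 (.c 0 (.b 381) (.c 0 (.b 136) (.b 136))))))))) (.s13 (.c 0 (.tw (.c 0 (.s13 (.tw (.c 0 (.b 58) (.s13 (.tw (.s12 (.s13 (.c 0 (.b 124) (.b 44))))))))) (.tw (.s12 (.s13 (.tw (.c 0 (.s13 (.tw (.c 0 (.b 63) (.b 44)))) (.s13 (.tw (.c 0 (.b 5) (.b 272))))))))))) (.b 1)))),
  (.tw (.s13 (.c 0 (.s12 (.s13 (.tw (.s12 (.c 0 (.tw (.s13 (.tw (.s12 (.c 0 (.b 13) (.b 207)))))) (.b 111)))))) (.tw (.s12 (.c 0 (.s13 (.tw (.s13 (.s12 (.c 0 (.tw (.s12 (.c 0 (.b 67) (.b 247)))) (.b 67)))))) (.s13 (.tw (.c 0 (.tw (.s12 (.s13 (.tw (.c 0 (.b 5) (.b 239)))))) (.s13 (.tw (.s13 (.c 0 (.b 223) (.b 269)))))))))))))),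
  (.s13 (.c 0 (.tw (.c 0 (.tw (.s12 (.s13 (.tw (.c 0 (.b 23) (.b 21)))))) (.b 147))) (.s13 (.tw (.c 0 (.s12 (.s13 (.tw (.c 0 (.b 136) (.s13 (.tw (.s12 (.s13 (.c 0 (.b 63) (.b 369)))))))))) (.s12 (.s13 (.c 0 (.s12 (.s13 (.tw (.s12 (.c 0 (.b 693) (.s13 (.tw (.s12 (.s13 (.c 0 (.b 136) (.b 44))))))))))) (.tw (.c 0 (.b 14) (.s13 (.tw (.s12 (.s13 (.c 0 (.b 14) (.c 0 (.b 136) (.b 136))))))))))))))))),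
  (.c 0 (.s12 (.s13 (.tw (.s12 (.c 0 (.b 416) (.c 0 (.b 478) (.b 29))))))) (.s13 (.tw (.s12 (.c 0 (.s13 (.tw (.c 0 (.b 14) (.s13 (.tw (.s12 (.s13 (.c 0 (.b 14) (.c 0 (.b 136) (.b 247)))))))))) (.s13 (.tw (.c 0 (.s13 (.tw (.c 0 (.b 5) (.s13 (.tw (.c 0 (.b 63) (.b 200))))))) (.s13 (.tw (.c 0 (.b 136) (.b 44)))))))))))),
  (.c 0 (.tw (.c 0 (.s13 (.tw (.s12 (.s13 (.c 0 (.s12 (.s13 (.tw (.c 0 (.b 14) (.s13 (.tw (.s13 (.s12 (.c 0 (.b 381) (.b 381)))))))))) (.b 29)))))) (.b 12))) (.s13 (.tw (.c 0 (.tw (.s13 (.tw (.c 0 (.b 67) (.s13 (.tw (.s13 (.c 0 (.b 164) (.b 44))))))))) (.s12 (.s13 (.tw (.c 0 (.s13 (.tw (.c 0 (.b 136) (.b 44)))) (.s13 (.tw (.s12 (.c 0 (.b 264) (.s13 (.tw (.c 0 (.b 44) (.b 1)))))))))))))))),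
  (.c 0 (.s12 (.s13 (.tw (.s12 (.c 0 (.tw (.s13 (.tw (.c 0 (.b 478) (.b 16))))) (.s13 (.tw (.s13 (.c 0 (.b 1) (.b 21)))))))))) (.tw (.s13 (.tw (.s12 (.c 0 (.s12 (.s13 (.tw (.s12 (.c 0 (.b 666) (.s13 (.tw (.s12 (.s13 (.c 0 (.b 136) (.s13 (.tw (.s12 (.s13 (.c 0 (.b 44) (.b 1)))))))))))))))) (.s12 (.s13 (.tw (.s12 (.c 0 (.s13 (.tw (.c 0 (.b 44) (.b 12)))) (.tw (.s12 (.s13 (.tw (.c 0 (.b 5) (.s13 (.tw (.s12 (.s13 (.c 0 (.b 63) (.b 24)))))))))))))))))))))),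
  (.c 0 (.s12 (.s13 (.tw (.s12 (.c 0 (.b 416) (.c 0 (.b 478) (.b 29))))))) (.tw (.s13 (.tw (.s12 (.c 0 (.s12 (.s13 (.tw (.s12 (.c 0 (.b 666) (.s13 (.tw (.s12 (.s13 (.c 0 (.b 136) (.s13 (.tw (.s12 (.s13 (.c 0 (.b 44) (.b 1)))))))))))))))) (.s12 (.s13 (.tw (.s12 (.c 0 (.s13 (.tw (.c 0 (.b 44) (.b 12)))) (.tw (.s12 (.s13 (.tw (.c 0 (.b 5) (.s13 (.tw (.s12 (.s13 (.c 0 (.b 63) (.b 24)))))))))))))))))))))),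
  (.c 0 (.s12 (.s13 (.tw (.s12 (.c 0 (.b 284) (.s13 (.tw (.s12 (.s13 (.c 0 (.b 63) (.s13 (.tw (.s12 (.s13 (.c 0 (.b 284) (.b 27)))))))))))))))) (.tw (.s13 (.tw (.s12 (.c 0 (.s12 (.s13 (.tw (.s12 (.c 0 (.b 666) (.s13 (.tw (.s12 (.s13 (.c 0 (.b 136) (.s13 (.tw (.s12 (.s13 (.c 0 (.b 44) (.b 1)))))))))))))))) (.s12 (.s13 (.tw (.s12 (.c 0 (.s13 (.tw (.c 0 (.b 44) (.b 12)))) (.tw (.s12 (.s13 (.tw (.c 0 (.b 5) (.s13 (.tw (.s12 (.s13 (.c 0 (.b 63) (.b 24)))))))))))))))))))))),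
  (.c 0 (.tw (.c 0 (.b 13) (.s13 (.tw (.s12 (.s13 (.c 0 (.b 136) (.c 0 (.b 260) (.b 147))))))))) (.tw (.s13 (.s12 (.c 0 (.tw (.s13 (.s12 (.c 0 (.b 192) (.s13 (.tw (.s13 (.c 0 (.b 24) (.b 44))))))))) (.tw (.s13 (.s12 (.c 0 (.s13 (.tw (.c 0 (.b 381) (.b 44)))) (.s13 (.tw (.s13 (.s12 (.c 0 (.b 272) (.b 239))))))))))))))),
  (.c 0 (.tw (.c 0 (.tw (.s12 (.s13 (.tw (.c 0 (.b 63) (.b 159)))))) (.tw (.s12 (.s13 (.tw (.c 0 (.b 63) (.c 0 (.b 239) (.b 1))))))))) (.tw (.c 0 (.s12 (.s13 (.tw (.c 0 (.b 247) (.s13 (.tw (.s12 (.s13 (.c 0 (.b 63) (.b 44)))))))))) (.s12 (.s13 (.tw (.c 0 (.s13 (.tw (.c 0 (.b 24) (.b 136)))) (.s13 (.tw (.s13 (.c 0 (.b 443) (.b 99)))))))))))),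
  (.c 0 (.tw (.c 0 (.tw (.s12 (.s13 (.tw (.c 0 (.b 63) (.b 159)))))) (.s13 (.tw (.s12 (.s13 (.c 0 (.b 63) (.c 0 (.b 63) (.b 381))))))))) (.tw (.c 0 (.s12 (.s13 (.tw (.c 0 (.b 247) (.s13 (.tw (.s12 (.s13 (.c 0 (.b 63) (.b 44)))))))))) (.s12 (.s13 (.tw (.c 0 (.s13 (.tw (.c 0 (.b 24) (.b 136)))) (.s13 (.tw (.s13 (.c 0 (.b 443) (.b 99)))))))))))),
  (.c 0 (.tw (.c 0 (.b 478) (.s13 (.tw (.s12 (.s13 (.c 0 (.b 381) (.c 0 (.b 136) (.b 136))))))))) (.tw (.c 0 (.s12 (.s13 (.tw (.c 0 (.b 247) (.s13 (.tw (.s12 (.s13 (.c 0 (.b 63) (.b 44)))))))))) (.s12 (.s13 (.tw (.c 0 (.s13 (.tw (.c 0 (.b 24) (.b 136)))) (.s13 (.tw (.s13 (.c 0 (.b 443) (.b 99)))))))))))),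
  (.c 0 (.tw (.c 0 (.s13 (.tw (.c 0 (.b 381) (.b 26)))) (.tw (.s12 (.s13 (.tw (.c 0 (.b 211) (.s13 (.tw (.s12 (.s13 (.c 0 (.b 24) (.b 304))))))))))))) (.s13 (.tw (.c 0 (.s13 (.tw (.c 0 (.b 13) (.tw (.s12 (.s13 (.tw (.c 0 (.b 44) (.b 12))))))))) (.c 0 (.tw (.s12 (.s13 (.tw (.c 0 (.b 67) (.b 247)))))) (.tw (.s13 (.tw (.c 0 (.b 67) (.b 247)))))))))),
  (.c 0 (.s12 (.s13 (.tw (.s12 (.c 0 (.b 14) (.s13 (.tw (.s12 (.s13 (.c 0 (.b 304) (.s13 (.tw (.s12 (.s13 (.c 0 (.b 284) (.s13 (.tw (.s12 (.s13 (.c 0 (.b 63) (.b 381))))))))))))))))))))) (.s13 (.tw (.s13 (.s12 (.c 0 (.tw (.c 0 (.b 136) (.b 351))) (.s13 (.tw (.s13 (.c 0 (.s13 (.tw (.s12 (.c 0 (.b 313) (.s12 (.s13 (.tw (.c 0 (.b 58) (.b 247))))))))) (.s13 (.tw (.c 0 (.b 14) (.c 0 (.b 136) (.b 136))))))))))))))),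
  (.c 0 (.tw (.c 0 (.b 14) (.s13 (.tw (.s12 (.s13 (.c 0 (.b 478) (.s13 (.tw (.s12 (.s13 (.c 0 (.b 136) (.s13 (.tw (.s12 (.s13 (.c 0 (.b 63) (.b 381)))))))))))))))))) (.s13 (.tw (.c 0 (.s12 (.s13 (.tw (.c 0 (.b 136) (.b 351))))) (.c 0 (.s12 (.s13 (.tw (.c 0 (.b 136) (.b 405))))) (.s13 (.tw (.c 0 (.b 202) (.s13 (.tw (.c 0 (.b 5) (.b 124)))))))))))),
  (.c 0 (.tw (.c 0 (.b 14) (.s13 (.tw (.s12 (.s13 (.c 0 (.b 478) (.s13 (.tw (.s12 (.s13 (.c 0 (.b 136) (.s13 (.tw (.s12 (.s13 (.c 0 (.b 63) (.b 381)))))))))))))))))) (.s13 (.tw (.c 0 (.s12 (.s13 (.tw (.c 0 (.b 14) (.c 0 (.b 136) (.b 136)))))) (.tw (.s13 (.tw (.s13 (.c 0 (.tw (.c 0 (.b 284) (.s13 (.tw (.s12 (.s13 (.c 0 (.b 63) (.b 44)))))))) (.s12 (.s13 (.tw (.s12 (.c 0 (.b 136) (.tw (.s12 (.s13 (.tw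 (.c 0 (.b 63) (.b 381)))))))))))))))))))),
  (.c 0 (.tw (.c 0 (.b 14) (.s13 (.tw (.s12 (.s13 (.c 0 (.b 478) (.s13 (.tw (.s12 (.s13 (.c 0 (.b 136) (.s13 (.tw (.s12 (.s13 (.c 0 (.b 63) (.b 381)))))))))))))))))) (.s13 (.tw (.c 0 (.s12 (.s13 (.tw (.c 0 (.b 136) (.b 351))))) (.c 0 (.s12 (.s13 (.tw (.c 0 (.b 136) (.b 351))))) (.s13 (.tw (.c 0 (.b 143) (.s13 (.tw (.c 0 (.b 82) (.b 82)))))))))))),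
  (.c 0 (.tw (.c 0 (.b 14) (.s13 (.tw (.s12 (.s13 (.c 0 (.b 478) (.s13 (.tw (.s12 (.s13 (.c 0 (.b 136) (.s13 (.tw (.s12 (.s13 (.c 0 (.b 63) (.b 381)))))))))))))))))) (.s13 (.tw (.c 0 (.s12 (.s13 (.tw (.c 0 (.b 136) (.b 351))))) (.c 0 (.s13 (.tw (.c 0 (.b 136) (.b 462)))) (.tw (.s13 (.tw (.c 0 (.s13 (.tw (.s12 (.c 0 (.b 180) (.b 12))))) (.s13 (.tw (.c 0 (.b 44) (.b 12))))))))))))),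
  (.s13 (.c 0 (.s12 (.s13 (.tw (.s12 (.c 0 (.tw (.s13 (.tw (.s12 (.c 0 (.b 13) (.b 207)))))) (.b 111)))))) (.tw (.s12 (.c 0 (.s13 (.tw (.c 0 (.b 14) (.s13 (.tw (.s12 (.s13 (.c 0 (.b 136) (.b 351))))))))) (.s13 (.tw (.c 0 (.s13 (.tw (.c 0 (.b 14) (.c 0 (.b 14) (.b 76))))) (.s12 (.s13 (.tw (.c 0 (.tw (.c 0 (.b 136) (.b 136))) (.s13 (.tw (.c 0 (.b 63) (.b 44)))))))))))))))),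
  (.c 0 (.tw (.c 0 (.b 14) (.s13 (.tw (.s12 (.s13 (.c 0 (.b 478) (.s13 (.tw (.s12 (.s13 (.c 0 (.b 136) (.s13 (.tw (.s12 (.s13 (.c 0 (.b 63) (.b 381)))))))))))))))))) (.s13 (.tw (.c 0 (.s12 (.s13 (.tw (.c 0 (.b 14) (.c 0 (.b 136) (.b 136)))))) (.s12 (.s13 (.tw (.s12 (.c 0 (.tw (.c 0 (.b 284) (.s13 (.tw (.s12 (.s13 (.c 0 (.b 63) (.b 44)))))))) (.tw (.c 0 (.b 136) (.tw (.s12 (.s13 (.tw (.c 0 (.b 180) (.b 12))))))))))))))))),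
  (.c 0 (.tw (.c 0 (.b 14) (.s13 (.tw (.s12 (.s13 (.c 0 (.b 478) (.s13 (.tw (.s12 (.s13 (.c 0 (.b 136) (.s13 (.tw (.s12 (.s13 (.c 0 (.b 63) (.b 381)))))))))))))))))) (.s13 (.tw (.c 0 (.s12 (.s13 (.tw (.c 0 (.b 136) (.b 536))))) (.c 0 (.tw (.c 0 (.b 136) (.b 136))) (.tw (.s12 (.s13 (.tw (.c 0 (.b 210) (.s13 (.tw (.c 0 (.b 176) (.b 82)))))))))))))),
  (.c 0 (.tw (.c 0 (.b 14) (.s13 (.tw (.s12 (.s13 (.c 0 (.b 478) (.s13 (.tw (.s12 (.s13 (.c 0 (.b 136) (.s13 (.tw (.s12 (.s13 (.c 0 (.b 63) (.b 381)))))))))))))))))) (.s13 (.tw (.c 0 (.s12 (.s13 (.tw (.c 0 (.b 13) (.b 337))))) (.c 0 (.s12 (.s13 (.tw (.c 0 (.b 136) (.b 351))))) (.s13 (.tw (.c 0 (.b 73) (.s13 (.tw (.c 0 (.b 5) (.b 5)))))))))))),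
  (.c 0 (.tw (.c 0 (.b 345) (.tw (.s12 (.s13 (.tw (.c 0 (.tw (.s13 (.tw (.c 0 (.b 239) (.b 1))))) (.b 207)))))))) (.s13 (.tw (.c 0 (.tw (.s13 (.tw (.c 0 (.b 67) (.s13 (.tw (.s13 (.c 0 (.b 14) (.b 44))))))))) (.s13 (.tw (.s12 (.s13 (.c 0 (.tw (.c 0 (.b 136) (.b 136))) (.s13 (.tw (.c 0 (.s13 (.tw (.c 0 (.b 14) (.b 44)))) (.b 247))))))))))))),
  (.s13 (.c 0 (.s12 (.s13 (.tw (.c 0 (.tw (.s13 (.tw (.s13 (.c 0 (.b 43) (.tw (.s12 (.s13 (.c 0 (.b 14) (.b 536)))))))))) (.b 13))))) (.tw (.s12 (.c 0 (.s13 (.tw (.s13 (.s12 (.c 0 (.tw (.s12 (.c 0 (.b 67) (.b 247)))) (.b 67)))))) (.s13 (.tw (.c 0 (.tw (.s12 (.s13 (.tw (.c 0 (.b 5) (.b 239)))))) (.s13 (.tw (.s13 (.c 0 (.b 223) (.b 269))))))))))))),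
  (.c 0 (.tw (.c 0 (.b 345) (.s13 (.tw (.s12 (.s13 (.c 0 (.b 502) (.s13 (.tw (.s12 (.s13 (.c 0 (.b 63) (.b 381))))))))))))) (.s13 (.tw (.c 0 (.tw (.s13 (.tw (.c 0 (.b 67) (.s13 (.tw (.s13 (.c 0 (.b 14) (.b 44))))))))) (.s13 (.tw (.s12 (.s13 (.c 0 (.tw (.c 0 (.b 136) (.b 136))) (.s13 (.tw (.c 0 (.s13 (.tw (.c 0 (.b 14) (.b 44)))) (.b 247))))))))))))),
  (.c 0 (.tw (.c 0 (.b 345) (.s13 (.tw (.s12 (.s13 (.c 0 (.b 381) (.c 0 (.b 136) (.b 478))))))))) (.s13 (.tw (.c 0 (.tw (.s13 (.tw (.c 0 (.b 67) (.s13 (.tw (.s13 (.c 0 (.b 14) (.b 44))))))))) (.s13 (.tw (.s12 (.s13 (.c 0 (.tw (.c 0 (.b 136) (.b 136))) (.s13 (.tw (.c 0 (.s13 (.tw (.c 0 (.b 14) (.b 44)))) (.b 247))))))))))))),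
  (.c 0 (.tw (.c 0 (.b 345) (.tw (.s12 (.s13 (.tw (.c 0 (.tw (.s13 (.tw (.c 0 (.b 239) (.b 1))))) (.b 207)))))))) (.s13 (.tw (.c 0 (.tw (.s13 (.tw (.c 0 (.b 67) (.s13 (.tw (.s13 (.c 0 (.b 14) (.b 44))))))))) (.tw (.s12 (.s13 (.tw (.c 0 (.tw (.c 0 (.b 136) (.b 136))) (.s13 (.tw (.c 0 (.s13 (.tw (.c 0 (.b 63) (.b 24)))) (.s13 (.tw (.c 0 (.b 14) (.b 180)))))))))))))))),
  (.s13 (.c 0 (.s12 (.s13 (.tw (.c 0 (.tw (.s12 (.s13 (.tw (.c 0 (.tw (.s12 (.s13 (.tw (.c 0 (.b 63) (.b 137)))))) (.b 58)))))) (.b 16))))) (.tw (.s12 (.c 0 (.s13 (.tw (.s13 (.s12 (.c 0 (.tw (.s12 (.c 0 (.b 67) (.b 247)))) (.b 67)))))) (.s13 (.tw (.c 0 (.tw (.s12 (.s13 (.tw (.c 0 (.b 5) (.b 239)))))) (.s13 (.tw (.s13 (.c 0 (.b 223) (.b 269))))))))))))),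
  (.c 0 (.tw (.c 0 (.b 345) (.s13 (.tw (.s12 (.s13 (.c 0 (.b 502) (.s13 (.tw (.s12 (.s13 (.c 0 (.b 63) (.b 381))))))))))))) (.s13 (.tw (.c 0 (.tw (.s13 (.tw (.c 0 (.b 67) (.s13 (.tw (.s13 (.c 0 (.b 14) (.b 44))))))))) (.tw (.s12 (.s13 (.tw (.c 0 (.tw (.c 0 (.b 136) (.b 136))) (.s13 (.tw (.c 0 (.s13 (.tw (.c 0 (.b 63) (.b 24)))) (.s13 (.tw (.c 0 (.b 14) (.b 180)))))))))))))))),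
  (.s13 (.c 0 (.s12 (.s13 (.tw (.c 0 (.b 348) (.tw (.s13 (.tw (.s13 (.c 0 (.b 43) (.b 388)))))))))) (.tw (.s12 (.c 0 (.s13 (.tw (.s13 (.s12 (.c 0 (.tw (.s12 (.c 0 (.b 67) (.b 247)))) (.b 67)))))) (.s13 (.tw (.c 0 (.tw (.s12 (.s13 (.tw (.c 0 (.b 5) (.b 239)))))) (.s13 (.tw (.s13 (.c 0 (.b 223) (.b 269))))))))))))),
  (.c 0 (.tw (.c 0 (.b 718) (.s13 (.tw (.s12 (.s13 (.c 0 (.b 348) (.c 0 (.b 1) (.b 18))))))))) (.s13 (.tw (.c 0 (.s13 (.tw (.c 0 (.b 14) (.s13 (.tw (.s12 (.s13 (.c 0 (.b 63) (.b 44))))))))) (.s12 (.s13 (.c 0 (.tw (.c 0 (.b 14) (.s13 (.tw (.s12 (.s13 (.c 0 (.b 136) (.b 44)))))))) (.s13 (.tw (.s13 (.c 0 (.b 70) (.b 45)))))))))))),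
  (.c 0 (.tw (.c 0 (.tw (.s12 (.s13 (.tw (.c 0 (.b 63) (.b 159)))))) (.s13 (.tw (.s12 (.s13 (.c 0 (.b 63) (.c 0 (.b 284) (.b 27))))))))) (.s13 (.tw (.c 0 (.s13 (.tw (.c 0 (.b 14) (.s13 (.tw (.s12 (.s13 (.c 0 (.b 63) (.b 44))))))))) (.s12 (.s13 (.c 0 (.tw (.c 0 (.b 14) (.s13 (.tw (.s12 (.s13 (.c 0 (.b 136) (.b 44)))))))) (.s13 (.tw (.s13 (.c 0 (.b 70) (.b 45)))))))))))),
  (.c 0 (.tw (.c 0 (.b 14) (.s13 (.tw (.s12 (.s13 (.c 0 (.b 478) (.s13 (.tw (.s12 (.s13 (.c 0 (.b 136) (.s13 (.tw (.s12 (.s13 (.c 0 (.b 63) (.b 381)))))))))))))))))) (.s13 (.tw (.c 0 (.tw (.s13 (.tw (.c 0 (.b 67) (.s13 (.tw (.s13 (.c 0 (.b 14) (.b 44))))))))) (.s13 (.tw (.s12 (.s13 (.c 0 (.tw (.c 0 (.b 136) (.b 136))) (.s13 (.tw (.c 0 (.s13 (.tw (.c 0 (.b 14) (.b 44)))) (.b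 247))))))))))))),
  (.s13 (.c 0 (.s12 (.s13 (.tw (.s12 (.c 0 (.tw (.s13 (.tw (.s12 (.c 0 (.b 13) (.b 207)))))) (.b 111)))))) (.tw (.s12 (.c 0 (.s13 (.tw (.s13 (.s12 (.c 0 (.tw (.s12 (.c 0 (.b 67) (.b 247)))) (.b 67)))))) (.s13 (.tw (.c 0 (.tw (.s12 (.s13 (.tw (.c 0 (.b 5) (.b 239)))))) (.s13 (.tw (.s13 (.c 0 (.b 223) (.b 269))))))))))))),
  (.s13 (.c 0 (.s12 (.s13 (.tw (.s12 (.c 0 (.tw (.s13 (.tw (.s12 (.c 0 (.b 13) (.b 207)))))) (.b 111)))))) (.s13 (.tw (.s12 (.c 0 (.s13 (.tw (.c 0 (.b 136) (.s13 (.tw (.s12 (.s13 (.c 0 (.b 63) (.b 369))))))))) (.s12 (.s13 (.tw (.c 0 (.s13 (.tw (.s12 (.c 0 (.b 284) (.c 0 (.b 136) (.b 136)))))) (.s13 (.tw (.s13 (.s12 (.c 0 (.b 19) (.s12 (.s13 (.tw (.s13 (.c 0 (.b 42) (.tw (.c 0 (.b 136) (.b 136))))))))))))))))))))))),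
  (.c 0 (.tw (.c 0 (.b 14) (.s13 (.tw (.s12 (.s13 (.c 0 (.b 478) (.s13 (.tw (.s12 (.s13 (.c 0 (.b 136) (.s13 (.tw (.s12 (.s13 (.c 0 (.b 63) (.b 381)))))))))))))))))) (.s13 (.tw (.c 0 (.tw (.s13 (.tw (.c 0 (.b 67) (.s13 (.tw (.s13 (.c 0 (.b 14) (.b 44))))))))) (.s12 (.s13 (.tw (.s12 (.c 0 (.tw (.c 0 (.b 58) (.s13 (.tw (.s12 (.s13 (.c 0 (.b 24) (.b 136)))))))) (.s12 (.s13 (.tw (.s12 (.c 0 (.b 304) (.b 44)))))))))))))))]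

theorem good6 : ∀ l ∈ box6, G (l, H, H) := by
  intro l hl
  have h := G_chkTbl tbl_good (ts := box6.map fun l => (l, H, H)) (ds := dv6) (by decide +kernel)
  exact h _ (List.mem_map.mpr ⟨l, hl, rfl⟩)

def box7 : List (List ℕ) := [
  [12,6,6,6,6,6,6,3,1],
  [12,6,6,6,6,6,6,4],
  [13,5,5,5,5,5,5,5,4]]

def dv7 : List Dv := [
  (.c 0 (.tw (.c 0 (.tw (.s12 (.s13 (.tw (.c 0 (.b 63) (.b 159)))))) (.s13 (.tw (.s12 (.s13 (.c 0 (.b 63) (.b 9)))))))) (.s13 (.tw (.c 0 (.tw (.s13 (.c 0 (.b 70) (.b 45)))) (.s13 (.c 0 (.tw (.s13 (.tw (.s13 (.c 0 (.b 67) (.s13 (.tw (.s13 (.c 0 (.b 14) (.b 44)))))))))) (.tw (.s12 (.s13 (.s12 (.c 0 (.b 67) (.s13 (.tw (.s13 (.c 0 (.b 14) (.b 44)))))))))))))))),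
  (.c 0 (.tw (.c 0 (.b 14) (.s13 (.tw (.s12 (.s13 (.c 0 (.b 478) (.s13 (.tw (.s12 (.s13 (.c 0 (.b 136) (.s13 (.tw (.s12 (.s13 (.c 0 (.b 63) (.b 381)))))))))))))))))) (.s13 (.tw (.c 0 (.tw (.s13 (.tw (.c 0 (.b 67) (.s13 (.tw (.s13 (.c 0 (.b 14) (.b 44))))))))) (.tw (.s12 (.s13 (.tw (.c 0 (.tw (.c 0 (.b 136) (.b 136))) (.s13 (.tw (.c 0 (.s13 (.tw (.c 0 (.b 63) (.b 24)))) (.s13 (.tw (.c 0 (.b 14) (.b 180)))))))))))))))),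
  (.c 0 (.s12 (.s13 (.tw (.s12 (.c 0 (.b 478) (.s13 (.tw (.s12 (.s13 (.c 0 (.b 136) (.c 0 (.b 136) (.b 172)))))))))))) (.s13 (.tw (.s13 (.s12 (.c 0 (.tw (.c 0 (.b 136) (.b 351))) (.s13 (.tw (.s13 (.c 0 (.s13 (.tw (.s12 (.c 0 (.b 313) (.s12 (.s13 (.tw (.c 0 (.b 58) (.b 247))))))))) (.s13 (.tw (.c 0 (.b 14) (.c 0 (.b 136) (.b 136)))))))))))))))]

theorem good7 : ∀ l ∈ box7, G (l, H, H) := by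
  intro l hl
  have h := G_chkTbl tbl_good (ts := box7.map fun l => (l, H, H)) (ds := dv7) (by decide +kernel)
  exact h _ (List.mem_map.mpr ⟨l, hl, rfl⟩)

def box : List (List ℕ) := box0 ++ box1 ++ box2 ++ box3 ++ box4 ++ box5 ++ box6 ++ box7

theorem box_good : ∀ l ∈ box, G (l, H, H) := by
  intro l hl
  simp only [box, List.mem_append] at hl
  rcases hl with (((((((h0 | h1) | h2) | h3) | h4) | h5) | h6) | h7)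
  · exact good0 l h0
  · exact good1 l h1
  · exact good2 l h2
  · exact good3 l h3
  · exact good4 l h4
  · exact good5 l h5
  · exact good6 l h6
  · exact good7 l h7

end Crest.Agent.Saxl.N52

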