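import Crest.Agent.Lib.Saxl.TreeExc
import Crest.Agent.Lib.Saxl.KronTable

/-!
# The size `71` (row 195, S0298, helper58)

The shape with hook lengths `[23, 19, 15, 9, 5]`, one step over `[15, 9, 5]`.  The level is checked by
the prefix-tree checker; the `39` exceptions are near-squares, each of them a sum of small positive
triples in the semigroup.
-/

set_option autoImplicit false
set_option maxRecDepth 1000000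

namespace Crest.Agent.Saxl.N71

open Crest.Agent.Saxl Crest.Agent.Saxl.Family Crest.Agent.Saxl.TreeCheck Crest.Agent.Saxl.Kron

/-- The blocks of `[15, 9, 5]`. -/
def base15 : List BK := [BK.single 8, BK.pair 5, BK.dbl 3, BK.single 2, BK.dbl 1]

theorem good_base15 : Good base15 :=
  good_of_check _ (by decide) (by decide) (by decide) (by decide)
    (by simp [base15, Nondeg]) (by simp [base15, BK.hi, twidth, BK.width])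
    (by simp [base15, BK.hi, BK.lo])

/-- The blocks of `[23, 19, 15, 9, 5]`. -/
def l71 : List BK := stepL false base15

def H71 : List ℕ := [12,11,10,8,7,5,5,4,3,3,2,1]

theorem heights71 : (List.range (twidth l71)).map (colHL l71) = H71 := by decide +kernel

def BD71 : List ℕ := [0,10,20,26,32,38,44,49,53,57,61,65,68,69,70,71]

def sims71 : List SimD := [⟨3, 5, [0,10,16,22,28,34,39,43,47,51,55,58,59,60,61], 14⟩,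
  ⟨5, 3, [0,10,20,26,32,38,43,47,51,55,59,62,63,64,65], 14⟩]

/-- The exceptions. -/
def exc71 : List (List ℕ) := [[9,9,9,9,9,9,9,8],
  [9,9,9,9,9,9,8,8,1],
  [9,9,9,9,9,9,9,7,1],
  [9,8,8,8,8,8,8,7,7],
  [9,8,8,8,8,8,8,8,6],
  [9,9,8,8,8,8,7,7,7],
  [9,9,8,8,8,8,8,7,6],
  [9,9,8,8,8,8,8,8,5],
  [9,9,9,8,8,7,7,7,7],
  [9,9,9,8,8,8,7,7,6],
  [9,9,9,8,8,8,8,6,6],
  [9,9,9,8,8,8,8,7,5],
  [9,9,9,8,8,8,8,8,4],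
  [9,9,9,9,7,7,7,7,7],
  [9,9,9,9,8,7,7,7,6],
  [9,9,9,9,8,8,7,6,6],
  [9,9,9,9,8,8,7,7,5],
  [9,9,9,9,8,8,8,6,5],
  [9,9,9,9,8,8,8,7,4],
  [9,9,9,9,8,8,8,8,3],
  [9,9,9,9,9,7,7,6,6],
  [9,9,9,9,9,7,7,7,5],
  [9,9,9,9,9,8,6,6,6],
  [9,9,9,9,9,8,7,6,5],
  [9,9,9,9,9,8,7,7,4],
  [9,9,9,9,9,8,8,5,5],
  [9,9,9,9,9,8,8,6,4],
  [9,9,9,9,9,8,8,7,3],
  [9,9,9,9,9,8,8,8,2],
  [9,9,9,9,9,9,6,6,5],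
  [9,9,9,9,9,9,7,5,5],
  [9,9,9,9,9,9,7,6,4],
  [9,9,9,9,9,9,7,7,3],
  [9,9,9,9,9,9,8,5,4],
  [9,9,9,9,9,9,8,6,3],
  [9,9,9,9,9,9,8,7,2],
  [9,9,9,9,9,9,9,4,4],
  [9,9,9,9,9,9,9,5,3],
  [9,9,9,9,9,9,9,6,2]]

/-- The derivations of the exceptions. -/
def dv71 : List Dv := [
  (.tw (.c 0 (.s12 (.s13 (.tw (.s12 (.c 0 (.b 1) (.c 0 (.b 12) (.b 137))))))) (.c 0 (.tw (.c 0 (.s13 (.tw (.c 0 (.b 63) (.b 172)))) (.tw (.s12 (.s13 (.tw (.c 0 (.b 5) (.tw (.s12 (.s13 (.tw (.c 0 (.b 284) (.s13 (.tw (.s12 (.s13 (.c 0 (.b 24) (.b 136)))))))))))))))))) (.s13 (.tw (.c 0 (.tw (.s13 (.tw (.c 0 (.b 136) (.s13 (.tw (.s12 (.s13 (.c 0 (.b 405) (.tw (.s12 (.s13 (.tw (.c 0 (.b 44) (.b 12))))))))))))))) (.s12 (.s13 (.tw (.c 0 (.b 80) (.s13 (.tw (.s13 (.c 0 (.b 44) (.b 44))))))))))))))),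
  (.tw (.c 0 (.s12 (.s13 (.tw (.s12 (.c 0 (.b 1) (.c 0 (.b 12) (.b 137))))))) (.c 0 (.tw (.c 0 (.s13 (.tw (.c 0 (.b 12) (.b 172)))) (.s13 (.tw (.s12 (.s13 (.c 0 (.b 304) (.b 44)))))))) (.s13 (.tw (.c 0 (.s12 (.s13 (.tw (.c 0 (.s13 (.tw (.c 0 (.b 24) (.b 24)))) (.s13 (.tw (.s12 (.s13 (.c 0 (.b 57) (.b 44)))))))))) (.s12 (.s13 (.tw (.c 0 (.s13 (.tw (.s12 (.c 0 (.b 272) (.b 44))))) (.s13 (.tw (.s13 (.s12 (.c 0 (.b 709) (.s13 (.tw (.s12 (.s13 (.c 0 (.b 63) (.b 44))))))))))))))))))))),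
  (.tw (.c 0 (.s12 (.s13 (.tw (.s12 (.c 0 (.b 1) (.c 0 (.b 12) (.b 137))))))) (.c 0 (.s12 (.s13 (.tw (.s12 (.c 0 (.s13 (.tw (.c 0 (.b 12) (.b 172)))) (.tw (.s12 (.s13 (.tw (.c 0 (.b 5) (.tw (.s12 (.s13 (.tw (.c 0 (.b 284) (.s13 (.tw (.s12 (.s13 (.c 0 (.b 24) (.b 136))))))))))))))))))))) (.s13 (.tw (.s12 (.c 0 (.s12 (.s13 (.tw (.c 0 (.b 1) (.c 0 (.b 12) (.b 137)))))) (.s12 (.s13 (.tw (.c 0 (.tw (.s12 (.c 0 (.b 126) (.s13 (.tw (.s13 (.c 0 (.b 24) (.b 44)))))))) (.s13 (.tw (.s12 (.c 0 (.b 63) (.c 0 (.b 272) (.b 26))))))))))))))))),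
  (.c 0 (.s12 (.s13 (.tw (.s12 (.c 0 (.b 1) (.c 0 (.b 12) (.b 137))))))) (.c 0 (.s12 (.s13 (.tw (.s12 (.c 0 (.s13 (.tw (.c 0 (.b 12) (.b 172)))) (.tw (.s12 (.s13 (.tw (.c 0 (.b 5) (.tw (.s12 (.s13 (.tw (.c 0 (.b 284) (.s13 (.tw (.s12 (.s13 (.c 0 (.b 24) (.b 136))))))))))))))))))))) (.s13 (.tw (.s12 (.c 0 (.s12 (.s13 (.tw (.c 0 (.b 1) (.c 0 (.b 12) (.b 137)))))) (.s12 (.s13 (.tw (.c 0 (.tw (.s12 (.c 0 (.b 126) (.s13 (.tw (.s13 (.c 0 (.b 24) (.b 44)))))))) (.s13 (.tw (.s12 (.c 0 (.b 63) (.c 0 (.b 272) (.b 26)))))))))))))))),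
  (.c 0 (.s12 (.s13 (.tw (.s12 (.c 0 (.b 1) (.c 0 (.b 12) (.b 137))))))) (.c 0 (.tw (.c 0 (.s13 (.tw (.c 0 (.b 12) (.b 172)))) (.s13 (.tw (.s12 (.s13 (.c 0 (.b 304) (.b 44)))))))) (.s13 (.tw (.c 0 (.s12 (.s13 (.tw (.c 0 (.s13 (.tw (.c 0 (.b 24) (.b 24)))) (.s13 (.tw (.s12 (.s13 (.c 0 (.b 57) (.b 44)))))))))) (.s12 (.s13 (.tw (.c 0 (.s13 (.tw (.s12 (.c 0 (.b 272) (.b 44))))) (.s13 (.tw (.s13 (.s12 (.c 0 (.b 709) (.s13 (.tw (.s12 (.s13 (.c 0 (.b 63) (.b 44)))))))))))))))))))),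
  (.c 0 (.s12 (.s13 (.tw (.s12 (.c 0 (.b 1) (.c 0 (.b 12) (.b 137))))))) (.c 0 (.tw (.c 0 (.b 279) (.tw (.s12 (.s13 (.tw (.c 0 (.b 284) (.c 0 (.b 136) (.b 136))))))))) (.tw (.s12 (.c 0 (.s13 (.tw (.c 0 (.s13 (.tw (.s12 (.s13 (.c 0 (.b 601) (.b 272)))))) (.s13 (.tw (.c 0 (.b 24) (.b 24))))))) (.tw (.s12 (.s13 (.tw (.c 0 (.s13 (.tw (.c 0 (.b 24) (.b 44)))) (.s13 (.tw (.s12 (.s13 (.c 0 (.b 634) (.s13 (.tw (.s12 (.s13 (.c 0 (.b 63) (.b 44))))))))))))))))))))),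
  (.c 0 (.s12 (.s13 (.tw (.s12 (.c 0 (.b 1) (.c 0 (.b 12) (.b 137))))))) (.c 0 (.tw (.c 0 (.b 279) (.tw (.s12 (.s13 (.tw (.c 0 (.tw (.s12 (.s13 (.tw (.c 0 (.b 136) (.b 337)))))) (.b 136)))))))) (.s13 (.tw (.c 0 (.s12 (.s13 (.tw (.c 0 (.s13 (.tw (.c 0 (.b 24) (.b 24)))) (.s13 (.tw (.s12 (.s13 (.c 0 (.b 57) (.b 44)))))))))) (.s12 (.s13 (.tw (.c 0 (.s13 (.tw (.s12 (.c 0 (.b 272) (.b 44))))) (.s13 (.tw (.s13 (.s12 (.c 0 (.b 709) (.s13 (.tw (.s12 (.s13 (.c 0 (.b 63) (.b 44)))))))))))))))))))),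
  (.c 0 (.s12 (.s13 (.tw (.s12 (.c 0 (.b 1) (.c 0 (.b 12) (.b 137))))))) (.c 0 (.tw (.c 0 (.s13 (.tw (.c 0 (.b 12) (.b 137)))) (.s13 (.tw (.s12 (.s13 (.c 0 (.b 136) (.tw (.s12 (.s13 (.tw (.c 0 (.b 63) (.b 381))))))))))))) (.s13 (.tw (.c 0 (.s13 (.tw (.c 0 (.b 152) (.s13 (.tw (.s12 (.s13 (.c 0 (.b 24) (.b 44))))))))) (.s12 (.s13 (.tw (.c 0 (.s13 (.tw (.s12 (.c 0 (.b 272) (.b 44))))) (.s13 (.tw (.s13 (.s12 (.c 0 (.b 709) (.s13 (.tw (.s12 (.s13 (.c 0 (.b 63) (.b 44)))))))))))))))))))),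
  (.c 0 (.s12 (.s13 (.tw (.s12 (.c 0 (.b 1) (.c 0 (.b 12) (.b 137))))))) (.c 0 (.tw (.c 0 (.b 304) (.s13 (.tw (.s12 (.s13 (.c 0 (.b 63) (.b 603)))))))) (.s13 (.tw (.c 0 (.s13 (.tw (.c 0 (.b 57) (.s13 (.tw (.s12 (.s13 (.c 0 (.b 63) (.b 612))))))))) (.tw (.s13 (.tw (.c 0 (.s13 (.tw (.c 0 (.s13 (.tw (.s12 (.s13 (.c 0 (.b 14) (.b 44)))))) (.s13 (.tw (.c 0 (.b 24) (.b 24))))))) (.s13 (.tw (.c 0 (.s13 (.tw (.c 0 (.b 14) (.b 44)))) (.s13 (.tw (.c 0 (.b 5) (.b 5)))))))))))))))),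
  (.c 0 (.s12 (.s13 (.tw (.s12 (.c 0 (.b 1) (.c 0 (.b 12) (.b 137))))))) (.c 0 (.tw (.c 0 (.b 279) (.tw (.s12 (.s13 (.tw (.c 0 (.b 460) (.s13 (.tw (.s12 (.s13 (.c 0 (.b 44) (.b 12))))))))))))) (.s13 (.tw (.c 0 (.s12 (.s13 (.tw (.c 0 (.s13 (.tw (.c 0 (.b 24) (.b 24)))) (.s13 (.tw (.s12 (.s13 (.c 0 (.b 57) (.b 44)))))))))) (.s12 (.s13 (.tw (.c 0 (.s13 (.tw (.s12 (.c 0 (.b 272) (.b 44))))) (.s13 (.tw (.s13 (.s12 (.c 0 (.b 709) (.s13 (.tw (.s12 (.s13 (.c 0 (.b 63) (.b 44)))))))))))))))))))),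
  (.c 0 (.s12 (.s13 (.tw (.s12 (.c 0 (.b 1) (.c 0 (.b 12) (.b 137))))))) (.c 0 (.tw (.c 0 (.b 460) (.tw (.s12 (.s13 (.tw (.c 0 (.b 348) (.s13 (.tw (.s12 (.s13 (.c 0 (.b 136) (.b 536))))))))))))) (.s13 (.tw (.c 0 (.s13 (.tw (.c 0 (.s13 (.tw (.s12 (.s13 (.c 0 (.b 14) (.b 591)))))) (.s13 (.tw (.c 0 (.b 24) (.b 24))))))) (.tw (.s12 (.s13 (.tw (.c 0 (.s13 (.tw (.c 0 (.b 44) (.b 26)))) (.tw (.s12 (.s13 (.tw (.c 0 (.s13 (.tw (.c 0 (.b 5) (.b 26)))) (.s13 (.tw (.s12 (.s13 (.c 0 (.b 63) (.b 44))))))))))))))))))))),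
  (.c 0 (.s12 (.s13 (.tw (.s12 (.c 0 (.b 1) (.c 0 (.b 12) (.b 137))))))) (.c 0 (.tw (.c 0 (.b 460) (.tw (.s12 (.s13 (.tw (.c 0 (.b 348) (.s13 (.tw (.s12 (.s13 (.c 0 (.b 136) (.b 536))))))))))))) (.s13 (.tw (.c 0 (.s13 (.tw (.c 0 (.b 152) (.s13 (.tw (.s12 (.s13 (.c 0 (.b 24) (.b 44))))))))) (.s12 (.s13 (.tw (.c 0 (.s13 (.tw (.s12 (.c 0 (.b 272) (.b 44))))) (.s13 (.tw (.s13 (.s12 (.c 0 (.b 709) (.s13 (.tw (.s12 (.s13 (.c 0 (.b 63) (.b 44)))))))))))))))))))),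
  (.c 0 (.s12 (.s13 (.tw (.s12 (.c 0 (.b 1) (.c 0 (.b 12) (.b 137))))))) (.c 0 (.tw (.c 0 (.tw (.s13 (.tw (.c 0 (.b 63) (.b 249))))) (.tw (.s12 (.s13 (.tw (.c 0 (.b 136) (.s13 (.tw (.s12 (.s13 (.c 0 (.b 44) (.b 12))))))))))))) (.s13 (.tw (.c 0 (.s13 (.tw (.c 0 (.tw (.s12 (.s13 (.tw (.c 0 (.b 44) (.b 12)))))) (.s13 (.tw (.c 0 (.b 24) (.b 24))))))) (.tw (.s12 (.s13 (.tw (.c 0 (.s13 (.tw (.c 0 (.b 5) (.b 137)))) (.tw (.s12 (.s13 (.tw (.c 0 (.b 247) (.tw (.s12 (.s13 (.tw (.c 0 (.b 44) (.b 12))))))))))))))))))))),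
  (.c 0 (.s12 (.s13 (.tw (.s12 (.c 0 (.b 1) (.c 0 (.b 12) (.b 137))))))) (.c 0 (.tw (.c 0 (.b 279) (.tw (.s12 (.s13 (.tw (.c 0 (.b 284) (.s13 (.tw (.s12 (.s13 (.c 0 (.b 24) (.b 136))))))))))))) (.tw (.s12 (.c 0 (.s13 (.tw (.c 0 (.s13 (.tw (.s12 (.s13 (.c 0 (.b 601) (.b 272)))))) (.s13 (.tw (.c 0 (.b 24) (.b 24))))))) (.tw (.s12 (.s13 (.tw (.c 0 (.s13 (.tw (.c 0 (.b 24) (.b 44)))) (.s13 (.tw (.s12 (.s13 (.c 0 (.b 634) (.s13 (.tw (.s12 (.s13 (.c 0 (.b 63) (.b 44))))))))))))))))))))),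
  (.c 0 (.s12 (.s13 (.tw (.s12 (.c 0 (.b 1) (.c 0 (.b 12) (.b 137))))))) (.s12 (.c 0 (.tw (.c 0 (.b 714) (.s13 (.tw (.s12 (.s13 (.c 0 (.b 718) (.tw (.s12 (.s13 (.tw (.c 0 (.b 13) (.s13 (.tw (.s12 (.s13 (.c 0 (.b 180) (.b 12)))))))))))))))))) (.s12 (.s13 (.tw (.c 0 (.s12 (.s13 (.tw (.c 0 (.s13 (.tw (.c 0 (.b 13) (.b 142)))) (.s13 (.tw (.s13 (.c 0 (.b 24) (.b 44))))))))) (.tw (.s12 (.s13 (.tw (.c 0 (.tw (.s12 (.s13 (.tw (.c 0 (.b 24) (.s13 (.tw (.s12 (.s13 (.c 0 (.b 44) (.b 1))))))))))) (.s13 (.tw (.c 0 (.b 5) (.b 5)))))))))))))))),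
  (.c 0 (.s12 (.s13 (.tw (.s12 (.c 0 (.b 1) (.c 0 (.b 12) (.b 137))))))) (.s12 (.c 0 (.tw (.c 0 (.b 279) (.c 0 (.tw (.s12 (.s13 (.tw (.c 0 (.b 279) (.s13 (.tw (.s12 (.s13 (.c 0 (.b 63) (.b 44))))))))))) (.b 26)))) (.s12 (.s13 (.tw (.c 0 (.s13 (.tw (.c 0 (.b 284) (.s13 (.tw (.s12 (.s13 (.c 0 (.b 44) (.b 26))))))))) (.s12 (.s13 (.tw (.c 0 (.s13 (.tw (.s12 (.c 0 (.b 603) (.b 272))))) (.s13 (.tw (.s13 (.s12 (.c 0 (.b 99) (.s13 (.tw (.s12 (.s13 (.c 0 (.b 63) (.b 44)))))))))))))))))))))),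
  (.c 0 (.s12 (.s13 (.tw (.s12 (.c 0 (.b 1) (.c 0 (.b 12) (.b 137))))))) (.s12 (.c 0 (.tw (.c 0 (.b 714) (.s13 (.tw (.s12 (.s13 (.c 0 (.b 718) (.tw (.s12 (.s13 (.tw (.c 0 (.b 13) (.s13 (.tw (.s12 (.s13 (.c 0 (.b 180) (.b 12)))))))))))))))))) (.s12 (.s13 (.tw (.c 0 (.s13 (.tw (.c 0 (.b 247) (.s13 (.tw (.s12 (.s13 (.c 0 (.b 44) (.b 26))))))))) (.s12 (.s13 (.tw (.c 0 (.s13 (.tw (.s12 (.c 0 (.b 272) (.b 44))))) (.s13 (.tw (.s13 (.s12 (.c 0 (.b 247) (.tw (.s12 (.s13 (.tw (.c 0 (.b 44) (.b 12)))))))))))))))))))))),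
  (.c 0 (.s12 (.s13 (.tw (.s12 (.c 0 (.b 1) (.c 0 (.b 12) (.b 137))))))) (.s12 (.c 0 (.tw (.c 0 (.b 714) (.s13 (.tw (.s12 (.s13 (.c 0 (.b 718) (.tw (.s12 (.s13 (.tw (.c 0 (.b 13) (.s13 (.tw (.s12 (.s13 (.c 0 (.b 180) (.b 12)))))))))))))))))) (.s12 (.s13 (.tw (.c 0 (.s13 (.tw (.c 0 (.s13 (.tw (.c 0 (.b 57) (.b 24)))) (.s13 (.tw (.s13 (.c 0 (.b 24) (.b 200)))))))) (.tw (.s12 (.s13 (.tw (.c 0 (.s13 (.tw (.c 0 (.b 5) (.b 5)))) (.tw (.s12 (.s13 (.tw (.c 0 (.b 247) (.s13 (.tw (.s12 (.s13 (.c 0 (.b 44) (.b 1))))))))))))))))))))))),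
  (.c 0 (.s12 (.s13 (.tw (.s12 (.c 0 (.b 1) (.c 0 (.b 12) (.b 137))))))) (.s12 (.c 0 (.tw (.c 0 (.b 714) (.s13 (.tw (.s12 (.s13 (.c 0 (.b 718) (.tw (.s12 (.s13 (.tw (.c 0 (.b 13) (.s13 (.tw (.s12 (.s13 (.c 0 (.b 180) (.b 12)))))))))))))))))) (.s12 (.s13 (.tw (.c 0 (.s13 (.tw (.c 0 (.s13 (.tw (.s13 (.c 0 (.b 24) (.b 124))))) (.s13 (.tw (.c 0 (.b 24) (.b 24))))))) (.tw (.s12 (.s13 (.tw (.c 0 (.s13 (.tw (.c 0 (.b 5) (.b 5)))) (.tw (.s12 (.s13 (.tw (.c 0 (.b 247) (.s13 (.tw (.s12 (.s13 (.c 0 (.b 44) (.b 1))))))))))))))))))))))),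
  (.tw (.c 0 (.s12 (.s13 (.tw (.s12 (.c 0 (.b 1) (.c 0 (.b 12) (.b 137))))))) (.c 0 (.tw (.c 0 (.tw (.s13 (.tw (.c 0 (.b 63) (.b 249))))) (.tw (.s12 (.s13 (.tw (.c 0 (.b 136) (.s13 (.tw (.s12 (.s13 (.c 0 (.b 44) (.b 12))))))))))))) (.s13 (.tw (.c 0 (.s13 (.tw (.c 0 (.tw (.s12 (.s13 (.tw (.c 0 (.b 44) (.b 12)))))) (.s13 (.tw (.c 0 (.b 24) (.b 24))))))) (.tw (.s12 (.s13 (.tw (.c 0 (.s13 (.tw (.c 0 (.b 5) (.b 137)))) (.tw (.s12 (.s13 (.tw (.c 0 (.b 247) (.tw (.s12 (.s13 (.tw (.c 0 (.b 44) (.b 12)))))))))))))))))))))),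
  (.c 0 (.s12 (.s13 (.tw (.s12 (.c 0 (.b 1) (.c 0 (.b 12) (.b 137))))))) (.s12 (.c 0 (.tw (.c 0 (.b 460) (.c 0 (.tw (.s12 (.s13 (.tw (.c 0 (.b 284) (.s13 (.tw (.s12 (.s13 (.c 0 (.b 24) (.b 136))))))))))) (.b 159)))) (.s12 (.s13 (.tw (.c 0 (.s12 (.s13 (.tw (.c 0 (.s13 (.tw (.c 0 (.b 13) (.b 142)))) (.s13 (.tw (.s13 (.c 0 (.b 24) (.b 44))))))))) (.tw (.s12 (.s13 (.tw (.c 0 (.tw (.s12 (.s13 (.tw (.c 0 (.b 24) (.s13 (.tw (.s12 (.s13 (.c 0 (.b 44) (.b 1))))))))))) (.s13 (.tw (.c 0 (.b 5) (.b 5)))))))))))))))),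
  (.c 0 (.s12 (.s13 (.tw (.s12 (.c 0 (.b 1) (.c 0 (.b 12) (.b 137))))))) (.s12 (.c 0 (.tw (.c 0 (.b 684) (.s13 (.tw (.s12 (.s13 (.c 0 (.b 279) (.tw (.s12 (.s13 (.tw (.c 0 (.b 13) (.s13 (.tw (.s12 (.s13 (.c 0 (.b 24) (.b 136)))))))))))))))))) (.s12 (.s13 (.tw (.c 0 (.s12 (.s13 (.tw (.c 0 (.s13 (.tw (.c 0 (.b 13) (.b 142)))) (.s13 (.tw (.s13 (.c 0 (.b 24) (.b 44))))))))) (.tw (.s12 (.s13 (.tw (.c 0 (.tw (.s12 (.s13 (.tw (.c 0 (.b 24) (.s13 (.tw (.s12 (.s13 (.c 0 (.b 44) (.b 1))))))))))) (.s13 (.tw (.c 0 (.b 5) (.b 5)))))))))))))))),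
  (.c 0 (.s12 (.s13 (.tw (.s12 (.c 0 (.b 1) (.c 0 (.b 12) (.b 137))))))) (.s12 (.c 0 (.tw (.c 0 (.b 279) (.c 0 (.tw (.s12 (.s13 (.tw (.c 0 (.b 284) (.s13 (.tw (.s12 (.s13 (.c 0 (.b 24) (.b 136))))))))))) (.b 465)))) (.s12 (.s13 (.tw (.c 0 (.s12 (.s13 (.tw (.c 0 (.s13 (.tw (.c 0 (.b 13) (.b 142)))) (.s13 (.tw (.s13 (.c 0 (.b 24) (.b 44))))))))) (.tw (.s12 (.s13 (.tw (.c 0 (.tw (.s12 (.s13 (.tw (.c 0 (.b 24) (.s13 (.tw (.s12 (.s13 (.c 0 (.b 44) (.b 1))))))))))) (.s13 (.tw (.c 0 (.b 5) (.b 5)))))))))))))))),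
  (.c 0 (.s12 (.s13 (.tw (.s12 (.c 0 (.b 1) (.c 0 (.b 12) (.b 137))))))) (.s12 (.c 0 (.tw (.c 0 (.b 727) (.s13 (.tw (.s12 (.s13 (.c 0 (.b 279) (.tw (.s12 (.s13 (.tw (.c 0 (.b 13) (.s13 (.tw (.s12 (.s13 (.c 0 (.b 24) (.b 136)))))))))))))))))) (.s12 (.s13 (.tw (.c 0 (.s12 (.s13 (.tw (.c 0 (.s13 (.tw (.c 0 (.b 13) (.b 142)))) (.s13 (.tw (.s13 (.c 0 (.b 24) (.b 44))))))))) (.tw (.s12 (.s13 (.tw (.c 0 (.tw (.s12 (.s13 (.tw (.c 0 (.b 24) (.s13 (.tw (.s12 (.s13 (.c 0 (.b 44) (.b 1))))))))))) (.s13 (.tw (.c 0 (.b 5) (.b 5)))))))))))))))),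
  (.tw (.c 0 (.s12 (.s13 (.tw (.s12 (.c 0 (.b 1) (.c 0 (.b 12) (.b 137))))))) (.s12 (.c 0 (.tw (.c 0 (.b 714) (.s13 (.tw (.s12 (.s13 (.c 0 (.b 718) (.tw (.s12 (.s13 (.tw (.c 0 (.b 13) (.s13 (.tw (.s12 (.s13 (.c 0 (.b 180) (.b 12)))))))))))))))))) (.s12 (.s13 (.tw (.c 0 (.s13 (.tw (.c 0 (.s13 (.tw (.c 0 (.b 57) (.b 24)))) (.s13 (.tw (.s13 (.c 0 (.b 24) (.b 200)))))))) (.tw (.s12 (.s13 (.tw (.c 0 (.s13 (.tw (.c 0 (.b 5) (.b 5)))) (.tw (.s12 (.s13 (.tw (.c 0 (.b 247) (.s13 (.tw (.s12 (.s13 (.c 0 (.b 44) (.b 1)))))))))))))))))))))))),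
  (.tw (.c 0 (.s12 (.s13 (.tw (.s12 (.c 0 (.b 1) (.c 0 (.b 12) (.b 137))))))) (.s12 (.c 0 (.tw (.c 0 (.b 684) (.s13 (.tw (.s12 (.s13 (.c 0 (.b 279) (.tw (.s12 (.s13 (.tw (.c 0 (.b 13) (.s13 (.tw (.s12 (.s13 (.c 0 (.b 24) (.b 136)))))))))))))))))) (.s12 (.s13 (.tw (.c 0 (.s12 (.s13 (.tw (.c 0 (.s13 (.tw (.c 0 (.b 13) (.b 142)))) (.s13 (.tw (.s13 (.c 0 (.b 24) (.b 44))))))))) (.tw (.s12 (.s13 (.tw (.c 0 (.tw (.s12 (.s13 (.tw (.c 0 (.b 24) (.s13 (.tw (.s12 (.s13 (.c 0 (.b 44) (.b 1))))))))))) (.s13 (.tw (.c 0 (.b 5) (.b 5))))))))))))))))),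
  (.tw (.c 0 (.s12 (.s13 (.tw (.s12 (.c 0 (.b 1) (.c 0 (.b 12) (.b 137))))))) (.s12 (.c 0 (.tw (.c 0 (.b 714) (.s13 (.tw (.s12 (.s13 (.c 0 (.b 718) (.tw (.s12 (.s13 (.tw (.c 0 (.b 13) (.s13 (.tw (.s12 (.s13 (.c 0 (.b 180) (.b 12)))))))))))))))))) (.s12 (.s13 (.tw (.c 0 (.s13 (.tw (.c 0 (.b 247) (.s13 (.tw (.s12 (.s13 (.c 0 (.b 44) (.b 26))))))))) (.s12 (.s13 (.tw (.c 0 (.s13 (.tw (.s12 (.c 0 (.b 272) (.b 44))))) (.s13 (.tw (.s13 (.s12 (.c 0 (.b 247) (.tw (.s12 (.s13 (.tw (.c 0 (.b 44) (.b 12))))))))))))))))))))))),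
  (.tw (.c 0 (.s12 (.s13 (.tw (.s12 (.c 0 (.b 1) (.c 0 (.b 12) (.b 137))))))) (.c 0 (.tw (.c 0 (.b 460) (.tw (.s12 (.s13 (.tw (.c 0 (.b 348) (.s13 (.tw (.s12 (.s13 (.c 0 (.b 136) (.b 536))))))))))))) (.s13 (.tw (.c 0 (.s13 (.tw (.c 0 (.b 152) (.s13 (.tw (.s12 (.s13 (.c 0 (.b 24) (.b 44))))))))) (.s12 (.s13 (.tw (.c 0 (.s13 (.tw (.s12 (.c 0 (.b 272) (.b 44))))) (.s13 (.tw (.s13 (.s12 (.c 0 (.b 709) (.s13 (.tw (.s12 (.s13 (.c 0 (.b 63) (.b 44))))))))))))))))))))),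
  (.tw (.c 0 (.s12 (.s13 (.tw (.s12 (.c 0 (.b 1) (.c 0 (.b 12) (.b 137))))))) (.c 0 (.tw (.c 0 (.s13 (.tw (.c 0 (.b 12) (.b 137)))) (.s13 (.tw (.s12 (.s13 (.c 0 (.b 136) (.tw (.s12 (.s13 (.tw (.c 0 (.b 63) (.b 381))))))))))))) (.s13 (.tw (.c 0 (.s13 (.tw (.c 0 (.b 152) (.s13 (.tw (.s12 (.s13 (.c 0 (.b 24) (.b 44))))))))) (.s12 (.s13 (.tw (.c 0 (.s13 (.tw (.s12 (.c 0 (.b 272) (.b 44))))) (.s13 (.tw (.s13 (.s12 (.c 0 (.b 709) (.s13 (.tw (.s12 (.s13 (.c 0 (.b 63) (.b 44))))))))))))))))))))),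
  (.tw (.c 0 (.s12 (.s13 (.tw (.s12 (.c 0 (.b 1) (.c 0 (.b 12) (.b 137))))))) (.s12 (.c 0 (.tw (.c 0 (.b 279) (.c 0 (.tw (.s12 (.s13 (.tw (.c 0 (.b 284) (.s13 (.tw (.s12 (.s13 (.c 0 (.b 24) (.b 136))))))))))) (.b 465)))) (.s12 (.s13 (.tw (.c 0 (.s12 (.s13 (.tw (.c 0 (.s13 (.tw (.c 0 (.b 13) (.b 142)))) (.s13 (.tw (.s13 (.c 0 (.b 24) (.b 44))))))))) (.tw (.s12 (.s13 (.tw (.c 0 (.tw (.s12 (.s13 (.tw (.c 0 (.b 24) (.s13 (.tw (.s12 (.s13 (.c 0 (.b 44) (.b 1))))))))))) (.s13 (.tw (.c 0 (.b 5) (.b 5))))))))))))))))),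
  (.tw (.c 0 (.s12 (.s13 (.tw (.s12 (.c 0 (.b 1) (.c 0 (.b 12) (.b 137))))))) (.s12 (.c 0 (.tw (.c 0 (.b 460) (.c 0 (.tw (.s12 (.s13 (.tw (.c 0 (.b 284) (.s13 (.tw (.s12 (.s13 (.c 0 (.b 24) (.b 136))))))))))) (.b 159)))) (.s12 (.s13 (.tw (.c 0 (.s12 (.s13 (.tw (.c 0 (.s13 (.tw (.c 0 (.b 13) (.b 142)))) (.s13 (.tw (.s13 (.c 0 (.b 24) (.b 44))))))))) (.tw (.s12 (.s13 (.tw (.c 0 (.tw (.s12 (.s13 (.tw (.c 0 (.b 24) (.s13 (.tw (.s12 (.s13 (.c 0 (.b 44) (.b 1))))))))))) (.s13 (.tw (.c 0 (.b 5) (.b 5))))))))))))))))),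
  (.tw (.c 0 (.s12 (.s13 (.tw (.s12 (.c 0 (.b 1) (.c 0 (.b 12) (.b 137))))))) (.s12 (.c 0 (.tw (.c 0 (.b 279) (.c 0 (.tw (.s12 (.s13 (.tw (.c 0 (.b 279) (.s13 (.tw (.s12 (.s13 (.c 0 (.b 63) (.b 44))))))))))) (.b 26)))) (.s12 (.s13 (.tw (.c 0 (.s13 (.tw (.c 0 (.b 284) (.s13 (.tw (.s12 (.s13 (.c 0 (.b 44) (.b 26))))))))) (.s12 (.s13 (.tw (.c 0 (.s13 (.tw (.s12 (.c 0 (.b 603) (.b 272))))) (.s13 (.tw (.s13 (.s12 (.c 0 (.b 99) (.s13 (.tw (.s12 (.s13 (.c 0 (.b 63) (.b 44))))))))))))))))))))))),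
  (.tw (.c 0 (.s12 (.s13 (.tw (.s12 (.c 0 (.b 1) (.c 0 (.b 12) (.b 137))))))) (.c 0 (.tw (.c 0 (.b 460) (.tw (.s12 (.s13 (.tw (.c 0 (.b 348) (.s13 (.tw (.s12 (.s13 (.c 0 (.b 136) (.b 536))))))))))))) (.s13 (.tw (.c 0 (.s13 (.tw (.c 0 (.s13 (.tw (.s12 (.s13 (.c 0 (.b 14) (.b 591)))))) (.s13 (.tw (.c 0 (.b 24) (.b 24))))))) (.tw (.s12 (.s13 (.tw (.c 0 (.s13 (.tw (.c 0 (.b 44) (.b 26)))) (.tw (.s12 (.s13 (.tw (.c 0 (.s13 (.tw (.c 0 (.b 5) (.b 26)))) (.s13 (.tw (.s12 (.s13 (.c 0 (.b 63) (.b 44)))))))))))))))))))))),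
  (.tw (.c 0 (.s12 (.s13 (.tw (.s12 (.c 0 (.b 1) (.c 0 (.b 12) (.b 137))))))) (.s12 (.c 0 (.tw (.c 0 (.b 714) (.s13 (.tw (.s12 (.s13 (.c 0 (.b 718) (.tw (.s12 (.s13 (.tw (.c 0 (.b 13) (.s13 (.tw (.s12 (.s13 (.c 0 (.b 180) (.b 12)))))))))))))))))) (.s12 (.s13 (.tw (.c 0 (.s12 (.s13 (.tw (.c 0 (.s13 (.tw (.c 0 (.b 13) (.b 142)))) (.s13 (.tw (.s13 (.c 0 (.b 24) (.b 44))))))))) (.tw (.s12 (.s13 (.tw (.c 0 (.tw (.s12 (.s13 (.tw (.c 0 (.b 24) (.s13 (.tw (.s12 (.s13 (.c 0 (.b 44) (.b 1))))))))))) (.s13 (.tw (.c 0 (.b 5) (.b 5))))))))))))))))),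
  (.tw (.c 0 (.s12 (.s13 (.tw (.s12 (.c 0 (.b 1) (.c 0 (.b 12) (.b 137))))))) (.c 0 (.tw (.c 0 (.b 279) (.tw (.s12 (.s13 (.tw (.c 0 (.b 460) (.s13 (.tw (.s12 (.s13 (.c 0 (.b 44) (.b 12))))))))))))) (.s13 (.tw (.c 0 (.s12 (.s13 (.tw (.c 0 (.s13 (.tw (.c 0 (.b 24) (.b 24)))) (.s13 (.tw (.s12 (.s13 (.c 0 (.b 57) (.b 44)))))))))) (.s12 (.s13 (.tw (.c 0 (.s13 (.tw (.s12 (.c 0 (.b 272) (.b 44))))) (.s13 (.tw (.s13 (.s12 (.c 0 (.b 709) (.s13 (.tw (.s12 (.s13 (.c 0 (.b 63) (.b 44))))))))))))))))))))),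
  (.tw (.c 0 (.s12 (.s13 (.tw (.s12 (.c 0 (.b 1) (.c 0 (.b 12) (.b 137))))))) (.c 0 (.tw (.c 0 (.b 279) (.tw (.s12 (.s13 (.tw (.c 0 (.tw (.s12 (.s13 (.tw (.c 0 (.b 136) (.b 337)))))) (.b 136)))))))) (.s13 (.tw (.c 0 (.s12 (.s13 (.tw (.c 0 (.s13 (.tw (.c 0 (.b 24) (.b 24)))) (.s13 (.tw (.s12 (.s13 (.c 0 (.b 57) (.b 44)))))))))) (.s12 (.s13 (.tw (.c 0 (.s13 (.tw (.s12 (.c 0 (.b 272) (.b 44))))) (.s13 (.tw (.s13 (.s12 (.c 0 (.b 709) (.s13 (.tw (.s12 (.s13 (.c 0 (.b 63) (.b 44))))))))))))))))))))),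
  (.tw (.c 0 (.s12 (.s13 (.tw (.s12 (.c 0 (.b 1) (.c 0 (.b 12) (.b 137))))))) (.c 0 (.tw (.c 0 (.b 279) (.tw (.s12 (.s13 (.tw (.c 0 (.b 284) (.s13 (.tw (.s12 (.s13 (.c 0 (.b 24) (.b 136))))))))))))) (.tw (.s12 (.c 0 (.s13 (.tw (.c 0 (.s13 (.tw (.s12 (.s13 (.c 0 (.b 601) (.b 272)))))) (.s13 (.tw (.c 0 (.b 24) (.b 24))))))) (.tw (.s12 (.s13 (.tw (.c 0 (.s13 (.tw (.c 0 (.b 24) (.b 44)))) (.s13 (.tw (.s12 (.s13 (.c 0 (.b 634) (.s13 (.tw (.s12 (.s13 (.c 0 (.b 63) (.b 44)))))))))))))))))))))),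
  (.tw (.c 0 (.s12 (.s13 (.tw (.s12 (.c 0 (.b 1) (.c 0 (.b 12) (.b 137))))))) (.c 0 (.tw (.c 0 (.b 304) (.s13 (.tw (.s12 (.s13 (.c 0 (.b 63) (.b 603)))))))) (.s13 (.tw (.c 0 (.s13 (.tw (.c 0 (.b 57) (.s13 (.tw (.s12 (.s13 (.c 0 (.b 63) (.b 612))))))))) (.tw (.s13 (.tw (.c 0 (.s13 (.tw (.c 0 (.s13 (.tw (.s12 (.s13 (.c 0 (.b 14) (.b 44)))))) (.s13 (.tw (.c 0 (.b 24) (.b 24))))))) (.s13 (.tw (.c 0 (.s13 (.tw (.c 0 (.b 14) (.b 44)))) (.s13 (.tw (.c 0 (.b 5) (.b 5))))))))))))))))),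
  (.tw (.c 0 (.s12 (.s13 (.tw (.s12 (.c 0 (.b 1) (.c 0 (.b 12) (.b 137))))))) (.c 0 (.tw (.c 0 (.b 279) (.tw (.s12 (.s13 (.tw (.c 0 (.b 284) (.c 0 (.b 136) (.b 136))))))))) (.tw (.s12 (.c 0 (.s13 (.tw (.c 0 (.s13 (.tw (.s12 (.s13 (.c 0 (.b 601) (.b 272)))))) (.s13 (.tw (.c 0 (.b 24) (.b 24))))))) (.tw (.s12 (.s13 (.tw (.c 0 (.s13 (.tw (.c 0 (.b 24) (.b 44)))) (.s13 (.tw (.s12 (.s13 (.c 0 (.b 634) (.s13 (.tw (.s12 (.s13 (.c 0 (.b 63) (.b 44))))))))))))))))))))))]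

theorem exc71_good : ∀ e ∈ exc71, G (dualL e, H71, H71) := by
  intro e he
  have h := G_chkTbl tbl_good (ts := exc71.map fun e => (dualL e, H71, H71)) (ds := dv71)
    (by decide +kernel)
  exact h _ (List.mem_map.mpr ⟨e, he, rfl⟩)

theorem tree71 : treeOK (stdTst 12 11 10 9 BD71 15 sims71)
    (stdLeaf sims71 [] exc71) 71 12 = true := by decide +kernel

/-- **Level `71`**, over a universal `[15, 9, 5]`. -/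
theorem universal71 (U : Saxl.Universal (cellsL base15) 29) : Saxl.Universal (cellsL l71) 71 := by
  have hg := good_base15.stepL false
  exact Family.universal_stepL_of_tree good_base15 false U (by rw [card_cellsL]; decide)
    (by decide) (by decide) (MD := 15) (by decide +kernel) (by decide +kernel) (by decide +kernel)
    (by decide +kernel)
    (fun e he ν hc hr => labelOcc_of_G hg heights71 (by decide +kernel) (exc71_good e he) ν hc hr)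
    tree71

/-- The diagram. -/
theorem exists71 (U : Saxl.Universal (cellsL base15) 29) :
    ∃ μ : YoungDiagram, μ.cells.card = 71 ∧ Saxl.Universal μ.cells 71 :=
  ⟨toDiagram (cellsL l71) (good_base15.stepL false).low, by
    show (cellsL l71).card = 71
    rw [card_cellsL]
    decide, universal71 U⟩

end Crest.Agent.Saxl.N71
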