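import Crest.Agent.Lib.Saxl.N71

/-!
# The exceptions of the size `75` (row 195, S0298, helper58)

The shape with hook lengths `[25, 21, 15, 9, 5]`: the exceptions of the level are sums of small
positive triples in the semigroup.
-/

set_option autoImplicit false
set_option maxRecDepth 1000000

namespace Crest.Agent.Saxl.N75

open Crest.Agent.Saxl Crest.Agent.Saxl.Family Crest.Agent.Saxl.TreeCheck Crest.Agent.Saxl.Kron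
open Crest.Agent.Saxl.N71

/-- The blocks of `[25, 21, 15, 9, 5]`. -/
def l75 : List BK := stepL true base15

def H75 : List ℕ := [13,12,10,8,7,5,5,4,3,3,2,2,1]

theorem heights75 : (List.range (twidth l75)).map (colHL l75) = H75 := by decide +kernel

/-- The exceptions. -/
def exc75 : List (List ℕ) := [[18,9,9,9,9,9,1,1,1,1,1,1,1,1,1,1,1,1],
  [9,9,9,8,8,8,8,8,8],
  [9,9,9,9,8,8,8,8,7],
  [9,9,9,9,9,8,8,7,7],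
  [9,9,9,9,9,8,8,8,6],
  [9,9,9,9,9,9,7,7,7],
  [9,9,9,9,9,9,8,7,6],
  [9,9,9,9,9,9,8,8,5],
  [9,9,9,9,9,9,9,6,6],
  [9,9,9,9,9,9,9,7,5],
  [9,9,9,9,9,9,9,8,4],
  [9,9,9,9,9,9,9,9,3]]

/-- The derivations of the exceptions. -/
def dv75 : List Dv := [
  (.tw (.s13 (.c 0 (.tw (.c 0 (.b 14) (.c 0 (.s13 (.tw (.c 0 (.b 1) (.c 0 (.b 12) (.b 98))))) (.c 0 (.b 1) (.b 11))))) (.s13 (.c 0 (.tw (.c 0 (.s13 (.tw (.s13 (.c 0 (.b 503) (.b 26))))) (.c 0 (.b 1) (.s13 (.tw (.s13 (.c 0 (.b 1) (.c 0 (.b 26) (.b 137))))))))) (.s13 (.tw (.s12 (.c 0 (.s13 (.tw (.c 0 (.b 526) (.b 41)))) (.tw (.s12 (.s13 (.tw (.c 0 (.tw (.s12 (.s13 (.tw (.c 0 (.b 272) (.b 247)))))) (.tw (.s12 (.s13 (.tw (.c 0 (.b 666) (.s13 (.tw (.s12 (.s13 (.c 0 (.b 63) (.b 44))))))))))))))))))))))))),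
  (.c 0 (.s12 (.s13 (.tw (.s12 (.c 0 (.b 1) (.c 0 (.b 12) (.b 137))))))) (.c 0 (.tw (.c 0 (.b 124) (.s13 (.tw (.s12 (.s13 (.c 0 (.b 13) (.c 0 (.b 136) (.tw (.s12 (.s13 (.tw (.c 0 (.b 44) (.b 12)))))))))))))) (.s13 (.tw (.c 0 (.s12 (.s13 (.tw (.c 0 (.b 58) (.c 0 (.b 136) (.b 172)))))) (.s12 (.s13 (.c 0 (.tw (.s12 (.s13 (.s12 (.c 0 (.s13 (.tw (.s13 (.s12 (.c 0 (.b 14) (.b 663)))))) (.s13 (.tw (.c 0 (.b 24) (.b 142))))))))) (.tw (.c 0 (.s13 (.tw (.c 0 (.b 24) (.b 24)))) (.s13 (.tw (.s12 (.s13 (.c 0 (.b 24) (.b 44)))))))))))))))),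
  (.c 0 (.s12 (.s13 (.tw (.s12 (.c 0 (.b 1) (.c 0 (.b 12) (.b 137))))))) (.c 0 (.tw (.c 0 (.b 124) (.s13 (.tw (.s12 (.s13 (.c 0 (.b 13) (.c 0 (.b 136) (.tw (.s12 (.s13 (.tw (.c 0 (.b 44) (.b 12)))))))))))))) (.s13 (.tw (.c 0 (.s12 (.s13 (.tw (.c 0 (.b 58) (.c 0 (.b 136) (.b 195)))))) (.s12 (.s13 (.c 0 (.tw (.s12 (.s13 (.s12 (.c 0 (.s13 (.tw (.s13 (.s12 (.c 0 (.b 14) (.b 663)))))) (.s13 (.tw (.c 0 (.b 24) (.b 142))))))))) (.tw (.c 0 (.s13 (.tw (.c 0 (.b 24) (.b 24)))) (.s13 (.tw (.s12 (.s13 (.c 0 (.b 24) (.b 44)))))))))))))))),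
  (.c 0 (.s12 (.s13 (.tw (.s12 (.c 0 (.b 1) (.c 0 (.b 12) (.b 137))))))) (.c 0 (.tw (.c 0 (.b 304) (.s13 (.tw (.s12 (.s13 (.c 0 (.b 63) (.b 603)))))))) (.s13 (.tw (.c 0 (.s12 (.s13 (.tw (.c 0 (.b 247) (.s13 (.tw (.s12 (.s13 (.c 0 (.b 63) (.s13 (.tw (.s12 (.s13 (.c 0 (.b 63) (.b 24))))))))))))))) (.tw (.s12 (.s13 (.tw (.c 0 (.s12 (.s13 (.tw (.c 0 (.s13 (.tw (.c 0 (.b 44) (.b 12)))) (.s13 (.tw (.s13 (.c 0 (.b 14) (.b 44))))))))) (.tw (.s12 (.s13 (.tw (.c 0 (.s13 (.tw (.c 0 (.b 14) (.b 44)))) (.s13 (.tw (.s13 (.c 0 (.b 5) (.b 143)))))))))))))))))))),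
  (.c 0 (.s12 (.s13 (.tw (.s12 (.c 0 (.b 1) (.c 0 (.b 12) (.b 137))))))) (.c 0 (.tw (.c 0 (.b 304) (.s13 (.tw (.s12 (.s13 (.c 0 (.b 63) (.b 603)))))))) (.s13 (.tw (.c 0 (.s12 (.s13 (.tw (.c 0 (.b 247) (.s13 (.tw (.s12 (.s13 (.c 0 (.b 136) (.b 44)))))))))) (.tw (.s12 (.s13 (.tw (.c 0 (.s12 (.s13 (.tw (.c 0 (.b 272) (.b 247))))) (.s12 (.s13 (.tw (.c 0 (.s13 (.tw (.s12 (.c 0 (.b 44) (.b 247))))) (.s13 (.tw (.s12 (.c 0 (.b 24) (.c 0 (.b 136) (.b 124)))))))))))))))))))),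
  (.c 0 (.s12 (.s13 (.tw (.s12 (.c 0 (.b 1) (.c 0 (.b 12) (.b 137))))))) (.c 0 (.tw (.c 0 (.b 13) (.c 0 (.b 63) (.s13 (.tw (.s12 (.s13 (.c 0 (.b 136) (.b 536))))))))) (.s13 (.tw (.c 0 (.s12 (.s13 (.tw (.c 0 (.b 57) (.c 0 (.b 200) (.s13 (.tw (.c 0 (.b 57) (.b 24))))))))) (.s12 (.s13 (.c 0 (.s12 (.s13 (.tw (.s12 (.c 0 (.b 67) (.s13 (.tw (.s12 (.s13 (.c 0 (.b 247) (.tw (.s12 (.s13 (.tw (.c 0 (.b 44) (.b 12)))))))))))))))) (.tw (.s12 (.s13 (.s12 (.c 0 (.b 80) (.s13 (.tw (.s13 (.c 0 (.b 44) (.b 44)))))))))))))))))),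
  (.c 0 (.s12 (.s13 (.tw (.s12 (.c 0 (.b 1) (.c 0 (.b 12) (.b 137))))))) (.c 0 (.tw (.c 0 (.b 13) (.c 0 (.b 63) (.s13 (.tw (.s12 (.s13 (.c 0 (.b 136) (.b 536))))))))) (.s13 (.tw (.c 0 (.s12 (.s13 (.tw (.c 0 (.b 57) (.c 0 (.b 247) (.b 152)))))) (.s12 (.s13 (.c 0 (.s12 (.s13 (.tw (.s12 (.c 0 (.b 67) (.s13 (.tw (.s12 (.s13 (.c 0 (.b 247) (.tw (.s12 (.s13 (.tw (.c 0 (.b 44) (.b 12)))))))))))))))) (.tw (.s12 (.s13 (.s12 (.c 0 (.b 80) (.s13 (.tw (.s13 (.c 0 (.b 44) (.b 44)))))))))))))))))),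
  (.tw (.c 0 (.s12 (.s13 (.tw (.s12 (.c 0 (.b 1) (.c 0 (.b 12) (.b 137))))))) (.c 0 (.tw (.c 0 (.b 304) (.s13 (.tw (.s12 (.s13 (.c 0 (.b 63) (.b 603)))))))) (.s13 (.tw (.c 0 (.s12 (.s13 (.tw (.c 0 (.b 247) (.s13 (.tw (.s12 (.s13 (.c 0 (.b 136) (.b 44)))))))))) (.tw (.s12 (.s13 (.tw (.c 0 (.s12 (.s13 (.tw (.c 0 (.b 272) (.b 247))))) (.s12 (.s13 (.tw (.c 0 (.s13 (.tw (.s12 (.c 0 (.b 44) (.b 247))))) (.s13 (.tw (.s12 (.c 0 (.b 24) (.c 0 (.b 136) (.b 124))))))))))))))))))))),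
  (.tw (.c 0 (.s12 (.s13 (.tw (.s12 (.c 0 (.b 1) (.c 0 (.b 12) (.b 137))))))) (.c 0 (.tw (.c 0 (.b 13) (.c 0 (.b 63) (.s13 (.tw (.s12 (.s13 (.c 0 (.b 136) (.b 536))))))))) (.s13 (.tw (.c 0 (.s12 (.s13 (.tw (.c 0 (.b 57) (.c 0 (.b 200) (.s13 (.tw (.c 0 (.b 57) (.b 24))))))))) (.s12 (.s13 (.c 0 (.s12 (.s13 (.tw (.s12 (.c 0 (.b 67) (.s13 (.tw (.s12 (.s13 (.c 0 (.b 247) (.tw (.s12 (.s13 (.tw (.c 0 (.b 44) (.b 12)))))))))))))))) (.tw (.s12 (.s13 (.s12 (.c 0 (.b 80) (.s13 (.tw (.s13 (.c 0 (.b 44) (.b 44))))))))))))))))))),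
  (.tw (.c 0 (.s12 (.s13 (.tw (.s12 (.c 0 (.b 1) (.c 0 (.b 12) (.b 137))))))) (.c 0 (.tw (.c 0 (.b 304) (.s13 (.tw (.s12 (.s13 (.c 0 (.b 63) (.b 603)))))))) (.s13 (.tw (.c 0 (.s12 (.s13 (.tw (.c 0 (.b 247) (.s13 (.tw (.s12 (.s13 (.c 0 (.b 63) (.s13 (.tw (.s12 (.s13 (.c 0 (.b 63) (.b 24))))))))))))))) (.tw (.s12 (.s13 (.tw (.c 0 (.s12 (.s13 (.tw (.c 0 (.s13 (.tw (.c 0 (.b 44) (.b 12)))) (.s13 (.tw (.s13 (.c 0 (.b 14) (.b 44))))))))) (.tw (.s12 (.s13 (.tw (.c 0 (.s13 (.tw (.c 0 (.b 14) (.b 44)))) (.s13 (.tw (.s13 (.c 0 (.b 5) (.b 143))))))))))))))))))))),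
  (.tw (.c 0 (.s12 (.s13 (.tw (.s12 (.c 0 (.b 1) (.c 0 (.b 12) (.b 137))))))) (.c 0 (.tw (.c 0 (.b 124) (.s13 (.tw (.s12 (.s13 (.c 0 (.b 13) (.c 0 (.b 136) (.tw (.s12 (.s13 (.tw (.c 0 (.b 44) (.b 12)))))))))))))) (.s13 (.tw (.c 0 (.s12 (.s13 (.tw (.c 0 (.b 58) (.c 0 (.b 136) (.b 195)))))) (.s12 (.s13 (.c 0 (.tw (.s12 (.s13 (.s12 (.c 0 (.s13 (.tw (.s13 (.s12 (.c 0 (.b 14) (.b 663)))))) (.s13 (.tw (.c 0 (.b 24) (.b 142))))))))) (.tw (.c 0 (.s13 (.tw (.c 0 (.b 24) (.b 24)))) (.s13 (.tw (.s12 (.s13 (.c 0 (.b 24) (.b 44))))))))))))))))),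
  (.tw (.c 0 (.s12 (.s13 (.tw (.s12 (.c 0 (.b 1) (.c 0 (.b 12) (.b 137))))))) (.c 0 (.tw (.c 0 (.b 124) (.s13 (.tw (.s12 (.s13 (.c 0 (.b 13) (.c 0 (.b 136) (.tw (.s12 (.s13 (.tw (.c 0 (.b 44) (.b 12)))))))))))))) (.s13 (.tw (.c 0 (.s12 (.s13 (.tw (.c 0 (.b 58) (.c 0 (.b 136) (.b 172)))))) (.s12 (.s13 (.c 0 (.tw (.s12 (.s13 (.s12 (.c 0 (.s13 (.tw (.s13 (.s12 (.c 0 (.b 14) (.b 663)))))) (.s13 (.tw (.c 0 (.b 24) (.b 142))))))))) (.tw (.c 0 (.s13 (.tw (.c 0 (.b 24) (.b 24)))) (.s13 (.tw (.s12 (.s13 (.c 0 (.b 24) (.b 44)))))))))))))))))]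

theorem exc75_good : ∀ e ∈ exc75, G (dualL e, H75, H75) := by
  intro e he
  have h := G_chkTbl tbl_good (ts := exc75.map fun e => (dualL e, H75, H75)) (ds := dv75)
    (by decide +kernel)
  exact h _ (List.mem_map.mpr ⟨e, he, rfl⟩)

/-- **The exceptions of the level `75`.** -/
theorem hE75 (ν : YoungDiagram) (hc : ν.card = 75) (hr : ν.rowLens ∈ exc75) :
    LabelOcc (cellsL l75) 75 ν :=
  labelOcc_of_G (good_base15.stepL true) heights75 (by decide +kernel) (exc75_good _ hr) ν hc rfl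

end Crest.Agent.Saxl.N75
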